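import Vale.Agent.P233.AB.En2

open MeasureTheory Filter Topology
open scoped ENNReal NNReal

namespace Vale.Agent.P233

variable {M : Type*} [MeasurableSpace M] {m : Measure M} {C : Calc m}

theorem ac_arith {τ K x N1 P Q R A1 A2 A3 A4 A5 B1 B2 ρr σ : ℝ} (hτ : 0 ≤ τ)
    (g1 : -(σ * P) ≤ σ * A1) (g2 : A3 - τ / 2 * Q - τ * R - N1 * x ≤ B2)
    (e7 : A4 ≤ K * x ^ 2) (e8 : A5 ≤ K * ρr) :
    τ * (B1 - (2 : ℝ)⁻¹ * A2) - τ * (N1 * x + (2 : ℝ)⁻¹ * K * x ^ 2 + σ * P)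
      - τ ^ 2 * (R + (2 : ℝ)⁻¹ * Q) - K * ρr
      ≤ τ * (σ * A1 - (2 : ℝ)⁻¹ * (A2 + 2 * A3 + A4)) - A5 + τ * (B1 + B2) := by
  have h1 : 0 ≤ τ * ((σ * A1 + σ * P) + (B2 - (A3 - τ / 2 * Q - τ * R - N1 * x))
      + (2 : ℝ)⁻¹ * (K * x ^ 2 - A4)) :=
    mul_nonneg hτ (by nlinarith)
  nlinarith

namespace IsGamma

variable (hC : IsGamma C) {κ : ℝ} (hB : C.BEi κ)
variable {u v w φ G r f a b : M →ₘ[m] ℝ}

include hC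

theorem ac_mul_Γ_le {K : ℝ} (hf : ∀ᵐ x ∂m, |f x| ≤ K) (ha : a ∈ C.W) (hb : b ∈ C.W)
    (hK : 0 ≤ K) :
    |I (f * C.Γ a b)| ≤ K * (Real.sqrt (I (C.Γ a a)) * Real.sqrt (I (C.Γ b b))) := by
  have h1 := hC.int_abs_Γ_le ha hb
  have h2 := hC.Γ_mem1 ha hb
  have h3 : |I (f * C.Γ a b)| ≤ ∫ x, K * |C.Γ a b x| ∂m := by
    unfold I
    refine (abs_integral_le_integral_abs).trans ?_
    refine integral_mono_ae (int_of_mem (mem_mul_top (mem_top_iff.2 ⟨K, hf⟩) h2)).abs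
      ((int_of_mem h2).abs.const_mul K) ?_
    filter_upwards [hf, mul_ae f (C.Γ a b)] with x h4 h5
    rw [h5, abs_mul]
    exact mul_le_mul_of_nonneg_right h4 (abs_nonneg _)
  rw [integral_const_mul] at h3
  exact h3.trans (mul_le_mul_of_nonneg_left h1 hK)

include hB

/-- one step of the action lower bound -/
theorem ac_one {σ τ K K' N1 x gφ gρ gm gG ρr : ℝ} {ψ ρ0 ρ1 ρm ρm' φm E : M →ₘ[m] ℝ}
    (hσ : 0 ≤ σ) (hτ : 0 ≤ τ) (hK : 0 ≤ K) (hK' : 0 ≤ K')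
    (hu : u ∈ C.Test) (hv : v ∈ C.Test) (hψ : ψ ∈ C.Test) (hG : G ∈ C.Test)
    (hρ0 : ρ0 ∈ C.A) (hρm' : ρm' ∈ C.A) (hE : E ∈ C.A)
    (hρK : ∀ᵐ x ∂m, |ρ0 x| ≤ K) (hEK : ∀ᵐ x ∂m, |E x| ≤ K')
    (hr0 : 0 ≤ r) (hr1 : MemLp r 1 m) (hrI : I r ≤ ρr)
    (hstep : v - u = τ • (σ • C.lap v - (2 : ℝ)⁻¹ • C.Γ v v) - r)
    (h1 : ρ1 = ρ0 + τ • ρm') (h2 : ρm = ρ0 + τ • E) (h3 : φm = ψ + (τ / 2) • G)
    (hx : Real.sqrt (I (C.Γ (v - ψ) (v - ψ))) ≤ x)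
    (hgφ : Real.sqrt (I (C.Γ ψ ψ)) ≤ gφ) (hgρ : Real.sqrt (I (C.Γ ρ0 ρ0)) ≤ gρ)
    (hgm : Real.sqrt (I (C.Γ φm φm)) ≤ gm) (hgG : Real.sqrt (I (C.Γ G G)) ≤ gG)
    (hN : |I ((v - ψ) * ρm') - I (ρm * C.Γ φm (v - ψ))| ≤ N1 * x) :
    τ * (I (ψ * ρm') - (2 : ℝ)⁻¹ * I (ρ0 * C.Γ ψ ψ))
      - τ * (N1 * x + (2 : ℝ)⁻¹ * K * x ^ 2 + σ * ((gφ + x) * gρ))
      - τ ^ 2 * (K' * (gm * x) + (2 : ℝ)⁻¹ * (K * (gG * x))) - K * ρr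
      ≤ I (v * ρ1) - I (u * ρ0) := by
  set w := v - ψ with hw
  have hwT : w ∈ C.Test := hC.en_sub hB hv hψ
  have hvw : v = ψ + w := by rw [hw]; abel
  have uA := hC.test_A hu
  have vA := hC.test_A hv
  have ψA := hC.test_A hψ
  have wA := hC.test_A hwT
  have GA := hC.test_A hG
  have hφmA : φm ∈ C.A := by rw [h3]; exact hC.A_add ψA (hC.A_smul _ GA)
  have L2 : ∀ {z : M →ₘ[m] ℝ}, z ∈ C.A → MemLp z 2 m := fun h => hC.memLp _ h.1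
  have hx0 : 0 ≤ x := (Real.sqrt_nonneg _).trans hx
  have hgφ0 : 0 ≤ gφ := (Real.sqrt_nonneg _).trans hgφ
  have hgρ0 : 0 ≤ gρ := (Real.sqrt_nonneg _).trans hgρ
  have hgm0 : 0 ≤ gm := (Real.sqrt_nonneg _).trans hgm
  have hgG0 : 0 ≤ gG := (Real.sqrt_nonneg _).trans hgG
  have lv2 : MemLp (C.lap v) 2 m := (hC.test_isLap hv).2.1
  have gv := hC.Γ_mem hB hv hv
  -- the algebra
  have e1 : v * ρ1 - u * ρ0 = (v - u) * ρ0 + τ • (v * ρm') := by rw [h1]; algebra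
  have e2 : I (v * ρ1) - I (u * ρ0) = I ((v - u) * ρ0) + τ * I (v * ρm') := by
    have hρ1 : ρ1 ∈ C.A := by rw [h1]; exact hC.A_add hρ0 (hC.A_smul _ hρm')
    rw [← I_sub (mem_mul_22 (L2 vA) (L2 hρ1)) (mem_mul_22 (L2 uA) (L2 hρ0)), e1,
      I_add (mem_mul_22 (mem_sub (L2 vA) (L2 uA)) (L2 hρ0)) (mem_smul _ (mem_mul_22 (L2 vA)
      (L2 hρm'))), I_smul]
  have e3 : I ((v - u) * ρ0)
      = τ * (σ * I (C.lap v * ρ0) - (2 : ℝ)⁻¹ * I (ρ0 * C.Γ v v)) - I (ρ0 * r) := by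
    have : (v - u) * ρ0 = τ • (σ • (C.lap v * ρ0) - (2 : ℝ)⁻¹ • (ρ0 * C.Γ v v)) - ρ0 * r := by
      rw [hstep]; algebra
    have k1 := mem_mul_22 lv2 (L2 hρ0)
    have k2 := mem_mul_22 (L2 hρ0) (L2 gv)
    rw [this, I_sub (mem_smul _ (mem_sub (mem_smul _ k1) (mem_smul _ k2)))
      (mem_mul_top hρ0.2 hr1), I_smul, I_sub (mem_smul _ k1) (mem_smul _ k2), I_smul, I_smul]
  have e4 : I (C.Γ v ρ0) = -I (C.lap v * ρ0) := (hC.test_isLap hv).2.2 _ hρ0.1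
  have e5 : |I (C.Γ v ρ0)| ≤ (gφ + x) * gρ := by
    refine (hC.E_abs_le vA.1 hρ0.1).trans (mul_le_mul ?_ hgρ (Real.sqrt_nonneg _) (by linarith))
    rw [hvw]
    exact (hC.sqrt_E_add_le ψA.1 wA.1).trans (add_le_add hgφ hx)
  have p1 : MemLp (ρ0 * C.Γ ψ ψ) 1 m := mem_mul_top hρ0.2 (hC.Γ_mem1 ψA.1 ψA.1)
  have p2 : MemLp (ρ0 * C.Γ ψ w) 1 m := mem_mul_top hρ0.2 (hC.Γ_mem1 ψA.1 wA.1)
  have p3 : MemLp (ρ0 * C.Γ w w) 1 m := mem_mul_top hρ0.2 (hC.Γ_mem1 wA.1 wA.1)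
  have e6 : I (ρ0 * C.Γ v v) = I (ρ0 * C.Γ ψ ψ) + 2 * I (ρ0 * C.Γ ψ w) + I (ρ0 * C.Γ w w) := by
    have h := hC.Γ_expand 1 ψA.1 wA.1
    rw [one_smul, mul_one, one_pow, one_smul, ← hvw] at h
    have : ρ0 * C.Γ v v = ρ0 * C.Γ ψ ψ + (2 : ℝ) • (ρ0 * C.Γ ψ w) + ρ0 * C.Γ w w := by
      rw [h]; algebra
    rw [this, I_add (mem_add p1 (mem_smul _ p2)) p3, I_add p1 (mem_smul _ p2), I_smul]
  have hsq : I (C.Γ w w) ≤ x ^ 2 := by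
    have := Real.sq_sqrt (hC.E_nonneg wA.1)
    nlinarith [Real.sqrt_nonneg (I (C.Γ w w))]
  have e7 : I (ρ0 * C.Γ w w) ≤ K * x ^ 2 := by
    have h := (le_abs_self _).trans (hC.ac_mul_Γ_le hρK wA.1 wA.1 hK)
    rw [Real.mul_self_sqrt (hC.E_nonneg wA.1)] at h
    exact h.trans (mul_le_mul_of_nonneg_left hsq hK)
  have e8 : I (ρ0 * r) ≤ K * ρr := by
    have h : I (ρ0 * r) ≤ I (K • r) := by
      refine I_mono (mem_mul_top hρ0.2 hr1) (mem_smul _ hr1) ?_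
      rw [le_iff_ae]
      filter_upwards [hρK, nonneg_iff_ae.1 hr0, mul_ae ρ0 r, smul_ae r K] with y q1 q2 q3 q4
      rw [q3, q4]
      exact mul_le_mul_of_nonneg_right ((le_abs_self _).trans q1) q2
    rw [I_smul] at h
    exact h.trans (mul_le_mul_of_nonneg_left hrI hK)
  have e9 : I (v * ρm') = I (ψ * ρm') + I (w * ρm') := by
    rw [← I_add (mem_mul_22 (L2 ψA) (L2 hρm')) (mem_mul_22 (L2 wA) (L2 hρm')), ← add_mul, ← hvw]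
  have e10 : I (ρm * C.Γ φm w)
      = I (ρ0 * C.Γ ψ w) + τ / 2 * I (ρ0 * C.Γ G w) + τ * I (E * C.Γ φm w) := by
    have q1 : MemLp (ρ0 * C.Γ G w) 1 m := mem_mul_top hρ0.2 (hC.Γ_mem1 GA.1 wA.1)
    have q2 : MemLp (E * C.Γ φm w) 1 m := mem_mul_top hE.2 (hC.Γ_mem1 hφmA.1 wA.1)
    have q3 : C.Γ φm w = C.Γ ψ w + (τ / 2) • C.Γ G w := by
      rw [h3, hC.add_left _ ψA.1 _ (hC.smul_mem _ _ GA.1) _ wA.1, hC.smul_left _ _ GA.1 _ wA.1]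
    have q4 : ρm * C.Γ φm w
        = ρ0 * C.Γ ψ w + (τ / 2) • (ρ0 * C.Γ G w) + τ • (E * C.Γ φm w) := by
      have : ρm * C.Γ φm w = ρ0 * C.Γ φm w + τ • (E * C.Γ φm w) := by rw [h2]; algebra
      rw [this]
      nth_rewrite 1 [q3]
      algebra
    rw [q4, I_add (mem_add p2 (mem_smul _ q1)) (mem_smul _ q2), I_add p2 (mem_smul _ q1), I_smul,
      I_smul]
  have e11 : |I (ρ0 * C.Γ G w)| ≤ K * (gG * x) :=
    (hC.ac_mul_Γ_le hρK GA.1 wA.1 hK).trans (mul_le_mul_of_nonneg_left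
      (mul_le_mul hgG hx (Real.sqrt_nonneg _) hgG0) hK)
  have e12 : |I (E * C.Γ φm w)| ≤ K' * (gm * x) :=
    (hC.ac_mul_Γ_le hEK hφmA.1 wA.1 hK').trans (mul_le_mul_of_nonneg_left
      (mul_le_mul hgm hx (Real.sqrt_nonneg _) hgm0) hK')
  have f1 := (abs_le.1 hN).1
  have f2 := (abs_le.1 e11).1
  have f3 := (abs_le.1 e12).1
  have f4 := (abs_le.1 e5).2
  rw [e2, e3, e6, e9]
  rw [e4] at f4
  have t0 := mul_le_mul_of_nonneg_left (show -((gφ + x) * gρ) ≤ I (C.lap v * ρ0) by linarith) hσ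
  have t1 := mul_le_mul_of_nonneg_left f2 (show 0 ≤ τ / 2 by positivity)
  have t2 := mul_le_mul_of_nonneg_left f3 hτ
  exact ac_arith hτ (by linarith) (by linarith) e7 e8

end IsGamma

end Vale.Agent.P233
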