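import Mathlib

open MeasureTheory Filter Topology Finset

namespace Vale.Agent.P233

/-- Riemann sums with three different nodes -/
theorem riem_sum {P : ℝ × ℝ × ℝ → ℝ} (hP : Continuous P) {ε η : ℝ} (hε : 0 < ε) (hη : 0 < η) :
    ∃ N : ℕ, ∀ n ≥ N, 0 < n → (∫ s in (0 : ℝ)..ε, P (s, s, s)) - η
      ≤ ∑ k ∈ range n, (ε / n) * P (((k : ℝ) + 1) * (ε / n), ((k : ℝ) + 1 / 2) * (ε / n),
        (k : ℝ) * (ε / n)) := by
  have hK : IsCompact (Set.Icc (0 : ℝ) ε ×ˢ Set.Icc (0 : ℝ) ε ×ˢ Set.Icc (0 : ℝ) ε) :=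
    isCompact_Icc.prod (isCompact_Icc.prod isCompact_Icc)
  have hu := hK.uniformContinuousOn_of_continuous hP.continuousOn
  rw [Metric.uniformContinuousOn_iff] at hu
  obtain ⟨δ, hδ, hδ2⟩ := hu (η / ε) (by positivity)
  obtain ⟨N, hN⟩ := exists_nat_gt (ε / δ)
  refine ⟨N, fun n hn hn0 => ?_⟩
  have hn1 : (0 : ℝ) < n := by exact_mod_cast hn0
  have hτ0 : 0 < ε / n := by positivity
  have hτδ : ε / n < δ := by
    have h1 : ε / δ < n := lt_of_lt_of_le hN (by exact_mod_cast hn)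
    rw [div_lt_iff₀ hδ] at h1
    rw [div_lt_iff₀ hn1]
    linarith
  set τ := ε / n with hτ
  have hnτ : (n : ℝ) * τ = ε := by rw [hτ]; field_simp
  have hc : Continuous fun s : ℝ => P (s, s, s) := by fun_prop
  have e1 : ∫ s in (0 : ℝ)..ε, P (s, s, s)
      = ∑ k ∈ range n, ∫ s in ((k : ℝ) * τ)..(((k + 1 : ℕ) : ℝ) * τ), P (s, s, s) := by
    rw [intervalIntegral.sum_integral_adjacent_intervals (a := fun k : ℕ => (k : ℝ) * τ)
      (fun k _ => hc.intervalIntegrable _ _)]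
    simp [hnτ]
  have e2 : ∀ k ∈ range n, (∫ s in ((k : ℝ) * τ)..(((k + 1 : ℕ) : ℝ) * τ), P (s, s, s))
      ≤ τ * P (((k : ℝ) + 1) * τ, ((k : ℝ) + 1 / 2) * τ, (k : ℝ) * τ) + τ * (η / ε) := by
    intro k hk
    have hkn : ((k : ℝ) + 1) ≤ n := by exact_mod_cast (mem_range.1 hk)
    have hk0 : (0 : ℝ) ≤ k := by positivity
    have hle : (k : ℝ) * τ ≤ ((k + 1 : ℕ) : ℝ) * τ := by push_cast; nlinarith
    have hb : ((k : ℝ) + 1) * τ ≤ ε := by rw [← hnτ]; exact mul_le_mul_of_nonneg_right hkn hτ0.le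
    have h1 : (∫ s in ((k : ℝ) * τ)..(((k + 1 : ℕ) : ℝ) * τ), P (s, s, s))
        ≤ ∫ s in ((k : ℝ) * τ)..(((k + 1 : ℕ) : ℝ) * τ),
          (P (((k : ℝ) + 1) * τ, ((k : ℝ) + 1 / 2) * τ, (k : ℝ) * τ) + η / ε) := by
      refine intervalIntegral.integral_mono_on hle (hc.intervalIntegrable _ _)
        (by simp) fun s hs => ?_
      push_cast at hs
      have hs1 := hs.1
      have hs2 := hs.2
      have hkτ : 0 ≤ (k : ℝ) * τ := by positivity
      have hm1 : (s, s, s) ∈ Set.Icc (0 : ℝ) ε ×ˢ Set.Icc (0 : ℝ) ε ×ˢ Set.Icc (0 : ℝ) ε :=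
        ⟨⟨by linarith, by linarith⟩, ⟨by linarith, by linarith⟩, ⟨by linarith, by linarith⟩⟩
      have hm2 : (((k : ℝ) + 1) * τ, ((k : ℝ) + 1 / 2) * τ, (k : ℝ) * τ)
          ∈ Set.Icc (0 : ℝ) ε ×ˢ Set.Icc (0 : ℝ) ε ×ˢ Set.Icc (0 : ℝ) ε :=
        ⟨⟨by nlinarith, by nlinarith⟩, ⟨by nlinarith, by nlinarith⟩, ⟨by nlinarith, by nlinarith⟩⟩
      have hd : dist ((s, s, s) : ℝ × ℝ × ℝ)
          (((k : ℝ) + 1) * τ, ((k : ℝ) + 1 / 2) * τ, (k : ℝ) * τ) < δ := by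
        rw [Prod.dist_eq, Prod.dist_eq, Real.dist_eq, Real.dist_eq, Real.dist_eq]
        refine max_lt ?_ (max_lt ?_ ?_)
        · rw [abs_lt]; constructor <;> nlinarith
        · rw [abs_lt]; constructor <;> nlinarith
        · rw [abs_lt]; constructor <;> nlinarith
      have h2 := hδ2 _ hm1 _ hm2 hd
      rw [Real.dist_eq] at h2
      have h3 := (abs_lt.1 h2).2
      linarith
    refine h1.trans (le_of_eq ?_)
    rw [intervalIntegral.integral_const, smul_eq_mul]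
    push_cast
    ring
  have e3 := Finset.sum_le_sum e2
  rw [← e1, Finset.sum_add_distrib, Finset.sum_const, card_range, nsmul_eq_mul] at e3
  have e4 : (n : ℝ) * (τ * (η / ε)) = η := by
    rw [← mul_assoc, hnτ]; field_simp
  linarith

end Vale.Agent.P233
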