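import Vale.Agent.P233.AB.Ac1
import Vale.Agent.P233.AB.Riem

open MeasureTheory Filter Topology
open scoped ENNReal NNReal

namespace Vale.Agent.P233

variable {M : Type*} [MeasurableSpace M] {m : Measure M} {C : Calc m}

namespace IsGamma

variable (hC : IsGamma C) {κ : ℝ} (hB : C.BEi κ)
variable {u v w φ G r f a b F R1 R2 : M →ₘ[m] ℝ}

section first
include hC

theorem sE_smul (c : ℝ) (hf : f ∈ C.W) :
    √(I (C.Γ (c • f) (c • f))) = |c| * √(I (C.Γ f f)) := by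
  rw [hC.E_smul c hf, Real.sqrt_mul (sq_nonneg c), Real.sqrt_sq_eq_abs]

theorem sE_sub_le (hf : f ∈ C.W) (hg : a ∈ C.W) :
    √(I (C.Γ (f - a) (f - a))) ≤ √(I (C.Γ f f)) + √(I (C.Γ a a)) := by
  have h := hC.sqrt_E_add_le hf (hC.neg_mem hg)
  rwa [hC.E_neg hg, ← sub_eq_add_neg] at h

end first

include hC hB

/-- the sum of the steps of the action lower bound -/
theorem ac_sum {σ ε L Λ D K K' N1 x gφ gρ gG : ℝ} {n : ℕ} {U : ℕ → M →ₘ[m] ℝ}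
    (hσ : 0 ≤ σ) (hε : 0 < ε) (hn : 0 < n) (hK : 0 ≤ K) (hK' : 0 ≤ K')
    (hφ : φ ∈ C.Test) (hG : G ∈ C.Test) (hF : F ∈ C.A) (hR1 : R1 ∈ C.A) (hR2 : R2 ∈ C.A)
    (hU : C.VHJ σ (ε / n) L Λ D n U)
    (hρK : ∀ t, 0 ≤ t → t ≤ ε → ∀ᵐ y ∂m, |(F + t • R1 + (t ^ 2 / 2) • R2) y| ≤ K)
    (hEK : ∀ t, 0 ≤ t → t ≤ ε → ∀ᵐ y ∂m, |((2 : ℝ)⁻¹ • R1 + (t / 2) • R2) y| ≤ K')
    (hgφ : ∀ t, 0 ≤ t → t ≤ ε → √(I (C.Γ (φ - t • G) (φ - t • G))) ≤ gφ)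
    (hgρ : ∀ t, 0 ≤ t → t ≤ ε → √(I (C.Γ (F + t • R1 + (t ^ 2 / 2) • R2)
      (F + t • R1 + (t ^ 2 / 2) • R2))) ≤ gρ)
    (hgG : √(I (C.Γ G G)) ≤ gG)
    (hx : ∀ k ≤ n, √(I (C.Γ (U k - (φ - ((k : ℝ) * (ε / n)) • G))
      (U k - (φ - ((k : ℝ) * (ε / n)) • G)))) ≤ x)
    (hN : ∀ t, 0 ≤ t → t ≤ ε → ∀ w ∈ C.Test, √(I (C.Γ w w)) ≤ x →
      |I (w * (R1 + t • R2)) - I ((F + t • R1 + (t ^ 2 / 2) • R2) * C.Γ (φ - t • G) w)| ≤ N1 * x) :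
    (∑ k ∈ Finset.range n, (ε / n) *
      (I ((φ - (((k : ℝ) + 1) * (ε / n)) • G) * (R1 + (((k : ℝ) + 1 / 2) * (ε / n)) • R2))
        - (2 : ℝ)⁻¹ * I ((F + ((k : ℝ) * (ε / n)) • R1 + (((k : ℝ) * (ε / n)) ^ 2 / 2) • R2)
          * C.Γ (φ - (((k : ℝ) + 1) * (ε / n)) • G) (φ - (((k : ℝ) + 1) * (ε / n)) • G))))
      - ε * (N1 * x + (2 : ℝ)⁻¹ * K * x ^ 2 + σ * ((gφ + x) * gρ))
      - ε ^ 2 / n * (K' * (gφ * x) + (2 : ℝ)⁻¹ * (K * (gG * x))) - K * D * ε ^ 2 / n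
      ≤ I (U n * (F + ε • R1 + (ε ^ 2 / 2) • R2)) - I (U 0 * F) := by
  have hn0 : (0 : ℝ) < n := by exact_mod_cast hn
  set τ := ε / n with hτ
  have hτ0 : 0 < τ := by positivity
  have hnτ : (n : ℝ) * τ = ε := by rw [hτ]; field_simp
  have hTs : ∀ s : ℝ, φ - s • G ∈ C.Test := fun s => hC.en_sub hB hφ (hC.test_smul hB s hG)
  have hρA : ∀ t : ℝ, F + t • R1 + (t ^ 2 / 2) • R2 ∈ C.A := fun t =>
    hC.A_add (hC.A_add hF (hC.A_smul _ hR1)) (hC.A_smul _ hR2)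
  have key : ∀ k ∈ Finset.range n,
      τ * (I ((φ - (((k : ℝ) + 1) * τ) • G) * (R1 + (((k : ℝ) + 1 / 2) * τ) • R2))
        - (2 : ℝ)⁻¹ * I ((F + ((k : ℝ) * τ) • R1 + (((k : ℝ) * τ) ^ 2 / 2) • R2)
          * C.Γ (φ - (((k : ℝ) + 1) * τ) • G) (φ - (((k : ℝ) + 1) * τ) • G)))
        - τ * (N1 * x + (2 : ℝ)⁻¹ * K * x ^ 2 + σ * ((gφ + x) * gρ))
        - τ ^ 2 * (K' * (gφ * x) + (2 : ℝ)⁻¹ * (K * (gG * x))) - K * (D * τ ^ 2)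
      ≤ I (U (k + 1) * (F + (((k + 1 : ℕ) : ℝ) * τ) • R1
          + ((((k + 1 : ℕ) : ℝ) * τ) ^ 2 / 2) • R2))
        - I (U k * (F + ((k : ℝ) * τ) • R1 + (((k : ℝ) * τ) ^ 2 / 2) • R2)) := by
    intro k hk
    have hk' := Finset.mem_range.1 hk
    have hkn : ((k : ℝ) + 1) ≤ n := by exact_mod_cast hk'
    have hk0 : (0 : ℝ) ≤ k := by positivity
    have hb : ((k : ℝ) + 1) * τ ≤ ε := by rw [← hnτ]; exact mul_le_mul_of_nonneg_right hkn hτ0.le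
    obtain ⟨r, hr0, hr1, hrI, -, hstep⟩ := hC.vhj_step hB hU hk'
    have hxk := hx (k + 1) hk'
    push_cast at hxk ⊢
    have b1 : 0 ≤ (k : ℝ) * τ := by positivity
    have b2 : (k : ℝ) * τ ≤ ε := by nlinarith
    have b3 : 0 ≤ ((k : ℝ) + 1 / 2) * τ := by positivity
    have b4 : ((k : ℝ) + 1 / 2) * τ ≤ ε := by nlinarith
    have b5 : 0 ≤ ((k : ℝ) + 1) * τ := by positivity
    have b6 : 0 ≤ ((k : ℝ) + 1 / 4) * τ := by positivity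
    have b7 : ((k : ℝ) + 1 / 4) * τ ≤ ε := by nlinarith
    exact hC.ac_one hB (E := (2 : ℝ)⁻¹ • R1 + ((((k : ℝ) + 1 / 4) * τ) / 2) • R2)
      (ρm := F + (((k : ℝ) + 1 / 2) * τ) • R1 + ((((k : ℝ) + 1 / 2) * τ) ^ 2 / 2) • R2)
      (φm := φ - (((k : ℝ) + 1 / 2) * τ) • G) hσ hτ0.le hK hK' (hU.test k) (hU.test (k + 1))
      (hTs _) hG (hρA _) (hC.A_add hR1 (hC.A_smul _ hR2))
      (hC.A_add (hC.A_smul _ hR1) (hC.A_smul _ hR2)) (hρK _ b1 b2) (hEK _ b6 b7) hr0 hr1 hrI hstep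
      (by module) (by module) (by module) hxk (hgφ _ b5 hb) (hgρ _ b1 b2) (hgφ _ b3 b4) hgG
      (hN _ b3 b4 _ (hC.en_sub hB (hU.test _) (hTs _)) hxk)
  have h1 := Finset.sum_le_sum key
  rw [Finset.sum_range_sub (fun k : ℕ => I (U k * (F + ((k : ℝ) * τ) • R1
    + (((k : ℝ) * τ) ^ 2 / 2) • R2)))] at h1
  rw [Finset.sum_sub_distrib, Finset.sum_sub_distrib, Finset.sum_sub_distrib] at h1
  simp only [Finset.sum_const, Finset.card_range, nsmul_eq_mul, Nat.cast_zero, zero_mul,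
    zero_smul, add_zero, hnτ] at h1
  have h2 : F + (0 ^ 2 / 2 : ℝ) • R2 = F := by simp
  rw [h2] at h1
  have h3 : (n : ℝ) * (τ * (N1 * x + (2 : ℝ)⁻¹ * K * x ^ 2 + σ * ((gφ + x) * gρ)))
      = ε * (N1 * x + (2 : ℝ)⁻¹ * K * x ^ 2 + σ * ((gφ + x) * gρ)) := by
    rw [← mul_assoc, hnτ]
  have h4 : (n : ℝ) * (τ ^ 2 * (K' * (gφ * x) + (2 : ℝ)⁻¹ * (K * (gG * x))))
      = ε ^ 2 / n * (K' * (gφ * x) + (2 : ℝ)⁻¹ * (K * (gG * x))) := by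
    rw [hτ]; field_simp
  have h5 : (n : ℝ) * (K * (D * τ ^ 2)) = K * D * ε ^ 2 / n := by
    rw [hτ]; field_simp
  rw [h3, h4, h5] at h1
  exact h1

end IsGamma

end Vale.Agent.P233
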