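import Vale.Agent.P233.AB.Ac2

open MeasureTheory Filter Topology
open scoped ENNReal NNReal

namespace Vale.Agent.P233

variable {M : Type*} [MeasurableSpace M] {m : Measure M} {C : Calc m}

namespace IsGamma

variable (hC : IsGamma C) {κ : ℝ} (hB : C.BEi κ)
variable {u v w φ G r f a b F R1 R2 : M →ₘ[m] ℝ}

include hC

theorem ac_poly (hφ : φ ∈ C.A) (hG : G ∈ C.A) (hF : F ∈ C.A)
    (hR1 : R1 ∈ C.A) (hR2 : R2 ∈ C.A) (s t v : ℝ) :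
    I ((φ - s • G) * (R1 + t • R2))
        - (2 : ℝ)⁻¹ * I ((F + v • R1 + (v ^ 2 / 2) • R2) * C.Γ (φ - s • G) (φ - s • G))
      = I (φ * R1) + t * I (φ * R2) - s * I (G * R1) - s * t * I (G * R2)
        - (2 : ℝ)⁻¹ * (I (F * C.Γ φ φ) + v * I (R1 * C.Γ φ φ) + v ^ 2 / 2 * I (R2 * C.Γ φ φ)
          - 2 * s * (I (F * C.Γ φ G) + v * I (R1 * C.Γ φ G) + v ^ 2 / 2 * I (R2 * C.Γ φ G))
          + s ^ 2 * (I (F * C.Γ G G) + v * I (R1 * C.Γ G G) + v ^ 2 / 2 * I (R2 * C.Γ G G))) := by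
  have L2 : ∀ {z : M →ₘ[m] ℝ}, z ∈ C.A → MemLp z 2 m := fun h => hC.memLp _ h.1
  have m1 := mem_mul_22 (L2 hφ) (L2 hR1)
  have m2 := mem_mul_22 (L2 hφ) (L2 hR2)
  have m3 := mem_mul_22 (L2 hG) (L2 hR1)
  have m4 := mem_mul_22 (L2 hG) (L2 hR2)
  have e1 : I ((φ - s • G) * (R1 + t • R2))
      = I (φ * R1) + t * I (φ * R2) - s * I (G * R1) - s * t * I (G * R2) := by
    have : (φ - s • G) * (R1 + t • R2)
        = φ * R1 + t • (φ * R2) - s • (G * R1) - (s * t) • (G * R2) := by algebra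
    rw [this, I_sub (mem_sub (mem_add m1 (mem_smul _ m2)) (mem_smul _ m3)) (mem_smul _ m4),
      I_sub (mem_add m1 (mem_smul _ m2)) (mem_smul _ m3), I_add m1 (mem_smul _ m2), I_smul,
      I_smul, I_smul]
  have g1 : C.Γ (φ - s • G) (φ - s • G) = C.Γ φ φ - (2 * s) • C.Γ φ G + (s ^ 2) • C.Γ G G := by
    have h := hC.Γ_expand (-s) hφ.1 hG.1
    have h2 : φ + (-s) • G = φ - s • G := by module
    rw [h2] at h
    rw [h]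
    module
  have q : ∀ {z p : M →ₘ[m] ℝ}, z ∈ C.A → MemLp p 1 m → MemLp (z * p) 1 m :=
    fun hz hp => mem_mul_top hz.2 hp
  have p1 : MemLp (C.Γ φ φ) 1 m := hC.Γ_mem1 hφ.1 hφ.1
  have p2 : MemLp (C.Γ φ G) 1 m := hC.Γ_mem1 hφ.1 hG.1
  have p3 : MemLp (C.Γ G G) 1 m := hC.Γ_mem1 hG.1 hG.1
  have e3 : ∀ {p : M →ₘ[m] ℝ}, MemLp p 1 m → I ((F + v • R1 + (v ^ 2 / 2) • R2) * p)
      = I (F * p) + v * I (R1 * p) + v ^ 2 / 2 * I (R2 * p) := by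
    intro p hp
    have : (F + v • R1 + (v ^ 2 / 2) • R2) * p
        = F * p + v • (R1 * p) + (v ^ 2 / 2) • (R2 * p) := by algebra
    rw [this, I_add (mem_add (q hF hp) (mem_smul _ (q hR1 hp))) (mem_smul _ (q hR2 hp)),
      I_add (q hF hp) (mem_smul _ (q hR1 hp)), I_smul, I_smul]
  have hρ : (F + v • R1 + (v ^ 2 / 2) • R2) ∈ C.A :=
    hC.A_add (hC.A_add hF (hC.A_smul _ hR1)) (hC.A_smul _ hR2)
  have e4 : I ((F + v • R1 + (v ^ 2 / 2) • R2) * C.Γ (φ - s • G) (φ - s • G))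
      = I ((F + v • R1 + (v ^ 2 / 2) • R2) * C.Γ φ φ)
        - 2 * s * I ((F + v • R1 + (v ^ 2 / 2) • R2) * C.Γ φ G)
        + s ^ 2 * I ((F + v • R1 + (v ^ 2 / 2) • R2) * C.Γ G G) := by
    have : (F + v • R1 + (v ^ 2 / 2) • R2) * C.Γ (φ - s • G) (φ - s • G)
        = (F + v • R1 + (v ^ 2 / 2) • R2) * C.Γ φ φ
          - (2 * s) • ((F + v • R1 + (v ^ 2 / 2) • R2) * C.Γ φ G)
          + (s ^ 2) • ((F + v • R1 + (v ^ 2 / 2) • R2) * C.Γ G G) := by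
      rw [g1]; algebra
    rw [this, I_add (mem_sub (q hρ p1) (mem_smul _ (q hρ p2))) (mem_smul _ (q hρ p3)),
      I_sub (q hρ p1) (mem_smul _ (q hρ p2)), I_smul, I_smul]
  rw [e1, e4, e3 p1, e3 p2, e3 p3]

theorem ac_riem (hφ : φ ∈ C.A) (hG : G ∈ C.A) (hF : F ∈ C.A)
    (hR1 : R1 ∈ C.A) (hR2 : R2 ∈ C.A) {ε η : ℝ} (hε : 0 < ε) (hη : 0 < η) :
    ∃ N : ℕ, ∀ n ≥ N, 0 < n →
      (∫ t in (0 : ℝ)..ε, (I ((φ - t • G) * (R1 + t • R2))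
        - (2 : ℝ)⁻¹ * I ((F + t • R1 + (t ^ 2 / 2) • R2) * C.Γ (φ - t • G) (φ - t • G)))) - η
      ≤ ∑ k ∈ Finset.range n, (ε / n) *
        (I ((φ - (((k : ℝ) + 1) * (ε / n)) • G) * (R1 + (((k : ℝ) + 1 / 2) * (ε / n)) • R2))
          - (2 : ℝ)⁻¹ * I ((F + ((k : ℝ) * (ε / n)) • R1 + (((k : ℝ) * (ε / n)) ^ 2 / 2) • R2)
            * C.Γ (φ - (((k : ℝ) + 1) * (ε / n)) • G) (φ - (((k : ℝ) + 1) * (ε / n)) • G))) := by
  have hc : Continuous fun p : ℝ × ℝ × ℝ => I ((φ - p.1 • G) * (R1 + p.2.1 • R2))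
        - (2 : ℝ)⁻¹ * I ((F + p.2.2 • R1 + (p.2.2 ^ 2 / 2) • R2)
          * C.Γ (φ - p.1 • G) (φ - p.1 • G)) := by
    have : (fun p : ℝ × ℝ × ℝ => I ((φ - p.1 • G) * (R1 + p.2.1 • R2))
        - (2 : ℝ)⁻¹ * I ((F + p.2.2 • R1 + (p.2.2 ^ 2 / 2) • R2)
          * C.Γ (φ - p.1 • G) (φ - p.1 • G)))
        = fun p : ℝ × ℝ × ℝ => I (φ * R1) + p.2.1 * I (φ * R2) - p.1 * I (G * R1)
          - p.1 * p.2.1 * I (G * R2)
          - (2 : ℝ)⁻¹ * (I (F * C.Γ φ φ) + p.2.2 * I (R1 * C.Γ φ φ)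
            + p.2.2 ^ 2 / 2 * I (R2 * C.Γ φ φ)
          - 2 * p.1 * (I (F * C.Γ φ G) + p.2.2 * I (R1 * C.Γ φ G)
            + p.2.2 ^ 2 / 2 * I (R2 * C.Γ φ G))
          + p.1 ^ 2 * (I (F * C.Γ G G) + p.2.2 * I (R1 * C.Γ G G)
            + p.2.2 ^ 2 / 2 * I (R2 * C.Γ G G))) := by
      funext p
      exact hC.ac_poly hφ hG hF hR1 hR2 p.1 p.2.1 p.2.2
    rw [this]
    fun_prop
  exact riem_sum hc hε hη

end IsGamma

end Vale.Agent.P233
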