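import Vale.Agent.P233.AB.Mas

set_option linter.all false

open MeasureTheory Filter Topology
open scoped ENNReal NNReal

namespace Vale.Agent.P233

variable {M : Type*} [MeasurableSpace M] {m : Measure M} {C : Calc m}

namespace IsGamma

variable (hC : IsGamma C) {κ : ℝ} (hB : C.BEi κ)
variable {b f g h φ ψ v w χ : M →ₘ[m] ℝ}

include hC hB

/-- gradient bound for the resolvent -/
theorem J_grad_le [SigmaFinite m] {lam L : ℝ} (hl : 0 < lam) (hl2 : 0 < 1 + 2 * lam * κ)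
    (hf : f ∈ C.A) (hL0 : 0 ≤ L) (hL : ∀ᵐ x ∂m, |C.Γ f f x| ≤ L) :
    ∀ᵐ x ∂m, C.Γ (C.J lam f) (C.J lam f) x ≤ L / (1 + 2 * lam * κ) := by
  have hD := hC.toIsDir
  have hf2 := hC.memLp f hf.1
  have hLap := hD.J_isLap hl hf2
  set u := C.J lam f with hu
  set h := lam⁻¹ • (u - f) with hh
  have huW : u ∈ C.W := hLap.1
  have hhW : h ∈ C.W := hD.smul_mem _ _ (hD.sub_mem huW hf.1)
  set μ : ℝ := lam⁻¹ + 2 * κ with hμ
  have hμe : 1 + 2 * lam * κ = lam * μ := by rw [hμ]; field_simp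
  have hμ0 : 0 < μ := by
    have : μ = (1 + 2 * lam * κ) / lam := by rw [hμ]; field_simp
    rw [this]; positivity
  have hμl : 0 < lam * μ := mul_pos hl hμ0
  rw [hμe]
  refine le_const_of_forall (hC.mem1 u huW) (by positivity) fun ψ₀ h0 h2 h1 ht => ?_
  -- the test function
  have hμi : 0 < μ⁻¹ := inv_pos.2 hμ0
  have hwLap := hD.J_isLap hμi h2
  have hw0 := hD.J_nonneg hμi h2 h0
  obtain ⟨B, hB0⟩ := mem_top_iff.1 ht
  have hwb := hD.J_bdd hμi h2 hB0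
  have hw1 := hD.J_L1 hμi h2 h1 h0
  set w := C.J μ⁻¹ ψ₀ with hw
  rw [inv_inv] at hwLap
  have hwt : MemLp w ∞ m := mem_top_iff.2 ⟨B, hwb⟩
  have hφLap := hD.isLap_smul μ⁻¹ hwLap
  have e1 : μ⁻¹ • μ • (w - ψ₀) = w - ψ₀ := by
    rw [smul_smul, inv_mul_cancel₀ hμ0.ne', one_smul]
  rw [e1] at hφLap
  have hbe := be hB hLap hhW hφLap (smul_nonneg' hμi.le hw0) (mem_smul _ hwt) (mem_sub hwt ht)
  -- lower bound of the left hand side
  have hΓuu := hC.mem1 u huW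
  have hΓff := hC.mem1 f hf.1
  have hlow : I (μ⁻¹ • w * ((μ / 2) • C.Γ u u - (lam⁻¹ / 2) • C.Γ f f)) ≤
      I (μ⁻¹ • w * (C.Γ u h + κ • C.Γ u u)) := by
    refine I_mono (mem_mul_top (mem_smul _ hwt) (mem_sub (mem_smul _ hΓuu) (mem_smul _ hΓff)))
      (mem_mul_top (mem_smul _ hwt) (hC.bracket_mem κ huW hhW)) ?_
    refine mul_le_mul_of_nonneg_left ?_ (smul_nonneg' hμi.le hw0)
    have e2 : C.Γ u h = lam⁻¹ • (C.Γ u u - C.Γ u f) := by
      rw [hh, hD.Γ_smul_right _ huW (hD.sub_mem huW hf.1), hD.Γ_sub_right huW huW hf.1]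
    rw [le_iff_ae, e2]
    have hnn := hC.nonneg _ (hD.sub_mem huW hf.1)
    rw [hD.Γ_sub_left huW hf.1 (hD.sub_mem huW hf.1), hD.Γ_sub_right huW huW hf.1,
      hD.Γ_sub_right hf.1 huW hf.1, hD.symm f hf.1 u huW, nonneg_iff_ae] at hnn
    filter_upwards [hnn, sub_ae (C.Γ u u - C.Γ u f) (C.Γ u f - C.Γ f f),
      sub_ae (C.Γ u u) (C.Γ u f), sub_ae (C.Γ u f) (C.Γ f f),
      sub_ae ((μ / 2) • C.Γ u u) ((lam⁻¹ / 2) • C.Γ f f), smul_ae (C.Γ u u) (μ / 2),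
      smul_ae (C.Γ f f) (lam⁻¹ / 2),
      add_ae (lam⁻¹ • (C.Γ u u - C.Γ u f)) (κ • C.Γ u u),
      smul_ae (C.Γ u u - C.Γ u f) lam⁻¹, smul_ae (C.Γ u u) κ]
        with x a1 a2 a3 a4 a5 a6 a7 a9 a10 a11
    rw [a2, a3, a4] at a1
    rw [a5, a6, a7, a9, a10, a11, a3]
    have hli : 0 < lam⁻¹ := inv_pos.2 hl
    rw [hμ]
    nlinarith [mul_nonneg hli.le a1]
  have hlow2 : I (μ⁻¹ • w * ((μ / 2) • C.Γ u u - (lam⁻¹ / 2) • C.Γ f f)) =
      (2 : ℝ)⁻¹ * I (w * C.Γ u u) - (μ⁻¹ * (lam⁻¹ / 2)) * I (w * C.Γ f f) := by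
    have e3 : μ⁻¹ • w * ((μ / 2) • C.Γ u u - (lam⁻¹ / 2) • C.Γ f f) =
        (2 : ℝ)⁻¹ • (w * C.Γ u u) - (μ⁻¹ * (lam⁻¹ / 2)) • (w * C.Γ f f) := by
      rw [mul_sub, smul_mul_smul_comm, smul_mul_smul_comm]
      congr 2
      field_simp
    rw [e3, I_sub (mem_smul _ (mem_mul_top hwt hΓuu)) (mem_smul _ (mem_mul_top hwt hΓff)),
      I_smul, I_smul]
  have hR : I (C.Γ u u * (w - ψ₀)) = I (w * C.Γ u u) - I (C.Γ u u * ψ₀) := by
    rw [mul_sub, mul_comm (C.Γ u u) w, I_sub (mem_mul_top hwt hΓuu) (mem_top_mul hΓuu ht)]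
  have h3 : I (w * C.Γ f f) ≤ L * I ψ₀ := by
    calc I (w * C.Γ f f) ≤ I (L • w) := by
          refine I_mono (mem_mul_top hwt hΓff) (mem_smul _ hw1.1) ?_
          rw [le_iff_ae]
          filter_upwards [mul_ae w (C.Γ f f), smul_ae w L, nonneg_iff_ae.1 hw0, hL]
            with x a1 a2 a3 a4
          rw [a1, a2, mul_comm L]
          exact mul_le_mul_of_nonneg_left ((le_abs_self _).trans a4) a3
      _ = L * I w := I_smul _
      _ ≤ L * I ψ₀ := mul_le_mul_of_nonneg_left hw1.2 hL0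
  have h4 : (2 : ℝ)⁻¹ * I (C.Γ u u * ψ₀) ≤ (μ⁻¹ * (lam⁻¹ / 2)) * I (w * C.Γ f f) := by
    rw [hlow2] at hlow
    rw [hR] at hbe
    linarith
  have h5 : (μ⁻¹ * (lam⁻¹ / 2)) * I (w * C.Γ f f) ≤ (μ⁻¹ * (lam⁻¹ / 2)) * (L * I ψ₀) :=
    mul_le_mul_of_nonneg_left h3 (by positivity)
  have h6 : L / (lam * μ) * I ψ₀ = 2 * ((μ⁻¹ * (lam⁻¹ / 2)) * (L * I ψ₀)) := by
    field_simp
  rw [h6]
  linarith

/-- Cut-off functions that are test functions with uniformly bounded Laplacian tending to `0`. -/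
theorem exists_cut [SigmaFinite m] : ∃ (χ : ℕ → M →ₘ[m] ℝ) (Λ : ℝ), (∀ k, χ k ∈ C.Test) ∧
    (∀ k, 0 ≤ χ k) ∧ (∀ k, ∀ᵐ x ∂m, |χ k x| ≤ 1) ∧
    (∀ᵐ x ∂m, Tendsto (fun k => χ k x) atTop (𝓝 1)) ∧
    (∀ k, ∀ᵐ x ∂m, |C.lap (χ k) x| ≤ Λ) ∧
    (∀ᵐ x ∂m, Tendsto (fun k => C.lap (χ k) x) atTop (𝓝 0)) ∧
    (∀ k, ∀ᵐ x ∂m, |C.Γ (χ k) (χ k) x| ≤ Λ * ((k : ℝ) + 1)⁻¹) := by
  have hD := hC.toIsDir
  obtain ⟨η, h1, hmono, h3⟩ := hC.cutoff
  obtain ⟨N, hN⟩ := exists_small κ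
  set lam : ℝ := ((N : ℝ) + 1)⁻¹ with hlam
  have hl : 0 < lam := by positivity
  have hl2 : 0 < 1 + 2 * lam * κ := hN N le_rfl
  have hη1 : ∀ k, ∀ᵐ x ∂m, |η k x| ≤ 1 := by
    intro k
    filter_upwards [nonneg_iff_ae.1 (h1 k).2.1, le_iff_ae.1 (h1 k).2.2.1,
      one_ae (M := M) (m := m)] with x b1 b2 b3
    rw [abs_of_nonneg b1]
    rwa [b3] at b2
  have hηA : ∀ k, η k ∈ C.A := fun k => ⟨(h1 k).1, mem_top_iff.2 ⟨1, hη1 k⟩⟩
  have hη2 : ∀ k, MemLp (η k) 2 m := fun k => hC.memLp _ (h1 k).1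
  have hηΓ : ∀ k : ℕ, ∀ᵐ x ∂m, |C.Γ (η k) (η k) x| ≤ ((k : ℝ) + 1)⁻¹ := by
    intro k
    filter_upwards [le_iff_ae.1 (h1 k).2.2.2, smul_ae (1 : M →ₘ[m] ℝ) ((k : ℝ) + 1)⁻¹,
      one_ae (M := M) (m := m), hD.Γ_nonneg_ae (h1 k).1] with x b1 b2 b3 b4
    rw [b2, b3, mul_one] at b1
    rw [abs_of_nonneg b4]
    exact b1
  have hηT : ∀ k, MemLp (C.Γ (η k) (η k)) ∞ m := fun k => mem_top_iff.2 ⟨_, hηΓ k⟩
  set χ : ℕ → M →ₘ[m] ℝ := fun k => C.J lam (η k) with hχ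
  have hT : ∀ k, χ k ∈ C.Test := fun k => hC.J_test hB hl hl2 (hηA k) (hηT k)
  have h0 : ∀ k, 0 ≤ χ k := fun k => hD.J_nonneg hl (hη2 k) (h1 k).2.1
  have hb : ∀ k, ∀ᵐ x ∂m, |χ k x| ≤ 1 := fun k => hD.J_bdd hl (hη2 k) (hη1 k)
  have hlap : ∀ k, C.lap (χ k) = lam⁻¹ • (χ k - η k) := fun k =>
    hD.lap_eq (hD.J_isLap hl (hη2 k))
  have hχΓ : ∀ k : ℕ, ∀ᵐ x ∂m, C.Γ (χ k) (χ k) x ≤ ((k : ℝ) + 1)⁻¹ / (1 + 2 * lam * κ) :=
    fun k => hC.J_grad_le hB hl hl2 (hηA k) (by positivity) (hηΓ k)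
  -- monotonicity
  have hm : ∀ k, χ k ≤ χ (k + 1) := by
    intro k
    have := hD.J_nonneg hl (mem_sub (hη2 (k + 1)) (hη2 k)) (sub_nonneg.2 (hmono k))
    rw [hD.J_sub hl (hη2 (k + 1)) (hη2 k)] at this
    exact sub_nonneg.1 this
  have hmae : ∀ᵐ x ∂m, Monotone fun k => χ k x := by
    have : ∀ᵐ x ∂m, ∀ k, χ k x ≤ χ (k + 1) x := by
      rw [ae_all_iff]; exact fun k => le_iff_ae.1 (hm k)
    filter_upwards [this] with x hx
    exact monotone_nat_of_le_succ hx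
  -- mass conservation
  have hlim : ∀ j, Tendsto (fun k => I ((χ k * η j - η j) ^ 2)) atTop (𝓝 0) := by
    intro j
    have hjA := hηA j
    have hj2 : MemLp (η j) 2 m := hη2 j
    have hsq := hD.sq_mem hjA
    -- first part
    have a1 : Tendsto (fun k => I ((η k) * (η j ^ 2))) atTop (𝓝 (I ((1 : M →ₘ[m] ℝ) * η j ^ 2))) := by
      refine I_tendsto_of_bdd (K := 1) hη1 ?_ (mem_sq hj2)
      filter_upwards [h3, one_ae (M := M) (m := m)] with x b1 b2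
      rw [b2]; exact b1
    -- second part
    have a2 : Tendsto (fun k => lam * I (C.Γ (χ k) (η j ^ 2))) atTop (𝓝 0) := by
      have c1 : Tendsto (fun k : ℕ => lam * (2 * (Real.sqrt (I (η j ^ 2)) *
          Real.sqrt (((k : ℝ) + 1)⁻¹ / (1 + 2 * lam * κ) * I (C.Γ (η j) (η j)))))) atTop (𝓝 0) := by
        have c2 : Tendsto (fun k : ℕ => ((k : ℝ) + 1)⁻¹ / (1 + 2 * lam * κ)
            * I (C.Γ (η j) (η j))) atTop (𝓝 0) := by
          have := (tendsto_inv_succ.div_const (1 + 2 * lam * κ)).mul_const (I (C.Γ (η j) (η j)))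
          simpa using this
        have := (((Real.continuous_sqrt.tendsto 0).comp c2).const_mul
          (Real.sqrt (I (η j ^ 2)))).const_mul 2
        simpa using this.const_mul lam
      refine squeeze_zero_norm (fun k => ?_) c1
      rw [Real.norm_eq_abs, abs_mul, abs_of_pos hl]
      refine mul_le_mul_of_nonneg_left ?_ hl.le
      have kW := (hC.test_A (hT k)).1
      have e1 : C.Γ (χ k) (η j ^ 2) = (2 : ℝ) • (η j * C.Γ (χ k) (η j)) := by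
        rw [hC.symm _ kW _ hsq.1, hsq.2 _ kW, hC.symm _ hjA.1 _ kW]; algebra
      have g2 := hD.Γ_mem2 kW (hC.test_Γ_top (hT k)) hjA.1
      rw [e1, I_smul, abs_mul, abs_two]
      refine mul_le_mul_of_nonneg_left ?_ zero_le_two
      refine (I_abs_le hj2 g2).trans ?_
      refine mul_le_mul_of_nonneg_left (Real.sqrt_le_sqrt ?_) (Real.sqrt_nonneg _)
      rw [← I_smul]
      refine I_mono (mem_sq g2) (mem_smul _ (hC.mem1 _ hjA.1)) ?_
      rw [le_iff_ae]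
      filter_upwards [hD.Γ_cs_ae kW hjA.1, hD.Γ_nonneg_ae hjA.1, hχΓ k,
        sq_ae (C.Γ (χ k) (η j)), smul_ae (C.Γ (η j) (η j)) (((k : ℝ) + 1)⁻¹ / (1 + 2 * lam * κ))]
        with x b1 b2 b3 b4 b5
      rw [b4, b5]
      exact b1.trans (mul_le_mul_of_nonneg_right b3 b2)
    have a3 : ∀ k, I (η j ^ 2) - I (χ k * η j ^ 2)
        = lam * I (C.Γ (χ k) (η j ^ 2)) + (I ((1 : M →ₘ[m] ℝ) * η j ^ 2) - I (η k * η j ^ 2)) := by
      intro k
      have := (hD.J_spec hl (hη2 k)).2 _ hsq.1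
      rw [one_mul]
      change I (χ k * η j ^ 2) + lam * I (C.Γ (χ k) (η j ^ 2)) = I (η k * η j ^ 2) at this
      linarith
    have a4 : Tendsto (fun k => I (η j ^ 2) - I (χ k * η j ^ 2)) atTop (𝓝 0) := by
      simp only [a3]
      have := a2.add ((tendsto_const_nhds (x := I ((1 : M →ₘ[m] ℝ) * η j ^ 2))).sub a1)
      simpa using this
    refine squeeze_zero (fun k => I_sq_nonneg _) (fun k => ?_) a4
    have n1 := mem_mul_top (hC.test_A (hT k)).2 (mem_sq hj2)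
    rw [← I_sub (mem_sq hj2) n1]
    refine I_mono (mem_sq (mem_sub (mem_mul_top (hC.test_A (hT k)).2 hj2) hj2))
      (mem_sub (mem_sq hj2) n1) ?_
    rw [le_iff_ae]
    filter_upwards [sq_ae (χ k * η j - η j), sub_ae (χ k * η j) (η j), mul_ae (χ k) (η j),
      sub_ae (η j ^ 2) (χ k * η j ^ 2), sq_ae (η j), mul_ae (χ k) (η j ^ 2),
      nonneg_iff_ae.1 (h0 k), hb k] with x b1 b2 b3 b4 b5 b6 b7 b8
    rw [b1, b2, b3, b4, b6, b5]
    rw [abs_of_nonneg b7] at b8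
    have : (χ k x * η j x - η j x) ^ 2 = (1 - χ k x) ^ 2 * η j x ^ 2 := by ring
    rw [this]
    have h4 : η j x ^ 2 - χ k x * η j x ^ 2 = (1 - χ k x) * η j x ^ 2 := by ring
    rw [h4]
    refine mul_le_mul_of_nonneg_right ?_ (sq_nonneg _)
    nlinarith
  have hconv : ∀ᵐ x ∂m, Tendsto (fun k => χ k x) atTop (𝓝 1) := by
    choose ns hns1 hns2 using fun j => exists_subseq_of_I_sq
      (u := fun k => χ k * η j) (f := η j)
      (fun k => mem_mul_top (hC.test_A (hT k)).2 (hη2 j)) (hη2 j) (hlim j)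
    have hall := ae_all_iff.2 hns2
    have hmul : ∀ᵐ x ∂m, ∀ j k, (χ k * η j) x = χ k x * η j x := by
      rw [ae_all_iff]; intro j
      rw [ae_all_iff]; intro k
      exact mul_ae _ _
    filter_upwards [hall, hmul, h3, hmae] with x b1 b2 b3 b4
    obtain ⟨j, hj⟩ := (b3.eventually (lt_mem_nhds (show (0 : ℝ) < 1 by norm_num))).exists
    have b5 := b1 j
    simp only [b2] at b5
    have b6 : Tendsto (fun k => χ (ns j k) x) atTop (𝓝 1) := by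
      have := b5.div_const (η j x)
      rw [div_self hj.ne'] at this
      refine this.congr fun k => ?_
      field_simp
    exact (tendsto_iff_tendsto_subseq_of_monotone b4 (hns1 j).tendsto_atTop).2 b6
  refine ⟨χ, max (2 * lam⁻¹) (1 / (1 + 2 * lam * κ)), hT, h0, hb, hconv, ?_, ?_, ?_⟩
  · intro k
    rw [hlap k]
    filter_upwards [smul_ae (χ k - η k) lam⁻¹, sub_ae (χ k) (η k), hb k, hη1 k] with x b1 b2 b3 b4
    rw [b1, b2, abs_mul, abs_of_pos (inv_pos.2 hl)]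
    have : |χ k x - η k x| ≤ 2 := (abs_sub _ _).trans (by linarith)
    have h5 : lam⁻¹ * |χ k x - η k x| ≤ lam⁻¹ * 2 := mul_le_mul_of_nonneg_left this
      (inv_pos.2 hl).le
    refine h5.trans (le_trans (le_of_eq (mul_comm _ _)) (le_max_left _ _))
  · have hall : ∀ᵐ x ∂m, ∀ k, C.lap (χ k) x = lam⁻¹ * (χ k x - η k x) := by
      rw [ae_all_iff]
      intro k
      rw [hlap k]
      filter_upwards [smul_ae (χ k - η k) lam⁻¹, sub_ae (χ k) (η k)] with x b1 b2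
      rw [b1, b2]
    filter_upwards [hall, hconv, h3] with x b1 b2 b3
    simp only [b1]
    have := (b2.sub b3).const_mul lam⁻¹
    simpa using this
  · intro k
    filter_upwards [hχΓ k, hD.Γ_nonneg_ae (hC.test_A (hT k)).1] with x b1 b2
    rw [abs_of_nonneg b2]
    refine b1.trans ?_
    rw [div_eq_mul_one_div, mul_comm]
    exact mul_le_mul_of_nonneg_right (le_max_right _ _) (by positivity)

theorem Γ_lap_I (hb : b ∈ C.Test) : I (C.Γ b (C.lap b)) = -I (C.lap b ^ 2) := by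
  have := (hC.test_isLap hb).2.2 _ (hC.test_lap_mem hb)
  rw [sq]
  exact this

theorem NN_tendsto {χ : ℕ → M →ₘ[m] ℝ} {Λ : ℝ} (hT : ∀ k, χ k ∈ C.Test)
    (hb1 : ∀ k, ∀ᵐ x ∂m, |χ k x| ≤ 1)
    (hconv : ∀ᵐ x ∂m, Tendsto (fun k => χ k x) atTop (𝓝 1))
    (hlb : ∀ k, ∀ᵐ x ∂m, |C.lap (χ k) x| ≤ Λ)
    (hl0 : ∀ᵐ x ∂m, Tendsto (fun k => C.lap (χ k) x) atTop (𝓝 0)) (hb : b ∈ C.Test) :
    Tendsto (fun k => C.NN κ b b (χ k)) atTop (𝓝 (I (C.lap b ^ 2) - κ * I (C.Γ b b))) := by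
  have bA := hC.test_A hb
  have hconv' : ∀ᵐ x ∂m, Tendsto (fun k => χ k x) atTop (𝓝 ((1 : M →ₘ[m] ℝ) x)) := by
    filter_upwards [hconv, one_ae (M := M) (m := m)] with x b1 b2
    rw [b2]; exact b1
  have hl0' : ∀ᵐ x ∂m, Tendsto (fun k => C.lap (χ k) x) atTop (𝓝 ((0 : M →ₘ[m] ℝ) x)) := by
    filter_upwards [hl0, zero_ae (M := M) (m := m)] with x b1 b2
    rw [b2]; exact b1
  have t1 := I_tendsto_of_bdd hlb hl0' (hC.mem1 _ bA.1)
  have t2 := I_tendsto_of_bdd hb1 hconv'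
    (mem_add (hC.Γ_mem1 bA.1 (hC.test_lap_mem hb)) (hC.Γ_mem1 bA.1 (hC.test_lap_mem hb)))
  have t3 := I_tendsto_of_bdd hb1 hconv' (hC.mem1 _ bA.1)
  rw [zero_mul, I_zero] at t1
  rw [one_mul] at t2 t3
  have e1 : ∀ k, I (C.Γ (C.Γ b b) (χ k)) = - I (C.lap (χ k) * C.Γ b b) := by
    intro k
    have := (hC.test_isLap (hT k)).2.2 _ (hC.Γ_mem hB hb hb).1
    rw [hC.symm _ (hC.Γ_mem hB hb hb).1 _ (hC.test_A (hT k)).1]
    exact this
  have e2 : I (C.Γ b (C.lap b) + C.Γ b (C.lap b)) = -(2 * I (C.lap b ^ 2)) := by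
    rw [I_add (hC.Γ_mem1 bA.1 (hC.test_lap_mem hb)) (hC.Γ_mem1 bA.1 (hC.test_lap_mem hb)),
      hC.Γ_lap_I hB hb]
    ring
  rw [e2] at t2
  unfold Calc.NN
  simp only [e1]
  have := ((t1.neg.const_mul 2⁻¹).neg.sub (t2.const_mul 2⁻¹)).sub (t3.const_mul κ)
  convert this using 2
  ring

/-- `∫ |Hess b|² ≤ ∫ (Δb)² - κ ∫ Γ(b)` in the weak form of tensors, with `φ = 1`. -/
theorem tensor_ineq_one [SigmaFinite m] {n : ℕ} (hb : b ∈ C.Test) {F H s : Fin n → M →ₘ[m] ℝ}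
    (hF : ∀ i, F i ∈ C.Test) (hH : ∀ i, H i ∈ C.Test) (hs : ∀ i, MemLp (s i) ∞ m)
    (hs2 : ∀ i, MemLp (s i) 2 m) :
    0 ≤ I (C.lap b ^ 2) - κ * I (C.Γ b b) + 2 * ∑ i, I (s i * C.KK b (F i) (H i))
      + 2 * ∑ i, ∑ j, I (s i * s j * C.MM (F i) (H i) (F j) (H j)) := by
  obtain ⟨χ, Λ, hT, h0, hb1, hconv, hlb, hl0, -⟩ := hC.exists_cut hB
  have key : ∀ k, 0 ≤ C.NN κ b b (χ k) + 2 * ∑ i, I (χ k * (s i * C.KK b (F i) (H i)))
      + 2 * ∑ i, ∑ j, I (χ k * (s i * s j * C.MM (F i) (H i) (F j) (H j))) := fun k =>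
    hC.tensor_ineq' hB hb hF hH hs hs2 (hC.test_A (hT k)) (h0 k)
  have hconv' : ∀ᵐ x ∂m, Tendsto (fun k => χ k x) atTop (𝓝 ((1 : M →ₘ[m] ℝ) x)) := by
    filter_upwards [hconv, one_ae (M := M) (m := m)] with x b1 b2
    rw [b2]; exact b1
  have t1 : ∀ i, Tendsto (fun k => I (χ k * (s i * C.KK b (F i) (H i)))) atTop
      (𝓝 (I (s i * C.KK b (F i) (H i)))) := by
    intro i
    have := I_tendsto_of_bdd hb1 hconv' (mem_mul_22 (hs2 i) (hC.KK_mem2 hB (hF i) (hH i) hb))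
    rwa [one_mul] at this
  have t2 : ∀ i j, Tendsto (fun k => I (χ k * (s i * s j * C.MM (F i) (H i) (F j) (H j)))) atTop
      (𝓝 (I (s i * s j * C.MM (F i) (H i) (F j) (H j)))) := by
    intro i j
    have := I_tendsto_of_bdd hb1 hconv' (mem_mul_top (mem_mul_top (hs i) (hs j))
      (hC.MM_mem1 hB (hF i) (hH i) (hF j) (hH j)))
    rwa [one_mul] at this
  exact ge_of_tendsto (((hC.NN_tendsto hB hT hb1 hconv hlb hl0 hb).add
    ((tendsto_finset_sum Finset.univ fun i _ => t1 i).const_mul 2)).add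
    ((tendsto_finset_sum Finset.univ fun i _ => tendsto_finset_sum Finset.univ
      fun j _ => t2 i j).const_mul 2)) (Eventually.of_forall key)

/-- the quadratic functional in `tensor_ineq_one` -/
noncomputable def _root_.Vale.Agent.P233.Calc.QT (C : Calc m) (κ : ℝ) (b : M →ₘ[m] ℝ) {n : ℕ}
    (F H s : Fin n → M →ₘ[m] ℝ) : ℝ :=
  I (C.lap b ^ 2) - κ * I (C.Γ b b) + 2 * ∑ i, I (s i * C.KK b (F i) (H i))
      + 2 * ∑ i, ∑ j, I (s i * s j * C.MM (F i) (H i) (F j) (H j))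

theorem QT_cons {n : ℕ} (hb : b ∈ C.Test) {F H s : Fin n → M →ₘ[m] ℝ}
    (hF : ∀ i, F i ∈ C.Test) (hH : ∀ i, H i ∈ C.Test) (hs : ∀ i, MemLp (s i) ∞ m)
    (hs2 : ∀ i, MemLp (s i) 2 m) (hw : w ∈ C.Test) (hχ : MemLp χ ∞ m) (hχ2 : MemLp χ 2 m) (t : ℝ) :
    C.QT κ b (Fin.cons w F : Fin (n + 1) → M →ₘ[m] ℝ) (Fin.cons w H) (Fin.cons (t • χ) s)
      = C.QT κ b F H s + 2 * t * I (χ * C.KK b w w)
        + 4 * t * ∑ i, I (χ * (s i * C.MM w w (F i) (H i)))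
        + 2 * t ^ 2 * I (χ * (χ * C.MM w w w w)) := by
  unfold Calc.QT
  simp only [Fin.sum_univ_succ, Fin.cons_zero, Fin.cons_succ]
  have e1 : I (t • χ * C.KK b w w) = t * I (χ * C.KK b w w) := by
    rw [← I_smul]; congr 1; algebra
  have e2 : I (t • χ * t • χ * C.MM w w w w) = t ^ 2 * I (χ * (χ * C.MM w w w w)) := by
    rw [← I_smul]; congr 1; algebra
  have e3 : ∀ i, I (t • χ * s i * C.MM w w (F i) (H i)) = t * I (χ * (s i * C.MM w w (F i) (H i))) := by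
    intro i
    rw [← I_smul]; congr 1; algebra
  have e4 : ∀ i, I (s i * t • χ * C.MM (F i) (H i) w w) = t * I (χ * (s i * C.MM w w (F i) (H i))) := by
    intro i
    rw [← I_smul]; congr 1
    have : C.MM (F i) (H i) w w = C.MM w w (F i) (H i) := by
      unfold Calc.MM
      rw [hC.symm _ (hC.test_A hw).1 _ (hC.test_A (hF i)).1,
        hC.symm _ (hC.test_A hw).1 _ (hC.test_A (hH i)).1]
      ring
    rw [this]
    algebra
  rw [e1, e2]
  simp only [e3, e4, Finset.sum_add_distrib, ← Finset.mul_sum]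
  ring

theorem MM_bd (hw : w ∈ C.Test) (hf : f ∈ C.Test) (hg : g ∈ C.Test) {s : M →ₘ[m] ℝ}
    (hs : MemLp s ∞ m) :
    ∃ K : ℝ, 0 ≤ K ∧ ∀ w ∈ C.Test, |I (s * C.MM w w f g)| ≤ K * I (C.Γ w w) := by
  obtain ⟨A, hA⟩ := mem_top_iff.1 hs
  obtain ⟨B, hB1⟩ := mem_top_iff.1 (hC.test_Γ_top hf)
  obtain ⟨D, hD1⟩ := mem_top_iff.1 (hC.test_Γ_top hg)
  refine ⟨|A| * (|B| + |D|), by positivity, fun w hw => ?_⟩
  have hD := hC.toIsDir
  have wA := hC.test_A hw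
  have fA := hC.test_A hf
  have gA := hC.test_A hg
  rw [← I_smul]
  unfold I
  refine abs_integral_le_integral_abs.trans ?_
  refine integral_mono_ae (int_of_mem (mem_mul_top hs (hC.MM_mem1 hB hw hw hf hg))).abs
    (int_of_mem (mem_smul _ (hC.mem1 _ wA.1))) ?_
  filter_upwards [mul_ae s (C.MM w w f g), hA, hB1, hD1, hD.Γ_cs_ae fA.1 wA.1,
    hD.Γ_cs_ae gA.1 wA.1, hD.Γ_nonneg_ae wA.1, hD.Γ_nonneg_ae fA.1, hD.Γ_nonneg_ae gA.1,
    smul_ae (C.Γ w w) (|A| * (|B| + |D|)),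
    add_ae (C.Γ f w * C.Γ g w) (C.Γ f w * C.Γ g w), mul_ae (C.Γ f w) (C.Γ g w)]
    with x b1 b2 b3 b4 b5 b6 b7 b8 b9 b10 b11 b12
  have e : C.MM w w f g = C.Γ f w * C.Γ g w + C.Γ f w * C.Γ g w := rfl
  rw [b1, b10, e, b11, b12, abs_mul]
  rw [abs_of_nonneg b8] at b3
  rw [abs_of_nonneg b9] at b4
  have h1 : |C.Γ f w x * C.Γ g w x + C.Γ f w x * C.Γ g w x| ≤ (|B| + |D|) * C.Γ w w x := by
    have h2 : C.Γ f w x ^ 2 ≤ |B| * C.Γ w w x :=
      b5.trans (mul_le_mul_of_nonneg_right (b3.trans (le_abs_self _)) b7)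
    have h3 : C.Γ g w x ^ 2 ≤ |D| * C.Γ w w x :=
      b6.trans (mul_le_mul_of_nonneg_right (b4.trans (le_abs_self _)) b7)
    rw [abs_le]
    constructor <;> nlinarith [sq_nonneg (C.Γ f w x + C.Γ g w x), sq_nonneg (C.Γ f w x - C.Γ g w x)]
  calc |s x| * |C.Γ f w x * C.Γ g w x + C.Γ f w x * C.Γ g w x|
      ≤ |A| * ((|B| + |D|) * C.Γ w w x) :=
        mul_le_mul (b2.trans (le_abs_self _)) h1 (abs_nonneg _) (abs_nonneg _)
    _ = |A| * (|B| + |D|) * C.Γ w w x := by ring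

/-- the Hessian of a test function is a bounded tensor plus a tensor that is small in `L²`. -/
theorem hess_approx [SigmaFinite m] (hb : b ∈ C.Test) {δ : ℝ} (hδ : 0 < δ) :
    ∃ Λ ≥ 0, ∀ w ∈ C.Test, |I (C.hess b w w)| ≤
      Λ * I (C.Γ w w) + δ * √(I (C.Γ w w ^ 2)) := by
  classical
  set S : Set ℝ := {q | ∃ (n : ℕ) (F H s : Fin n → M →ₘ[m] ℝ), (∀ i, F i ∈ C.Test) ∧
    (∀ i, H i ∈ C.Test) ∧ (∀ i, MemLp (s i) ∞ m) ∧ (∀ i, MemLp (s i) 2 m) ∧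
    q = C.QT κ b F H s} with hS
  have hne : S.Nonempty := ⟨_, 0, Fin.elim0, Fin.elim0, Fin.elim0, fun i => i.elim0,
    fun i => i.elim0, fun i => i.elim0, fun i => i.elim0, rfl⟩
  have hbd : BddBelow S := by
    refine ⟨0, ?_⟩
    rintro q ⟨n, F, H, s, h1, h2, h3, h4, rfl⟩
    exact hC.tensor_ineq_one hB hb h1 h2 h3 h4
  obtain ⟨q, hq, hq2⟩ := exists_lt_of_csInf_lt hne
    (show sInf S < sInf S + δ ^ 2 by linarith [pow_pos hδ 2])
  obtain ⟨n, F, H, s, hF, hH, hs, hs2, rfl⟩ := hq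
  obtain ⟨χ, Λ, hT, h0, hb1, hconv, -⟩ := hC.exists_cut hB
  have hconv' : ∀ᵐ x ∂m, Tendsto (fun k => χ k x) atTop (𝓝 ((1 : M →ₘ[m] ℝ) x)) := by
    filter_upwards [hconv, one_ae (M := M) (m := m)] with x b1 b2
    rw [b2]; exact b1
  choose K hK0 hK using fun i => hC.MM_bd hB hb (hF i) (hH i) (hs i)
  refine ⟨∑ i, K i, Finset.sum_nonneg fun i _ => hK0 i, fun w hw => ?_⟩
  have wA := hC.test_A hw
  have bA := hC.test_A hb
  have nKK : MemLp (C.KK b w w) 1 m := by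
    unfold Calc.KK Calc.hess
    exact mem_smul _ (mem_smul _ (mem_sub (mem_add (hC.Γ_mem1 wA.1 (hC.Γ_mem hB hb hw).1)
      (hC.Γ_mem1 wA.1 (hC.Γ_mem hB hb hw).1)) (hC.Γ_mem1 bA.1 (hC.Γ_mem hB hw hw).1)))
  have key : ∀ (t : ℝ) (k : ℕ), 0 ≤ δ ^ 2 + 2 * t * I (χ k * C.KK b w w)
        + 4 * t * ∑ i, I (χ k * (s i * C.MM w w (F i) (H i)))
        + 2 * t ^ 2 * I (χ k * (χ k * C.MM w w w w)) := by
    intro t k
    have kA := hC.test_A (hT k)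
    have h1 : C.QT κ b (Fin.cons w F : Fin (n + 1) → M →ₘ[m] ℝ) (Fin.cons w H)
        (Fin.cons (t • χ k) s) ∈ S := by
      refine ⟨n + 1, _, _, _, ?_, ?_, ?_, ?_, rfl⟩
      · intro i
        refine Fin.cases ?_ (fun j => ?_) i
        · simpa using hw
        · simpa using hF j
      · intro i
        refine Fin.cases ?_ (fun j => ?_) i
        · simpa using hw
        · simpa using hH j
      · intro i
        refine Fin.cases ?_ (fun j => ?_) i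
        · rw [Fin.cons_zero]; exact mem_smul _ kA.2
        · rw [Fin.cons_succ]; exact hs j
      · intro i
        refine Fin.cases ?_ (fun j => ?_) i
        · rw [Fin.cons_zero]; exact mem_smul _ (hC.memLp _ kA.1)
        · rw [Fin.cons_succ]; exact hs2 j
    have h2 := csInf_le hbd h1
    rw [hC.QT_cons hB hb hF hH hs hs2 hw kA.2 (hC.memLp _ kA.1) t] at h2
    linarith
  have key2 : ∀ t : ℝ, 0 ≤ δ ^ 2 + 2 * t * (I (C.KK b w w)
      + 2 * ∑ i, I (s i * C.MM w w (F i) (H i))) + t ^ 2 * (2 * I (C.MM w w w w)) := by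
    intro t
    have t1 : Tendsto (fun k => I (χ k * C.KK b w w)) atTop (𝓝 (I (C.KK b w w))) := by
      have := I_tendsto_of_bdd hb1 hconv' nKK
      rwa [one_mul] at this
    have t2 : ∀ i, Tendsto (fun k => I (χ k * (s i * C.MM w w (F i) (H i)))) atTop
        (𝓝 (I (s i * C.MM w w (F i) (H i)))) := by
      intro i
      have := I_tendsto_of_bdd hb1 hconv' (mem_mul_top (hs i) (hC.MM_mem1 hB hw hw (hF i) (hH i)))
      rwa [one_mul] at this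
    have t3 : Tendsto (fun k => I (χ k * (χ k * C.MM w w w w))) atTop (𝓝 (I (C.MM w w w w))) := by
      have h1 : ∀ k, ∀ᵐ x ∂m, |(χ k * χ k) x| ≤ 1 := by
        intro k
        filter_upwards [mul_ae (χ k) (χ k), hb1 k] with x b1 b2
        rw [b1, abs_mul]
        nlinarith [abs_nonneg (χ k x)]
      have h2 : ∀ᵐ x ∂m, Tendsto (fun k => (χ k * χ k) x) atTop (𝓝 ((1 : M →ₘ[m] ℝ) x)) := by
        have h3 : ∀ᵐ x ∂m, ∀ k, (χ k * χ k) x = χ k x * χ k x := by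
          rw [ae_all_iff]; exact fun k => mul_ae _ _
        filter_upwards [h3, hconv, one_ae (M := M) (m := m)] with x b1 b2 b3
        rw [b3]
        simp only [b1]
        simpa using b2.mul b2
      have := I_tendsto_of_bdd h1 h2 (hC.MM_mem1 hB hw hw hw hw)
      rw [one_mul] at this
      refine this.congr fun k => ?_
      rw [mul_assoc]
    have hlim := (((tendsto_const_nhds (x := δ ^ 2)).add (t1.const_mul (2 * t))).add
      ((tendsto_finset_sum Finset.univ fun i _ => t2 i).const_mul (4 * t))).add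
      (t3.const_mul (2 * t ^ 2))
    have h1 := ge_of_tendsto hlim (Eventually.of_forall (key t))
    have e : δ ^ 2 + 2 * t * (I (C.KK b w w)
      + 2 * ∑ i, I (s i * C.MM w w (F i) (H i))) + t ^ 2 * (2 * I (C.MM w w w w))
      = δ ^ 2 + 2 * t * I (C.KK b w w) + 4 * t * ∑ i, I (s i * C.MM w w (F i) (H i))
        + 2 * t ^ 2 * I (C.MM w w w w) := by ring
    rw [e]; exact h1
  have hdisc := disc_of_forall key2
  have eMM : C.MM w w w w = (2 : ℝ) • C.Γ w w ^ 2 := by unfold Calc.MM; algebra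
  have eKK : I (C.KK b w w) = 2 * I (C.hess b w w) := by
    unfold Calc.KK; rw [I_smul]
  rw [eMM, I_smul, eKK] at hdisc
  have hΓ2 : 0 ≤ I (C.Γ w w ^ 2) := I_sq_nonneg _
  have h3 : |2 * I (C.hess b w w) + 2 * ∑ i, I (s i * C.MM w w (F i) (H i))|
      ≤ 2 * (δ * √(I (C.Γ w w ^ 2))) := by
    refine abs_le_of_sq_le_sq ?_ (by positivity)
    refine hdisc.trans (le_of_eq ?_)
    have := Real.sq_sqrt hΓ2
    rw [mul_pow, mul_pow, this]; ring
  have h4 : |∑ i, I (s i * C.MM w w (F i) (H i))| ≤ (∑ i, K i) * I (C.Γ w w) := by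
    refine (Finset.abs_sum_le_sum_abs _ _).trans ?_
    rw [Finset.sum_mul]
    exact Finset.sum_le_sum fun i _ => hK i w hw
  have h5 := abs_le.1 h3
  have h6 := abs_le.1 h4
  rw [abs_le]
  constructor <;> linarith [h5.1, h5.2, h6.1, h6.2]

end IsGamma

end Vale.Agent.P233
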