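import Vale.Agent.P233.AB.Mas

open MeasureTheory Filter Topology
open scoped ENNReal NNReal

namespace Vale.Agent.P233

variable {M : Type*} [MeasurableSpace M] {m : Measure M} {C : Calc m}

/-- test functions with bounded Laplacian -/
def Calc.TestI (C : Calc m) : Set (M →ₘ[m] ℝ) := {f | f ∈ C.Test ∧ MemLp (C.lap f) ∞ m}

namespace IsDir

/-- composition of a bounded Sobolev function with a smooth function -/
theorem ti_comp (hC : IsDir C) {f : M →ₘ[m] ℝ} (hf : f ∈ C.A) {Ψ Ψ' : ℝ → ℝ}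
    (hc : Continuous Ψ) (hc' : Continuous Ψ') (hd : ∀ t, HasDerivAt Ψ (Ψ' t) t) :
    ∃ b ∈ C.A, AEEqFun.comp Ψ hc f = Ψ 0 • (1 : M →ₘ[m] ℝ) + b ∧
      ∀ h ∈ C.W, C.Γ b h = AEEqFun.comp Ψ' hc' f * C.Γ f h := by
  obtain ⟨K, hK⟩ := mem_top_iff.1 hf.2
  have hc0 : Continuous fun t => Ψ t - Ψ 0 := hc.sub continuous_const
  obtain ⟨h1, h2⟩ := hC.chain_bdd hf.1 hK hc0 hc'
    (fun t _ => ((hd t).sub_const _).hasDerivWithinAt) (sub_self _)
  refine ⟨_, ⟨h1, ?_⟩, ?_, h2⟩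
  · obtain ⟨B, hB⟩ := (isCompact_Icc (a := -K) (b := K)).exists_bound_of_continuousOn
      hc0.continuousOn
    refine mem_top_iff.2 ⟨B, ?_⟩
    filter_upwards [AEEqFun.coeFn_comp _ hc0 f, hK] with x a1 a2
    rw [a1, Function.comp_apply, ← Real.norm_eq_abs]
    exact hB _ (abs_le.1 a2)
  · rw [eq_iff_ae]
    filter_upwards [AEEqFun.coeFn_comp _ hc0 f, AEEqFun.coeFn_comp _ hc f,
      add_ae (Ψ 0 • (1 : M →ₘ[m] ℝ)) (AEEqFun.comp _ hc0 f), smul_ae (1 : M →ₘ[m] ℝ) (Ψ 0),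
      one_ae (M := M) (m := m)] with x a1 a2 a3 a4 a5
    rw [a2, a3, a4, a5, a1, Function.comp_apply, Function.comp_apply]
    ring

end IsDir

namespace IsGamma

variable (hC : IsGamma C) {κ : ℝ} (hB : C.BEi κ)
variable {f g h φ ψ : M →ₘ[m] ℝ}

include hC hB

theorem testI_zero : (0 : M →ₘ[m] ℝ) ∈ C.TestI := by
  refine ⟨hC.test_zero hB, ?_⟩
  have h1 := hC.lap_smul hB 0 (hC.test_zero hB)
  rw [zero_smul, zero_smul] at h1
  rw [h1]
  exact mem_zero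

theorem testI_add (hf : f ∈ C.TestI) (hg : g ∈ C.TestI) : f + g ∈ C.TestI := by
  refine ⟨hC.test_add hB hf.1 hg.1, ?_⟩
  rw [hC.lap_add hB hf.1 hg.1]
  exact mem_add hf.2 hg.2

theorem testI_smul (c : ℝ) (hf : f ∈ C.TestI) : c • f ∈ C.TestI := by
  refine ⟨hC.test_smul hB c hf.1, ?_⟩
  rw [hC.lap_smul hB c hf.1]
  exact mem_smul c hf.2

theorem testI_mul (hf : f ∈ C.TestI) (hg : g ∈ C.TestI) : f * g ∈ C.TestI := by
  refine ⟨hC.test_mul hB hf.1 hg.1, ?_⟩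
  rw [hC.lap_mul hB hf.1 hg.1]
  exact mem_add (mem_add (mem_mul_top (hC.test_A hf.1).2 hg.2)
    (mem_mul_top (hC.test_A hg.1).2 hf.2)) (mem_smul _ (hC.Γ_mem hB hf.1 hg.1).2)

omit hB in
theorem testI_lap_A' (hf : f ∈ C.TestI) : C.lap f ∈ C.A :=
  ⟨hC.test_lap_mem hf.1, hf.2⟩

theorem testI_lap_A (hf : f ∈ C.TestI) : C.lap f ∈ C.A := hC.testI_lap_A' hf

/-- smooth functions of test functions -/
theorem testI_comp (hf : f ∈ C.TestI) (Φ : ℝ → ℝ) (hΦ : ContDiff ℝ 3 Φ) (h0 : Φ 0 = 0) :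
    ∃ g ∈ C.TestI, (∀ᵐ x ∂m, g x = Φ (f x)) ∧
      (∀ h ∈ C.W, ∀ᵐ x ∂m, C.Γ g h x = deriv Φ (f x) * C.Γ f h x) ∧
      ∀ᵐ x ∂m, C.lap g x = deriv Φ (f x) * C.lap f x + deriv (deriv Φ) (f x) * C.Γ f f x := by
  have hD := hC.toIsDir
  have hΦ1 : ContDiff ℝ 2 (deriv Φ) := (contDiff_succ_iff_deriv (n := 2)).1 (by
    norm_num; exact hΦ) |>.2.2
  have hΦ2 : ContDiff ℝ 1 (deriv (deriv Φ)) := (contDiff_succ_iff_deriv (n := 1)).1 (by
    norm_num; exact hΦ1) |>.2.2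
  have hΦ3 : ContDiff ℝ 0 (deriv (deriv (deriv Φ))) := (contDiff_succ_iff_deriv (n := 0)).1 (by
    norm_num; exact hΦ2) |>.2.2
  have hc0 : Continuous Φ := hΦ.continuous
  have hc1 : Continuous (deriv Φ) := hΦ1.continuous
  have hc2 : Continuous (deriv (deriv Φ)) := hΦ2.continuous
  have hc3 : Continuous (deriv (deriv (deriv Φ))) := hΦ3.continuous
  have hd0 : ∀ t, HasDerivAt Φ (deriv Φ t) t := fun t =>
    (hΦ.differentiable (by norm_num) t).hasDerivAt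
  have hd1 : ∀ t, HasDerivAt (deriv Φ) (deriv (deriv Φ) t) t := fun t =>
    (hΦ1.differentiable (by norm_num) t).hasDerivAt
  have hd2 : ∀ t, HasDerivAt (deriv (deriv Φ)) (deriv (deriv (deriv Φ)) t) t := fun t =>
    (hΦ2.differentiable (by norm_num) t).hasDerivAt
  have hA := hC.test_A hf.1
  obtain ⟨g, gA, ge, gΓ⟩ := hD.ti_comp hA hc0 hc1 hd0
  obtain ⟨b, bA, be, bΓ⟩ := hD.ti_comp hA hc1 hc2 hd1
  obtain ⟨d, dA, de, dΓ⟩ := hD.ti_comp hA hc2 hc3 hd2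
  rw [h0, zero_smul, zero_add] at ge
  have aP : AEEqFun.comp (deriv Φ) hc1 f ∈ C.AP := ⟨deriv Φ 0, by rw [be]; simpa using bA⟩
  have eP : AEEqFun.comp (deriv (deriv Φ)) hc2 f ∈ C.AP :=
    ⟨deriv (deriv Φ) 0, by rw [de]; simpa using dA⟩
  set c : ℝ := deriv Φ 0 with hc
  set a := AEEqFun.comp (deriv Φ) hc1 f with ha
  set e := AEEqFun.comp (deriv (deriv Φ)) hc2 f with he
  set L : M →ₘ[m] ℝ := C.lap f * a + C.Γ f f * e with hL
  have LA : L ∈ C.A := hD.A_add (hD.A_mul_AP (hC.testI_lap_A' hf) aP)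
    (hD.A_mul_AP (hC.Γ_mem hB hf.1 hf.1) eP)
  have L2 : MemLp L 2 m := hC.memLp _ LA.1
  have hfl := hC.test_isLap hf.1
  have hLap : C.IsLap g L := by
    refine ⟨gA.1, L2, fun k hk => ?_⟩
    change I (C.Γ g k) = -I (L * k)
    suffices H : I (C.Γ g k) + I (L * k) = 0 by linarith
    refine hD.ext_A gA.1 L2 (fun k hk => ?_) hk
    have m1 := hD.Γ_mem1 hA.1 hk.1
    have m2 := mem_mul_22 hfl.2.1 (hC.memLp _ hk.1)
    have bk := hD.mul_mem_A bA hk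
    have m3 := hD.Γ_mem1 hA.1 bk.1
    have m4 := mem_mul_22 hfl.2.1 (hC.memLp _ bk.1)
    have e1 : I (C.Γ f k) = -I (C.lap f * k) := hfl.2.2 _ hk.1
    have e2 : I (C.Γ f (b * k)) = -I (C.lap f * (b * k)) := hfl.2.2 _ bk.1
    have e3 : C.Γ f (b * k) = b * C.Γ f k + k * (e * C.Γ f f) := by
      rw [hD.Γ_mul_right bA hk hA.1, hC.symm _ hA.1 _ bA.1, bΓ _ hA.1]
    have e4 : C.Γ g k + L * k = c • (C.Γ f k + C.lap f * k)
        + (C.Γ f (b * k) + C.lap f * (b * k)) := by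
      rw [gΓ _ hk.1, e3, hL, be]
      algebra
    rw [← I_add (hD.Γ_mem1 gA.1 hk.1) (mem_mul_22 L2 (hC.memLp _ hk.1)), e4,
      I_add (mem_smul _ (mem_add m1 m2)) (mem_add m3 m4), I_smul, I_add m1 m2, I_add m3 m4,
      e1, e2]
    ring
  have hlap : C.lap g = L := hD.lap_eq hLap
  have hΓgg : MemLp (C.Γ g g) ∞ m := by
    rw [gΓ _ gA.1, hC.symm _ hA.1 _ gA.1, gΓ _ hA.1]
    exact mem_mul_top (IsDir.AP_top aP) (mem_mul_top (IsDir.AP_top aP) (hC.test_Γ_top hf.1))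
  refine ⟨g, ⟨hC.mem_test_iff.2 ⟨gA.1, gA.2, hΓgg, L, hLap, LA.1⟩, by rw [hlap]; exact LA.2⟩,
    ?_, ?_, ?_⟩
  · filter_upwards [AEEqFun.coeFn_comp _ hc0 f] with x a1
    rw [← ge, a1, Function.comp_apply]
  · intro k hk
    rw [gΓ _ hk]
    filter_upwards [mul_ae a (C.Γ f k), AEEqFun.coeFn_comp _ hc1 f] with x a1 a2
    rw [a1, ha, a2, Function.comp_apply]
  · rw [hlap]
    filter_upwards [add_ae (C.lap f * a) (C.Γ f f * e), mul_ae (C.lap f) a, mul_ae (C.Γ f f) e,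
      AEEqFun.coeFn_comp _ hc1 f, AEEqFun.coeFn_comp _ hc2 f] with x a1 a2 a3 a4 a5
    rw [hL, a1, a2, a3, ha, a4, he, a5, Function.comp_apply, Function.comp_apply]
    ring

theorem testI_exp (hf : f ∈ C.TestI) (a : ℝ) :
    ∃ g ∈ C.TestI, (∀ᵐ x ∂m, g x = Real.exp (a * f x) - 1) ∧
      (∀ h ∈ C.W, C.Γ g h = a • ((1 + g) * C.Γ f h)) ∧
      C.lap g = a • ((1 + g) * C.lap f) + a ^ 2 • ((1 + g) * C.Γ f f) := by
  have hd : ∀ t, HasDerivAt (fun t : ℝ => Real.exp (a * t) - 1) (a * Real.exp (a * t)) t := by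
    intro t
    have h1 := ((hasDerivAt_id t).const_mul a).exp.sub_const 1
    simpa [mul_comm] using h1
  have hd1 : deriv (fun t : ℝ => Real.exp (a * t) - 1) = fun t => a * Real.exp (a * t) :=
    funext fun t => (hd t).deriv
  have hd2 : deriv (fun t : ℝ => a * Real.exp (a * t)) = fun t => a ^ 2 * Real.exp (a * t) := by
    funext t
    have h1 := (((hasDerivAt_id t).const_mul a).exp.const_mul a).deriv
    simp only [id, mul_one] at h1
    rw [h1]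
    ring
  obtain ⟨g, g1, g2, g3, g4⟩ := hC.testI_comp hB hf (fun t => Real.exp (a * t) - 1)
    (by fun_prop) (by simp)
  rw [hd1] at g3 g4
  rw [hd2] at g4
  refine ⟨g, g1, g2, fun k hk => ?_, ?_⟩
  · rw [eq_iff_ae]
    filter_upwards [g2, g3 k hk, smul_ae ((1 + g) * C.Γ f k) a, mul_ae (1 + g) (C.Γ f k),
      add_ae 1 g, one_ae (M := M) (m := m)] with x a1 a2 a3 a4 a5 a6
    rw [a2, a3, a4, a5, a6, a1]
    ring
  · rw [eq_iff_ae]
    filter_upwards [g2, g4, add_ae (a • ((1 + g) * C.lap f)) (a ^ 2 • ((1 + g) * C.Γ f f)),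
      smul_ae ((1 + g) * C.lap f) a, smul_ae ((1 + g) * C.Γ f f) (a ^ 2),
      mul_ae (1 + g) (C.lap f), mul_ae (1 + g) (C.Γ f f),
      add_ae 1 g, one_ae (M := M) (m := m)] with x a1 a2 a3 a4 a5 a6 a7 a8 a9
    rw [a2, a3, a4, a5, a6, a7, a8, a9, a1]
    ring

omit hC hB in
/-- a smooth function equal to `log (1 + t)` for `c < 1 + t` -/
theorem exists_log {c : ℝ} (hc : 0 < c) : ∃ Λ : ℝ → ℝ, ContDiff ℝ 3 Λ ∧
    (∀ t, c < 1 + t → Λ t = Real.log (1 + t) ∧ deriv Λ t = (1 + t)⁻¹ ∧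
      deriv (deriv Λ) t = -((1 + t) ^ 2)⁻¹) := by
  set s : ℝ → ℝ := fun t => Real.smoothTransition ((1 + t - c / 2) / (c / 2)) with hs
  set θ : ℝ → ℝ := fun t => s t * (1 + t) + (1 - s t) * c with hθ
  have hsC : ContDiff ℝ 3 s := Real.smoothTransition.contDiff.comp (by fun_prop)
  have hθC : ContDiff ℝ 3 θ := by
    refine (hsC.mul (by fun_prop)).add ((contDiff_const.sub hsC).mul contDiff_const)
  have hpos : ∀ t, 0 < θ t := by
    intro t
    have s0 : 0 ≤ s t := Real.smoothTransition.nonneg _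
    have s1 : s t ≤ 1 := Real.smoothTransition.le_one _
    rcases le_or_gt (1 + t) (c / 2) with ht | ht
    · have : s t = 0 := Real.smoothTransition.zero_of_nonpos
        (div_nonpos_of_nonpos_of_nonneg (by linarith) (by positivity))
      simp only [hθ, this]
      linarith
    · have h1 : c / 2 ≤ θ t := by
        simp only [hθ]
        nlinarith
      linarith
  have heq : ∀ t, c < 1 + t → θ t = 1 + t := by
    intro t ht
    have : s t = 1 := Real.smoothTransition.one_of_one_le (by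
      rw [le_div_iff₀ (by positivity)]; linarith)
    simp only [hθ, this]
    ring
  refine ⟨fun t => Real.log (θ t), hθC.log fun t => (hpos t).ne', fun t ht => ?_⟩
  have hev : ∀ t, c < 1 + t → (fun t => Real.log (θ t)) =ᶠ[𝓝 t] fun t => Real.log (1 + t) := by
    intro t ht
    filter_upwards [(isOpen_lt continuous_const (continuous_const.add continuous_id)).mem_nhds
      (show c < 1 + id t from ht)] with y hy
    rw [heq y hy]
  have hd1 : ∀ t, c < 1 + t → deriv (fun t => Real.log (θ t)) t = (1 + t)⁻¹ := by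
    intro t ht
    rw [(hev t ht).deriv_eq]
    have h1 : HasDerivAt (fun t : ℝ => Real.log (1 + t)) (1 / (1 + t)) t :=
      ((hasDerivAt_id t).const_add 1).log (by simp only [id]; linarith)
    rw [h1.deriv, one_div]
  refine ⟨by simp only [heq t ht], hd1 t ht, ?_⟩
  have hev2 : deriv (fun t => Real.log (θ t)) =ᶠ[𝓝 t] fun t => (1 + t)⁻¹ := by
    filter_upwards [(isOpen_lt continuous_const (continuous_const.add continuous_id)).mem_nhds
      (show c < 1 + id t from ht)] with y hy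
    exact hd1 y hy
  rw [hev2.deriv_eq]
  have h1 : HasDerivAt (fun t : ℝ => (1 + t)⁻¹) (-1 / (1 + t) ^ 2) t :=
    ((hasDerivAt_id t).const_add 1).inv (by simp only [id]; linarith)
  rw [h1.deriv, neg_div, one_div]

theorem testI_log (hg : g ∈ C.TestI) {c : ℝ} (hc : 0 < c) (hgc : ∀ᵐ x ∂m, c ≤ 1 + g x) (a : ℝ) :
    ∃ f ∈ C.TestI, (∀ᵐ x ∂m, f x = a * Real.log (1 + g x)) ∧
      (∀ h ∈ C.W, (1 + g) * C.Γ f h = a • C.Γ g h) ∧
      (1 + g) ^ 2 * C.lap f = a • ((1 + g) * C.lap g - C.Γ g g) := by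
  set c0 : ℝ := min (c / 2) (1 / 2) with hc0
  have hc0p : 0 < c0 := lt_min (by positivity) (by norm_num)
  have hc0c : c0 < c := (min_le_left _ _).trans_lt (by linarith)
  have hc01 : c0 < 1 + 0 := (min_le_right _ _).trans_lt (by norm_num)
  obtain ⟨Λ, hΛ, hΛ'⟩ := exists_log hc0p
  have d1 : deriv (fun t => a * Λ t) = fun t => a * deriv Λ t := by
    funext t
    exact deriv_const_mul a (hΛ.differentiable (by norm_num) t)
  have hΛ1 : ContDiff ℝ 2 (deriv Λ) := (contDiff_succ_iff_deriv (n := 2)).1 (by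
    norm_num; exact hΛ) |>.2.2
  have d2 : deriv (fun t => a * deriv Λ t) = fun t => a * deriv (deriv Λ) t := by
    funext t
    exact deriv_const_mul a (hΛ1.differentiable (by norm_num) t)
  obtain ⟨f, f1, f2, f3, f4⟩ := hC.testI_comp hB hg (fun t => a * Λ t)
    (contDiff_const.mul hΛ) (by rw [(hΛ' 0 hc01).1]; simp)
  rw [d1] at f3 f4
  rw [d2] at f4
  refine ⟨f, f1, ?_, fun k hk => ?_, ?_⟩
  · filter_upwards [f2, hgc] with x a1 a2
    rw [a1, (hΛ' _ (hc0c.trans_le a2)).1]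
  · rw [eq_iff_ae]
    filter_upwards [f3 k hk, hgc, smul_ae (C.Γ g k) a, mul_ae (1 + g) (C.Γ f k), add_ae 1 g,
      one_ae (M := M) (m := m)] with x a1 a2 a3 a4 a5 a6
    have hx : (1 + g x) ≠ 0 := by linarith
    rw [a3, a4, a5, a6, a1, (hΛ' _ (hc0c.trans_le a2)).2.1]
    field_simp
  · rw [eq_iff_ae]
    filter_upwards [f4, hgc, smul_ae ((1 + g) * C.lap g - C.Γ g g) a,
      sub_ae ((1 + g) * C.lap g) (C.Γ g g), mul_ae (1 + g) (C.lap g),
      mul_ae ((1 + g) ^ 2) (C.lap f), sq_ae (1 + g), add_ae 1 g,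
      one_ae (M := M) (m := m)] with x a1 a2 a3 a4 a5 a6 a7 a8 a9
    have hx : (1 + g x) ≠ 0 := by linarith
    rw [a6, a7, a3, a4, a5, a8, a9, a1, (hΛ' _ (hc0c.trans_le a2)).2.1,
      (hΛ' _ (hc0c.trans_le a2)).2.2]
    field_simp
    ring

theorem testI_J [SigmaFinite m] {lam : ℝ} (hl : 0 < lam) (hl2 : 0 < 1 + 2 * lam * κ)
    (hf : f ∈ C.A) (hf' : MemLp (C.Γ f f) ∞ m) : C.J lam f ∈ C.TestI := by
  have h1 := hC.J_test hB hl hl2 hf hf'
  refine ⟨h1, ?_⟩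
  rw [hC.toIsDir.lap_eq (hC.toIsDir.J_isLap hl (hC.memLp _ hf.1))]
  exact mem_smul _ (mem_sub (hC.test_A h1).2 hf.2)

omit hB in
theorem lap_J' {lam : ℝ} (hl : 0 < lam) (hf : f ∈ C.Test) :
    C.lap (C.J lam f) = C.J lam (C.lap f) := by
  have hD := hC.toIsDir
  have hA := hC.test_A hf
  have hf2 := hC.memLp _ hA.1
  have hL := hC.test_isLap hf
  have h1 : C.J lam (f - lam • C.lap f) = f := by
    refine hD.J_eq hl ⟨hA.1, fun k hk => ?_⟩
    have hk2 := hC.memLp _ hk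
    have e1 : I (C.Γ f k) = -I (C.lap f * k) := hL.2.2 _ hk
    have e2 : (f - lam • C.lap f) * k = f * k - lam • (C.lap f * k) := by algebra
    rw [e2, I_sub (mem_mul_22 hf2 hk2) (mem_smul _ (mem_mul_22 hL.2.1 hk2)), I_smul, e1]
    ring
  rw [hD.J_sub hl hf2 (mem_smul _ hL.2.1), hD.J_smul hl _ hL.2.1] at h1
  rw [hD.lap_eq (hD.J_isLap hl hf2)]
  have h2 : C.J lam f - f = lam • C.J lam (C.lap f) := by
    rw [sub_eq_iff_eq_add] at h1 ⊢
    rw [h1, add_comm]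
  rw [h2, smul_smul, inv_mul_cancel₀ hl.ne', one_smul]

theorem lap_J {lam : ℝ} (hl : 0 < lam) (hf : f ∈ C.Test) :
    C.lap (C.J lam f) = C.J lam (C.lap f) := hC.lap_J' hl hf

theorem testI_dense [SigmaFinite m] (hf : f ∈ C.W) {ε : ℝ} (hε : 0 < ε) :
    ∃ g ∈ C.TestI, C.nrm2 (g - f) < ε := by
  have hD := hC.toIsDir
  obtain ⟨g, hg1, hg2, hg3, hg4⟩ := hC.dense_lip f hf (ε / 4) (by positivity)
  obtain ⟨N, hN⟩ := exists_small κ
  have h1 := hD.J_tendsto_W hg1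
  obtain ⟨n, hn1, hn2⟩ := ((h1.eventually (gt_mem_nhds (show (0 : ℝ) < ε / 4 by positivity))).and
    (eventually_ge_atTop N)).exists
  have hl : (0 : ℝ) < ((n : ℝ) + 1)⁻¹ := by positivity
  have hJ := hC.testI_J hB hl (hN n hn2) ⟨hg1, hg2⟩ hg3
  refine ⟨_, hJ, ?_⟩
  have hJW := (hC.test_A hJ.1).1
  have h2 := hD.nrm2_add_le (hD.sub_mem hJW hg1) (hD.sub_mem hg1 hf)
  have e : C.J ((n : ℝ) + 1)⁻¹ g - g + (g - f) = C.J ((n : ℝ) + 1)⁻¹ g - f := by abel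
  rw [e, hD.nrm2_sub_comm hg1 hf] at h2
  linarith

end IsGamma

end Vale.Agent.P233
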