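import Vale.Agent.P233.AB.Ac3
import Vale.Agent.P233.AB.HA2
import Vale.Agent.P233.AB.TI

open MeasureTheory Filter Topology
open scoped ENNReal NNReal

namespace Vale.Agent.P233

variable {M : Type*} [MeasurableSpace M] {m : Measure M} {C : Calc m}

namespace IsGamma

variable (hC : IsGamma C) {κ : ℝ} (hB : C.BEi κ)
variable {u v w φ G r f a b e h F R1 R2 : M →ₘ[m] ℝ}

section first
include hC

theorem Γ_smul_self (c : ℝ) (ha : a ∈ C.W) : C.Γ (c • a) (c • a) = c ^ 2 • C.Γ a a := by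
  rw [hC.smul_left c a ha _ (hC.smul_mem c a ha), hC.Γ_smul_right c ha ha, smul_smul, sq]

theorem Γ_add_le_ae (ha : a ∈ C.W) (hb : b ∈ C.W) :
    ∀ᵐ x ∂m, C.Γ (a + b) (a + b) x ≤ 2 * C.Γ a a x + 2 * C.Γ b b x := by
  have h2 := hC.Γ_expand 1 ha hb
  have h3 := hC.Γ_expand_ae (-1) ha hb
  rw [one_smul, mul_one, one_pow, one_smul] at h2
  filter_upwards [eq_iff_ae.1 h2, h3, add_ae (C.Γ a a + (2 : ℝ) • C.Γ a b) (C.Γ b b),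
    add_ae (C.Γ a a) ((2 : ℝ) • C.Γ a b), smul_ae (C.Γ a b) (2 : ℝ)] with x h2 h3 h4 h5 h6
  rw [h2, h4, h5, h6]
  linarith

theorem Γ_sub_le_ae (ha : a ∈ C.W) (hb : b ∈ C.W) :
    ∀ᵐ x ∂m, C.Γ (a - b) (a - b) x ≤ 2 * C.Γ a a x + 2 * C.Γ b b x := by
  have h1 := hC.Γ_add_le_ae ha (hC.smul_mem (-1) _ hb)
  have h2 := hC.Γ_smul_self (-1) hb
  have h3 : a + (-1 : ℝ) • b = a - b := by module
  rw [h3] at h1
  filter_upwards [h1, eq_iff_ae.1 h2, smul_ae (C.Γ b b) ((-1 : ℝ) ^ 2)] with x h1 h2 h4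
  rw [h2, h4] at h1
  linarith

end first

include hC hB

theorem hess_int (hb : b ∈ C.Test) (hw : w ∈ C.Test) :
    I (C.hess b w w) = (2 : ℝ)⁻¹ * I (C.lap b * C.Γ w w) - I (C.lap w * C.Γ b w) := by
  have := hC.en_cross hB hw hb
  linarith

theorem hess_add (ha : a ∈ C.Test) (hb : b ∈ C.Test) (hw : w ∈ C.Test) :
    I (C.hess (a + b) w w) = I (C.hess a w w) + I (C.hess b w w) := by
  have aA := hC.test_A ha
  have bA := hC.test_A hb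
  have wA := hC.test_A hw
  have l2 : MemLp (C.Γ w w) 2 m := hC.memLp _ (hC.Γ_mem hB hw hw).1
  have e1 : I (C.lap (a + b) * C.Γ w w) = I (C.lap a * C.Γ w w) + I (C.lap b * C.Γ w w) := by
    rw [hC.lap_add hB ha hb, add_mul, I_add (mem_mul_22 (hC.test_isLap ha).2.1 l2)
      (mem_mul_22 (hC.test_isLap hb).2.1 l2)]
  have e2 : I (C.lap w * C.Γ (a + b) w) = I (C.lap w * C.Γ a w) + I (C.lap w * C.Γ b w) := by
    rw [hC.add_left _ aA.1 _ bA.1 _ wA.1, mul_add, I_add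
      (mem_mul_22 (hC.test_isLap hw).2.1 (hC.memLp _ (hC.Γ_mem hB ha hw).1))
      (mem_mul_22 (hC.test_isLap hw).2.1 (hC.memLp _ (hC.Γ_mem hB hb hw).1))]
  rw [hC.hess_int hB (hC.test_add hB ha hb) hw, hC.hess_int hB ha hw, hC.hess_int hB hb hw, e1, e2]
  ring

theorem hess_smul (c : ℝ) (hb : b ∈ C.Test) (hw : w ∈ C.Test) :
    I (C.hess (c • b) w w) = c * I (C.hess b w w) := by
  have bA := hC.test_A hb
  have wA := hC.test_A hw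
  rw [hC.hess_int hB (hC.test_smul hB c hb) hw, hC.hess_int hB hb hw, hC.lap_smul hB c hb,
    hC.smul_left c _ bA.1 _ wA.1, smul_mul_assoc, mul_smul_comm, I_smul, I_smul]
  ring

theorem testI_bdd (hf : f ∈ C.TestI) : ∃ K : ℝ, 0 ≤ K ∧ (∀ᵐ x ∂m, |C.lap f x| ≤ K) ∧
    ∀ᵐ x ∂m, C.Γ f f x ≤ K := by
  obtain ⟨K1, h1⟩ := mem_top_iff.1 hf.2
  obtain ⟨K2, h2⟩ := mem_top_iff.1 (hC.test_Γ_top hf.1)
  refine ⟨|K1| + |K2|, by positivity, ?_, ?_⟩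
  · filter_upwards [h1] with x h
    linarith [le_abs_self K1, abs_nonneg K2]
  · filter_upwards [h2] with x h
    linarith [le_abs_self K2, abs_nonneg K1, le_abs_self (C.Γ f f x)]

theorem pot_lap (he : e ∈ C.Test) (hh : h ∈ C.Test) (hG : G ∈ C.Test) (ε t : ℝ) :
    C.lap (e + ε • h - t • G) = C.lap e + ε • C.lap h - t • C.lap G := by
  rw [hC.en_lap_sub hB (hC.test_add hB he (hC.test_smul hB ε hh)) (hC.test_smul hB t hG),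
    hC.lap_add hB he (hC.test_smul hB ε hh), hC.lap_smul hB ε hh, hC.lap_smul hB t hG]

theorem pot_b1 (he : e ∈ C.Test) (hh : h ∈ C.Test) (hG : G ∈ C.Test) {Ke Kh KG ε t : ℝ}
    (le1 : ∀ᵐ x ∂m, |C.lap e x| ≤ Ke) (lh1 : ∀ᵐ x ∂m, |C.lap h x| ≤ Kh)
    (lG1 : ∀ᵐ x ∂m, |C.lap G x| ≤ KG) (ht : 0 ≤ t) (htε : t ≤ ε) (hε : ε ≤ 1) :
    ∀ᵐ x ∂m, |C.lap (e + ε • h - t • G) x| ≤ Ke + Kh + KG := by
  have hε0 : 0 ≤ ε := ht.trans htε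
  filter_upwards [le1, lh1, lG1, eq_iff_ae.1 (hC.pot_lap hB he hh hG ε t),
    sub_ae (C.lap e + ε • C.lap h) (t • C.lap G),
    add_ae (C.lap e) (ε • C.lap h), smul_ae (C.lap h) ε, smul_ae (C.lap G) t]
    with x q1 q2 q3 q4 q5 q6 q7 q8
  rw [q4, q5, q6, q7, q8]
  have r1 : |ε * C.lap h x| ≤ Kh := by
    rw [abs_mul, abs_of_nonneg hε0]
    nlinarith [abs_nonneg (C.lap h x)]
  have r2 : |t * C.lap G x| ≤ KG := by
    rw [abs_mul, abs_of_nonneg ht]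
    nlinarith [abs_nonneg (C.lap G x)]
  have r3 := abs_sub (C.lap e x + ε * C.lap h x) (t * C.lap G x)
  have r4 := abs_add_le (C.lap e x) (ε * C.lap h x)
  linarith

theorem pot_b2 (he : e ∈ C.Test) (hh : h ∈ C.Test) (hG : G ∈ C.Test) {Ke Kh KG ε t : ℝ}
    (ge1 : ∀ᵐ x ∂m, C.Γ e e x ≤ Ke) (gh1 : ∀ᵐ x ∂m, C.Γ h h x ≤ Kh)
    (gG1 : ∀ᵐ x ∂m, C.Γ G G x ≤ KG) (ht : 0 ≤ t) (htε : t ≤ ε) (hε : ε ≤ 1) :
    ∀ᵐ x ∂m, C.Γ (e + ε • h - t • G) (e + ε • h - t • G) x ≤ 4 * (Ke + Kh + KG) := by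
  have hε0 : 0 ≤ ε := ht.trans htε
  have eA := hC.test_A he
  have hA := hC.test_A hh
  have GA := hC.test_A hG
  filter_upwards [hC.Γ_sub_le_ae (hC.add_mem _ eA.1 _ (hC.smul_mem ε _ hA.1))
      (hC.smul_mem t _ GA.1),
    hC.Γ_add_le_ae eA.1 (hC.smul_mem ε _ hA.1), eq_iff_ae.1 (hC.Γ_smul_self t GA.1),
    eq_iff_ae.1 (hC.Γ_smul_self ε hA.1), smul_ae (C.Γ G G) (t ^ 2), smul_ae (C.Γ h h) (ε ^ 2),
    ge1, gh1, gG1, hC.Γ_nonneg_ae hA.1, hC.Γ_nonneg_ae GA.1, hC.Γ_nonneg_ae eA.1]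
    with x q1 q2 q3 q4 q5 q6 q7 q8 q9 q10 q11 q12
  rw [q3, q5] at q1
  rw [q4, q6] at q2
  have r1 : ε ^ 2 * C.Γ h h x ≤ Kh := by
    have : ε ^ 2 ≤ 1 := by nlinarith
    nlinarith
  have r2 : t ^ 2 * C.Γ G G x ≤ KG := by
    have : t ^ 2 ≤ 1 := by nlinarith
    nlinarith
  linarith

theorem pot_b3 (he : e ∈ C.Test) (hh : h ∈ C.Test) (hG : G ∈ C.Test) {ε t : ℝ}
    (ht : 0 ≤ t) (htε : t ≤ ε) (hε : ε ≤ 1) :
    √(I (C.Γ (e + ε • h - t • G) (e + ε • h - t • G)))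
      ≤ √(I (C.Γ e e)) + √(I (C.Γ h h)) + √(I (C.Γ G G)) := by
  have hε0 : 0 ≤ ε := ht.trans htε
  have eA := hC.test_A he
  have hA := hC.test_A hh
  have GA := hC.test_A hG
  have q1 := hC.sE_sub_le (hC.add_mem _ eA.1 _ (hC.smul_mem ε _ hA.1)) (hC.smul_mem t _ GA.1)
  have q2 := hC.sqrt_E_add_le eA.1 (hC.smul_mem ε _ hA.1)
  rw [hC.sE_smul t GA.1, abs_of_nonneg ht] at q1
  rw [hC.sE_smul ε hA.1, abs_of_nonneg hε0] at q2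
  have r1 : ε * √(I (C.Γ h h)) ≤ √(I (C.Γ h h)) := by
    nlinarith [Real.sqrt_nonneg (I (C.Γ h h))]
  have r2 : t * √(I (C.Γ G G)) ≤ √(I (C.Γ G G)) := by
    nlinarith [Real.sqrt_nonneg (I (C.Γ G G))]
  linarith

theorem pot_b4 (he : e ∈ C.Test) (hh : h ∈ C.Test) (hG : G ∈ C.Test) {ε t : ℝ}
    (ht : 0 ≤ t) (htε : t ≤ ε) (hε : ε ≤ 1) :
    I (C.lap (e + ε • h - t • G) ^ 2)
      ≤ 2 * I (C.lap e ^ 2) + 4 * I (C.lap h ^ 2) + 4 * I (C.lap G ^ 2) := by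
  have hε0 : 0 ≤ ε := ht.trans htε
  rw [hC.pot_lap hB he hh hG ε t]
  have m1 := (hC.test_isLap he).2.1
  have m2 := (hC.test_isLap hh).2.1
  have m3 := (hC.test_isLap hG).2.1
  have q0 : C.lap e + ε • C.lap h - t • C.lap G = C.lap e + (ε • C.lap h + (-t) • C.lap G) := by
    module
  rw [q0]
  have q1 := I_sq_add_le m1 (mem_add (mem_smul ε m2) (mem_smul (-t) m3))
  have q2 := I_sq_add_le (mem_smul ε m2) (mem_smul (-t) m3)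
  have q3 : I ((ε • C.lap h) ^ 2) = ε ^ 2 * I (C.lap h ^ 2) := by
    rw [← I_smul, smul_pow]
  have q4 : I (((-t) • C.lap G) ^ 2) = t ^ 2 * I (C.lap G ^ 2) := by
    rw [← I_smul, smul_pow, neg_sq]
  rw [q3, q4] at q2
  have n1 := I_sq_nonneg (C.lap h)
  have n2 := I_sq_nonneg (C.lap G)
  have r1 : ε ^ 2 * I (C.lap h ^ 2) ≤ I (C.lap h ^ 2) := by
    have : ε ^ 2 ≤ 1 := by nlinarith
    nlinarith
  have r2 : t ^ 2 * I (C.lap G ^ 2) ≤ I (C.lap G ^ 2) := by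
    have : t ^ 2 ≤ 1 := by nlinarith
    nlinarith
  linarith

theorem pot_b5 (he : e ∈ C.Test) (hh : h ∈ C.Test) (hG : G ∈ C.Test) {ε t : ℝ}
    (ht : 0 ≤ t) (htε : t ≤ ε) (hε : ε ≤ 1) :
    √(I (C.Γ (G - (2 : ℝ)⁻¹ • C.Γ (e + ε • h - t • G) (e + ε • h - t • G))
        (G - (2 : ℝ)⁻¹ • C.Γ (e + ε • h - t • G) (e + ε • h - t • G))))
      ≤ √(I (C.Γ (G - (2 : ℝ)⁻¹ • C.Γ e e) (G - (2 : ℝ)⁻¹ • C.Γ e e)))
        + (√(I (C.Γ (C.Γ e h) (C.Γ e h))) + √(I (C.Γ (C.Γ e G) (C.Γ e G)))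
    + √(I (C.Γ (C.Γ h h) (C.Γ h h))) + √(I (C.Γ (C.Γ h G) (C.Γ h G)))
    + √(I (C.Γ (C.Γ G G) (C.Γ G G)))) * ε := by
  have hε0 : 0 ≤ ε := ht.trans htε
  have ht1 : t ≤ 1 := htε.trans hε
  have eA := hC.test_A he
  have hA := hC.test_A hh
  have GA := hC.test_A hG
  have geh := (hC.Γ_mem hB he hh).1
  have geG := (hC.Γ_mem hB he hG).1
  have gee := (hC.Γ_mem hB he he).1
  have ghh := (hC.Γ_mem hB hh hh).1
  have ghG := (hC.Γ_mem hB hh hG).1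
  have gGG := (hC.Γ_mem hB hG hG).1
  have q1 : C.Γ (e + ε • h - t • G) (e + ε • h - t • G)
      = C.Γ e e + (2 * ε) • C.Γ e h - (2 * t) • C.Γ e G + ε ^ 2 • C.Γ h h
        - (2 * ε * t) • C.Γ h G + t ^ 2 • C.Γ G G := by
    have ehA := hC.add_mem _ eA.1 _ (hC.smul_mem ε _ hA.1)
    have s1 := hC.Γ_expand (-t) ehA GA.1
    have s2 := hC.Γ_expand ε eA.1 hA.1
    have s3 : e + ε • h + (-t) • G = e + ε • h - t • G := by module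
    rw [s3] at s1
    rw [s1, s2, hC.add_left _ eA.1 _ (hC.smul_mem ε _ hA.1) _ GA.1,
      hC.smul_left ε _ hA.1 _ GA.1]
    module
  have q2 : G - (2 : ℝ)⁻¹ • C.Γ (e + ε • h - t • G) (e + ε • h - t • G)
      = (G - (2 : ℝ)⁻¹ • C.Γ e e) - ε • C.Γ e h + t • C.Γ e G - (ε ^ 2 / 2) • C.Γ h h
        + (ε * t) • C.Γ h G - (t ^ 2 / 2) • C.Γ G G := by
    rw [q1]; module
  rw [q2]
  have z0 := hC.sub_mem GA.1 (hC.smul_mem (2 : ℝ)⁻¹ _ gee)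
  have z1 := hC.sub_mem z0 (hC.smul_mem ε _ geh)
  have z2 := hC.add_mem _ z1 _ (hC.smul_mem t _ geG)
  have z3 := hC.sub_mem z2 (hC.smul_mem (ε ^ 2 / 2) _ ghh)
  have z4 := hC.add_mem _ z3 _ (hC.smul_mem (ε * t) _ ghG)
  have y1 := hC.sE_sub_le z4 (hC.smul_mem (t ^ 2 / 2) _ gGG)
  have y2 := hC.sqrt_E_add_le z3 (hC.smul_mem (ε * t) _ ghG)
  have y3 := hC.sE_sub_le z2 (hC.smul_mem (ε ^ 2 / 2) _ ghh)
  have y4 := hC.sqrt_E_add_le z1 (hC.smul_mem t _ geG)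
  have y5 := hC.sE_sub_le z0 (hC.smul_mem ε _ geh)
  rw [hC.sE_smul _ gGG, abs_of_nonneg (by positivity)] at y1
  rw [hC.sE_smul _ ghG, abs_of_nonneg (by positivity)] at y2
  rw [hC.sE_smul _ ghh, abs_of_nonneg (by positivity)] at y3
  rw [hC.sE_smul _ geG, abs_of_nonneg ht] at y4
  rw [hC.sE_smul _ geh, abs_of_nonneg hε0] at y5
  have w2 := Real.sqrt_nonneg (I (C.Γ (C.Γ e G) (C.Γ e G)))
  have w3 := Real.sqrt_nonneg (I (C.Γ (C.Γ h h) (C.Γ h h)))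
  have w4 := Real.sqrt_nonneg (I (C.Γ (C.Γ h G) (C.Γ h G)))
  have w5 := Real.sqrt_nonneg (I (C.Γ (C.Γ G G) (C.Γ G G)))
  have x1 : t ^ 2 / 2 * √(I (C.Γ (C.Γ G G) (C.Γ G G))) ≤ ε * √(I (C.Γ (C.Γ G G) (C.Γ G G))) :=
    mul_le_mul_of_nonneg_right (by nlinarith) w5
  have x2 : ε * t * √(I (C.Γ (C.Γ h G) (C.Γ h G))) ≤ ε * √(I (C.Γ (C.Γ h G) (C.Γ h G))) :=
    mul_le_mul_of_nonneg_right (by nlinarith) w4
  have x3 : ε ^ 2 / 2 * √(I (C.Γ (C.Γ h h) (C.Γ h h))) ≤ ε * √(I (C.Γ (C.Γ h h) (C.Γ h h))) :=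
    mul_le_mul_of_nonneg_right (by nlinarith) w3
  have x4 : t * √(I (C.Γ (C.Γ e G) (C.Γ e G))) ≤ ε * √(I (C.Γ (C.Γ e G) (C.Γ e G))) :=
    mul_le_mul_of_nonneg_right htε w2
  linarith

/-- all bounds for the potentials `e + ε h - t G` -/
theorem pot_bounds (he : e ∈ C.TestI) (hh : h ∈ C.TestI) (hG : G ∈ C.TestI) :
    ∃ K : ℝ, 0 ≤ K ∧ ∀ ε t : ℝ, 0 ≤ t → t ≤ ε → ε ≤ 1 →
      (∀ᵐ x ∂m, |C.lap (e + ε • h - t • G) x| ≤ K) ∧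
      (∀ᵐ x ∂m, C.Γ (e + ε • h - t • G) (e + ε • h - t • G) x ≤ K) ∧
      √(I (C.Γ (e + ε • h - t • G) (e + ε • h - t • G))) ≤ K ∧
      I (C.lap (e + ε • h - t • G) ^ 2) ≤ K ∧
      √(I (C.Γ (G - (2 : ℝ)⁻¹ • C.Γ (e + ε • h - t • G) (e + ε • h - t • G))
        (G - (2 : ℝ)⁻¹ • C.Γ (e + ε • h - t • G) (e + ε • h - t • G))))
        ≤ √(I (C.Γ (G - (2 : ℝ)⁻¹ • C.Γ e e) (G - (2 : ℝ)⁻¹ • C.Γ e e))) + K * ε := by
  obtain ⟨Ke, hKe, le1, ge1⟩ := hC.testI_bdd hB he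
  obtain ⟨Kh, hKh, lh1, gh1⟩ := hC.testI_bdd hB hh
  obtain ⟨KG, hKG, lG1, gG1⟩ := hC.testI_bdd hB hG
  obtain ⟨K1, hK1⟩ : ∃ K, K = Ke + Kh + KG := ⟨_, rfl⟩
  obtain ⟨K3, hK3⟩ : ∃ K, K = √(I (C.Γ e e)) + √(I (C.Γ h h)) + √(I (C.Γ G G)) := ⟨_, rfl⟩
  obtain ⟨K4, hK4⟩ : ∃ K, K = 2 * I (C.lap e ^ 2) + 4 * I (C.lap h ^ 2) + 4 * I (C.lap G ^ 2) :=
    ⟨_, rfl⟩
  obtain ⟨K5, hK5⟩ : ∃ K, K = √(I (C.Γ (C.Γ e h) (C.Γ e h))) + √(I (C.Γ (C.Γ e G) (C.Γ e G)))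
    + √(I (C.Γ (C.Γ h h) (C.Γ h h))) + √(I (C.Γ (C.Γ h G) (C.Γ h G)))
    + √(I (C.Γ (C.Γ G G) (C.Γ G G))) := ⟨_, rfl⟩
  have h3 : 0 ≤ K3 := by rw [hK3]; positivity
  have h4 : 0 ≤ K4 := by
    have q1 := I_sq_nonneg (C.lap e)
    have q2 := I_sq_nonneg (C.lap h)
    have q3 := I_sq_nonneg (C.lap G)
    rw [hK4]; positivity
  have h5 : 0 ≤ K5 := by rw [hK5]; positivity
  have h1 : 0 ≤ K1 := by rw [hK1]; positivity
  refine ⟨5 * K1 + K3 + K4 + K5, by positivity, fun ε t ht htε hε => ⟨?_, ?_, ?_, ?_, ?_⟩⟩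
  · filter_upwards [hC.pot_b1 hB he.1 hh.1 hG.1 le1 lh1 lG1 ht htε hε] with x hx
    rw [← hK1] at hx
    linarith
  · filter_upwards [hC.pot_b2 hB he.1 hh.1 hG.1 ge1 gh1 gG1 ht htε hε] with x hx
    rw [← hK1] at hx
    linarith
  · have hx := hC.pot_b3 hB he.1 hh.1 hG.1 ht htε hε
    rw [← hK3] at hx
    linarith
  · have hx := hC.pot_b4 hB he.1 hh.1 hG.1 ht htε hε
    rw [← hK4] at hx
    linarith
  · have hx := hC.pot_b5 hB he.1 hh.1 hG.1 ht htε hε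
    rw [← hK5] at hx
    have x6 : K5 * ε ≤ (5 * K1 + K3 + K4 + K5) * ε :=
      mul_le_mul_of_nonneg_right (by linarith) (ht.trans htε)
    linarith

end IsGamma

end Vale.Agent.P233
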