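import Vale.Agent.P233.AB.Ac4

open MeasureTheory Filter Topology
open scoped ENNReal NNReal

namespace Vale.Agent.P233

variable {M : Type*} [MeasurableSpace M] {m : Measure M} {C : Calc m}

theorem ac_exp_bound {y : ℝ} (hy : y ≤ 11 / 5) : Real.exp y ≤ 93 / 10 := by
  have h1 : Real.exp y ≤ Real.exp (11 / 5) := Real.exp_le_exp.2 hy
  have h2 : Real.exp (11 / 5) = Real.exp 1 * Real.exp 1 * Real.exp (1 / 5) := by
    rw [← Real.exp_add, ← Real.exp_add]; norm_num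
  have h3 : Real.exp (1 / 5) ≤ 5 / 4 := by
    have h := Real.add_one_le_exp (-(1 / 5) : ℝ)
    have h5 : Real.exp (1 / 5) * Real.exp (-(1 / 5) : ℝ) = 1 := by
      rw [← Real.exp_add]; norm_num
    have h6 : 0 < Real.exp (1 / 5) := Real.exp_pos _
    nlinarith
  have h4 := Real.exp_one_lt_d9
  have h5 : 0 < Real.exp 1 := Real.exp_pos _
  have h6 : Real.exp 1 * Real.exp 1 ≤ 2.7182818286 * 2.7182818286 := by nlinarith
  rw [h2] at h1
  have h7 : 0 < Real.exp (1 / 5) := Real.exp_pos _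
  nlinarith

theorem Calc.VHJ.mono_D {σ τ L Λ D D' : ℝ} {n : ℕ} {U : ℕ → M →ₘ[m] ℝ}
    (hU : C.VHJ σ τ L Λ D n U) (h : D ≤ D') : C.VHJ σ τ L Λ D' n U where
  test := hU.test
  grad := hU.grad
  lap_le := hU.lap_le
  lap_abs k hk := (hU.lap_abs k hk).mono fun x hx => hx.trans h
  step_le := hU.step_le
  step_ge k hk := by
    obtain ⟨R, h1, h2, h3⟩ := hU.step_ge k hk
    have h4 : D * τ ^ 2 ≤ D' * τ ^ 2 := mul_le_mul_of_nonneg_right h (sq_nonneg _)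
    exact ⟨R, h1, h2.trans h4, h3.mono fun x hx => ⟨hx.1, hx.2.1.trans h4, hx.2.2⟩⟩

namespace IsGamma

variable (hC : IsGamma C) {κ : ℝ} (hB : C.BEi κ)
variable {e h G : M →ₘ[m] ℝ}

include hC hB

/-- the Hessian of the potentials, tested with fields of bounded length -/
theorem pot_hess [SigmaFinite m] (he : e ∈ C.Test) (hh : h ∈ C.Test) (hG : G ∈ C.Test)
    {δ Lw : ℝ} (hδ : 0 < δ) :
    ∃ Λ : ℝ, 0 ≤ Λ ∧ ∀ ε t : ℝ, 0 ≤ t → t ≤ ε → ε ≤ 1 → ∀ w ∈ C.Test,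
      (∀ᵐ x ∂m, C.Γ w w x ≤ Lw) → |I (C.hess (e + ε • h - t • G) w w)|
        ≤ Λ * I (C.Γ w w) + δ / 10 * √(I (C.Γ w w)) := by
  obtain ⟨δ', hδ'⟩ : ∃ d, d = δ / (30 * (√Lw + 1)) := ⟨_, rfl⟩
  have hs := Real.sqrt_nonneg Lw
  have hδ'0 : 0 < δ' := by rw [hδ']; positivity
  have hδ'1 : 3 * δ' * √Lw ≤ δ / 10 := by
    have : δ' * (30 * (√Lw + 1)) = δ := by rw [hδ']; field_simp
    nlinarith
  obtain ⟨Λe, hΛe, qe⟩ := hC.hess_approx hB he hδ'0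
  obtain ⟨Λh, hΛh, qh⟩ := hC.hess_approx hB hh hδ'0
  obtain ⟨ΛG, hΛG, qG⟩ := hC.hess_approx hB hG hδ'0
  refine ⟨Λe + Λh + ΛG, by positivity, fun ε t ht htε hε w hw hwL => ?_⟩
  have hε0 : 0 ≤ ε := ht.trans htε
  have ht1 : t ≤ 1 := htε.trans hε
  have wA := hC.test_A hw
  have hX : 0 ≤ I (C.Γ w w) := hC.E_nonneg wA.1
  have e1 : e + ε • h - t • G = e + (ε • h + (-t) • G) := by module
  have e2 : I (C.hess (e + ε • h - t • G) w w)
      = I (C.hess e w w) + (ε * I (C.hess h w w) + (-t) * I (C.hess G w w)) := by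
    rw [e1, hC.hess_add hB he (hC.test_add hB (hC.test_smul hB ε hh) (hC.test_smul hB (-t) hG)) hw,
      hC.hess_add hB (hC.test_smul hB ε hh) (hC.test_smul hB (-t) hG) hw, hC.hess_smul hB ε hh hw,
      hC.hess_smul hB (-t) hG hw]
  have e3 : √(I (C.Γ w w ^ 2)) ≤ √Lw * √(I (C.Γ w w)) := by
    have h1 : I (C.Γ w w ^ 2) ≤ Lw * I (C.Γ w w) := by
      rw [← I_smul]
      refine I_mono (mem_sq (hC.memLp _ (hC.Γ_mem hB hw hw).1)) (mem_smul _ (hC.mem1 w wA.1)) ?_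
      rw [le_iff_ae]
      filter_upwards [hwL, hC.Γ_nonneg_ae wA.1, sq_ae (C.Γ w w), smul_ae (C.Γ w w) Lw]
        with x q1 q2 q3 q4
      rw [q3, q4, sq]
      exact mul_le_mul_of_nonneg_right q1 q2
    calc √(I (C.Γ w w ^ 2)) ≤ √(Lw * I (C.Γ w w)) := Real.sqrt_le_sqrt h1
      _ = √Lw * √(I (C.Γ w w)) := by rw [mul_comm, Real.sqrt_mul hX, mul_comm]
  have e4 : δ' * √(I (C.Γ w w ^ 2)) ≤ δ' * (√Lw * √(I (C.Γ w w))) :=
    mul_le_mul_of_nonneg_left e3 hδ'0.le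
  have a1 := qe w hw
  have a2 := qh w hw
  have a3 := qG w hw
  have b2 : |ε * I (C.hess h w w)| ≤ |I (C.hess h w w)| := by
    rw [abs_mul, abs_of_nonneg hε0]
    nlinarith [abs_nonneg (I (C.hess h w w))]
  have b3 : |(-t) * I (C.hess G w w)| ≤ |I (C.hess G w w)| := by
    rw [abs_mul, abs_neg, abs_of_nonneg ht]
    nlinarith [abs_nonneg (I (C.hess G w w))]
  have b4 := abs_add_le (I (C.hess e w w)) (ε * I (C.hess h w w) + (-t) * I (C.hess G w w))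
  have b5 := abs_add_le (ε * I (C.hess h w w)) ((-t) * I (C.hess G w w))
  rw [e2]
  have b6 : 3 * δ' * √Lw * √(I (C.Γ w w)) ≤ δ / 10 * √(I (C.Γ w w)) :=
    mul_le_mul_of_nonneg_right hδ'1 (Real.sqrt_nonneg _)
  have b7 : 3 * (δ' * (√Lw * √(I (C.Γ w w)))) = 3 * δ' * √Lw * √(I (C.Γ w w)) := by ring
  linarith

end IsGamma

end Vale.Agent.P233
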