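import Vale.Agent.P233.AB.Ac5

open MeasureTheory Filter Topology
open scoped ENNReal NNReal

namespace Vale.Agent.P233

variable {M : Type*} [MeasurableSpace M] {m : Measure M} {C : Calc m}

namespace IsGamma

variable (hC : IsGamma C) {κ : ℝ} (hB : C.BEi κ)
variable {e h G F R1 R2 : M →ₘ[m] ℝ}

include hC hB

/-- the energy estimate for the potentials: `‖∇(u_k - φ_k)‖₂ ≤ 4 ε δ` -/
theorem en_final [SigmaFinite m] (he : e ∈ C.TestI) (hh : h ∈ C.TestI) (hG : G ∈ C.TestI)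
    {δ L Λ : ℝ} (hδ : 0 < δ) (hL : 0 ≤ L) (hΛ : 0 ≤ Λ)
    (hGe : I (C.Γ (G - (2 : ℝ)⁻¹ • C.Γ e e) (G - (2 : ℝ)⁻¹ • C.Γ e e)) ≤ δ ^ 2) :
    ∃ ε₀ : ℝ, 0 < ε₀ ∧ ε₀ ≤ 1 ∧ ∀ ε, 0 < ε → ε ≤ ε₀ → ∃ σ₀ > 0, ∀ σ, 0 < σ → σ ≤ σ₀ →
      ∀ D : ℝ, 0 ≤ D → ∃ n₀ : ℕ, ∀ n ≥ n₀, 0 < n → ∀ U : ℕ → M →ₘ[m] ℝ,
        C.VHJ σ (ε / n) L Λ D n U → U 0 = e + ε • h →
        ∀ k ≤ n, √(I (C.Γ (U k - (e + ε • h - ((k : ℝ) * (ε / n)) • G))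
          (U k - (e + ε • h - ((k : ℝ) * (ε / n)) • G)))) ≤ 4 * ε * δ := by
  obtain ⟨K, hK, hpot⟩ := hC.pot_bounds hB he hh hG
  obtain ⟨Λh, hΛh, hhess⟩ := hC.pot_hess hB he.1 hh.1 hG.1 (Lw := 2 * (L + K)) hδ
  obtain ⟨A, hA⟩ : ∃ A, A = 2 * Λh + 2 * K + Λ := ⟨_, rfl⟩
  have hA0 : 0 ≤ A := by rw [hA]; positivity
  refine ⟨min 1 (min (δ / (10 * (K + 1))) (1 / (10 * (A + 1)))), by positivity,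
    min_le_left _ _, fun ε hε hε0 => ?_⟩
  have hε1 : ε ≤ 1 := hε0.trans (min_le_left _ _)
  have hε2 : K * ε ≤ δ / 10 := by
    have h1 : ε ≤ δ / (10 * (K + 1)) := hε0.trans ((min_le_right _ _).trans (min_le_left _ _))
    rw [le_div_iff₀ (by positivity)] at h1
    nlinarith
  have hε3 : A * ε ≤ 1 / 10 := by
    have h1 : ε ≤ 1 / (10 * (A + 1)) := hε0.trans ((min_le_right _ _).trans (min_le_right _ _))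
    rw [le_div_iff₀ (by positivity)] at h1
    nlinarith
  refine ⟨ε * δ ^ 2 / (5 * (K + 1)), by positivity, fun σ hσ hσ0 D hD => ?_⟩
  have hσ1 : ε * σ * K / 2 ≤ ε ^ 2 * δ ^ 2 / 10 := by
    rw [le_div_iff₀ (by positivity)] at hσ0
    have h1 : σ * K * 5 ≤ ε * δ ^ 2 := by nlinarith
    nlinarith
  obtain ⟨n1, hn1⟩ := exists_nat_gt (20 * (Λ + K) * D / δ ^ 2)
  refine ⟨max n1 3, fun n hn hn0 U hU hU0 k hk => ?_⟩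
  have hnR : (0 : ℝ) < n := by exact_mod_cast hn0
  have hn3 : (3 : ℝ) ≤ n := by exact_mod_cast (le_max_right _ _).trans hn
  have hnD : 2 * (Λ + K) * D * ε ^ 2 / n ≤ ε ^ 2 * δ ^ 2 / 10 := by
    have h1 : 20 * (Λ + K) * D / δ ^ 2 ≤ n :=
      hn1.le.trans (by exact_mod_cast (le_max_left _ _).trans hn)
    rw [div_le_iff₀ (by positivity)] at h1
    rw [div_le_iff₀ hnR]
    have h2 : 0 ≤ ε ^ 2 := sq_nonneg _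
    nlinarith
  have hGe' : √(I (C.Γ (G - (2 : ℝ)⁻¹ • C.Γ e e) (G - (2 : ℝ)⁻¹ • C.Γ e e))) ≤ δ :=
    Real.sqrt_le_iff.2 ⟨hδ.le, hGe⟩
  have heh : e + ε • h ∈ C.Test := hC.test_add hB he.1 (hC.test_smul hB ε hh.1)
  have hmain := hC.en_iter hB (σ := σ) (ε := ε) (L := L) (Λ := Λ) (D := D) (P := K) (Λh := Λh)
    (δ := δ / 10) (γ := δ + K * ε) (Q := K) (Lφ := K) hσ.le hε hn0 hΛ hD hK hΛh hK heh hG.1 hU hU0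
    (fun s hs hsε => (hpot ε s hs hsε hε1).1) (fun s hs hsε => (hpot ε s hs hsε hε1).2.1)
    (fun s hs hsε w hw hwL => hhess ε s hs hsε hε1 w hw hwL)
    (fun s hs hsε => ((hpot ε s hs hsε hε1).2.2.2.2).trans (by linarith))
    (fun s hs hsε => (hpot ε s hs hsε hε1).2.2.2.1)
    (by rw [← hA]; linarith) k hk
  rw [← hA] at hmain
  refine Real.sqrt_le_iff.2 ⟨by positivity, hmain.trans ?_⟩
  have hexp : Real.exp (2 * (A * ε + 1)) ≤ 93 / 10 := ac_exp_bound (by linarith)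
  have h1 : (δ / 10 + (δ + K * ε)) ^ 2 ≤ 36 / 25 * δ ^ 2 := by
    have h2 : 0 ≤ K * ε := by positivity
    nlinarith
  have h3 : ε ^ 2 * (δ / 10 + (δ + K * ε)) ^ 2 ≤ ε ^ 2 * (36 / 25 * δ ^ 2) :=
    mul_le_mul_of_nonneg_left h1 (sq_nonneg _)
  have h4 : ε ^ 2 * (δ / 10 + (δ + K * ε)) ^ 2 + ε * σ * K / 2 + 2 * (Λ + K) * D * ε ^ 2 / n
      ≤ 41 / 25 * (ε ^ 2 * δ ^ 2) := by linarith
  have h5 : 0 ≤ ε ^ 2 * δ ^ 2 := by positivity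
  have h6 : 0 ≤ ε ^ 2 * (δ / 10 + (δ + K * ε)) ^ 2 + ε * σ * K / 2
      + 2 * (Λ + K) * D * ε ^ 2 / n := by positivity
  calc _ ≤ (41 / 25 * (ε ^ 2 * δ ^ 2)) * (93 / 10) :=
        mul_le_mul h4 hexp (Real.exp_pos _).le (by positivity)
    _ ≤ (4 * ε * δ) ^ 2 := by nlinarith

omit hB in
theorem ac_gρ (hF : F ∈ C.A) (hR1 : R1 ∈ C.A) (hR2 : R2 ∈ C.A) {t : ℝ} (ht : 0 ≤ t)
    (t1 : t ≤ 1) : √(I (C.Γ (F + t • R1 + (t ^ 2 / 2) • R2) (F + t • R1 + (t ^ 2 / 2) • R2)))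
      ≤ √(I (C.Γ F F)) + √(I (C.Γ R1 R1)) + √(I (C.Γ R2 R2)) := by
  have q1 := hC.sqrt_E_add_le (hC.A_add hF (hC.A_smul t hR1)).1 (hC.smul_mem (t ^ 2 / 2) _ hR2.1)
  have q2 := hC.sqrt_E_add_le hF.1 (hC.smul_mem t _ hR1.1)
  rw [hC.sE_smul _ hR2.1, abs_of_nonneg (by positivity)] at q1
  rw [hC.sE_smul _ hR1.1, abs_of_nonneg ht] at q2
  have r1 : t * √(I (C.Γ R1 R1)) ≤ √(I (C.Γ R1 R1)) := by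
    nlinarith [Real.sqrt_nonneg (I (C.Γ R1 R1))]
  have r2 : t ^ 2 / 2 * √(I (C.Γ R2 R2)) ≤ √(I (C.Γ R2 R2)) := by
    have : t ^ 2 / 2 ≤ 1 := by nlinarith
    nlinarith [Real.sqrt_nonneg (I (C.Γ R2 R2))]
  linarith

omit hC hB in
theorem ac_E {M1 M2 t : ℝ} (hM1 : ∀ᵐ x ∂m, |R1 x| ≤ M1) (hM2 : ∀ᵐ x ∂m, |R2 x| ≤ M2)
    (ht : 0 ≤ t) (t1 : t ≤ 1) :
    ∀ᵐ y ∂m, |((2 : ℝ)⁻¹ • R1 + (t / 2) • R2) y| ≤ |M1| + |M2| := by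
  filter_upwards [hM1, hM2, add_ae ((2 : ℝ)⁻¹ • R1) ((t / 2) • R2), smul_ae R1 (2 : ℝ)⁻¹,
    smul_ae R2 (t / 2)] with y q1 q2 q3 q4 q5
  rw [q3, q4, q5]
  have r1 : |(2 : ℝ)⁻¹ * R1 y| ≤ |M1| := by
    rw [abs_mul, abs_of_pos (by norm_num : (0 : ℝ) < 2⁻¹)]
    linarith [abs_nonneg (R1 y), le_abs_self M1]
  have r2 : |t / 2 * R2 y| ≤ |M2| := by
    rw [abs_mul, abs_of_nonneg (by positivity : (0 : ℝ) ≤ t / 2)]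
    have h3 : t / 2 * |R2 y| ≤ 1 * |R2 y| :=
      mul_le_mul_of_nonneg_right (by linarith) (abs_nonneg _)
    linarith [le_abs_self M2]
  exact (abs_add_le _ _).trans (add_le_add r1 r2)

set_option maxHeartbeats 1000000 in
/-- THE ACTION LOWER BOUND, for all `δ > 0` -/
theorem ac_lower0 [SigmaFinite m] (he : e ∈ C.TestI) (hh : h ∈ C.TestI) (hG : G ∈ C.TestI)
    {δ L Λ : ℝ} (hδ : 0 < δ) (hL : 0 ≤ L) (hΛ : 0 ≤ Λ)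
    (hGe : I (C.Γ (G - (2 : ℝ)⁻¹ • C.Γ e e) (G - (2 : ℝ)⁻¹ • C.Γ e e)) ≤ δ ^ 2) :
    ∃ ε₀ : ℝ, 0 < ε₀ ∧ ε₀ ≤ 1 ∧ ∀ ε, 0 < ε → ε ≤ ε₀ →
      ∀ F ∈ C.A, ∀ R1 ∈ C.A, ∀ R2 ∈ C.A, ∀ Kρ CH : ℝ, 0 ≤ Kρ → 0 ≤ CH →
      (∀ t, 0 ≤ t → t ≤ ε → ∀ᵐ x ∂m, 0 ≤ (F + t • R1 + (t ^ 2 / 2) • R2) x ∧
        (F + t • R1 + (t ^ 2 / 2) • R2) x ≤ Kρ) →
      (∀ t, 0 ≤ t → t ≤ ε → ∀ w ∈ C.A, MemLp (C.Γ w w) ∞ m →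
        |I (w * (R1 + t • R2))
          - I ((F + t • R1 + (t ^ 2 / 2) • R2) * C.Γ (e + ε • h - t • G) w)|
          ≤ CH * ε * √(I (C.Γ w w))) →
      ∀ ξ > 0, ∃ σ₀ > 0, ∀ σ, 0 < σ → σ ≤ σ₀ → ∀ D : ℝ, ∃ n₀ : ℕ, ∀ n ≥ n₀, 0 < n →
        ∀ u : ℕ → M →ₘ[m] ℝ, C.VHJ σ (ε / n) L Λ D n u → u 0 = e + ε • h →
        (∫ t in (0 : ℝ)..ε, (I ((e + ε • h - t • G) * (R1 + t • R2))
          - (2 : ℝ)⁻¹ * I ((F + t • R1 + (t ^ 2 / 2) • R2)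
            * C.Γ (e + ε • h - t • G) (e + ε • h - t • G))))
          - (10 * CH * δ + 100 * Kρ * δ ^ 2) * ε ^ 3 - ξ
        ≤ I (u n * (F + ε • R1 + (ε ^ 2 / 2) • R2)) - I (u 0 * F) := by
  obtain ⟨Kp, hKp, hpot⟩ := hC.pot_bounds hB he hh hG
  obtain ⟨ε₀, hε₀, hε₀1, hen⟩ := hC.en_final hB he hh hG hδ hL hΛ hGe
  refine ⟨ε₀, hε₀, hε₀1, fun ε hε hεε F hF R1 hR1 R2 hR2 K CH hK hCH hρ hP ξ hξ => ?_⟩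
  have hε1 : ε ≤ 1 := hεε.trans hε₀1
  obtain ⟨σ₁, hσ₁, hen1⟩ := hen ε hε hεε
  obtain ⟨M1, hM1⟩ := mem_top_iff.1 hR1.2
  obtain ⟨M2, hM2⟩ := mem_top_iff.1 hR2.2
  obtain ⟨x, hx⟩ : ∃ x, x = 4 * ε * δ := ⟨_, rfl⟩
  obtain ⟨gρ, hgρ⟩ : ∃ g, g = √(I (C.Γ F F)) + √(I (C.Γ R1 R1)) + √(I (C.Γ R2 R2)) := ⟨_, rfl⟩
  obtain ⟨gG, hgG⟩ : ∃ g, g = √(I (C.Γ G G)) := ⟨_, rfl⟩
  obtain ⟨K', hK'⟩ : ∃ k, k = |M1| + |M2| := ⟨_, rfl⟩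
  obtain ⟨c2, hc2⟩ : ∃ c, c = K' * (Kp * x) + (2 : ℝ)⁻¹ * (K * (gG * x)) := ⟨_, rfl⟩
  have hx0 : 0 ≤ x := by rw [hx]; positivity
  have hgρ0 : 0 ≤ gρ := by rw [hgρ]; positivity
  have hgG0 : 0 ≤ gG := by rw [hgG]; positivity
  have hK'0 : 0 ≤ K' := by rw [hK']; positivity
  have hc20 : 0 ≤ c2 := by rw [hc2]; positivity
  refine ⟨min σ₁ (ξ / (4 * (ε * ((Kp + x) * gρ) + 1))), by positivity,
    fun σ hσ hσσ D => ?_⟩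
  have hσ1 : σ ≤ σ₁ := hσσ.trans (min_le_left _ _)
  have hσ2 : ε * (σ * ((Kp + x) * gρ)) ≤ ξ / 4 := by
    have h1 := hσσ.trans (min_le_right _ _)
    rw [le_div_iff₀ (by positivity)] at h1
    nlinarith
  obtain ⟨n1, hn1⟩ := hen1 σ hσ hσ1 (max D 0) (le_max_right _ _)
  have hehA : e + ε • h ∈ C.A :=
    hC.A_add (hC.test_A he.1) (hC.A_smul _ (hC.test_A hh.1))
  have hehT : e + ε • h ∈ C.Test := hC.test_add hB he.1 (hC.test_smul hB ε hh.1)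
  obtain ⟨n2, hn2⟩ := hC.ac_riem hehA (hC.test_A hG.1) hF hR1 hR2 hε
    (show (0 : ℝ) < ξ / 4 by positivity)
  obtain ⟨n3, hn3⟩ := exists_nat_gt (4 * (ε ^ 2 * c2 + K * max D 0 * ε ^ 2) / ξ)
  refine ⟨max n1 (max n2 n3), fun n hn hn0 u hu hu0 => ?_⟩
  have hnR : (0 : ℝ) < n := by exact_mod_cast hn0
  have k1 : n1 ≤ n := (le_max_left _ _).trans hn
  have k2 : n2 ≤ n := ((le_max_left _ _).trans (le_max_right _ _)).trans hn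
  have k3 : n3 ≤ n := ((le_max_right _ _).trans (le_max_right _ _)).trans hn
  have hu' : C.VHJ σ (ε / n) L Λ (max D 0) n u := hu.mono_D (le_max_left _ _)
  have hxk := hn1 n k1 hn0 u hu' hu0
  rw [← hx] at hxk
  have hrie := hn2 n k2 hn0
  have hρA : ∀ t : ℝ, F + t • R1 + (t ^ 2 / 2) • R2 ∈ C.A := fun t =>
    hC.A_add (hC.A_add hF (hC.A_smul _ hR1)) (hC.A_smul _ hR2)
  have hsum := hC.ac_sum hB (φ := e + ε • h) (G := G) (F := F) (R1 := R1) (R2 := R2) (σ := σ)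
    (ε := ε) (L := L) (Λ := Λ) (D := max D 0) (K := K) (K' := K') (N1 := CH * ε) (x := x)
    (gφ := Kp) (gρ := gρ) (gG := gG) hσ.le hε hn0 hK hK'0 hehT hG.1 hF hR1 hR2 hu'
    (fun t ht htε => by
      filter_upwards [hρ t ht htε] with y hy
      rw [abs_of_nonneg hy.1]
      exact hy.2)
    (fun t ht htε => by rw [hK']; exact ac_E hM1 hM2 ht (htε.trans hε1))
    (fun t ht htε => (hpot ε t ht htε hε1).2.2.1)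
    (fun t ht htε => by rw [hgρ]; exact hC.ac_gρ hF hR1 hR2 ht (htε.trans hε1))
    hgG.ge hxk
    (fun t ht htε w hw hwx => by
      refine (hP t ht htε w (hC.test_A hw) (hC.test_Γ_top hw)).trans ?_
      exact mul_le_mul_of_nonneg_left hwx (by positivity))
  rw [← hc2] at hsum
  have hfin1 : ε ^ 2 / n * c2 + K * max D 0 * ε ^ 2 / n ≤ ξ / 4 := by
    have h1 : 4 * (ε ^ 2 * c2 + K * max D 0 * ε ^ 2) / ξ ≤ n := hn3.le.trans (by exact_mod_cast k3)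
    rw [div_le_iff₀ hξ] at h1
    have h2 : ε ^ 2 / n * c2 + K * max D 0 * ε ^ 2 / n
        = (ε ^ 2 * c2 + K * max D 0 * ε ^ 2) / n := by ring
    rw [h2, div_le_iff₀ hnR]
    linarith
  have hfin2 : ε * (CH * ε * x) ≤ 10 * CH * δ * ε ^ 3 := by
    rw [hx]
    have h0 : 0 ≤ CH * δ * ε ^ 3 := by positivity
    have h1 : ε * (CH * ε * (4 * ε * δ)) = 4 * (CH * δ * ε ^ 3) := by ring
    rw [h1]; linarith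
  have hfin3 : ε * ((2 : ℝ)⁻¹ * K * x ^ 2) ≤ 100 * K * δ ^ 2 * ε ^ 3 := by
    rw [hx]
    have h0 : 0 ≤ K * δ ^ 2 * ε ^ 3 := by positivity
    have h1 : ε * ((2 : ℝ)⁻¹ * K * (4 * ε * δ) ^ 2) = 8 * (K * δ ^ 2 * ε ^ 3) := by ring
    rw [h1]; linarith
  have hu0' : u 0 = e + ε • h := hu0
  have e1 : ε * (CH * ε * x + (2 : ℝ)⁻¹ * K * x ^ 2 + σ * ((Kp + x) * gρ))
      = ε * (CH * ε * x) + ε * ((2 : ℝ)⁻¹ * K * x ^ 2) + ε * (σ * ((Kp + x) * gρ)) := by ring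
  rw [e1] at hsum
  linarith

/-- the form used by helper783 -/
theorem ac_lower [SigmaFinite m] (he : e ∈ C.TestI) (hh : h ∈ C.TestI) (hG : G ∈ C.TestI)
    {δ L Λ CH Kρ : ℝ} (hδ : 0 < δ)
    (hGe : I (C.Γ (G - (2 : ℝ)⁻¹ • C.Γ e e) (G - (2 : ℝ)⁻¹ • C.Γ e e)) ≤ δ ^ 2)
    (hL : 0 ≤ L) (hΛ : 0 ≤ Λ) (hCH : 0 ≤ CH) (hKρ : 0 ≤ Kρ) :
    ∃ ε₀ > 0, ∀ ε, 0 < ε → ε ≤ ε₀ → ∀ F R1 R2 : M →ₘ[m] ℝ, F ∈ C.A → R1 ∈ C.A → R2 ∈ C.A →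
      (∀ t ∈ Set.Icc 0 ε, 0 ≤ F + t • R1 + (t ^ 2 / 2) • R2 ∧
        (∀ᵐ x ∂m, (F + t • R1 + (t ^ 2 / 2) • R2) x ≤ Kρ) ∧
        ∀ w ∈ C.A, MemLp (C.Γ w w) ∞ m →
          |I (w * (R1 + t • R2))
            - I ((F + t • R1 + (t ^ 2 / 2) • R2) * C.Γ (e + ε • h - t • G) w)|
            ≤ CH * ε * √(I (C.Γ w w))) →
      ∀ ξ > 0, ∃ σ₀ > 0, ∀ σ, 0 < σ → σ ≤ σ₀ → ∀ D : ℝ, ∃ n₀ : ℕ, ∀ n ≥ n₀, 0 < n →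
        ∀ u : ℕ → M →ₘ[m] ℝ, C.VHJ σ (ε / n) L Λ D n u → u 0 = e + ε • h →
        (∫ t in (0 : ℝ)..ε, (I ((e + ε • h - t • G) * (R1 + t • R2))
          - (2 : ℝ)⁻¹ * I ((F + t • R1 + (t ^ 2 / 2) • R2)
            * C.Γ (e + ε • h - t • G) (e + ε • h - t • G))))
          - (10 * CH * δ + 100 * Kρ * δ ^ 2) * ε ^ 3 - ξ
        ≤ I (u n * (F + ε • R1 + (ε ^ 2 / 2) • R2)) - I (u 0 * F) := by
  obtain ⟨ε₀, hε₀, -, H⟩ := hC.ac_lower0 hB he hh hG hδ hL hΛ hGe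
  refine ⟨ε₀, hε₀, fun ε hε hεε F R1 R2 hF hR1 hR2 hh2 ξ hξ => ?_⟩
  refine H ε hε hεε F hF R1 hR1 R2 hR2 Kρ CH hKρ hCH (fun t ht htε => ?_)
    (fun t ht htε => (hh2 t ⟨ht, htε⟩).2.2) ξ hξ
  obtain ⟨q1, q2, -⟩ := hh2 t ⟨ht, htε⟩
  filter_upwards [nonneg_iff_ae.1 q1, q2] with x h1 h2
  exact ⟨h1, h2⟩

/-- THE ACTION LOWER BOUND for `δ ≤ 1` -/
theorem ac_final [SigmaFinite m] (he : e ∈ C.TestI) (hh : h ∈ C.TestI) (hG : G ∈ C.TestI)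
    {δ L Λ : ℝ} (hδ : 0 < δ) (hδ1 : δ ≤ 1) (hL : 0 ≤ L) (hΛ : 0 ≤ Λ)
    (hGe : I (C.Γ (G - (2 : ℝ)⁻¹ • C.Γ e e) (G - (2 : ℝ)⁻¹ • C.Γ e e)) ≤ δ ^ 2) :
    ∃ ε₀ : ℝ, 0 < ε₀ ∧ ε₀ ≤ 1 ∧ ∀ ε, 0 < ε → ε ≤ ε₀ →
      ∀ F ∈ C.A, ∀ R1 ∈ C.A, ∀ R2 ∈ C.A, ∀ Kρ CH : ℝ, 0 ≤ Kρ → 0 ≤ CH →
      (∀ t, 0 ≤ t → t ≤ ε → ∀ᵐ x ∂m, 0 ≤ (F + t • R1 + (t ^ 2 / 2) • R2) x ∧
        (F + t • R1 + (t ^ 2 / 2) • R2) x ≤ Kρ) →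
      (∀ t, 0 ≤ t → t ≤ ε → ∀ w ∈ C.A, MemLp (C.Γ w w) ∞ m →
        |I (w * (R1 + t • R2))
          - I ((F + t • R1 + (t ^ 2 / 2) • R2) * C.Γ (e + ε • h - t • G) w)|
          ≤ CH * ε * √(I (C.Γ w w))) →
      ∀ ξ > 0, ∃ σ₀ > 0, ∀ σ, 0 < σ → σ ≤ σ₀ → ∀ D : ℝ, ∃ n₀ : ℕ, ∀ n ≥ n₀, 0 < n →
        ∀ u : ℕ → M →ₘ[m] ℝ, C.VHJ σ (ε / n) L Λ D n u → u 0 = e + ε • h →
        (∫ t in (0 : ℝ)..ε, (I ((e + ε • h - t • G) * (R1 + t • R2))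
          - (2 : ℝ)⁻¹ * I ((F + t • R1 + (t ^ 2 / 2) • R2)
            * C.Γ (e + ε • h - t • G) (e + ε • h - t • G))))
          - (10 * CH + 100 * Kρ) * δ * ε ^ 3 - ξ
        ≤ I (u n * (F + ε • R1 + (ε ^ 2 / 2) • R2)) - I (u 0 * F) := by
  obtain ⟨ε₀, hε₀, hε₁, H⟩ := hC.ac_lower0 hB he hh hG hδ hL hΛ hGe
  refine ⟨ε₀, hε₀, hε₁, fun ε hε hεε F hF R1 hR1 R2 hR2 Kρ CH hK hCH h1 h2 ξ hξ => ?_⟩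
  obtain ⟨σ₀, hσ₀, H2⟩ := H ε hε hεε F hF R1 hR1 R2 hR2 Kρ CH hK hCH h1 h2 ξ hξ
  refine ⟨σ₀, hσ₀, fun σ hσ hσσ D => ?_⟩
  obtain ⟨n₀, H3⟩ := H2 σ hσ hσσ D
  refine ⟨n₀, fun n hn hn0 u hu hu0 => le_trans ?_ (H3 n hn hn0 u hu hu0)⟩
  have h3 : 0 ≤ Kρ * ε ^ 3 := by positivity
  have h4 : δ ^ 2 ≤ δ := by nlinarith
  have h5 : Kρ * ε ^ 3 * δ ^ 2 ≤ Kρ * ε ^ 3 * δ := mul_le_mul_of_nonneg_left h4 h3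
  linarith

end IsGamma

end Vale.Agent.P233
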