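import Vale.Agent.P233.AB.AlexA
import Vale.Agent.P233.AB.AlexB

/-!
# P233 / AB : the Lang-Schroeder-Sturm inequality for three points, curvature `≥ κ`
-/

namespace Vale.Agent.P233.AB

open Real

/-- the degenerate case: one of the three points is `z` -/
lemma lss_degen {κ d₁ d₂ c r : ℝ} (h1 : 0 ≤ d₁) (h2 : 0 ≤ d₂) (h1r : d₁ ≤ r) (h2r : d₂ ≤ r)
    (hκ : |κ| * r ^ 2 ≤ 1) (hc0 : 0 ≤ c) (hc : c ≤ d₁ + d₂) :
    c ^ 2 + d₁ ^ 2 + d₂ ^ 2 - κ / 4 * (d₁ ^ 2 - d₂ ^ 2) ^ 2 ≤ 3 * (d₁ ^ 2 + d₂ ^ 2) := by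
  have e1 : c ^ 2 ≤ (d₁ + d₂) ^ 2 := pow_le_pow_left₀ hc0 hc 2
  have e2 : (d₁ + d₂) ^ 2 ≤ (2 * r) ^ 2 := pow_le_pow_left₀ (by linarith) (by linarith) 2
  have e3 : -(κ / 4 * (d₁ ^ 2 - d₂ ^ 2) ^ 2) ≤ |κ| / 4 * (d₁ ^ 2 - d₂ ^ 2) ^ 2 := by
    have h := mul_le_mul_of_nonneg_right (neg_abs_le κ) (sq_nonneg (d₁ ^ 2 - d₂ ^ 2))
    linarith
  have e4 : |κ| / 4 * (d₁ ^ 2 - d₂ ^ 2) ^ 2 ≤ (d₁ - d₂) ^ 2 := by
    have h3 : |κ| / 4 * (d₁ + d₂) ^ 2 ≤ 1 := by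
      have h := mul_le_mul_of_nonneg_left e2 (by positivity : 0 ≤ |κ| / 4)
      linarith
    have h4 := mul_le_mul_of_nonneg_right h3 (sq_nonneg (d₁ - d₂))
    calc |κ| / 4 * (d₁ ^ 2 - d₂ ^ 2) ^ 2 = |κ| / 4 * (d₁ + d₂) ^ 2 * (d₁ - d₂) ^ 2 := by ring
      _ ≤ 1 * (d₁ - d₂) ^ 2 := h4
      _ = (d₁ - d₂) ^ 2 := one_mul _
  linarith

/-- **(LSS)** for three points and curvature `≥ κ`, with an error of order six -/
theorem IsAlexandrov.lss {M : Type*} [MetricSpace M] [CompleteSpace M] {κ : ℝ}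
    (h : IsAlexandrov M κ) :
    ∃ r₀ > 0, ∃ C ≥ 0, ∀ (z x₁ x₂ x₃ : M) (r : ℝ), r ≤ r₀ → dist z x₁ ≤ r → dist z x₂ ≤ r →
      dist z x₃ ≤ r →
      dist x₁ x₂ ^ 2 + dist x₂ x₃ ^ 2 + dist x₁ x₃ ^ 2 +
        κ / 4 * (2 * (dist z x₁ ^ 2 * dist z x₂ ^ 2 + dist z x₂ ^ 2 * dist z x₃ ^ 2
          + dist z x₁ ^ 2 * dist z x₃ ^ 2)
          - (dist z x₁ ^ 4 + dist z x₂ ^ 4 + dist z x₃ ^ 4))
        ≤ 3 * (dist z x₁ ^ 2 + dist z x₂ ^ 2 + dist z x₃ ^ 2) + C * r ^ 6 := by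
  obtain ⟨r₁, hr1, H1⟩ := h.angle_sum
  obtain ⟨r₂, hr2, C, hC, H2⟩ := lss_of_angle_sum κ
  have hK : 0 < 1 + |κ| := by positivity
  refine ⟨min r₁ (min r₂ (1 / (1 + |κ|))), lt_min hr1 (lt_min hr2 (by positivity)), C, hC, ?_⟩
  intro z x₁ x₂ x₃ r hr h1 h2 h3
  have k1 : r ≤ r₁ := hr.trans (min_le_left _ _)
  have k2 : r ≤ r₂ := hr.trans ((min_le_right _ _).trans (min_le_left _ _))
  have k3 : r ≤ 1 / (1 + |κ|) := hr.trans ((min_le_right _ _).trans (min_le_right _ _))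
  have hr0 : 0 ≤ r := dist_nonneg.trans h1
  have hκ : |κ| * r ^ 2 ≤ 1 := by
    have h4 : (1 + |κ|) * r ≤ 1 := by
      rw [le_div_iff₀ hK] at k3
      linarith
    have h5 : |κ| * r ≤ 1 := by nlinarith
    have h6 : r ≤ 1 := by nlinarith [mul_nonneg (abs_nonneg κ) hr0]
    have h7 : |κ| * r * r ≤ 1 * 1 := mul_le_mul h5 h6 hr0 zero_le_one
    linarith [h7, pow_two r]
  have hCr : 0 ≤ C * r ^ 6 := by positivity
  have T : ∀ a b : M, dist a b ≤ dist z a + dist z b := fun a b => by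
    have := dist_triangle a z b
    rwa [dist_comm a z] at this
  have T' : ∀ a b : M, |dist z a - dist z b| ≤ dist a b := fun a b => by
    have := abs_dist_sub_le a b z
    rwa [dist_comm a z, dist_comm b z] at this
  rcases eq_or_ne z x₁ with e1 | e1
  · subst e1
    have := lss_degen (κ := κ) dist_nonneg dist_nonneg h2 h3 hκ dist_nonneg (T x₂ x₃)
    simp only [dist_self] at *
    linarith
  rcases eq_or_ne z x₂ with e2 | e2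
  · subst e2
    have := lss_degen (κ := κ) dist_nonneg dist_nonneg h1 h3 hκ dist_nonneg (T x₁ x₃)
    rw [dist_comm x₁ z]
    simp only [dist_self] at *
    linarith
  rcases eq_or_ne z x₃ with e3 | e3
  · subst e3
    have := lss_degen (κ := κ) dist_nonneg dist_nonneg h1 h2 hκ dist_nonneg (T x₁ x₂)
    rw [dist_comm x₁ z, dist_comm x₂ z]
    simp only [dist_self] at *
    linarith
  exact H2 _ _ _ _ _ _ r (dist_pos.2 e1) (dist_pos.2 e2) (dist_pos.2 e3) h1 h2 h3 k2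
    (T' _ _) (T _ _) (T' _ _) (T _ _) (T' _ _) (T _ _)
    (H1 z x₁ x₂ x₃ e1 e2 e3 (h1.trans k1) (h2.trans k1) (h3.trans k1))

end Vale.Agent.P233.AB
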