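import Vale.Agent.P233.AB.AlexAng

namespace Vale.Agent.P233.AB

open Real Filter Topology

/-- the cosine of the comparison angle -/
noncomputable def cvA (κ a b c : ℝ) : ℝ :=
  if κ = 0 then (a ^ 2 + b ^ 2 - c ^ 2) / (2 * a * b)
  else if 0 < κ then
    (cos (√κ * c) - cos (√κ * a) * cos (√κ * b)) / (sin (√κ * a) * sin (√κ * b))
  else (cosh (√(-κ) * a) * cosh (√(-κ) * b) - cosh (√(-κ) * c)) /
    (sinh (√(-κ) * a) * sinh (√(-κ) * b))

lemma cang_eq_arccos (κ a b c : ℝ) : cang κ a b c = arccos (cvA κ a b c) := by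
  unfold cang cvA
  split_ifs <;> rfl

lemma cvA_comm (κ a b c : ℝ) : cvA κ a b c = cvA κ b a c := by
  unfold cvA
  split_ifs
  · congr 1 <;> ring
  · congr 1 <;> ring
  · congr 1 <;> ring

lemma cang_comm (κ a b c : ℝ) : cang κ a b c = cang κ b a c := by
  rw [cang_eq_arccos, cang_eq_arccos, cvA_comm]

/-- smallness of a length -/
def Sml (κ R : ℝ) : Prop := 0 < κ → √κ * R ≤ π / 8

lemma Sml.sin_pos {κ R a : ℝ} (h : Sml κ R) (hκ : 0 < κ) (ha : 0 < a) (haR : a ≤ 2 * R) :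
    0 < sin (√κ * a) := by
  have h1 : 0 < √κ := Real.sqrt_pos.2 hκ
  have h2 := h hκ
  have h3 : √κ * a ≤ √κ * (2 * R) := mul_le_mul_of_nonneg_left haR h1.le
  apply Real.sin_pos_of_pos_of_lt_pi (by positivity)
  nlinarith [Real.pi_pos]

lemma sinh_pos' {κ a : ℝ} (h0 : κ ≠ 0) (hκ : ¬ 0 < κ) (ha : 0 < a) :
    0 < sinh (√(-κ) * a) := by
  have : κ < 0 := lt_of_le_of_ne (not_lt.1 hκ) h0
  have h1 : 0 < √(-κ) := Real.sqrt_pos.2 (by linarith)
  exact Real.sinh_pos_iff.2 (by positivity)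

lemma cvA_mono {κ R s t q b r : ℝ} (hR : Sml κ R) (hs : 0 < s) (ht : 0 ≤ t) (hq : 0 < q)
    (hst : s + t ≤ 2 * R) (hqR : q ≤ 2 * R) (hC : Cmp κ q b s t r) :
    cvA κ s q r ≤ cvA κ (s + t) q b := by
  obtain ⟨h0, hp, hn⟩ := hC
  unfold cvA
  have hst' : 0 < s + t := by linarith
  split_ifs with h1 h2
  · have := h0 h1
    rw [div_le_div_iff₀ (by positivity) (by positivity)]
    have h3 : (s + t) * (s ^ 2 + q ^ 2 - r ^ 2) ≤ s * ((s + t) ^ 2 + q ^ 2 - b ^ 2) := by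
      nlinarith
    have h4 := mul_le_mul_of_nonneg_left h3 (show (0:ℝ) ≤ 2 * q by positivity)
    nlinarith [h4]
  · have hC := hp h2
    have e1 := hR.sin_pos h2 hs (by linarith)
    have e2 := hR.sin_pos h2 hst' hst
    have e3 := hR.sin_pos h2 hq hqR
    rw [div_le_div_iff₀ (by positivity) (by positivity)]
    have k1 : sin (√κ * t) = sin (√κ * (s + t)) * cos (√κ * s) - cos (√κ * (s + t)) * sin (√κ * s) := by
      rw [← sin_sub]; congr 1; ring
    rw [k1] at hC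
    have h3 : (cos (√κ * r) - cos (√κ * s) * cos (√κ * q)) * sin (√κ * (s + t)) ≤
        (cos (√κ * b) - cos (√κ * (s + t)) * cos (√κ * q)) * sin (√κ * s) := by
      nlinarith [hC]
    have h4 := mul_le_mul_of_nonneg_left h3 e3.le
    nlinarith [h4]
  · have hκ : κ < 0 := lt_of_le_of_ne (not_lt.1 h2) h1
    have hC := hn hκ
    have e1 := sinh_pos' h1 h2 hs
    have e2 := sinh_pos' h1 h2 hst'
    have e3 := sinh_pos' h1 h2 hq
    rw [div_le_div_iff₀ (by positivity) (by positivity)]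
    have k1 : sinh (√(-κ) * t) = sinh (√(-κ) * (s + t)) * cosh (√(-κ) * s)
        - cosh (√(-κ) * (s + t)) * sinh (√(-κ) * s) := by
      rw [← Real.sinh_sub]; congr 1; ring
    rw [k1] at hC
    have h3 : (cosh (√(-κ) * s) * cosh (√(-κ) * q) - cosh (√(-κ) * r)) * sinh (√(-κ) * (s + t)) ≤
        (cosh (√(-κ) * (s + t)) * cosh (√(-κ) * q) - cosh (√(-κ) * b)) * sinh (√(-κ) * s) := by
      nlinarith [hC]
    have h4 := mul_le_mul_of_nonneg_left h3 e3.le
    nlinarith [h4]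

lemma cvA_adj {κ R s t a b r : ℝ} (hR : Sml κ R) (hs : 0 < s) (ht : 0 < t) (hr : 0 < r)
    (hsR : s ≤ 2 * R) (htR : t ≤ 2 * R) (hrR : r ≤ 2 * R) (hC : Cmp κ a b s t r) :
    0 ≤ cvA κ s r a + cvA κ t r b := by
  obtain ⟨h0, hp, hn⟩ := hC
  unfold cvA
  split_ifs with h1 h2
  · have := h0 h1
    rw [div_add_div _ _ (by positivity) (by positivity)]
    apply div_nonneg _ (by positivity)
    have h3 : 0 ≤ t * (s ^ 2 + r ^ 2 - a ^ 2) + s * (t ^ 2 + r ^ 2 - b ^ 2) := by nlinarith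
    have h4 := mul_nonneg (show (0:ℝ) ≤ 2 * r by positivity) h3
    nlinarith [h4]
  · have hC := hp h2
    have e1 := hR.sin_pos h2 hs hsR
    have e2 := hR.sin_pos h2 ht htR
    have e3 := hR.sin_pos h2 hr hrR
    rw [div_add_div _ _ (by positivity) (by positivity)]
    apply div_nonneg _ (by positivity)
    have k1 : sin (√κ * (s + t)) = sin (√κ * s) * cos (√κ * t) + cos (√κ * s) * sin (√κ * t) := by
      rw [← sin_add]; congr 1; ring
    rw [k1] at hC
    have h3 : 0 ≤ sin (√κ * t) * (cos (√κ * a) - cos (√κ * s) * cos (√κ * r)) +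
        sin (√κ * s) * (cos (√κ * b) - cos (√κ * t) * cos (√κ * r)) := by nlinarith [hC]
    have h4 := mul_nonneg e3.le h3
    nlinarith [h4]
  · have hκ : κ < 0 := lt_of_le_of_ne (not_lt.1 h2) h1
    have hC := hn hκ
    have e1 := sinh_pos' h1 h2 hs
    have e2 := sinh_pos' h1 h2 ht
    have e3 := sinh_pos' h1 h2 hr
    rw [div_add_div _ _ (by positivity) (by positivity)]
    apply div_nonneg _ (by positivity)
    have k1 : sinh (√(-κ) * (s + t)) = sinh (√(-κ) * s) * cosh (√(-κ) * t)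
        + cosh (√(-κ) * s) * sinh (√(-κ) * t) := by
      rw [← Real.sinh_add]; congr 1; ring
    rw [k1] at hC
    have h3 : 0 ≤ sinh (√(-κ) * t) * (cosh (√(-κ) * s) * cosh (√(-κ) * r) - cosh (√(-κ) * a)) +
        sinh (√(-κ) * s) * (cosh (√(-κ) * t) * cosh (√(-κ) * r) - cosh (√(-κ) * b)) := by
      nlinarith [hC]
    have h4 := mul_nonneg e3.le h3
    nlinarith [h4]

lemma cvA_ge {κ R a b c : ℝ} (hR : Sml κ R) (ha : 0 < a) (hb : 0 < b) (hc : 0 ≤ c)
    (hcab : c ≤ a + b) (haR : a ≤ 2 * R) (hbR : b ≤ 2 * R) : -1 ≤ cvA κ a b c := by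
  unfold cvA
  split_ifs with h1 h2
  · rw [le_div_iff₀ (by positivity)]
    nlinarith
  · have e1 := hR.sin_pos h2 ha haR
    have e2 := hR.sin_pos h2 hb hbR
    rw [le_div_iff₀ (by positivity)]
    have h0 : 0 < √κ := Real.sqrt_pos.2 h2
    have h3 := hR h2
    have h4 : cos (√κ * (a + b)) ≤ cos (√κ * c) := by
      apply Real.cos_le_cos_of_nonneg_of_le_pi (by positivity)
      · have : √κ * (a + b) ≤ √κ * (4 * R) := mul_le_mul_of_nonneg_left (by linarith) h0.le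
        nlinarith [Real.pi_pos]
      · exact mul_le_mul_of_nonneg_left hcab h0.le
    rw [mul_add, cos_add] at h4
    linarith
  · have e1 := sinh_pos' h1 h2 ha
    have e2 := sinh_pos' h1 h2 hb
    rw [le_div_iff₀ (by positivity)]
    have h4 : cosh (√(-κ) * c) ≤ cosh (√(-κ) * (a + b)) := by
      apply Real.cosh_le_cosh.2
      have h0 : 0 ≤ √(-κ) := Real.sqrt_nonneg _
      rw [abs_of_nonneg (by positivity), abs_of_nonneg (by positivity)]
      exact mul_le_mul_of_nonneg_left hcab h0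
    rw [mul_add, Real.cosh_add] at h4
    linarith

/-- `sin (w ρ) / ρ → w` and the like -/
lemma tendsto_div_of_deriv {f : ℝ → ℝ} (hf : HasDerivAt f 1 0) (hf0 : f 0 = 0)
    {ρ w : ℕ → ℝ} {w₀ : ℝ} (hρ : Tendsto ρ atTop (𝓝 0)) (hρ0 : ∀ n, ρ n ≠ 0)
    (hw : Tendsto w atTop (𝓝 w₀)) : Tendsto (fun n => f (w n * ρ n) / ρ n) atTop (𝓝 w₀) := by
  have h1 : ∀ n, f (w n * ρ n) / ρ n = w n * dslope f 0 (w n * ρ n) := by
    intro n
    have := sub_smul_dslope f 0 (w n * ρ n)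
    rw [hf0, sub_zero, sub_zero, smul_eq_mul] at this
    rw [← this]
    field_simp [hρ0 n]
  have h2 : ContinuousAt (dslope f 0) 0 := continuousAt_dslope_same.2 hf.differentiableAt
  have h3 : dslope f 0 0 = 1 := by rw [dslope_same, hf.deriv]
  have h4 : Tendsto (fun n => w n * ρ n) atTop (𝓝 0) := by
    have := hw.mul hρ
    rwa [mul_zero] at this
  have h5 := hw.mul (h2.tendsto.comp h4)
  rw [h3, mul_one] at h5
  exact h5.congr fun n => (h1 n).symm

lemma tendsto_one_sub_cos {k : ℝ} {ρ w : ℕ → ℝ} {w₀ : ℝ} (hρ : Tendsto ρ atTop (𝓝 0))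
    (hρ0 : ∀ n, ρ n ≠ 0) (hw : Tendsto w atTop (𝓝 w₀)) :
    Tendsto (fun n => (1 - cos (k * (w n * ρ n))) / ρ n ^ 2) atTop (𝓝 (k ^ 2 * w₀ ^ 2 / 2)) := by
  have h1 := tendsto_div_of_deriv (f := sin) (by simpa using Real.hasDerivAt_sin 0) Real.sin_zero
    hρ hρ0 (hw.const_mul (k / 2))
  have h2 := (h1.pow 2).const_mul 2
  have h3 : 2 * (k / 2 * w₀) ^ 2 = k ^ 2 * w₀ ^ 2 / 2 := by ring
  rw [h3] at h2
  refine h2.congr fun n => ?_
  have h4 : cos (k * (w n * ρ n)) = 1 - 2 * sin (k / 2 * w n * ρ n) ^ 2 := by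
    have : k * (w n * ρ n) = 2 * (k / 2 * w n * ρ n) := by ring
    rw [this, Real.cos_two_mul, Real.cos_sq']; ring
  rw [h4]
  field_simp [hρ0 n]
  ring

lemma tendsto_cosh_sub_one {k : ℝ} {ρ w : ℕ → ℝ} {w₀ : ℝ} (hρ : Tendsto ρ atTop (𝓝 0))
    (hρ0 : ∀ n, ρ n ≠ 0) (hw : Tendsto w atTop (𝓝 w₀)) :
    Tendsto (fun n => (cosh (k * (w n * ρ n)) - 1) / ρ n ^ 2) atTop (𝓝 (k ^ 2 * w₀ ^ 2 / 2)) := by
  have h1 := tendsto_div_of_deriv (f := sinh) (by simpa using Real.hasDerivAt_sinh 0) Real.sinh_zero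
    hρ hρ0 (hw.const_mul (k / 2))
  have h2 := (h1.pow 2).const_mul 2
  have h3 : 2 * (k / 2 * w₀) ^ 2 = k ^ 2 * w₀ ^ 2 / 2 := by ring
  rw [h3] at h2
  refine h2.congr fun n => ?_
  have h4 : cosh (k * (w n * ρ n)) = 1 + 2 * sinh (k / 2 * w n * ρ n) ^ 2 := by
    have : k * (w n * ρ n) = 2 * (k / 2 * w n * ρ n) := by ring
    rw [this, Real.cosh_two_mul, Real.cosh_sq]; ring
  rw [h4]
  field_simp [hρ0 n]
  ring

lemma tendsto_cvA {κ a b c₀ : ℝ} {ρ c : ℕ → ℝ} (ha : 0 < a) (hb : 0 < b)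
    (hρ : Tendsto ρ atTop (𝓝 0)) (hρ0 : ∀ n, ρ n ≠ 0) (hc : Tendsto c atTop (𝓝 c₀)) :
    Tendsto (fun n => cvA κ (a * ρ n) (b * ρ n) (c n * ρ n)) atTop
      (𝓝 ((a ^ 2 + b ^ 2 - c₀ ^ 2) / (2 * a * b))) := by
  unfold cvA
  split_ifs with h1 h2
  · have h3 : Tendsto (fun n => (a ^ 2 + b ^ 2 - c n ^ 2) / (2 * a * b)) atTop
      (𝓝 ((a ^ 2 + b ^ 2 - c₀ ^ 2) / (2 * a * b))) :=
      ((tendsto_const_nhds (x := a ^ 2 + b ^ 2)).sub (hc.pow 2)).div_const _
    refine h3.congr fun n => ?_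
    have := hρ0 n
    field_simp
  · have h0 : 0 < √κ := Real.sqrt_pos.2 h2
    have ca : Tendsto (fun _ : ℕ => a) atTop (𝓝 a) := tendsto_const_nhds
    have cb : Tendsto (fun _ : ℕ => b) atTop (𝓝 b) := tendsto_const_nhds
    have ta := tendsto_one_sub_cos (k := √κ) hρ hρ0 ca
    have tb := tendsto_one_sub_cos (k := √κ) hρ hρ0 cb
    have tc := tendsto_one_sub_cos (k := √κ) hρ hρ0 hc
    have sa := tendsto_div_of_deriv (f := sin) (by simpa using Real.hasDerivAt_sin 0)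
      Real.sin_zero hρ hρ0 (ca.const_mul (√κ))
    have sb := tendsto_div_of_deriv (f := sin) (by simpa using Real.hasDerivAt_sin 0)
      Real.sin_zero hρ hρ0 (cb.const_mul (√κ))
    have t1 := ((ta.add tb).sub ((ta.mul tb).mul (hρ.pow 2))).sub tc
    have t2 := t1.div (sa.mul sb) (by positivity)
    have e : (√κ ^ 2 * a ^ 2 / 2 + √κ ^ 2 * b ^ 2 / 2 -
        √κ ^ 2 * a ^ 2 / 2 * (√κ ^ 2 * b ^ 2 / 2) * 0 ^ 2 - √κ ^ 2 * c₀ ^ 2 / 2) /
        (√κ * a * (√κ * b)) = (a ^ 2 + b ^ 2 - c₀ ^ 2) / (2 * a * b) := by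
      field_simp
      ring
    rw [e] at t2
    refine t2.congr fun n => ?_
    have hn := hρ0 n
    have e1 : √κ * a * ρ n = √κ * (a * ρ n) := by ring
    have e2 : √κ * b * ρ n = √κ * (b * ρ n) := by ring
    simp only [Pi.div_apply, e1, e2]
    have e3 : (1 - cos (√κ * (a * ρ n))) / ρ n ^ 2 + (1 - cos (√κ * (b * ρ n))) / ρ n ^ 2 -
        (1 - cos (√κ * (a * ρ n))) / ρ n ^ 2 * ((1 - cos (√κ * (b * ρ n))) / ρ n ^ 2) * ρ n ^ 2 -
        (1 - cos (√κ * (c n * ρ n))) / ρ n ^ 2 =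
        (cos (√κ * (c n * ρ n)) - cos (√κ * (a * ρ n)) * cos (√κ * (b * ρ n))) / ρ n ^ 2 := by
      field_simp
      ring
    rw [e3, div_mul_div_comm, ← pow_two, div_div_div_cancel_right₀ (by positivity)]
  · have hκ : κ < 0 := lt_of_le_of_ne (not_lt.1 h2) h1
    have h0 : 0 < √(-κ) := Real.sqrt_pos.2 (by linarith)
    have ca : Tendsto (fun _ : ℕ => a) atTop (𝓝 a) := tendsto_const_nhds
    have cb : Tendsto (fun _ : ℕ => b) atTop (𝓝 b) := tendsto_const_nhds
    have ta := tendsto_cosh_sub_one (k := √(-κ)) hρ hρ0 ca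
    have tb := tendsto_cosh_sub_one (k := √(-κ)) hρ hρ0 cb
    have tc := tendsto_cosh_sub_one (k := √(-κ)) hρ hρ0 hc
    have sa := tendsto_div_of_deriv (f := sinh) (by simpa using Real.hasDerivAt_sinh 0)
      Real.sinh_zero hρ hρ0 (ca.const_mul (√(-κ)))
    have sb := tendsto_div_of_deriv (f := sinh) (by simpa using Real.hasDerivAt_sinh 0)
      Real.sinh_zero hρ hρ0 (cb.const_mul (√(-κ)))
    have t1 := ((ta.add tb).add ((ta.mul tb).mul (hρ.pow 2))).sub tc
    have t2 := t1.div (sa.mul sb) (by positivity)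
    have e : (√(-κ) ^ 2 * a ^ 2 / 2 + √(-κ) ^ 2 * b ^ 2 / 2 +
        √(-κ) ^ 2 * a ^ 2 / 2 * (√(-κ) ^ 2 * b ^ 2 / 2) * 0 ^ 2 - √(-κ) ^ 2 * c₀ ^ 2 / 2) /
        (√(-κ) * a * (√(-κ) * b)) = (a ^ 2 + b ^ 2 - c₀ ^ 2) / (2 * a * b) := by
      field_simp
      ring
    rw [e] at t2
    refine t2.congr fun n => ?_
    have hn := hρ0 n
    have e1 : √(-κ) * a * ρ n = √(-κ) * (a * ρ n) := by ring
    have e2 : √(-κ) * b * ρ n = √(-κ) * (b * ρ n) := by ring
    simp only [Pi.div_apply, e1, e2]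
    have e3 : (cosh (√(-κ) * (a * ρ n)) - 1) / ρ n ^ 2 + (cosh (√(-κ) * (b * ρ n)) - 1) / ρ n ^ 2 +
        (cosh (√(-κ) * (a * ρ n)) - 1) / ρ n ^ 2 * ((cosh (√(-κ) * (b * ρ n)) - 1) / ρ n ^ 2) * ρ n ^ 2 -
        (cosh (√(-κ) * (c n * ρ n)) - 1) / ρ n ^ 2 =
        (cosh (√(-κ) * (a * ρ n)) * cosh (√(-κ) * (b * ρ n)) - cosh (√(-κ) * (c n * ρ n))) / ρ n ^ 2 := by
      field_simp
      ring
    rw [e3, div_mul_div_comm, ← pow_two, div_div_div_cancel_right₀ (by positivity)]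

lemma arccos_add_le_pi {u v : ℝ} (h : 0 ≤ u + v) : arccos u + arccos v ≤ π := by
  have h1 : arccos v ≤ arccos (-u) := Real.antitone_arccos (by linarith)
  rw [Real.arccos_neg] at h1
  linarith

lemma cos_le_of_arccos_le {u α : ℝ} (hu : -1 ≤ u) (hα : α ≤ π) (h : arccos u ≤ α) :
    cos α ≤ u := by
  rcases le_or_gt u 1 with h1 | h1
  · rw [← Real.cos_arccos hu h1]
    exact Real.cos_le_cos_of_nonneg_of_le_pi (Real.arccos_nonneg _) hα h
  · linarith [Real.cos_le_one α]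

lemma planar_split {α β : ℝ} (hα : 0 ≤ α) (hβ : 0 ≤ β) (h : α + β < π) :
    ∃ l D₂ D₃ : ℝ, 0 < l ∧ 0 ≤ D₂ ∧ 0 ≤ D₃ ∧ D₂ ^ 2 = 1 + l ^ 2 - 2 * l * cos α ∧
      D₃ ^ 2 = 1 + l ^ 2 - 2 * l * cos β ∧ D₂ + D₃ = 2 * sin ((α + β) / 2) := by
  obtain ⟨σ, hσ⟩ : ∃ σ, σ = (α + β) / 2 := ⟨_, rfl⟩
  obtain ⟨δ, hδ⟩ : ∃ δ, δ = (α - β) / 2 := ⟨_, rfl⟩
  have eα : α = σ + δ := by rw [hσ, hδ]; ring
  have eβ : β = σ - δ := by rw [hσ, hδ]; ring
  have hcσ : 0 < cos σ := Real.cos_pos_of_mem_Ioo ⟨by linarith [Real.pi_pos], by linarith⟩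
  have hcδ : 0 < cos δ := Real.cos_pos_of_mem_Ioo ⟨by linarith, by linarith⟩
  have hsα : 0 ≤ sin α := Real.sin_nonneg_of_nonneg_of_le_pi hα (by linarith)
  have hsβ : 0 ≤ sin β := Real.sin_nonneg_of_nonneg_of_le_pi hβ (by linarith)
  refine ⟨cos σ / cos δ, sin α / cos δ, sin β / cos δ, by positivity, by positivity,
    by positivity, ?_, ?_, ?_⟩
  · rw [eα, sin_add, cos_add]
    field_simp
    have h1 := Real.sin_sq_add_cos_sq σ
    have h2 := Real.sin_sq_add_cos_sq δ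
    nlinarith [h1, h2]
  · rw [eβ, sin_sub, cos_sub]
    field_simp
    have h1 := Real.sin_sq_add_cos_sq σ
    have h2 := Real.sin_sq_add_cos_sq δ
    nlinarith [h1, h2]
  · rw [← hσ, eα, eβ, sin_add, sin_sub]
    field_simp
    ring

section Geo

variable {M : Type*} [MetricSpace M] {κ R : ℝ}

lemma perim_lt (hR : Sml κ R) (_hR0 : 0 < R) {u : ℝ} (hu : u ≤ 6 * R) :
    0 < κ → u < 2 * π / √κ := by
  intro hκ
  have h0 : 0 < √κ := Real.sqrt_pos.2 hκ
  have h1 := hR hκ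
  rw [lt_div_iff₀ h0]
  nlinarith [Real.pi_pos, mul_le_mul_of_nonneg_left hu h0.le]

lemma IsAlexandrov.mono_cv (h : IsAlexandrov M κ) (hR : Sml κ R) {o p x w : M}
    (hw : dist o w + dist w x = dist o x) (how : 0 < dist o w) (hop : 0 < dist o p)
    (hox : dist o x ≤ R) (hopR : dist o p ≤ R) :
    cvA κ (dist o w) (dist o p) (dist w p) ≤ cvA κ (dist o x) (dist o p) (dist x p) := by
  have hR0 : 0 < R := lt_of_lt_of_le hop hopR
  have hpx : dist p x ≤ 2 * R := by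
    have := dist_triangle p o x
    rw [dist_comm p o] at this
    linarith
  have hC := h.comparison p o x w hw (perim_lt hR hR0 (by rw [dist_comm p o]; linarith))
  have h1 := cvA_mono hR how dist_nonneg (q := dist p o) (by rw [dist_comm]; exact hop)
    (by rw [hw]; linarith) (by rw [dist_comm]; linarith) hC
  rw [hw, dist_comm p o, dist_comm p x, dist_comm p w] at h1
  exact h1

lemma IsAlexandrov.adj_ang (h : IsAlexandrov M κ) (hR : Sml κ R) {o p x y : M}
    (hxy : dist x o + dist o y = dist x y) (hox : 0 < dist o x) (hoy : 0 < dist o y)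
    (hop : 0 < dist o p) (hoxR : dist o x ≤ R) (hoyR : dist o y ≤ R) (hopR : dist o p ≤ R) :
    cang κ (dist o x) (dist o p) (dist x p) + cang κ (dist o y) (dist o p) (dist y p) ≤ π := by
  have hR0 : 0 < R := lt_of_lt_of_le hop hopR
  have hpx : dist p x ≤ 2 * R := by
    have := dist_triangle p o x
    rw [dist_comm p o] at this
    linarith
  have hpy : dist p y ≤ 2 * R := by
    have := dist_triangle p o y
    rw [dist_comm p o] at this
    linarith
  have hC := h.comparison p x y o hxy (perim_lt hR hR0 (by rw [← hxy, dist_comm x o]; linarith))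
  have h1 := cvA_adj hR (s := dist x o) (t := dist o y) (r := dist p o)
    (by rw [dist_comm]; exact hox) hoy (by rw [dist_comm]; exact hop)
    (by rw [dist_comm]; linarith) (by linarith) (by rw [dist_comm]; linarith) hC
  rw [cang_eq_arccos, cang_eq_arccos]
  apply arccos_add_le_pi
  rw [dist_comm x o, dist_comm p o, dist_comm p x, dist_comm p y] at h1
  exact h1

lemma IsAlexandrov.tri (h : IsAlexandrov M κ) (hR : Sml κ R) {o z x y : M} {α β : ℝ}
    (hoz : 0 < dist o z) (hox : 0 < dist o x) (hoy : 0 < dist o y)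
    (hozR : dist o z ≤ R) (hoxR : dist o x ≤ R) (hoyR : dist o y ≤ R)
    (hα : ∀ c b, dist o c + dist c z = dist o z → dist o b + dist b x = dist o x →
      0 < dist o c → 0 < dist o b → cang κ (dist o c) (dist o b) (dist c b) ≤ α)
    (hβ : ∀ c b, dist o c + dist c z = dist o z → dist o b + dist b y = dist o y →
      0 < dist o c → 0 < dist o b → cang κ (dist o c) (dist o b) (dist c b) ≤ β) :
    cang κ (dist o x) (dist o y) (dist x y) ≤ α + β := by
  have cnn : ∀ a b c, 0 ≤ cang κ a b c := by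
    intro a b c; rw [cang_eq_arccos]; exact Real.arccos_nonneg _
  have hα0 : 0 ≤ α := (cnn _ _ _).trans (hα z x (by simp) (by simp) hoz hox)
  have hβ0 : 0 ≤ β := (cnn _ _ _).trans (hβ z y (by simp) (by simp) hoz hoy)
  rcases le_or_gt π (α + β) with hπ | hπ
  · rw [cang_eq_arccos]; exact (Real.arccos_le_pi _).trans hπ
  obtain ⟨l, D₂, D₃, hl, hD₂, hD₃, e₂, e₃, e₂₃⟩ := planar_split hα0 hβ0 hπ
  have hRp : 0 < R := lt_of_lt_of_le hoz hozR
  obtain ⟨m, hm⟩ : ∃ m, m = min (dist o z / l) (min (dist o x) (dist o y)) := ⟨_, rfl⟩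
  have hm0 : 0 < m := by rw [hm]; exact lt_min (by positivity) (lt_min hox hoy)
  have hmz : l * m ≤ dist o z := by
    have : m ≤ dist o z / l := by rw [hm]; exact min_le_left _ _
    rw [le_div_iff₀ hl] at this; linarith
  have hmx : m ≤ dist o x := by rw [hm]; exact (min_le_right _ _).trans (min_le_left _ _)
  have hmy : m ≤ dist o y := by rw [hm]; exact (min_le_right _ _).trans (min_le_right _ _)
  let ρ : ℕ → ℝ := fun n => m * (1 / ((n : ℝ) + 1))
  have hρ0 : ∀ n, 0 < ρ n := fun n => by positivity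
  have hρm : ∀ n, ρ n ≤ m := by
    intro n
    have : 1 / ((n : ℝ) + 1) ≤ 1 := by
      rw [div_le_one (by positivity)]; linarith [Nat.cast_nonneg (α := ℝ) n]
    calc m * (1 / ((n : ℝ) + 1)) ≤ m * 1 := mul_le_mul_of_nonneg_left this hm0.le
      _ = m := mul_one m
  have hρt : Tendsto ρ atTop (𝓝 0) := by
    have := (tendsto_one_div_add_atTop_nhds_zero_nat (𝕜 := ℝ)).const_mul m
    rwa [mul_zero] at this
  have ex1 : ∀ n, ∃ c, dist o c = l * ρ n ∧ dist c z = dist o z - l * ρ n := fun n =>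
    h.geodesic o z _ _ (by have := hρ0 n; positivity)
      (by nlinarith [mul_le_mul_of_nonneg_left (hρm n) hl.le]) (by ring)
  have ex2 : ∀ n, ∃ b, dist o b = ρ n ∧ dist b x = dist o x - ρ n := fun n =>
    h.geodesic o x _ _ (hρ0 n).le (by linarith [hρm n]) (by ring)
  have ex3 : ∀ n, ∃ b, dist o b = ρ n ∧ dist b y = dist o y - ρ n := fun n =>
    h.geodesic o y _ _ (hρ0 n).le (by linarith [hρm n]) (by ring)
  choose c hc1 hc2 using ex1
  choose b hb1 hb2 using ex2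
  choose d hd1 hd2 using ex3
  let F : ℕ → ℝ × ℝ × ℝ := fun n => (dist (c n) (b n) / ρ n, dist (c n) (d n) / ρ n,
    dist (b n) (d n) / ρ n)
  have hF : ∀ n, F n ∈ Set.Icc (0:ℝ) (l + 1) ×ˢ (Set.Icc (0:ℝ) (l + 1) ×ˢ Set.Icc (0:ℝ) 2) := by
    intro n
    have hρn := hρ0 n
    refine ⟨⟨by positivity, ?_⟩, ⟨by positivity, ?_⟩, ⟨by positivity, ?_⟩⟩
    · show dist (c n) (b n) / ρ n ≤ l + 1
      rw [div_le_iff₀ hρn]
      have := dist_triangle (c n) o (b n)
      rw [dist_comm (c n) o, hc1, hb1] at this; linarith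
    · show dist (c n) (d n) / ρ n ≤ l + 1
      rw [div_le_iff₀ hρn]
      have := dist_triangle (c n) o (d n)
      rw [dist_comm (c n) o, hc1, hd1] at this; linarith
    · show dist (b n) (d n) / ρ n ≤ 2
      rw [div_le_iff₀ hρn]
      have := dist_triangle (b n) o (d n)
      rw [dist_comm (b n) o, hb1, hd1] at this; linarith
  obtain ⟨⟨ξ, η, ζ⟩, -, φ, hφ, hlim⟩ :=
    (isCompact_Icc.prod (isCompact_Icc.prod isCompact_Icc)).tendsto_subseq hF
  have hl1 : Tendsto (fun n => dist (c (φ n)) (b (φ n)) / ρ (φ n)) atTop (𝓝 ξ) :=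
    (continuous_fst.tendsto _).comp hlim
  have hl2 : Tendsto (fun n => dist (c (φ n)) (d (φ n)) / ρ (φ n)) atTop (𝓝 η) :=
    ((continuous_fst.comp continuous_snd).tendsto _).comp hlim
  have hl3 : Tendsto (fun n => dist (b (φ n)) (d (φ n)) / ρ (φ n)) atTop (𝓝 ζ) :=
    ((continuous_snd.comp continuous_snd).tendsto _).comp hlim
  have hρφ : Tendsto (fun n => ρ (φ n)) atTop (𝓝 0) := hρt.comp hφ.tendsto_atTop
  have hρne : ∀ n, ρ (φ n) ≠ 0 := fun n => (hρ0 _).ne'
  have q1 : cos α ≤ (l ^ 2 + 1 ^ 2 - ξ ^ 2) / (2 * l * 1) := by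
    refine ge_of_tendsto (tendsto_cvA (κ := κ) hl one_pos hρφ hρne hl1) (Eventually.of_forall ?_)
    intro n
    have h1 := hα (c (φ n)) (b (φ n)) (by rw [hc1, hc2]; ring) (by rw [hb1, hb2]; ring)
      (by rw [hc1]; have := hρ0 (φ n); positivity) (by rw [hb1]; exact hρ0 _)
    rw [hc1, hb1, cang_eq_arccos] at h1
    rw [one_mul, div_mul_cancel₀ _ (hρne n)]
    have hρn := hρ0 (φ n)
    refine cos_le_of_arccos_le ?_ (by linarith) h1
    refine cvA_ge hR (by positivity) hρn dist_nonneg ?_ ?_ ?_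
    · have := dist_triangle (c (φ n)) o (b (φ n))
      rw [dist_comm (c (φ n)) o, hc1, hb1] at this; exact this
    · nlinarith [mul_le_mul_of_nonneg_left (hρm (φ n)) hl.le]
    · linarith [hρm (φ n)]
  have q2 : cos β ≤ (l ^ 2 + 1 ^ 2 - η ^ 2) / (2 * l * 1) := by
    refine ge_of_tendsto (tendsto_cvA (κ := κ) hl one_pos hρφ hρne hl2) (Eventually.of_forall ?_)
    intro n
    have h1 := hβ (c (φ n)) (d (φ n)) (by rw [hc1, hc2]; ring) (by rw [hd1, hd2]; ring)
      (by rw [hc1]; have := hρ0 (φ n); positivity) (by rw [hd1]; exact hρ0 _)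
    rw [hc1, hd1, cang_eq_arccos] at h1
    rw [one_mul, div_mul_cancel₀ _ (hρne n)]
    have hρn := hρ0 (φ n)
    refine cos_le_of_arccos_le ?_ (by linarith) h1
    refine cvA_ge hR (by positivity) hρn dist_nonneg ?_ ?_ ?_
    · have := dist_triangle (c (φ n)) o (d (φ n))
      rw [dist_comm (c (φ n)) o, hc1, hd1] at this; exact this
    · nlinarith [mul_le_mul_of_nonneg_left (hρm (φ n)) hl.le]
    · linarith [hρm (φ n)]
  have q3 : (1 ^ 2 + 1 ^ 2 - ζ ^ 2) / (2 * 1 * 1) ≤ cvA κ (dist o x) (dist o y) (dist x y) := by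
    refine le_of_tendsto (tendsto_cvA (κ := κ) one_pos one_pos hρφ hρne hl3)
      (Eventually.of_forall ?_)
    intro n
    have hρn := hρ0 (φ n)
    rw [one_mul, div_mul_cancel₀ _ (hρne n)]
    have m1 := h.mono_cv hR (o := o) (p := y) (x := x) (w := b (φ n))
      (by rw [hb1, hb2]; ring) (by rw [hb1]; exact hρn) hoy hoxR hoyR
    have m2 := h.mono_cv hR (o := o) (p := b (φ n)) (x := y) (w := d (φ n))
      (by rw [hd1, hd2]; ring) (by rw [hd1]; exact hρn) (by rw [hb1]; exact hρn) hoyR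
      (by rw [hb1]; linarith [hρm (φ n)])
    rw [hb1] at m1 m2
    rw [hd1, dist_comm (d (φ n)), dist_comm y (b (φ n)), cvA_comm κ (dist o y)] at m2
    exact m2.trans m1
  have q4 : ζ ≤ ξ + η := by
    refine le_of_tendsto_of_tendsto' hl3 (hl1.add hl2) ?_
    intro n
    have hρn := hρ0 (φ n)
    rw [← add_div]
    apply div_le_div_of_nonneg_right _ hρn.le
    have := dist_triangle (b (φ n)) (c (φ n)) (d (φ n))
    rw [dist_comm (b (φ n)) (c (φ n))] at this
    exact this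
  have hξ0 : 0 ≤ ξ := ge_of_tendsto' hl1 fun n => by have := hρ0 (φ n); positivity
  have hη0 : 0 ≤ η := ge_of_tendsto' hl2 fun n => by have := hρ0 (φ n); positivity
  have hζ0 : 0 ≤ ζ := ge_of_tendsto' hl3 fun n => by have := hρ0 (φ n); positivity
  have r1 : ξ ≤ D₂ := by
    rw [le_div_iff₀ (by positivity)] at q1
    apply abs_le_of_sq_le_sq' _ hD₂ |>.2
    nlinarith
  have r2 : η ≤ D₃ := by
    rw [le_div_iff₀ (by positivity)] at q2
    apply abs_le_of_sq_le_sq' _ hD₃ |>.2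
    nlinarith
  have r3 : ζ ≤ 2 * sin ((α + β) / 2) := by linarith
  have r4 : cos (α + β) ≤ cvA κ (dist o x) (dist o y) (dist x y) := by
    refine le_trans ?_ q3
    have e : cos (α + β) = 1 - 2 * sin ((α + β) / 2) ^ 2 := by
      have : α + β = 2 * ((α + β) / 2) := by ring
      rw [this, Real.cos_two_mul, Real.cos_sq']
      have : 2 * ((α + β) / 2) / 2 = (α + β) / 2 := by ring
      rw [this]; ring
    rw [e]
    have : ζ ^ 2 ≤ (2 * sin ((α + β) / 2)) ^ 2 := pow_le_pow_left₀ hζ0 r3 2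
    nlinarith
  rw [cang_eq_arccos]
  have := Real.antitone_arccos r4
  rwa [Real.arccos_cos (by linarith) hπ.le] at this

lemma IsAlexandrov.sum_at (h : IsAlexandrov M κ) (hR : Sml κ R) {o z x₁ x₂ x₃ : M}
    (hb : dist z o + dist o x₁ = dist z x₁)
    (hoz : 0 < dist o z) (ho1 : 0 < dist o x₁) (ho2 : 0 < dist o x₂) (ho3 : 0 < dist o x₃)
    (hozR : dist o z ≤ R) (ho1R : dist o x₁ ≤ R) (ho2R : dist o x₂ ≤ R) (ho3R : dist o x₃ ≤ R) :
    cang κ (dist o x₁) (dist o x₂) (dist x₁ x₂) + cang κ (dist o x₂) (dist o x₃) (dist x₂ x₃)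
      + cang κ (dist o x₁) (dist o x₃) (dist x₁ x₃) ≤ 2 * π := by
  have key : ∀ x, 0 < dist o x → dist o x ≤ R → ∃ α,
      (∀ c b, dist o c + dist c z = dist o z → dist o b + dist b x = dist o x →
        0 < dist o c → 0 < dist o b → cang κ (dist o c) (dist o b) (dist c b) ≤ α) ∧
      cang κ (dist o x₁) (dist o x) (dist x₁ x) ≤ π - α := by
    intro x hx hxR
    let S : Set ℝ := {θ | ∃ c b, dist o c + dist c z = dist o z ∧ dist o b + dist b x = dist o x ∧
        0 < dist o c ∧ 0 < dist o b ∧ θ = cang κ (dist o c) (dist o b) (dist c b)}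
    have hne : S.Nonempty := ⟨_, z, x, by simp, by simp, hoz, hx, rfl⟩
    have hub : ∀ θ ∈ S, θ ≤ π - cang κ (dist o x₁) (dist o x) (dist x₁ x) := by
      rintro θ ⟨c, b, hc, hbx, hc0, hb0, rfl⟩
      have hcz : dist o c ≤ dist o z := by linarith [dist_nonneg (x := c) (y := z)]
      have hbx' : dist o b ≤ dist o x := by linarith [dist_nonneg (x := b) (y := x)]
      have h1 : dist c o + dist o x₁ = dist c x₁ := by
        apply le_antisymm
        · have := dist_triangle z c x₁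
          rw [dist_comm z c] at this
          rw [dist_comm z o] at hb
          rw [dist_comm c o]
          linarith
        · exact dist_triangle c o x₁
      have h2 := h.adj_ang hR (o := o) (p := b) (x := c) (y := x₁) h1 hc0 ho1 hb0
        (by linarith) ho1R (by linarith)
      have h3 := h.mono_cv hR (o := o) (p := x₁) (x := x) (w := b) hbx hb0 ho1 hxR ho1R
      have h4 := Real.antitone_arccos h3
      rw [← cang_eq_arccos, ← cang_eq_arccos, cang_comm κ (dist o x), cang_comm κ (dist o b),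
        dist_comm x x₁, dist_comm b x₁] at h4
      linarith
    have hbdd : BddAbove S := ⟨_, hub⟩
    refine ⟨sSup S, ?_, ?_⟩
    · intro c b hc hbx hc0 hb0
      exact le_csSup hbdd ⟨c, b, hc, hbx, hc0, hb0, rfl⟩
    · have := csSup_le hne hub
      linarith
  obtain ⟨α, hα, hα'⟩ := key x₂ ho2 ho2R
  obtain ⟨β, hβ, hβ'⟩ := key x₃ ho3 ho3R
  have := h.tri hR hoz ho2 ho3 hozR ho2R ho3R hα hβ
  linarith

lemma tendsto_cang {a b c : ℝ} {u v : ℕ → ℝ} (hR : Sml κ R) (ha : 0 < a) (hb : 0 < b)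
    (haR : a ≤ 2 * R) (hbR : b ≤ 2 * R) (hu : Tendsto u atTop (𝓝 a)) (hv : Tendsto v atTop (𝓝 b)) :
    Tendsto (fun n => cang κ (u n) (v n) c) atTop (𝓝 (cang κ a b c)) := by
  simp only [cang_eq_arccos]
  refine (Real.continuous_arccos.tendsto _).comp ?_
  unfold cvA
  split_ifs with h1 h2
  · refine Tendsto.div (((hu.pow 2).add (hv.pow 2)).sub tendsto_const_nhds) ((hu.const_mul 2).mul hv)
      (by positivity)
  · have e1 := hR.sin_pos h2 ha haR
    have e2 := hR.sin_pos h2 hb hbR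
    have cu : Tendsto (fun n => cos (√κ * u n)) atTop (𝓝 (cos (√κ * a))) :=
      (Real.continuous_cos.tendsto _).comp (hu.const_mul _)
    have cv : Tendsto (fun n => cos (√κ * v n)) atTop (𝓝 (cos (√κ * b))) :=
      (Real.continuous_cos.tendsto _).comp (hv.const_mul _)
    have su : Tendsto (fun n => sin (√κ * u n)) atTop (𝓝 (sin (√κ * a))) :=
      (Real.continuous_sin.tendsto _).comp (hu.const_mul _)
    have sv : Tendsto (fun n => sin (√κ * v n)) atTop (𝓝 (sin (√κ * b))) :=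
      (Real.continuous_sin.tendsto _).comp (hv.const_mul _)
    exact Tendsto.div (tendsto_const_nhds.sub (cu.mul cv)) (su.mul sv) (by positivity)
  · have e1 := sinh_pos' h1 h2 ha
    have e2 := sinh_pos' h1 h2 hb
    have cu : Tendsto (fun n => cosh (√(-κ) * u n)) atTop (𝓝 (cosh (√(-κ) * a))) :=
      (Real.continuous_cosh.tendsto _).comp (hu.const_mul _)
    have cv : Tendsto (fun n => cosh (√(-κ) * v n)) atTop (𝓝 (cosh (√(-κ) * b))) :=
      (Real.continuous_cosh.tendsto _).comp (hv.const_mul _)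
    have su : Tendsto (fun n => sinh (√(-κ) * u n)) atTop (𝓝 (sinh (√(-κ) * a))) :=
      (Real.continuous_sinh.tendsto _).comp (hu.const_mul _)
    have sv : Tendsto (fun n => sinh (√(-κ) * v n)) atTop (𝓝 (sinh (√(-κ) * b))) :=
      (Real.continuous_sinh.tendsto _).comp (hv.const_mul _)
    exact Tendsto.div ((cu.mul cv).sub tendsto_const_nhds) (su.mul sv) (by positivity)

end Geo

theorem IsAlexandrov.angle_sum {M : Type*} [MetricSpace M] [CompleteSpace M] {κ : ℝ}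
    (h : IsAlexandrov M κ) :
    ∃ r₀ > 0, ∀ z x₁ x₂ x₃ : M, z ≠ x₁ → z ≠ x₂ → z ≠ x₃ → dist z x₁ ≤ r₀ → dist z x₂ ≤ r₀ →
      dist z x₃ ≤ r₀ →
      cang κ (dist z x₁) (dist z x₂) (dist x₁ x₂) + cang κ (dist z x₂) (dist z x₃) (dist x₂ x₃)
        + cang κ (dist z x₁) (dist z x₃) (dist x₁ x₃) ≤ 2 * π := by
  obtain ⟨r₀, hr0, hr⟩ : ∃ r₀ > 0, Sml κ (2 * r₀) := by
    rcases lt_or_ge 0 κ with hκ | hκ
    · have h0 : 0 < √κ := Real.sqrt_pos.2 hκ
      refine ⟨π / (16 * √κ), by positivity, fun _ => ?_⟩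
      field_simp
      norm_num
    · exact ⟨1, one_pos, fun h' => absurd h' (not_lt.2 hκ)⟩
  refine ⟨r₀, hr0, ?_⟩
  intro z x₁ x₂ x₃ n1 n2 n3 d1 d2 d3
  have p1 : 0 < dist z x₁ := dist_pos.2 n1
  have p2 : 0 < dist z x₂ := dist_pos.2 n2
  have p3 : 0 < dist z x₃ := dist_pos.2 n3
  have ex : ∀ n : ℕ, ∃ w, dist z w = dist z x₁ * (1 / ((n : ℝ) + 1 + 1)) ∧
      dist w x₁ = dist z x₁ - dist z x₁ * (1 / ((n : ℝ) + 1 + 1)) := by
    intro n
    have : 1 / ((n : ℝ) + 1 + 1) ≤ 1 := by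
      rw [div_le_one (by positivity)]; linarith [Nat.cast_nonneg (α := ℝ) n]
    exact h.geodesic z x₁ _ _ (by positivity)
      (by nlinarith [mul_le_mul_of_nonneg_left this p1.le]) (by ring)
  choose w hw1 hw2 using ex
  have hε : Tendsto (fun n : ℕ => dist z x₁ * (1 / ((n : ℝ) + 1 + 1))) atTop (𝓝 0) := by
    have h1 := (tendsto_one_div_add_atTop_nhds_zero_nat (𝕜 := ℝ)).comp (tendsto_add_atTop_nat 1)
    have h2 := h1.const_mul (dist z x₁)
    rw [mul_zero] at h2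
    refine h2.congr fun n => ?_
    simp [Function.comp]
  have hwz : Tendsto (fun n => dist z (w n)) atTop (𝓝 0) := by
    simpa only [hw1] using hε
  have hwt : Tendsto w atTop (𝓝 z) := by
    rw [tendsto_iff_dist_tendsto_zero]
    simpa only [dist_comm] using hwz
  have t1 : Tendsto (fun n => dist (w n) x₁) atTop (𝓝 (dist z x₁)) :=
    hwt.dist tendsto_const_nhds
  have t2 : Tendsto (fun n => dist (w n) x₂) atTop (𝓝 (dist z x₂)) :=
    hwt.dist tendsto_const_nhds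
  have t3 : Tendsto (fun n => dist (w n) x₃) atTop (𝓝 (dist z x₃)) :=
    hwt.dist tendsto_const_nhds
  have T := ((tendsto_cang (κ := κ) (c := dist x₁ x₂) hr p1 p2 (by linarith) (by linarith) t1 t2).add
    (tendsto_cang (κ := κ) (c := dist x₂ x₃) hr p2 p3 (by linarith) (by linarith) t2 t3)).add
    (tendsto_cang (κ := κ) (c := dist x₁ x₃) hr p1 p3 (by linarith) (by linarith) t1 t3)
  refine le_of_tendsto T ?_
  filter_upwards [t2.eventually (lt_mem_nhds p2), t3.eventually (lt_mem_nhds p3)] with n e2 e3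
  have hlt : 1 / ((n : ℝ) + 1 + 1) < 1 := by
    rw [div_lt_one (by positivity)]; linarith [Nat.cast_nonneg (α := ℝ) n]
  have hlt0 : 0 < 1 / ((n : ℝ) + 1 + 1) := by positivity
  have hzw : dist z (w n) ≤ dist z x₁ := by rw [hw1]; nlinarith
  have hzw0 : 0 < dist z (w n) := by rw [hw1]; positivity
  have tr : ∀ x, dist z x ≤ r₀ → dist (w n) x ≤ 2 * r₀ := by
    intro x hx
    have := dist_triangle (w n) z x
    rw [dist_comm (w n) z] at this
    linarith
  refine h.sum_at hr (o := w n) (z := z) (by rw [hw1, hw2]; ring) (by rw [dist_comm]; exact hzw0)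
    (by rw [hw2]; nlinarith) e2 e3 (by rw [dist_comm]; linarith) (tr _ d1) (tr _ d2) (tr _ d3)

end Vale.Agent.P233.AB
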