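import Vale.Agent.P233.AB.AlexDef

namespace Vale.Agent.P233.AB

open Real

/-- comparison angle in the model plane of curvature `κ`: adjacent sides `a, b`, opposite side `c` -/
noncomputable def cang (κ a b c : ℝ) : ℝ :=
  if κ = 0 then arccos ((a ^ 2 + b ^ 2 - c ^ 2) / (2 * a * b))
  else if 0 < κ then
    arccos ((cos (√κ * c) - cos (√κ * a) * cos (√κ * b)) / (sin (√κ * a) * sin (√κ * b)))
  else arccos ((cosh (√(-κ) * a) * cosh (√(-κ) * b) - cosh (√(-κ) * c)) /
    (sinh (√(-κ) * a) * sinh (√(-κ) * b)))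

end Vale.Agent.P233.AB
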