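import Mathlib

namespace Vale.Agent.P233.AB

open Real

/-- The comparison inequality in the model plane of curvature `κ`: `a, b` are the distances from
`p` to the end points `x, y` of a geodesic, `w` is the point of this geodesic with
`|xw| = s`, `|wy| = t`, and the inequality says `r = |pw| ≥` the distance of the corresponding
points of the comparison triangle. -/
noncomputable def Cmp (κ a b s t r : ℝ) : Prop :=
  (κ = 0 → t * a ^ 2 + s * b ^ 2 - s * t * (s + t) ≤ (s + t) * r ^ 2) ∧
  (0 < κ → sin (√κ * (s + t)) * cos (√κ * r)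
    ≤ sin (√κ * t) * cos (√κ * a) + sin (√κ * s) * cos (√κ * b)) ∧
  (κ < 0 → sinh (√(-κ) * t) * cosh (√(-κ) * a) + sinh (√(-κ) * s) * cosh (√(-κ) * b)
    ≤ sinh (√(-κ) * (s + t)) * cosh (√(-κ) * r))

/-- A geodesic space with curvature `≥ κ` in the sense of Alexandrov: lower triangle comparison
for all geodesic triangles (of perimeter `< 2π/√κ` when `κ > 0`). -/
structure IsAlexandrov (M : Type*) [MetricSpace M] (κ : ℝ) : Prop where
  geodesic : ∀ x y : M, ∀ s t : ℝ, 0 ≤ s → 0 ≤ t → s + t = dist x y →
    ∃ w, dist x w = s ∧ dist w y = t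
  comparison : ∀ p x y w : M, dist x w + dist w y = dist x y →
    (0 < κ → dist p x + dist p y + dist x y < 2 * π / √κ) →
    Cmp κ (dist p x) (dist p y) (dist x w) (dist w y) (dist p w)

end Vale.Agent.P233.AB
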