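import Vale.Agent.P233.AB.AlexTrig

/-!
# P233 / AB : three hinges at an interior point of a geodesic
-/

namespace Vale.Agent.P233.AB

open Real

lemma sn_pos {κ r : ℝ} (h0 : 0 < r) (h : 0 < κ → √κ * r < π) : 0 < sn κ r := by
  rcases lt_trichotomy κ 0 with hκ | hκ | hκ
  · have hs : 0 < √(-κ) := sqrt_pos.2 (by linarith)
    rw [sn_neg_left hκ]
    exact div_pos (sinh_pos_iff.2 (by positivity)) hs
  · subst hκ
    rwa [sn_zero_left]
  · have hs : 0 < √κ := sqrt_pos.2 hκ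
    rw [sn_pos_left hκ]
    exact div_pos (sin_pos_of_pos_of_lt_pi (by positivity) (h hκ)) hs

lemma sn_nonneg {κ r : ℝ} (h0 : 0 ≤ r) (h : 0 < κ → √κ * r < π) : 0 ≤ sn κ r := by
  rcases h0.eq_or_lt with h1 | h1
  · rw [← h1, sn_zero]
  · exact (sn_pos h1 h).le

lemma md_nonneg {κ r : ℝ} : 0 ≤ md κ r := by
  rcases lt_trichotomy κ 0 with hκ | hκ | hκ
  · rw [md_neg_left hκ]
    exact div_nonneg (by linarith [one_le_cosh (√(-κ) * r)]) (by linarith)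
  · subst hκ
    rw [md_zero_left]
    positivity
  · rw [md_pos_left hκ]
    exact div_nonneg (by linarith [cos_le_one (√κ * r)]) hκ.le

/-- comparison cosine -/
noncomputable def ca (κ a b c : ℝ) : ℝ :=
  (md κ a + md κ b - κ * (md κ a * md κ b) - md κ c) / (sn κ a * sn κ b)

lemma ca_spec {κ a b c : ℝ} (ha : 0 < sn κ a) (hb : 0 < sn κ b) :
    md κ c = md κ a + md κ b - κ * (md κ a * md κ b) - ca κ a b c * (sn κ a * sn κ b) := by
  unfold ca
  rw [div_mul_cancel₀ _ (mul_pos ha hb).ne']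
  ring

/-- (i') the hinge inequality: `t = |bp|`, `D = |px|`, `c = |bx|`, `e = |bu|`, `|pu| = δ` -/
lemma hinge_ge {κ t D c e δ : ℝ} (ht : 0 < sn κ t) (hD : 0 < sn κ D)
    (h : sn κ (D - δ) * (md κ t - md κ δ) + sn κ δ * (md κ c - md κ (D - δ)) ≤
      sn κ (δ + (D - δ)) * md κ e) :
    md κ t + md κ δ - κ * (md κ t * md κ δ) - ca κ t D c * (sn κ t * sn κ δ) ≤ md κ e := by
  have e1 : sn κ (D - δ) = sn κ D * (1 - κ * md κ δ) - (1 - κ * md κ D) * sn κ δ := by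
    rw [sub_eq_add_neg D δ, sn_add, md_neg, sn_neg]; ring
  have e2 : md κ (D - δ) = md κ D + md κ δ - κ * (md κ D * md κ δ) - sn κ D * sn κ δ := by
    rw [sub_eq_add_neg D δ, md_add, md_neg, sn_neg]; ring
  rw [show δ + (D - δ) = D by ring, e1, e2, ca_spec (c := c) ht hD] at h
  have e3 := sn_sq κ δ
  have key : sn κ D * (md κ t + md κ δ - κ * (md κ t * md κ δ) - ca κ t D c * (sn κ t * sn κ δ)) ≤
      sn κ D * md κ e := by
    refine le_trans (le_of_eq ?_) h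
    linear_combination (-(sn κ D)) * e3
  exact le_of_mul_le_mul_left key hD

/-- (iii') : `t = |pb|`, `s = |pa|`, `Y = |yp|`, `Z = |ya|`, `c = |yb|` -/
lemma hinge_le {κ t s Y Z c : ℝ} (ht : 0 < sn κ t) (hY : 0 < sn κ Y)
    (h : sn κ t * (md κ Z - md κ s) + sn κ s * (md κ c - md κ t) ≤ sn κ (s + t) * md κ Y) :
    md κ Z ≤ md κ Y + md κ s - κ * (md κ Y * md κ s) + ca κ Y t c * (sn κ Y * sn κ s) := by
  rw [sn_add, ca_spec (c := c) hY ht] at h
  have key : sn κ t * md κ Z ≤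
      sn κ t * (md κ Y + md κ s - κ * (md κ Y * md κ s) + ca κ Y t c * (sn κ Y * sn κ s)) := by
    linarith
  exact le_of_mul_le_mul_left key ht

/-- (iv') : `t = |pb|`, `s = |pa|`, `δ = |pu|`, `X = |ua|`, `e = |ub|` -/
lemma hinge_le' {κ t s δ X e A : ℝ} (ht : 0 < sn κ t) (hs : 0 ≤ sn κ s)
    (he : md κ t + md κ δ - κ * (md κ t * md κ δ) - A * (sn κ t * sn κ δ) ≤ md κ e)
    (h : sn κ t * (md κ X - md κ s) + sn κ s * (md κ e - md κ t) ≤ sn κ (s + t) * md κ δ) :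
    md κ X ≤ md κ δ + md κ s - κ * (md κ δ * md κ s) + A * (sn κ δ * sn κ s) := by
  rw [sn_add] at h
  have h2 := mul_le_mul_of_nonneg_left he hs
  have key : sn κ t * md κ X ≤
      sn κ t * (md κ δ + md κ s - κ * (md κ δ * md κ s) + A * (sn κ δ * sn κ s)) := by
    linarith
  exact le_of_mul_le_mul_left key ht

lemma md_abs_le {κ h : ℝ} (hh : |κ| * h ^ 2 ≤ 1) : |md κ h| ≤ 2 * h ^ 2 := by
  have h1 := md_bd hh
  have h2 : |κ * h ^ 4 / 24| ≤ h ^ 2 / 24 := by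
    rw [abs_div, abs_mul, abs_of_nonneg (by positivity : (0 : ℝ) ≤ h ^ 4),
      abs_of_pos (by norm_num : (0 : ℝ) < 24)]
    have : |κ| * h ^ 4 ≤ h ^ 2 := by nlinarith [sq_nonneg h]
    linarith
  have h3 : κ ^ 2 * h ^ 6 ≤ h ^ 2 := by
    have e : κ ^ 2 * h ^ 6 = (|κ| * h ^ 2) ^ 2 * h ^ 2 := by
      rw [mul_pow, sq_abs]; ring
    rw [e]
    have : (|κ| * h ^ 2) ^ 2 ≤ 1 := by
      have h0 : 0 ≤ |κ| * h ^ 2 := by positivity
      nlinarith
    nlinarith [sq_nonneg h]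
  rw [abs_le] at h1 h2 ⊢
  constructor <;> nlinarith [sq_nonneg h]

lemma sn_sub_le {κ h : ℝ} (hh : |κ| * h ^ 2 ≤ 1) : |sn κ h - h| ≤ 2 * |κ| * |h| ^ 3 := by
  have h1 := sn_bd hh
  have h2 : |κ * h ^ 3 / 6| ≤ |κ| * |h| ^ 3 := by
    rw [abs_div, abs_mul, abs_pow, abs_of_pos (by norm_num : (0 : ℝ) < 6)]
    have : 0 ≤ |κ| * |h| ^ 3 := by positivity
    linarith
  have h3 : κ ^ 2 * |h| ^ 5 ≤ |κ| * |h| ^ 3 := by
    have e : κ ^ 2 * |h| ^ 5 = (|κ| * h ^ 2) * (|κ| * |h| ^ 3) := by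
      rw [← sq_abs κ, ← sq_abs h]; ring
    rw [e]
    have : 0 ≤ |κ| * |h| ^ 3 := by positivity
    nlinarith
  rw [abs_le] at h1 h2 ⊢
  constructor <;> linarith

/-- lower bound for the displacement -/
lemma disp {κ Y h : ℝ} : md κ (Y + h) = md κ Y + (1 - κ * md κ Y) * md κ h + sn κ Y * sn κ h := by
  rw [md_add]; ring

end Vale.Agent.P233.AB
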