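import Vale.Agent.P233.AB.AlexDef

/-!
# P233 / AB : the Lang-Schroeder-Sturm inequality for three points, curvature `≥ 0`
-/

namespace Vale.Agent.P233.AB

open Filter Topology

variable {M : Type*} [MetricSpace M]

lemma IsAlexandrov.cmp0 (h : IsAlexandrov M 0) {p x y w : M}
    (hw : dist x w + dist w y = dist x y) :
    dist w y * dist p x ^ 2 + dist x w * dist p y ^ 2 - dist x w * dist w y * dist x y ≤
      dist x y * dist p w ^ 2 := by
  have h1 := (h.comparison p x y w hw (fun h0 => absurd h0 (lt_irrefl _))).1 rfl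
  rwa [hw] at h1

/-- one point `u` on `[p, x₂]`, seen from `y` -/
lemma IsAlexandrov.far0 (h : IsAlexandrov M 0) {p x u y : M} {t b : ℝ} (hb : dist p x = b)
    (hu1 : dist p u = t * b) (hu2 : dist u x = (1 - t) * b) :
    (1 - t) * dist p y ^ 2 + t * dist x y ^ 2 - t * (1 - t) * b ^ 2 ≤ dist u y ^ 2 := by
  have c1 := h.cmp0 (p := y) (x := p) (y := x) (w := u) (by rw [hu1, hu2, hb]; ring)
  rw [hu1, hu2, hb, dist_comm y p, dist_comm y x, dist_comm y u] at c1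
  have hb0 : 0 ≤ b := hb ▸ dist_nonneg
  rcases hb0.eq_or_lt with hb' | hb'
  · have hpx : p = x := dist_eq_zero.1 (by rw [hb, ← hb'])
    have hpu : p = u := dist_eq_zero.1 (by rw [hu1, ← hb']; ring)
    rw [← hpx, ← hpu, ← hb']
    exact le_of_eq (by ring)
  · have : b * ((1 - t) * dist p y ^ 2 + t * dist x y ^ 2 - t * (1 - t) * b ^ 2) ≤
        b * dist u y ^ 2 := by linarith
    exact le_of_mul_le_mul_left this hb'

/-- two points `u`, `v` on `[p, x]`, `[p, y]` -/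
lemma IsAlexandrov.two0 (h : IsAlexandrov M 0) {p x y u v : M} {t b c : ℝ} (ht : 0 ≤ t)
    (hb : dist p x = b) (hc : dist p y = c)
    (hu1 : dist p u = t * b) (hu2 : dist u x = (1 - t) * b)
    (hv1 : dist p v = t * c) (hv2 : dist v y = (1 - t) * c) :
    t ^ 2 * dist x y ^ 2 ≤ dist u v ^ 2 := by
  have c1 := h.far0 (y := y) hb hu1 hu2
  have c2 := h.far0 (y := u) hc hv1 hv2
  rw [hc] at c1
  rw [hu1, dist_comm y u, dist_comm v u] at c2
  have h4 := mul_le_mul_of_nonneg_left c1 ht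
  linarith

/-- the opposite point `w` on `[p, z]` -/
lemma IsAlexandrov.opp0 (h : IsAlexandrov M 0) {p x₁ w x u : M} {t a b : ℝ} (ht : 0 ≤ t)
    (ha0 : 0 < a) (ha : dist p x₁ = a) (hb : dist p x = b)
    (hw1 : dist p w = t * a / 2) (hwx : t * a / 2 + a = dist w x₁)
    (hu1 : dist p u = t * b) (hu2 : dist u x = (1 - t) * b) :
    dist w u ^ 2 ≤ t ^ 2 * (3 / 2 * b ^ 2 + 3 / 4 * a ^ 2 - dist x₁ x ^ 2 / 2) := by
  have c1 := h.far0 (y := x₁) hb hu1 hu2
  have c2 := h.cmp0 (p := u) (x := w) (y := x₁) (w := p) (by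
    rw [dist_comm w p, hw1, ha, hwx])
  rw [dist_comm w p, hw1, ha, ← hwx, dist_comm u p, hu1, dist_comm u w] at c2
  rw [ha, dist_comm x x₁] at c1
  have h4 := mul_le_mul_of_nonneg_left c1 (by positivity : 0 ≤ t * a / 2)
  have c3 : a * dist w u ^ 2 ≤ a * (t ^ 2 * (3 / 2 * b ^ 2 + 3 / 4 * a ^ 2 -
      dist x₁ x ^ 2 / 2)) := by
    linarith
  exact le_of_mul_le_mul_left c3 ha0

/-- the inequality at an interior point `p` of the geodesic `z x₁` -/
lemma IsAlexandrov.lss0_interior (h : IsAlexandrov M 0) {z p x₁ x₂ x₃ : M}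
    (h0 : 0 < dist z p) (h1 : 0 < dist p x₁) (hp : dist z p + dist p x₁ = dist z x₁) :
    dist x₁ x₂ ^ 2 + dist x₁ x₃ ^ 2 + dist x₂ x₃ ^ 2 ≤
      3 * (dist p x₁ ^ 2 + dist p x₂ ^ 2 + dist p x₃ ^ 2) := by
  obtain ⟨a, ha⟩ : ∃ a, dist p x₁ = a := ⟨_, rfl⟩
  obtain ⟨b, hb⟩ : ∃ b, dist p x₂ = b := ⟨_, rfl⟩
  obtain ⟨c, hc⟩ : ∃ c, dist p x₃ = c := ⟨_, rfl⟩
  rw [ha] at h1 hp
  have hb0 : 0 ≤ b := hb ▸ dist_nonneg
  have hc0 : 0 ≤ c := hc ▸ dist_nonneg
  obtain ⟨t, ht0, ht1, htq⟩ : ∃ t : ℝ, 0 < t ∧ t ≤ 1 ∧ t * a / 2 ≤ dist z p := by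
    refine ⟨min 1 (dist z p / a), lt_min one_pos (by positivity), min_le_left _ _, ?_⟩
    have : min 1 (dist z p / a) ≤ dist z p / a := min_le_right _ _
    rw [le_div_iff₀ h1] at this
    have h3 : 0 < min 1 (dist z p / a) := lt_min one_pos (by positivity)
    nlinarith
  obtain ⟨u, hu1, hu2⟩ := h.geodesic p x₂ (t * b) ((1 - t) * b) (by positivity)
    (mul_nonneg (by linarith) hb0) (by rw [hb]; ring)
  obtain ⟨v, hv1, hv2⟩ := h.geodesic p x₃ (t * c) ((1 - t) * c) (by positivity)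
    (mul_nonneg (by linarith) hc0) (by rw [hc]; ring)
  obtain ⟨w, hw1, hw2⟩ := h.geodesic p z (t * a / 2) (dist z p - t * a / 2) (by positivity)
    (by linarith) (by rw [dist_comm p z]; ring)
  have hwx : t * a / 2 + a = dist w x₁ := by
    refine le_antisymm ?_ ?_
    · have h3 : dist z x₁ ≤ dist z w + dist w x₁ := dist_triangle _ _ _
      rw [dist_comm w z] at hw2
      linarith
    · have h3 : dist w x₁ ≤ dist w p + dist p x₁ := dist_triangle _ _ _
      rwa [dist_comm w p, hw1, ha] at h3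
  have k2 := h.opp0 ht0.le h1 ha hb hw1 hwx hu1 hu2
  have k3 := h.opp0 ht0.le h1 ha hc hw1 hwx hv1 hv2
  have k4 := h.two0 ht0.le hb hc hu1 hu2 hv1 hv2
  have k5 : dist u v ^ 2 ≤ 2 * dist w u ^ 2 + 2 * dist w v ^ 2 := by
    have h3 : dist u v ≤ dist w u + dist w v := by
      have := dist_triangle u w v
      rwa [dist_comm u w] at this
    have h4 : (0 : ℝ) ≤ dist u v := dist_nonneg
    nlinarith [sq_nonneg (dist w u - dist w v)]
  rw [ha, hb, hc]
  have k6 : t ^ 2 * (dist x₁ x₂ ^ 2 + dist x₁ x₃ ^ 2 + dist x₂ x₃ ^ 2) ≤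
      t ^ 2 * (3 * (a ^ 2 + b ^ 2 + c ^ 2)) := by
    linarith
  exact le_of_mul_le_mul_left k6 (by positivity)

/-- **(LSS)** for three points and curvature `≥ 0` -/
theorem IsAlexandrov.lss0 (h : IsAlexandrov M 0) (z x₁ x₂ x₃ : M) :
    dist x₁ x₂ ^ 2 + dist x₁ x₃ ^ 2 + dist x₂ x₃ ^ 2 ≤
      3 * (dist z x₁ ^ 2 + dist z x₂ ^ 2 + dist z x₃ ^ 2) := by
  rcases eq_or_ne z x₁ with hz | hz
  · subst hz
    have h3 := dist_triangle x₂ z x₃
    rw [dist_comm x₂ z] at h3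
    have h4 : (0 : ℝ) ≤ dist x₂ x₃ := dist_nonneg
    rw [dist_self]
    nlinarith [sq_nonneg (dist z x₂ - dist z x₃), sq_nonneg (dist z x₂), sq_nonneg (dist z x₃)]
  · have hd : 0 < dist z x₁ := dist_pos.2 hz
    have key : ∀ᶠ s in 𝓝[>] (0 : ℝ), dist x₁ x₂ ^ 2 + dist x₁ x₃ ^ 2 + dist x₂ x₃ ^ 2 ≤
        3 * ((dist z x₁ + s) ^ 2 + (dist z x₂ + s) ^ 2 + (dist z x₃ + s) ^ 2) := by
      filter_upwards [Ioo_mem_nhdsGT hd] with s hs
      obtain ⟨p, hp1, hp2⟩ := h.geodesic z x₁ s (dist z x₁ - s) hs.1.le (by linarith [hs.2])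
        (by ring)
      have h3 := h.lss0_interior (z := z) (p := p) (x₁ := x₁) (x₂ := x₂) (x₃ := x₃)
        (by rw [hp1]; exact hs.1) (by rw [hp2]; linarith [hs.2]) (by rw [hp1, hp2]; ring)
      refine h3.trans ?_
      have h4 : ∀ y, dist p y ≤ dist z y + s := by
        intro y
        have := dist_triangle p z y
        rw [dist_comm p z, hp1] at this
        linarith
      gcongr <;> exact h4 _
    have hc : Tendsto (fun s : ℝ => 3 * ((dist z x₁ + s) ^ 2 + (dist z x₂ + s) ^ 2 +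
        (dist z x₃ + s) ^ 2)) (𝓝[>] 0) (𝓝 (3 * ((dist z x₁ + 0) ^ 2 + (dist z x₂ + 0) ^ 2 +
        (dist z x₃ + 0) ^ 2))) := by
      refine Tendsto.mono_left ?_ nhdsWithin_le_nhds
      exact Continuous.tendsto (by fun_prop) 0
    have := ge_of_tendsto hc key
    simpa using this

end Vale.Agent.P233.AB
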