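import Vale.Agent.P233.AB.AlexDef

/-!
# P233 / AB : generalised trigonometric functions of the model plane of curvature `κ`
-/

namespace Vale.Agent.P233.AB

open Real

/-- generalised sine -/
noncomputable def sn (κ r : ℝ) : ℝ :=
  if κ = 0 then r else if 0 < κ then sin (√κ * r) / √κ else sinh (√(-κ) * r) / √(-κ)

/-- modified distance, `(1 - cos (√κ r)) / κ` -/
noncomputable def md (κ r : ℝ) : ℝ :=
  if κ = 0 then r ^ 2 / 2 else if 0 < κ then (1 - cos (√κ * r)) / κ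
  else (cosh (√(-κ) * r) - 1) / (-κ)

lemma sn_zero_left (r : ℝ) : sn 0 r = r := by simp [sn]

lemma md_zero_left (r : ℝ) : md 0 r = r ^ 2 / 2 := by simp [md]

lemma sn_pos_left {κ : ℝ} (h : 0 < κ) (r : ℝ) : sn κ r = sin (√κ * r) / √κ := by
  simp [sn, h.ne', h]

lemma md_pos_left {κ : ℝ} (h : 0 < κ) (r : ℝ) : md κ r = (1 - cos (√κ * r)) / κ := by
  simp [md, h.ne', h]

lemma sn_neg_left {κ : ℝ} (h : κ < 0) (r : ℝ) : sn κ r = sinh (√(-κ) * r) / √(-κ) := by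
  simp [sn, h.ne, h.not_gt]

lemma md_neg_left {κ : ℝ} (h : κ < 0) (r : ℝ) : md κ r = (cosh (√(-κ) * r) - 1) / (-κ) := by
  simp [md, h.ne, h.not_gt]

lemma sn_zero (κ : ℝ) : sn κ 0 = 0 := by
  unfold sn; split_ifs <;> simp

lemma md_zero (κ : ℝ) : md κ 0 = 0 := by
  unfold md; split_ifs <;> simp

lemma sn_neg (κ r : ℝ) : sn κ (-r) = -sn κ r := by
  unfold sn; split_ifs <;> simp [neg_div]

lemma md_neg (κ r : ℝ) : md κ (-r) = md κ r := by
  unfold md; split_ifs <;> simp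

lemma sn_add (κ s t : ℝ) :
    sn κ (s + t) = sn κ s * (1 - κ * md κ t) + (1 - κ * md κ s) * sn κ t := by
  rcases lt_trichotomy κ 0 with h | h | h
  · have hk : 0 < -κ := by linarith
    have hs : √(-κ) ≠ 0 := (sqrt_pos.2 hk).ne'
    have h0 : κ ≠ 0 := h.ne
    rw [sn_neg_left h, sn_neg_left h, sn_neg_left h, md_neg_left h, md_neg_left h, mul_add,
      sinh_add]
    field_simp
    ring
  · subst h
    simp [sn_zero_left]
  · have hs : √κ ≠ 0 := (sqrt_pos.2 h).ne'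
    rw [sn_pos_left h, sn_pos_left h, sn_pos_left h, md_pos_left h, md_pos_left h, mul_add,
      sin_add]
    field_simp
    ring

lemma md_add (κ s t : ℝ) :
    md κ (s + t) = md κ s + md κ t - κ * (md κ s * md κ t) + sn κ s * sn κ t := by
  rcases lt_trichotomy κ 0 with h | h | h
  · have hk : 0 < -κ := by linarith
    have hs : √(-κ) ≠ 0 := (sqrt_pos.2 hk).ne'
    have hsq : √(-κ) * √(-κ) = -κ := mul_self_sqrt hk.le
    have e : sn κ s * sn κ t = sinh (√(-κ) * s) * sinh (√(-κ) * t) / (-κ) := by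
      rw [sn_neg_left h, sn_neg_left h, div_mul_div_comm, hsq]
    rw [e, md_neg_left h, md_neg_left h, md_neg_left h, mul_add, cosh_add]
    field_simp
    ring
  · subst h
    simp only [md_zero_left, sn_zero_left]
    ring
  · have hs : √κ ≠ 0 := (sqrt_pos.2 h).ne'
    have hsq : √κ * √κ = κ := mul_self_sqrt h.le
    have e : sn κ s * sn κ t = sin (√κ * s) * sin (√κ * t) / κ := by
      rw [sn_pos_left h, sn_pos_left h, div_mul_div_comm, hsq]
    rw [e, md_pos_left h, md_pos_left h, md_pos_left h, mul_add, cos_add]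
    field_simp
    ring

lemma sn_sq (κ r : ℝ) : sn κ r ^ 2 = 2 * md κ r - κ * md κ r ^ 2 := by
  have h := md_add κ r (-r)
  rw [add_neg_cancel, md_zero, md_neg, sn_neg] at h
  linarith

/-- the comparison inequality in terms of `sn` and `md` -/
lemma Cmp.md {κ a b s t r : ℝ} (h : Cmp κ a b s t r) :
    sn κ t * (md κ a - md κ s) + sn κ s * (md κ b - md κ t) ≤ sn κ (s + t) * md κ r := by
  rcases lt_trichotomy κ 0 with hκ | hκ | hκ
  · have h1 := h.2.2 hκ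
    have hk : 0 < -κ := by linarith
    have hs : 0 < √(-κ) := sqrt_pos.2 hk
    simp only [sn_neg_left hκ, md_neg_left hκ]
    have e : sinh (√(-κ) * (s + t)) = sinh (√(-κ) * s) * cosh (√(-κ) * t) +
      cosh (√(-κ) * s) * sinh (√(-κ) * t) := by rw [mul_add, sinh_add]
    have h2 : 0 ≤ (sinh (√(-κ) * (s + t)) * cosh (√(-κ) * r) -
      (sinh (√(-κ) * t) * cosh (√(-κ) * a) + sinh (√(-κ) * s) * cosh (√(-κ) * b))) /
        (√(-κ) * (-κ)) := div_nonneg (by linarith) (by positivity)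
    have h3 : sinh (√(-κ) * (s + t)) / √(-κ) * ((cosh (√(-κ) * r) - 1) / -κ) -
      (sinh (√(-κ) * t) / √(-κ) * ((cosh (√(-κ) * a) - 1) / -κ - (cosh (√(-κ) * s) - 1) / -κ) +
      sinh (√(-κ) * s) / √(-κ) * ((cosh (√(-κ) * b) - 1) / -κ - (cosh (√(-κ) * t) - 1) / -κ)) =
      (sinh (√(-κ) * (s + t)) * cosh (√(-κ) * r) -
      (sinh (√(-κ) * t) * cosh (√(-κ) * a) + sinh (√(-κ) * s) * cosh (√(-κ) * b))) /
        (√(-κ) * (-κ)) := by
      rw [e]
      field_simp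
      ring
    linarith
  · subst hκ
    have h1 := h.1 rfl
    simp only [sn_zero_left, md_zero_left]
    nlinarith
  · have h1 := h.2.1 hκ
    have hs : 0 < √κ := sqrt_pos.2 hκ
    simp only [sn_pos_left hκ, md_pos_left hκ]
    have e : sin (√κ * (s + t)) = sin (√κ * s) * cos (√κ * t) +
      cos (√κ * s) * sin (√κ * t) := by rw [mul_add, sin_add]
    have h2 : 0 ≤ ((sin (√κ * t) * cos (√κ * a) + sin (√κ * s) * cos (√κ * b)) -
      sin (√κ * (s + t)) * cos (√κ * r)) / (√κ * κ) := div_nonneg (by linarith) (by positivity)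
    have h3 : sin (√κ * (s + t)) / √κ * ((1 - cos (√κ * r)) / κ) -
      (sin (√κ * t) / √κ * ((1 - cos (√κ * a)) / κ - (1 - cos (√κ * s)) / κ) +
      sin (√κ * s) / √κ * ((1 - cos (√κ * b)) / κ - (1 - cos (√κ * t)) / κ)) =
      ((sin (√κ * t) * cos (√κ * a) + sin (√κ * s) * cos (√κ * b)) -
      sin (√κ * (s + t)) * cos (√κ * r)) / (√κ * κ) := by
      rw [e]
      field_simp
      ring
    linarith


/-! ### Taylor bounds -/

lemma cosh_bd {x : ℝ} (hx : |x| ≤ 1) : |cosh x - (1 + x ^ 2 / 2 + x ^ 4 / 24)| ≤ |x| ^ 6 := by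
  have h1 := Real.exp_bound (x := x) hx (n := 6) (by norm_num)
  have h2 := Real.exp_bound (x := -x) (by rwa [abs_neg]) (n := 6) (by norm_num)
  rw [abs_neg] at h2
  simp only [Finset.sum_range_succ, Finset.sum_range_zero, Nat.factorial, Nat.succ_eq_add_one,
    Nat.cast_mul, Nat.cast_add, Nat.cast_one, Nat.cast_ofNat] at h1 h2
  have h3 := pow_nonneg (abs_nonneg x) 6
  rw [cosh_eq]
  rw [abs_le] at h1 h2 ⊢
  norm_num at h1 h2
  constructor <;> nlinarith

lemma sinh_bd {x : ℝ} (hx : |x| ≤ 1) : |sinh x - (x + x ^ 3 / 6)| ≤ |x| ^ 5 := by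
  have h1 := Real.exp_bound (x := x) hx (n := 5) (by norm_num)
  have h2 := Real.exp_bound (x := -x) (by rwa [abs_neg]) (n := 5) (by norm_num)
  rw [abs_neg] at h2
  simp only [Finset.sum_range_succ, Finset.sum_range_zero, Nat.factorial, Nat.succ_eq_add_one,
    Nat.cast_mul, Nat.cast_add, Nat.cast_one, Nat.cast_ofNat] at h1 h2
  have h3 := pow_nonneg (abs_nonneg x) 5
  rw [sinh_eq]
  rw [abs_le] at h1 h2 ⊢
  norm_num at h1 h2
  constructor <;> nlinarith

lemma cexp_bd {x : ℝ} (hx : |x| ≤ 1) (n : ℕ) (hn : 0 < n) :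
    ‖Complex.exp (x * Complex.I) - ∑ k ∈ Finset.range n, (x * Complex.I) ^ k / (k.factorial : ℂ)‖
      ≤ |x| ^ n * (n.succ * (n.factorial * n : ℝ)⁻¹) := by
  have h := Complex.exp_bound (x := x * Complex.I) (by simpa using hx) hn
  simpa using h

lemma cos_bd {x : ℝ} (hx : |x| ≤ 1) : |cos x - (1 - x ^ 2 / 2 + x ^ 4 / 24)| ≤ |x| ^ 6 := by
  have h1 := cexp_bd hx 6 (by norm_num)
  have h2 := (Complex.abs_re_le_norm _).trans h1
  have e : (Complex.exp (x * Complex.I) - ∑ k ∈ Finset.range 6, (x * Complex.I) ^ k /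
      (k.factorial : ℂ)).re = cos x - (1 - x ^ 2 / 2 + x ^ 4 / 24) := by
    rw [Complex.sub_re, Complex.exp_ofReal_mul_I_re]
    congr 1
    simp only [Finset.sum_range_succ, Finset.sum_range_zero, Nat.factorial, Nat.succ_eq_add_one]
    have e4 : ((x : ℂ) * Complex.I) ^ 4 = ((x ^ 4 : ℝ) : ℂ) := by
      rw [mul_pow, Complex.I_pow_four]; push_cast; ring
    have e2 : ((x : ℂ) * Complex.I) ^ 2 = ((-x ^ 2 : ℝ) : ℂ) := by
      rw [mul_pow, Complex.I_sq]; push_cast; ring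
    have e3 : ((x : ℂ) * Complex.I) ^ 3 = ((-x ^ 3 : ℝ) : ℂ) * Complex.I := by
      rw [pow_succ, e2]; push_cast; ring
    have e5 : ((x : ℂ) * Complex.I) ^ 5 = ((x ^ 5 : ℝ) : ℂ) * Complex.I := by
      rw [pow_succ, e4]; push_cast; ring
    rw [e2, e3, e4, e5]
    norm_num
    norm_cast
    ring
  rw [e] at h2
  refine h2.trans ?_
  have h3 := pow_nonneg (abs_nonneg x) 6
  norm_num [Nat.factorial]
  nlinarith

lemma sin_bd {x : ℝ} (hx : |x| ≤ 1) : |sin x - (x - x ^ 3 / 6)| ≤ |x| ^ 5 := by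
  have h1 := cexp_bd hx 5 (by norm_num)
  have h2 := (Complex.abs_im_le_norm _).trans h1
  have e : (Complex.exp (x * Complex.I) - ∑ k ∈ Finset.range 5, (x * Complex.I) ^ k /
      (k.factorial : ℂ)).im = sin x - (x - x ^ 3 / 6) := by
    rw [Complex.sub_im, Complex.exp_ofReal_mul_I_im]
    congr 1
    simp only [Finset.sum_range_succ, Finset.sum_range_zero, Nat.factorial, Nat.succ_eq_add_one]
    have e4 : ((x : ℂ) * Complex.I) ^ 4 = ((x ^ 4 : ℝ) : ℂ) := by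
      rw [mul_pow, Complex.I_pow_four]; push_cast; ring
    have e2 : ((x : ℂ) * Complex.I) ^ 2 = ((-x ^ 2 : ℝ) : ℂ) := by
      rw [mul_pow, Complex.I_sq]; push_cast; ring
    have e3 : ((x : ℂ) * Complex.I) ^ 3 = ((-x ^ 3 : ℝ) : ℂ) * Complex.I := by
      rw [pow_succ, e2]; push_cast; ring
    rw [e2, e3, e4]
    norm_num
    norm_cast
    ring
  rw [e] at h2
  refine h2.trans ?_
  have h3 := pow_nonneg (abs_nonneg x) 5
  norm_num [Nat.factorial]
  nlinarith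

/-- Taylor bound of `md` -/
lemma md_bd {κ r : ℝ} (h : |κ| * r ^ 2 ≤ 1) :
    |md κ r - (r ^ 2 / 2 - κ * r ^ 4 / 24)| ≤ κ ^ 2 * r ^ 6 := by
  rcases lt_trichotomy κ 0 with hκ | hκ | hκ
  · have hk : 0 < -κ := by linarith
    have hs : 0 < √(-κ) := sqrt_pos.2 hk
    have hsq : √(-κ) ^ 2 = -κ := sq_sqrt hk.le
    rw [abs_of_neg hκ] at h
    have hx : |√(-κ) * r| ≤ 1 := by
      rw [abs_le_one_iff_mul_self_le_one]
      nlinarith
    have h1 := cosh_bd hx
    rw [md_neg_left hκ]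
    have e : (cosh (√(-κ) * r) - 1) / -κ - (r ^ 2 / 2 - κ * r ^ 4 / 24) =
        (cosh (√(-κ) * r) - (1 + (√(-κ) * r) ^ 2 / 2 + (√(-κ) * r) ^ 4 / 24)) / (-κ) := by
      have e4 : (√(-κ) * r) ^ 4 = κ ^ 2 * r ^ 4 := by
        rw [mul_pow, show √(-κ) ^ 4 = (√(-κ) ^ 2) ^ 2 by ring, hsq]; ring
      rw [e4, mul_pow, hsq]
      have h0 : κ ≠ 0 := hκ.ne
      field_simp
      ring
    rw [e, abs_div, abs_of_pos hk, div_le_iff₀ hk]
    refine h1.trans (le_of_eq ?_)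
    rw [← abs_pow, show (√(-κ) * r) ^ 6 = (√(-κ) ^ 2) ^ 3 * r ^ 6 by ring, hsq,
      abs_of_nonneg (by positivity)]
    ring
  · subst hκ
    simp [md_zero_left]
  · have hs : 0 < √κ := sqrt_pos.2 hκ
    have hsq : √κ ^ 2 = κ := sq_sqrt hκ.le
    rw [abs_of_pos hκ] at h
    have hx : |√κ * r| ≤ 1 := by
      rw [abs_le_one_iff_mul_self_le_one]
      nlinarith
    have h1 := cos_bd hx
    rw [md_pos_left hκ]
    have e : (1 - cos (√κ * r)) / κ - (r ^ 2 / 2 - κ * r ^ 4 / 24) =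
        -(cos (√κ * r) - (1 - (√κ * r) ^ 2 / 2 + (√κ * r) ^ 4 / 24)) / κ := by
      have e4 : (√κ * r) ^ 4 = κ ^ 2 * r ^ 4 := by
        rw [mul_pow, show √κ ^ 4 = (√κ ^ 2) ^ 2 by ring, hsq]
      rw [e4, mul_pow, hsq]
      have h0 : κ ≠ 0 := hκ.ne'
      field_simp
      ring
    rw [e, abs_div, abs_of_pos hκ, abs_neg, div_le_iff₀ hκ]
    refine h1.trans (le_of_eq ?_)
    rw [← abs_pow, show (√κ * r) ^ 6 = (√κ ^ 2) ^ 3 * r ^ 6 by ring, hsq,
      abs_of_nonneg (by positivity)]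
    ring

/-- Taylor bound of `sn` -/
lemma sn_bd {κ r : ℝ} (h : |κ| * r ^ 2 ≤ 1) :
    |sn κ r - (r - κ * r ^ 3 / 6)| ≤ κ ^ 2 * |r| ^ 5 := by
  rcases lt_trichotomy κ 0 with hκ | hκ | hκ
  · have hk : 0 < -κ := by linarith
    have hs : 0 < √(-κ) := sqrt_pos.2 hk
    have hsq : √(-κ) ^ 2 = -κ := sq_sqrt hk.le
    rw [abs_of_neg hκ] at h
    have hx : |√(-κ) * r| ≤ 1 := by
      rw [abs_le_one_iff_mul_self_le_one]
      nlinarith
    have h1 := sinh_bd hx
    rw [sn_neg_left hκ]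
    have e : sinh (√(-κ) * r) / √(-κ) - (r - κ * r ^ 3 / 6) =
        (sinh (√(-κ) * r) - (√(-κ) * r + (√(-κ) * r) ^ 3 / 6)) / √(-κ) := by
      have e4 : (√(-κ) * r) ^ 3 = -κ * √(-κ) * r ^ 3 := by
        rw [mul_pow, show √(-κ) ^ 3 = √(-κ) ^ 2 * √(-κ) by ring, hsq]
      rw [e4]
      field_simp
      ring
    rw [e, abs_div, abs_of_pos hs, div_le_iff₀ hs]
    refine h1.trans (le_of_eq ?_)
    rw [abs_mul, abs_of_pos hs, show (√(-κ) * |r|) ^ 5 = (√(-κ) ^ 2) ^ 2 * √(-κ) * |r| ^ 5 by ring,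
      hsq]
    ring
  · subst hκ
    simp [sn_zero_left]
  · have hs : 0 < √κ := sqrt_pos.2 hκ
    have hsq : √κ ^ 2 = κ := sq_sqrt hκ.le
    rw [abs_of_pos hκ] at h
    have hx : |√κ * r| ≤ 1 := by
      rw [abs_le_one_iff_mul_self_le_one]
      nlinarith
    have h1 := sin_bd hx
    rw [sn_pos_left hκ]
    have e : sin (√κ * r) / √κ - (r - κ * r ^ 3 / 6) =
        (sin (√κ * r) - (√κ * r - (√κ * r) ^ 3 / 6)) / √κ := by
      have e4 : (√κ * r) ^ 3 = κ * √κ * r ^ 3 := by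
        rw [mul_pow, show √κ ^ 3 = √κ ^ 2 * √κ by ring, hsq]
      rw [e4]
      field_simp
    rw [e, abs_div, abs_of_pos hs, div_le_iff₀ hs]
    refine h1.trans (le_of_eq ?_)
    rw [abs_mul, abs_of_pos hs, show (√κ * |r|) ^ 5 = (√κ ^ 2) ^ 2 * √κ * |r| ^ 5 by ring,
      hsq]
    ring

end Vale.Agent.P233.AB
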