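import Vale.Agent.P233.AB.DatI

open MeasureTheory Filter Topology
open scoped ENNReal NNReal

namespace Vale.Agent.P233

variable {M : Type*} [MeasurableSpace M] {m : Measure M} {C : Calc m}

/-- `∫ φ Γ(x,y)` -/
noncomputable def Calc.BB (C : Calc m) (φ x y : M →ₘ[m] ℝ) : ℝ := I (φ * C.Γ x y)

namespace IsDir

variable (hC : IsDir C) {φ ψ x y z w : M →ₘ[m] ℝ}
include hC

theorem BB_mem (hφ : MemLp φ ∞ m) (hx : x ∈ C.W) (hy : y ∈ C.W) :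
    MemLp (φ * C.Γ x y : M →ₘ[m] ℝ) 1 m := mem_mul_top hφ (hC.Γ_mem1 hx hy)

theorem BB_comm (φ : M →ₘ[m] ℝ) (hx : x ∈ C.W) (hy : y ∈ C.W) : C.BB φ x y = C.BB φ y x := by
  unfold Calc.BB
  rw [hC.symm x hx y hy]

theorem BB_add_l (hφ : MemLp φ ∞ m) (hx : x ∈ C.W) (hy : y ∈ C.W) (hz : z ∈ C.W) :
    C.BB φ (x + y) z = C.BB φ x z + C.BB φ y z := by
  unfold Calc.BB
  rw [hC.add_left x hx y hy z hz, mul_add, I_add (hC.BB_mem hφ hx hz) (hC.BB_mem hφ hy hz)]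

theorem BB_smul_l (c : ℝ) (φ : M →ₘ[m] ℝ) (hx : x ∈ C.W) (hz : z ∈ C.W) :
    C.BB φ (c • x) z = c * C.BB φ x z := by
  unfold Calc.BB
  rw [hC.smul_left c x hx z hz, mul_smul_comm, I_smul]

theorem BB_lin2_l (hφ : MemLp φ ∞ m) (c d : ℝ) (hx : x ∈ C.W) (hy : y ∈ C.W) (hz : z ∈ C.W) :
    C.BB φ (c • x + d • y) z = c * C.BB φ x z + d * C.BB φ y z := by
  rw [hC.BB_add_l hφ (hC.smul_mem c x hx) (hC.smul_mem d y hy) hz, hC.BB_smul_l c φ hx hz,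
    hC.BB_smul_l d φ hy hz]

theorem BB_lin2_r (hφ : MemLp φ ∞ m) (c d : ℝ) (hx : x ∈ C.W) (hy : y ∈ C.W) (hz : z ∈ C.W) :
    C.BB φ z (c • x + d • y) = c * C.BB φ z x + d * C.BB φ z y := by
  rw [hC.BB_comm φ hz (hC.add_mem _ (hC.smul_mem c x hx) _ (hC.smul_mem d y hy)),
    hC.BB_lin2_l hφ c d hx hy hz, hC.BB_comm φ hx hz, hC.BB_comm φ hy hz]

theorem BB_lin3_l (hφ : MemLp φ ∞ m) (c d e : ℝ) (hx : x ∈ C.W) (hy : y ∈ C.W) (hw : w ∈ C.W)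
    (hz : z ∈ C.W) : C.BB φ (c • x + d • y + e • w) z
      = c * C.BB φ x z + d * C.BB φ y z + e * C.BB φ w z := by
  rw [hC.BB_add_l hφ (hC.add_mem _ (hC.smul_mem c x hx) _ (hC.smul_mem d y hy))
    (hC.smul_mem e w hw) hz, hC.BB_lin2_l hφ c d hx hy hz, hC.BB_smul_l e φ hw hz]

theorem BB_lin3_r (hφ : MemLp φ ∞ m) (c d e : ℝ) (hx : x ∈ C.W) (hy : y ∈ C.W) (hw : w ∈ C.W)
    (hz : z ∈ C.W) : C.BB φ z (c • x + d • y + e • w)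
      = c * C.BB φ z x + d * C.BB φ z y + e * C.BB φ z w := by
  rw [hC.BB_comm φ hz (hC.add_mem _ (hC.add_mem _ (hC.smul_mem c x hx) _ (hC.smul_mem d y hy)) _
    (hC.smul_mem e w hw)), hC.BB_lin3_l hφ c d e hx hy hw hz, hC.BB_comm φ hx hz,
    hC.BB_comm φ hy hz, hC.BB_comm φ hw hz]

/-- `g - s G` in the second slot -/
theorem BB_sub_r (hφ : MemLp φ ∞ m) (s : ℝ) (hx : x ∈ C.W) (hy : y ∈ C.W) (hz : z ∈ C.W) :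
    C.BB φ z (x - s • y) = C.BB φ z x - s * C.BB φ z y := by
  have h := hC.BB_lin2_r hφ 1 (-s) hx hy hz
  rw [one_smul, neg_smul, ← sub_eq_add_neg] at h
  rw [h]
  ring

theorem BB_sub_l (hφ : MemLp φ ∞ m) (s : ℝ) (hx : x ∈ C.W) (hy : y ∈ C.W) (hz : z ∈ C.W) :
    C.BB φ (x - s • y) z = C.BB φ x z - s * C.BB φ y z := by
  rw [hC.BB_comm φ (hC.sub_mem hx (hC.smul_mem s y hy)) hz, hC.BB_sub_r hφ s hx hy hz,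
    hC.BB_comm φ hz hx, hC.BB_comm φ hz hy]

theorem BB_lin_φ (hφ : MemLp φ ∞ m) (hψ : MemLp ψ ∞ m) (c d : ℝ) (hx : x ∈ C.W) (hy : y ∈ C.W) :
    C.BB (c • φ + d • ψ) x y = c * C.BB φ x y + d * C.BB ψ x y := by
  unfold Calc.BB
  rw [add_mul, smul_mul_assoc, smul_mul_assoc, I_add (mem_smul _ (hC.BB_mem hφ hx hy))
    (mem_smul _ (hC.BB_mem hψ hx hy)), I_smul, I_smul]

end IsDir

namespace Dat

variable {X : Dat m}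

/-- the memberships that are used in the algebra -/
structure Mem (X : Dat m) (C : Calc m) : Prop where
  a : X.a ∈ C.W
  b : X.b ∈ C.W
  p : C.Γ X.a X.a ∈ C.W
  q : C.Γ X.a X.b ∈ C.W
  r : C.Γ X.b X.b ∈ C.W
  P : X.P ∈ C.W
  Q : X.Q ∈ C.W
  R : X.R ∈ C.W
  F : MemLp X.F ∞ m
  A : MemLp X.A ∞ m
  B : MemLp X.B ∞ m
  Da : MemLp (C.De X.F X.a) ∞ m
  Db : MemLp (C.De X.F X.b) ∞ m

theorem Ok.mem (hC : IsGamma C) {K : ℝ} (hB : C.BEi K) {θ : M →ₘ[m] ℝ} {η δ : ℝ}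
    (hX : X.Ok C θ η δ) : X.Mem C := by
  have hD := hC.toIsDir
  have hDe : ∀ {x : M →ₘ[m] ℝ}, x ∈ C.TestI → MemLp (C.De X.F x) ∞ m := by
    intro x hx
    exact mem_add (hD.Γ_memTop (hC.test_A hX.hF.1).1 (hC.test_Γ_top hX.hF.1) (hC.test_A hx.1).1
      (hC.test_Γ_top hx.1)) (mem_mul_top (hC.test_A hX.hF.1).2 hx.2)
  exact ⟨(hC.test_A hX.ha.1).1, (hC.test_A hX.hb.1).1, (hC.Γ_mem hB hX.ha.1 hX.ha.1).1,
    (hC.Γ_mem hB hX.ha.1 hX.hb.1).1, (hC.Γ_mem hB hX.hb.1 hX.hb.1).1, (hC.test_A hX.hP.1).1,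
    (hC.test_A hX.hQ.1).1, (hC.test_A hX.hR.1).1, (hC.test_A hX.hF.1).2, (hC.test_A hX.hA.1).2,
    (hC.test_A hX.hB.1).2, hDe hX.ha, hDe hX.hb⟩

section formulas

variable (hC : IsDir C) (hM : X.Mem C)
include hC hM

theorem pt_mem (v : ℝ × ℝ) : X.pt v ∈ C.W :=
  hC.add_mem _ (hC.smul_mem _ _ hM.a) _ (hC.smul_mem _ _ hM.b)

theorem Γ_pt (v w : ℝ × ℝ) : C.Γ (X.pt v) (X.pt w) = (v.1 * w.1) • C.Γ X.a X.a
    + (v.1 * w.2 + v.2 * w.1) • C.Γ X.a X.b + (v.2 * w.2) • C.Γ X.b X.b := by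
  have ha := hM.a
  have hb := hM.b
  have hw := pt_mem hC hM w
  unfold pt at hw ⊢
  rw [hC.add_left _ (hC.smul_mem _ _ ha) _ (hC.smul_mem _ _ hb) _ hw,
    hC.smul_left _ _ ha _ hw, hC.smul_left _ _ hb _ hw,
    hC.Γ_add_right ha (hC.smul_mem _ _ ha) (hC.smul_mem _ _ hb),
    hC.Γ_add_right hb (hC.smul_mem _ _ ha) (hC.smul_mem _ _ hb),
    hC.Γ_smul_right _ ha ha, hC.Γ_smul_right _ ha hb, hC.Γ_smul_right _ hb ha,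
    hC.Γ_smul_right _ hb hb, hC.symm _ hb _ ha]
  module

theorem Ge_mem (e : ℝ × ℝ) : X.Ge C e ∈ C.W := by
  unfold Ge
  rw [Γ_pt hC hM]
  exact hC.add_mem _ (hC.add_mem _ (hC.smul_mem _ _ hM.p) _ (hC.smul_mem _ _ hM.q)) _
    (hC.smul_mem _ _ hM.r)

theorem BB_pt_l {φ g : M →ₘ[m] ℝ} (hφ : MemLp φ ∞ m) (v : ℝ × ℝ) (hg : g ∈ C.W) :
    C.BB φ (X.pt v) g = v.1 * C.BB φ X.a g + v.2 * C.BB φ X.b g :=
  hC.BB_lin2_l hφ _ _ hM.a hM.b hg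

theorem BB_D {x y : M →ₘ[m] ℝ} (v : ℝ × ℝ) (hx : x ∈ C.W) (hy : y ∈ C.W) :
    C.BB (X.D C v) x y = v.1 * C.BB (C.De X.F X.a) x y + v.2 * C.BB (C.De X.F X.b) x y :=
  hC.BB_lin_φ hM.Da hM.Db _ _ hx hy

omit hC in
theorem D_top (v : ℝ × ℝ) : MemLp (X.D C v) ∞ m :=
  mem_add (mem_smul _ hM.Da) (mem_smul _ hM.Db)

omit hC in
theorem D'_top (v : ℝ × ℝ) : MemLp (X.D' v) ∞ m :=
  mem_add (mem_smul _ hM.A) (mem_smul _ hM.B)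

theorem BB_D' {x y : M →ₘ[m] ℝ} (v : ℝ × ℝ) (hx : x ∈ C.W) (hy : y ∈ C.W) :
    C.BB (X.D' v) x y = v.1 * C.BB X.A x y + v.2 * C.BB X.B x y :=
  hC.BB_lin_φ hM.A hM.B _ _ hx hy

theorem G'_mem (v w : ℝ × ℝ) : X.G' v w ∈ C.W :=
  hC.add_mem _ (hC.add_mem _ (hC.smul_mem _ _ hM.P) _ (hC.smul_mem _ _ hM.Q)) _
    (hC.smul_mem _ _ hM.R)

theorem E2_eq (v w : ℝ × ℝ) : X.E2 C v w = v.1 * w.1 * C.BB X.F X.a X.a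
    + (v.1 * w.2 + v.2 * w.1) * C.BB X.F X.a X.b + v.2 * w.2 * C.BB X.F X.b X.b := by
  have ha := hM.a
  have hb := hM.b
  change C.BB X.F (X.pt v) (X.pt w) = _
  rw [BB_pt_l hC hM hM.F v (pt_mem hC hM w), hC.BB_comm _ ha (pt_mem hC hM w),
    hC.BB_comm _ hb (pt_mem hC hM w), BB_pt_l hC hM hM.F w ha, BB_pt_l hC hM hM.F w hb,
    hC.BB_comm _ hb ha]
  ring

theorem W3_eq (u v w : ℝ × ℝ) : X.W3 C u v w = 2⁻¹ * (u.1 * (v.1 * w.1 * C.BB (C.De X.F X.a) X.a X.a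
    + (v.1 * w.2 + v.2 * w.1) * C.BB (C.De X.F X.a) X.a X.b
    + v.2 * w.2 * C.BB (C.De X.F X.a) X.b X.b)
    + u.2 * (v.1 * w.1 * C.BB (C.De X.F X.b) X.a X.a
    + (v.1 * w.2 + v.2 * w.1) * C.BB (C.De X.F X.b) X.a X.b
    + v.2 * w.2 * C.BB (C.De X.F X.b) X.b X.b)) := by
  have ha := hM.a
  have hb := hM.b
  have hw := pt_mem hC hM w
  change 2⁻¹ * C.BB (X.D C u) (X.pt v) (X.pt w) = _
  rw [BB_D hC hM u (pt_mem hC hM v) hw, BB_pt_l hC hM hM.Da v hw, BB_pt_l hC hM hM.Db v hw,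
    hC.BB_comm _ ha hw, hC.BB_comm _ hb hw, hC.BB_comm _ ha hw, hC.BB_comm _ hb hw,
    BB_pt_l hC hM hM.Da w ha, BB_pt_l hC hM hM.Da w hb, BB_pt_l hC hM hM.Db w ha,
    BB_pt_l hC hM hM.Db w hb, hC.BB_comm _ hb ha, hC.BB_comm _ hb ha]
  ring

/-- `∫ ⟨Y_{vw}, ∇g⟩` -/
theorem I_Y (v w : ℝ × ℝ) {g : M →ₘ[m] ℝ} (hg : g ∈ C.W) : I (X.Y C v w g) =
    2⁻¹ * (C.BB (X.D' v) (X.pt w) g + C.BB (X.D' w) (X.pt v) g + C.BB X.F (X.G' v w) g) := by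
  unfold Y
  have h1 := hC.BB_mem (D'_top hM v) (pt_mem hC hM w) hg
  have h2 := hC.BB_mem (D'_top hM w) (pt_mem hC hM v) hg
  have h3 := hC.BB_mem hM.F (G'_mem hC hM v w) hg
  rw [I_smul, I_add (mem_add h1 h2) h3, I_add h1 h2]
  rfl

theorem X3_eq (u v w : ℝ × ℝ) : X.X3 C u v w = -(2⁻¹ *
    ((v.1 * (w.1 * (u.1 * C.BB X.A X.a X.a + u.2 * C.BB X.A X.a X.b)
        + w.2 * (u.1 * C.BB X.A X.a X.b + u.2 * C.BB X.A X.b X.b))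
      + v.2 * (w.1 * (u.1 * C.BB X.B X.a X.a + u.2 * C.BB X.B X.a X.b)
        + w.2 * (u.1 * C.BB X.B X.a X.b + u.2 * C.BB X.B X.b X.b)))
    + (w.1 * (v.1 * (u.1 * C.BB X.A X.a X.a + u.2 * C.BB X.A X.a X.b)
        + v.2 * (u.1 * C.BB X.A X.a X.b + u.2 * C.BB X.A X.b X.b))
      + w.2 * (v.1 * (u.1 * C.BB X.B X.a X.a + u.2 * C.BB X.B X.a X.b)
        + v.2 * (u.1 * C.BB X.B X.a X.b + u.2 * C.BB X.B X.b X.b)))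
    + (v.1 * w.1 * (u.1 * C.BB X.F X.P X.a + u.2 * C.BB X.F X.P X.b)
      + (v.1 * w.2 + v.2 * w.1) * (u.1 * C.BB X.F X.Q X.a + u.2 * C.BB X.F X.Q X.b)
      + v.2 * w.2 * (u.1 * C.BB X.F X.R X.a + u.2 * C.BB X.F X.R X.b)))) := by
  have ha := hM.a
  have hb := hM.b
  have hu := pt_mem hC hM u
  have key : ∀ {φ x : M →ₘ[m] ℝ}, MemLp φ ∞ m → x ∈ C.W →
      C.BB φ x (X.pt u) = u.1 * C.BB φ x X.a + u.2 * C.BB φ x X.b := fun hφ hx =>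
    hC.BB_lin2_r hφ _ _ ha hb hx
  unfold X3
  rw [I_Y hC hM v w hu, BB_D' hC hM v (pt_mem hC hM w) hu, BB_D' hC hM w (pt_mem hC hM v) hu,
    BB_pt_l hC hM hM.A w hu, BB_pt_l hC hM hM.B w hu, BB_pt_l hC hM hM.A v hu,
    BB_pt_l hC hM hM.B v hu, key hM.A ha, key hM.A hb, key hM.B ha, key hM.B hb,
    hC.BB_comm X.A hb ha, hC.BB_comm X.B hb ha]
  have h3 : C.BB X.F (X.G' v w) (X.pt u) = v.1 * w.1 * C.BB X.F X.P (X.pt u)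
      + (v.1 * w.2 + v.2 * w.1) * C.BB X.F X.Q (X.pt u) + v.2 * w.2 * C.BB X.F X.R (X.pt u) :=
    hC.BB_lin3_l hM.F _ _ _ hM.P hM.Q hM.R hu
  rw [h3, key hM.F hM.P, key hM.F hM.Q, key hM.F hM.R]

/-- `RR` in terms of `BB` -/
theorem RR_eq (v w : ℝ × ℝ) {g : M →ₘ[m] ℝ} (hg : g ∈ C.W) : X.RR C v w g = -(2⁻¹ *
    ((v.1 * (w.1 * C.BB (C.De X.F X.a) X.a g + w.2 * C.BB (C.De X.F X.a) X.b g)
      + v.2 * (w.1 * C.BB (C.De X.F X.b) X.a g + w.2 * C.BB (C.De X.F X.b) X.b g))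
    + (w.1 * (v.1 * C.BB (C.De X.F X.a) X.a g + v.2 * C.BB (C.De X.F X.a) X.b g)
      + w.2 * (v.1 * C.BB (C.De X.F X.b) X.a g + v.2 * C.BB (C.De X.F X.b) X.b g))
    + (v.1 * w.1 * C.BB X.F (C.Γ X.a X.a) g + (v.1 * w.2 + v.2 * w.1) * C.BB X.F (C.Γ X.a X.b) g
      + v.2 * w.2 * C.BB X.F (C.Γ X.b X.b) g))) := by
  change -(2⁻¹ * (C.BB (X.D C v) (X.pt w) g + C.BB (X.D C w) (X.pt v) g
    + C.BB X.F (C.Γ (X.pt v) (X.pt w)) g)) = _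
  rw [Γ_pt hC hM, hC.BB_lin3_l hM.F _ _ _ hM.p hM.q hM.r hg,
    BB_D hC hM v (pt_mem hC hM w) hg, BB_D hC hM w (pt_mem hC hM v) hg,
    BB_pt_l hC hM hM.Da w hg, BB_pt_l hC hM hM.Db w hg, BB_pt_l hC hM hM.Da v hg,
    BB_pt_l hC hM hM.Db v hg]

/-- a functional applied to `Ge` -/
theorem BB_Ge {φ x : M →ₘ[m] ℝ} (hφ : MemLp φ ∞ m) (hx : x ∈ C.W) (e : ℝ × ℝ) :
    C.BB φ x (X.Ge C e) = e.1 * e.1 * C.BB φ x (C.Γ X.a X.a)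
      + (e.1 * e.2 + e.2 * e.1) * C.BB φ x (C.Γ X.a X.b)
      + e.2 * e.2 * C.BB φ x (C.Γ X.b X.b) := by
  unfold Ge
  rw [Γ_pt hC hM]
  exact hC.BB_lin3_r hφ _ _ _ hM.p hM.q hM.r hx

/-- the integrand of order two as an explicit polynomial -/
theorem O2_eq (v e : ℝ × ℝ) {g : M →ₘ[m] ℝ} (hg : g ∈ C.W) (s : ℝ) : X.O2 C v e g s =
    (X.RR C (v + s • e) e g - (s / 2) * X.RR C (v + s • e) e (X.Ge C e))
    + ((v.1 + s * e.1) * (e.1 * (C.BB (C.De X.F X.a) X.a g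
          - (s / 2) * C.BB (C.De X.F X.a) X.a (X.Ge C e))
        + e.2 * (C.BB (C.De X.F X.a) X.b g - (s / 2) * C.BB (C.De X.F X.a) X.b (X.Ge C e)))
      + (v.2 + s * e.2) * (e.1 * (C.BB (C.De X.F X.b) X.a g
          - (s / 2) * C.BB (C.De X.F X.b) X.a (X.Ge C e))
        + e.2 * (C.BB (C.De X.F X.b) X.b g - (s / 2) * C.BB (C.De X.F X.b) X.b (X.Ge C e))))
    - 2⁻¹ * (C.BB X.F g g - s * C.BB X.F g (X.Ge C e)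
      + s ^ 2 / 4 * C.BB X.F (X.Ge C e) (X.Ge C e))
    - 4⁻¹ * X.RR C (v + s • e) (v + s • e) (X.Ge C e) := by
  have ha := hM.a
  have hb := hM.b
  have hG := Ge_mem hC hM e
  have hgs : g - (s / 2) • X.Ge C e ∈ C.W := hC.sub_mem hg (hC.smul_mem _ _ hG)
  change X.RR C (v + s • e) e (g - (s / 2) • X.Ge C e)
    + C.BB (X.D C (v + s • e)) (X.pt e) (g - (s / 2) • X.Ge C e)
    - 2⁻¹ * C.BB X.F (g - (s / 2) • X.Ge C e) (g - (s / 2) • X.Ge C e)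
    - 4⁻¹ * X.RR C (v + s • e) (v + s • e) (X.Ge C e) = _
  have e1 : X.RR C (v + s • e) e (g - (s / 2) • X.Ge C e)
      = X.RR C (v + s • e) e g - (s / 2) * X.RR C (v + s • e) e (X.Ge C e) := by
    rw [RR_eq hC hM _ _ hgs, RR_eq hC hM _ _ hg, RR_eq hC hM _ _ hG]
    simp only [hC.BB_sub_r hM.Da _ hg hG ha, hC.BB_sub_r hM.Da _ hg hG hb,
      hC.BB_sub_r hM.Db _ hg hG ha, hC.BB_sub_r hM.Db _ hg hG hb,
      hC.BB_sub_r hM.F _ hg hG hM.p, hC.BB_sub_r hM.F _ hg hG hM.q, hC.BB_sub_r hM.F _ hg hG hM.r]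
    ring
  have e2 : C.BB X.F (g - (s / 2) • X.Ge C e) (g - (s / 2) • X.Ge C e)
      = C.BB X.F g g - s * C.BB X.F g (X.Ge C e)
        + s ^ 2 / 4 * C.BB X.F (X.Ge C e) (X.Ge C e) := by
    rw [hC.BB_sub_l hM.F _ hg hG hgs, hC.BB_sub_r hM.F _ hg hG hg, hC.BB_sub_r hM.F _ hg hG hG,
      hC.BB_comm X.F hG hg]
    ring
  rw [e1, e2, BB_D hC hM _ (pt_mem hC hM e) hgs, BB_pt_l hC hM hM.Da e hgs,
    BB_pt_l hC hM hM.Db e hgs, hC.BB_sub_r hM.Da _ hg hG ha, hC.BB_sub_r hM.Da _ hg hG hb,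
    hC.BB_sub_r hM.Db _ hg hG ha, hC.BB_sub_r hM.Db _ hg hG hb]
  simp only [Prod.fst_add, Prod.snd_add, Prod.smul_fst, Prod.smul_snd, smul_eq_mul]

/-- Simpson's rule is exact -/
theorem P3_eq (v e : ℝ × ℝ) {g : M →ₘ[m] ℝ} (hg : g ∈ C.W) : X.P3 C v e g
    = (X.O2 C v e g 0 + 4 * X.O2 C v e g (1 / 2) + X.O2 C v e g 1) / 6 := by
  have hG := Ge_mem hC hM e
  have h : ∀ s : ℝ, X.O2 C v e g s = X.O2 C v e g 0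
      + (-3 * X.O2 C v e g 0 + 4 * X.O2 C v e g (1 / 2) - X.O2 C v e g 1) * s
      + (2 * X.O2 C v e g 0 - 4 * X.O2 C v e g (1 / 2) + 2 * X.O2 C v e g 1) * s ^ 2 := by
    intro s
    simp only [O2_eq hC hM _ _ hg, RR_eq hC hM _ _ hg, RR_eq hC hM _ _ hG, Prod.fst_add,
      Prod.snd_add, Prod.smul_fst, Prod.smul_snd, smul_eq_mul]
    ring
  unfold P3
  rw [intervalIntegral.integral_congr (g := fun s => X.O2 C v e g 0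
      + (-3 * X.O2 C v e g 0 + 4 * X.O2 C v e g (1 / 2) - X.O2 C v e g 1) * s
      + (2 * X.O2 C v e g 0 - 4 * X.O2 C v e g (1 / 2) + 2 * X.O2 C v e g 1) * s ^ 2)
      (fun s _ => h s)]
  have i1 : ∀ c : ℝ, IntervalIntegrable (fun s : ℝ => c * s) volume 0 1 := fun c =>
    (continuous_const.mul continuous_id).intervalIntegrable _ _
  have i2 : ∀ c : ℝ, IntervalIntegrable (fun s : ℝ => c * s ^ 2) volume 0 1 := fun c =>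
    (by fun_prop : Continuous fun s : ℝ => c * s ^ 2).intervalIntegrable _ _
  have i0 : ∀ c : ℝ, IntervalIntegrable (fun _ : ℝ => c) volume 0 1 := fun c =>
    intervalIntegrable_const
  rw [intervalIntegral.integral_add ((i0 _).add (i1 _)) (i2 _),
    intervalIntegral.integral_add (i0 _) (i1 _), intervalIntegral.integral_const,
    intervalIntegral.integral_const_mul, intervalIntegral.integral_const_mul, integral_id,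
    integral_pow]
  norm_num
  ring

theorem C3_eq (e : ℝ × ℝ) : X.C3 C e = 12⁻¹ * (C.BB X.F (X.Ge C e) (X.Ge C e)
    + (e.1 * (e.1 * C.BB (C.De X.F X.a) X.a (X.Ge C e) + e.2 * C.BB (C.De X.F X.a) X.b (X.Ge C e))
      + e.2 * (e.1 * C.BB (C.De X.F X.b) X.a (X.Ge C e)
        + e.2 * C.BB (C.De X.F X.b) X.b (X.Ge C e)))) := by
  have hG := Ge_mem hC hM e
  change 12⁻¹ * (C.BB X.F (X.Ge C e) (X.Ge C e) + C.BB (X.D C e) (X.pt e) (X.Ge C e)) = _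
  rw [BB_D hC hM _ (pt_mem hC hM e) hG, BB_pt_l hC hM hM.Da e hG, BB_pt_l hC hM hM.Db e hG]

/-- `BB F Ge Ge` -/
theorem BB_GeGe (e : ℝ × ℝ) : C.BB X.F (X.Ge C e) (X.Ge C e) =
    (e.1 * e.1) * ((e.1 * e.1) * C.BB X.F (C.Γ X.a X.a) (C.Γ X.a X.a)
      + (e.1 * e.2 + e.2 * e.1) * C.BB X.F (C.Γ X.a X.a) (C.Γ X.a X.b)
      + (e.2 * e.2) * C.BB X.F (C.Γ X.a X.a) (C.Γ X.b X.b))
    + (e.1 * e.2 + e.2 * e.1) * ((e.1 * e.1) * C.BB X.F (C.Γ X.a X.a) (C.Γ X.a X.b)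
      + (e.1 * e.2 + e.2 * e.1) * C.BB X.F (C.Γ X.a X.b) (C.Γ X.a X.b)
      + (e.2 * e.2) * C.BB X.F (C.Γ X.a X.b) (C.Γ X.b X.b))
    + (e.2 * e.2) * ((e.1 * e.1) * C.BB X.F (C.Γ X.a X.a) (C.Γ X.b X.b)
      + (e.1 * e.2 + e.2 * e.1) * C.BB X.F (C.Γ X.a X.b) (C.Γ X.b X.b)
      + (e.2 * e.2) * C.BB X.F (C.Γ X.b X.b) (C.Γ X.b X.b)) := by
  have hG := Ge_mem hC hM e
  rw [BB_Ge hC hM hM.F hG, hC.BB_comm X.F hG hM.p, hC.BB_comm X.F hG hM.q,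
    hC.BB_comm X.F hG hM.r, BB_Ge hC hM hM.F hM.p, BB_Ge hC hM hM.F hM.q, BB_Ge hC hM hM.F hM.r,
    hC.BB_comm X.F hM.q hM.p, hC.BB_comm X.F hM.r hM.p, hC.BB_comm X.F hM.r hM.q]

/-- `P3` for `g = c₀ k + x Γ(a,a) + y Γ(a,b) + z Γ(b,b)`: the values of `BB` -/
theorem BB_g {φ x k : M →ₘ[m] ℝ} (hφ : MemLp φ ∞ m) (hx : x ∈ C.W) (hk : k ∈ C.W)
    (c₀ c₁ c₂ c₃ : ℝ) :
    C.BB φ x (c₀ • k + c₁ • C.Γ X.a X.a + c₂ • C.Γ X.a X.b + c₃ • C.Γ X.b X.b)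
      = c₀ * C.BB φ x k + c₁ * C.BB φ x (C.Γ X.a X.a) + c₂ * C.BB φ x (C.Γ X.a X.b)
        + c₃ * C.BB φ x (C.Γ X.b X.b) := by
  have h3 := hC.add_mem _ (hC.add_mem _ (hC.smul_mem c₀ _ hk) _ (hC.smul_mem c₁ _ hM.p)) _
    (hC.smul_mem c₂ _ hM.q)
  have h := hC.BB_lin2_r hφ 1 c₃ h3 hM.r hx
  rw [one_smul] at h
  rw [h, hC.BB_lin3_r hφ _ _ _ hk hM.p hM.q hx]
  ring

theorem BB_g_l {φ x k : M →ₘ[m] ℝ} (hφ : MemLp φ ∞ m) (hx : x ∈ C.W) (hk : k ∈ C.W)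
    (c₀ c₁ c₂ c₃ : ℝ) :
    C.BB φ (c₀ • k + c₁ • C.Γ X.a X.a + c₂ • C.Γ X.a X.b + c₃ • C.Γ X.b X.b) x
      = c₀ * C.BB φ k x + c₁ * C.BB φ (C.Γ X.a X.a) x + c₂ * C.BB φ (C.Γ X.a X.b) x
        + c₃ * C.BB φ (C.Γ X.b X.b) x := by
  have h3 := hC.add_mem _ (hC.add_mem _ (hC.smul_mem c₀ _ hk) _ (hC.smul_mem c₁ _ hM.p)) _
    (hC.smul_mem c₂ _ hM.q)
  rw [hC.BB_comm φ (hC.add_mem _ h3 _ (hC.smul_mem c₃ _ hM.r)) hx, BB_g hC hM hφ hx hk,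
    hC.BB_comm φ hx hk, hC.BB_comm φ hx hM.p, hC.BB_comm φ hx hM.q, hC.BB_comm φ hx hM.r]

theorem HW_eq {k : M →ₘ[m] ℝ} (_hk : k ∈ C.W) : C.HW X.b X.a k X.F
    = 2⁻¹ * (-C.BB (C.De X.F X.a) X.b k + C.BB X.F k (C.Γ X.a X.b)
      + C.BB (C.De X.F X.b) X.a k) := by
  unfold Calc.HW Calc.BB
  rw [hC.symm _ hM.b _ hM.a, mul_comm (C.Γ X.b k), mul_comm (C.Γ X.a k)]

theorem S0_eq : C.S0 X.a X.b X.F = -(2⁻¹ * C.BB (C.De X.F X.a) X.a (C.Γ X.b X.b))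
    + (C.BB (C.De X.F X.b) X.a (C.Γ X.a X.b) - 2⁻¹ * C.BB (C.De X.F X.b) X.b (C.Γ X.a X.a))
    + (-C.BB (C.De X.F X.a) X.b (C.Γ X.a X.b) + C.BB X.F (C.Γ X.a X.b) (C.Γ X.a X.b)
      + C.BB (C.De X.F X.b) X.a (C.Γ X.a X.b))
    - 4⁻¹ * C.BB X.F (C.Γ X.a X.a) (C.Γ X.b X.b) := by
  unfold Calc.S0
  have h1 : I (C.De X.F X.a * C.hess X.b X.a X.b)
      = 2⁻¹ * C.BB (C.De X.F X.a) X.a (C.Γ X.b X.b) := by
    unfold Calc.hess Calc.BB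
    rw [hC.symm _ hM.b _ hM.a, add_sub_cancel_right, mul_smul_comm, I_smul]
  have h2 : I (C.De X.F X.b * C.hess X.b X.a X.a)
      = C.BB (C.De X.F X.b) X.a (C.Γ X.a X.b)
        - 2⁻¹ * C.BB (C.De X.F X.b) X.b (C.Γ X.a X.a) := by
    have m1 := hC.BB_mem hM.Db hM.a hM.q
    have m2 := hC.BB_mem hM.Db hM.b hM.p
    unfold Calc.hess Calc.BB
    rw [hC.symm _ hM.b _ hM.a, mul_smul_comm, I_smul, mul_sub, mul_add,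
      I_sub (mem_add m1 m1) m2, I_add m1 m1]
    ring
  rw [h1, h2, HW_eq hC hM hM.q]
  unfold Calc.BB
  ring

end formulas

end Dat

theorem dir0 : dir 0 = (1, 0) := rfl
theorem dir1 : dir 1 = (0, 1) := rfl
theorem dir2 : dir 2 = (-1, -1) := rfl

/-- the coefficients of `ε` cancel -/
theorem Dat.alg1 (hC : IsGamma C) {K : ℝ} (hB : C.BEi K) {θ : M →ₘ[m] ℝ} {η δ : ℝ} {X : Dat m}
    (hX : X.Ok C θ η δ) :
    X.E2 C (dir 0) (dir 0) + X.E2 C (dir 1) (dir 1) + X.E2 C (dir 2) (dir 2)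
      = 3⁻¹ * (X.E2 C (dir 1 - dir 0) (dir 1 - dir 0) + X.E2 C (dir 2 - dir 0) (dir 2 - dir 0)
        + X.E2 C (dir 2 - dir 1) (dir 2 - dir 1)) := by
  have hM := hX.mem hC hB
  have hD := hC.toIsDir
  simp only [Dat.E2_eq hD hM, Prod.fst_sub, Prod.snd_sub, dir0, dir1, dir2]
  ring

/-- the coefficients of `ε²` cancel -/
theorem Dat.alg2 (hC : IsGamma C) {K : ℝ} (hB : C.BEi K) {θ : M →ₘ[m] ℝ} {η δ : ℝ} {X : Dat m}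
    (hX : X.Ok C θ η δ) :
    (X.X3 C (dir 0) (dir 0) (dir 0) + X.W3 C (dir 0) (dir 0) (dir 0))
      + (X.X3 C (dir 1) (dir 1) (dir 1) + X.W3 C (dir 1) (dir 1) (dir 1))
      + (X.X3 C (dir 2) (dir 2) (dir 2) + X.W3 C (dir 2) (dir 2) (dir 2))
      = 3⁻¹ * ((X.X3 C (dir 1 - dir 0) ((2 : ℝ) • dir 0 + (dir 1 - dir 0)) (dir 1 - dir 0)
          + X.W3 C ((2 : ℝ) • dir 0 + (dir 1 - dir 0)) (dir 1 - dir 0) (dir 1 - dir 0))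
        + (X.X3 C (dir 2 - dir 0) ((2 : ℝ) • dir 0 + (dir 2 - dir 0)) (dir 2 - dir 0)
          + X.W3 C ((2 : ℝ) • dir 0 + (dir 2 - dir 0)) (dir 2 - dir 0) (dir 2 - dir 0))
        + (X.X3 C (dir 2 - dir 1) ((2 : ℝ) • dir 1 + (dir 2 - dir 1)) (dir 2 - dir 1)
          + X.W3 C ((2 : ℝ) • dir 1 + (dir 2 - dir 1)) (dir 2 - dir 1) (dir 2 - dir 1))) := by
  have hM := hX.mem hC hB
  have hD := hC.toIsDir
  simp only [Dat.X3_eq hD hM, Dat.W3_eq hD hM, Prod.fst_sub, Prod.snd_sub, Prod.fst_add,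
    Prod.snd_add, Prod.smul_fst, Prod.smul_snd, smul_eq_mul, dir0, dir1, dir2]
  ring

/-- the coefficient of `ε³` -/
theorem Dat.alg3 (hC : IsGamma C) {K : ℝ} (hB : C.BEi K) {θ : M →ₘ[m] ℝ} {η δ : ℝ} {X : Dat m}
    (hX : X.Ok C θ η δ) {k : M →ₘ[m] ℝ} (hk : k ∈ C.Test) :
    6 * (X.C3 C (dir 0) + X.C3 C (dir 1) + X.C3 C (dir 2)
      - 3⁻¹ * (X.P3 C (dir 0) (dir 1 - dir 0) (k + (2 : ℝ)⁻¹ • C.Γ X.a X.a)
        + X.P3 C (dir 0) (dir 2 - dir 0) (C.Γ X.a X.a - k)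
        + X.P3 C (dir 1) (dir 2 - dir 1) (k + C.Γ X.a X.b + C.Γ X.b X.b)))
      = C.S0 X.a X.b X.F + 6 * C.HW X.b X.a k X.F + 3 * I (X.F * C.Γ k k) := by
  have hM := hX.mem hC hB
  have hD := hC.toIsDir
  have hkW : k ∈ C.W := (hC.test_A hk).1
  have hW : ∀ c₀ c₁ c₂ c₃ : ℝ,
      c₀ • k + c₁ • C.Γ X.a X.a + c₂ • C.Γ X.a X.b + c₃ • C.Γ X.b X.b ∈ C.W := fun c₀ c₁ c₂ c₃ =>
    hD.add_mem _ (hD.add_mem _ (hD.add_mem _ (hD.smul_mem c₀ _ hkW) _ (hD.smul_mem c₁ _ hM.p)) _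
      (hD.smul_mem c₂ _ hM.q)) _ (hD.smul_mem c₃ _ hM.r)
  have e1 : k + (2 : ℝ)⁻¹ • C.Γ X.a X.a = (1 : ℝ) • k + (2⁻¹ : ℝ) • C.Γ X.a X.a
      + (0 : ℝ) • C.Γ X.a X.b + (0 : ℝ) • C.Γ X.b X.b := by module
  have e2 : C.Γ X.a X.a - k = (-1 : ℝ) • k + (1 : ℝ) • C.Γ X.a X.a
      + (0 : ℝ) • C.Γ X.a X.b + (0 : ℝ) • C.Γ X.b X.b := by module
  have e3 : k + C.Γ X.a X.b + C.Γ X.b X.b = (1 : ℝ) • k + (0 : ℝ) • C.Γ X.a X.a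
      + (1 : ℝ) • C.Γ X.a X.b + (1 : ℝ) • C.Γ X.b X.b := by module
  have g1 := fun (φ x : M →ₘ[m] ℝ) (hφ : MemLp φ ∞ m) (hx : x ∈ C.W) (c₀ c₁ c₂ c₃ : ℝ) =>
    Dat.BB_g hD hM (k := k) hφ hx hkW c₀ c₁ c₂ c₃
  have g2 := fun (x : M →ₘ[m] ℝ) (hx : x ∈ C.W) (c₀ c₁ c₂ c₃ : ℝ) =>
    Dat.BB_g_l hD hM (k := k) hM.F hx hkW c₀ c₁ c₂ c₃
  have G := fun (c₀ c₁ c₂ c₃ : ℝ) (e : ℝ × ℝ) => Dat.BB_Ge hD hM hM.F (hW c₀ c₁ c₂ c₃) e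
  have gg := fun (c₀ c₁ c₂ c₃ : ℝ) => g2 _ (hW c₀ c₁ c₂ c₃) c₀ c₁ c₂ c₃
  have key : ∀ (v e : ℝ × ℝ) (c₀ c₁ c₂ c₃ : ℝ), X.P3 C v e
      (c₀ • k + c₁ • C.Γ X.a X.a + c₂ • C.Γ X.a X.b + c₃ • C.Γ X.b X.b) = _ :=
    fun v e c₀ c₁ c₂ c₃ => Dat.P3_eq hD hM v e (hW c₀ c₁ c₂ c₃)
  rw [e1, e2, e3, key, key, key]
  have HH : I (X.F * C.Γ k k) = C.BB X.F k k := rfl
  rw [HH, Dat.S0_eq hD hM, Dat.HW_eq hD hM hkW]
  simp only [fun v e c₀ c₁ c₂ c₃ => Dat.O2_eq hD hM v e (hW c₀ c₁ c₂ c₃),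
    fun v e c₀ c₁ c₂ c₃ => Dat.RR_eq hD hM v e (hW c₀ c₁ c₂ c₃),
    fun v e e' => Dat.RR_eq hD hM v e (Dat.Ge_mem hD hM e'), Dat.C3_eq hD hM,
    Dat.BB_GeGe hD hM, G, gg, Dat.BB_Ge hD hM hM.Da hM.a, Dat.BB_Ge hD hM hM.Da hM.b,
    Dat.BB_Ge hD hM hM.Db hM.a, Dat.BB_Ge hD hM hM.Db hM.b, Dat.BB_Ge hD hM hM.F hM.p,
    Dat.BB_Ge hD hM hM.F hM.q, Dat.BB_Ge hD hM hM.F hM.r, g1 _ _ hM.Da hM.a, g1 _ _ hM.Da hM.b,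
    g1 _ _ hM.Db hM.a, g1 _ _ hM.Db hM.b, g1 _ _ hM.F hM.p, g1 _ _ hM.F hM.q, g1 _ _ hM.F hM.r,
    g1 _ _ hM.F hkW, g2 _ hM.p, g2 _ hM.q, g2 _ hM.r, hD.BB_comm X.F hM.p hkW,
    hD.BB_comm X.F hM.q hkW, hD.BB_comm X.F hM.r hkW, hD.BB_comm X.F hM.q hM.p,
    hD.BB_comm X.F hM.r hM.p, hD.BB_comm X.F hM.r hM.q, Prod.fst_sub, Prod.snd_sub, Prod.fst_add,
    Prod.snd_add, Prod.smul_fst, Prod.smul_snd, smul_eq_mul, dir0, dir1, dir2]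
  ring

end Vale.Agent.P233
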