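import Vale.Agent.P233.AB.Core

set_option linter.all false

open MeasureTheory Filter Topology
open scoped ENNReal NNReal

namespace Vale.Agent.P233

variable {M : Type*} [MeasurableSpace M] {m : Measure M} {C : Calc m}

/-- The integrand of the action: `∫ φ ∂ρ - ½ ∫ ρ |∇φ|²`, where `ρ' = ∂ρ`. -/
noncomputable def Calc.act (C : Calc m) (φ ρ' ρ : M →ₘ[m] ℝ) : ℝ :=
  I (φ * ρ') - 2⁻¹ * I (ρ * C.Γ φ φ)

theorem I_lin3 {a b c g : M →ₘ[m] ℝ} (ha : MemLp a 2 m) (hb : MemLp b 2 m) (hc : MemLp c 2 m)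
    (hg : MemLp g 2 m) (x y : ℝ) :
    I (g * (-a + x • b + y • c)) = -I (g * a) + x * I (g * b) + y * I (g * c) := by
  have e : g * (-a + x • b + y • c) = -(g * a) + x • (g * b) + y • (g * c) := by algebra
  have n1 := mem_mul_22 hg ha
  have n2 := mem_mul_22 hg hb
  have n3 := mem_mul_22 hg hc
  rw [e, I_add (mem_add (mem_neg n1) (mem_smul _ n2)) (mem_smul _ n3),
    I_add (mem_neg n1) (mem_smul _ n2), I_neg, I_smul, I_smul]

theorem I_lin6 {F a b c d e g : M →ₘ[m] ℝ} (hF : MemLp F 2 m) (ha : MemLp a 2 m)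
    (hb : MemLp b 2 m) (hc : MemLp c 2 m) (hd : MemLp d 2 m) (he : MemLp e 2 m)
    (hg : MemLp g 2 m) (x y z u v : ℝ) :
    I ((F - x • a - y • b + z • c + u • d + v • e) * g)
      = I (F * g) - x * I (a * g) - y * I (b * g) + z * I (c * g) + u * I (d * g)
        + v * I (e * g) := by
  have e0 : (F - x • a - y • b + z • c + u • d + v • e) * g
      = F * g - x • (a * g) - y • (b * g) + z • (c * g) + u • (d * g) + v • (e * g) := by algebra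
  have n0 := mem_mul_22 hF hg
  have n1 := mem_smul x (mem_mul_22 ha hg)
  have n2 := mem_smul y (mem_mul_22 hb hg)
  have n3 := mem_smul z (mem_mul_22 hc hg)
  have n4 := mem_smul u (mem_mul_22 hd hg)
  have n5 := mem_smul v (mem_mul_22 he hg)
  rw [e0, I_add (mem_add (mem_add (mem_sub (mem_sub n0 n1) n2) n3) n4) n5,
    I_add (mem_add (mem_sub (mem_sub n0 n1) n2) n3) n4,
    I_add (mem_sub (mem_sub n0 n1) n2) n3, I_sub (mem_sub n0 n1) n2, I_sub n0 n1,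
    I_smul, I_smul, I_smul, I_smul, I_smul]

theorem I_linΓ {ρ a b c d e f : M →ₘ[m] ℝ} (hρ : MemLp ρ 2 m) (ha : MemLp a 2 m)
    (hb : MemLp b 2 m) (hc : MemLp c 2 m) (hd : MemLp d 2 m) (he : MemLp e 2 m)
    (hf : MemLp f 2 m) (x y z u v : ℝ) :
    I (ρ * (a + x • b + y • c + z • d + u • e + v • f))
      = I (ρ * a) + x * I (ρ * b) + y * I (ρ * c) + z * I (ρ * d) + u * I (ρ * e)
        + v * I (ρ * f) := by
  have e0 : ρ * (a + x • b + y • c + z • d + u • e + v • f)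
      = ρ * a + x • (ρ * b) + y • (ρ * c) + z • (ρ * d) + u • (ρ * e) + v • (ρ * f) := by algebra
  have n0 := mem_mul_22 hρ ha
  have n1 := mem_smul x (mem_mul_22 hρ hb)
  have n2 := mem_smul y (mem_mul_22 hρ hc)
  have n3 := mem_smul z (mem_mul_22 hρ hd)
  have n4 := mem_smul u (mem_mul_22 hρ he)
  have n5 := mem_smul v (mem_mul_22 hρ hf)
  rw [e0, I_add (mem_add (mem_add (mem_add (mem_add n0 n1) n2) n3) n4) n5,
    I_add (mem_add (mem_add (mem_add n0 n1) n2) n3) n4,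
    I_add (mem_add (mem_add n0 n1) n2) n3, I_add (mem_add n0 n1) n2, I_add n0 n1,
    I_smul, I_smul, I_smul, I_smul, I_smul]

/-- integral of a polynomial of degree four -/
theorem poly_int (A0 A1 A2 A3 A4 ε : ℝ) :
    ∫ s in (0:ℝ)..ε, (A0 + A1 * s + A2 * s ^ 2 + A3 * s ^ 3 + A4 * s ^ 4)
      = A0 * ε + A1 * ε ^ 2 / 2 + A2 * ε ^ 3 / 3 + A3 * ε ^ 4 / 4 + A4 * ε ^ 5 / 5 := by
  have key : ∀ s ∈ Set.uIcc 0 ε, HasDerivAt (fun s : ℝ => A0 * s + A1 * s ^ 2 / 2 + A2 * s ^ 3 / 3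
      + A3 * s ^ 4 / 4 + A4 * s ^ 5 / 5)
      (A0 + A1 * s + A2 * s ^ 2 + A3 * s ^ 3 + A4 * s ^ 4) s := by
    intro s _
    have h1 := (hasDerivAt_id s).const_mul A0
    have h2 := ((hasDerivAt_pow 2 s).const_mul A1).div_const 2
    have h3 := ((hasDerivAt_pow 3 s).const_mul A2).div_const 3
    have h4 := ((hasDerivAt_pow 4 s).const_mul A3).div_const 4
    have h5 := ((hasDerivAt_pow 5 s).const_mul A4).div_const 5
    have := (((h1.add h2).add h3).add h4).add h5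
    refine (this.congr_deriv ?_).congr_of_eventuallyEq ?_
    · norm_num; ring
    · exact Filter.Eventually.of_forall fun t => by simp
  rw [intervalIntegral.integral_eq_sub_of_hasDerivAt key]
  · ring
  · apply Continuous.intervalIntegrable
    fun_prop

namespace IsGamma

variable (hC : IsGamma C) {κ : ℝ} (hB : C.BEi κ)
variable {F e h G Dp De rpp rpe ree : M →ₘ[m] ℝ}

include hC hB

theorem Γ_expand3 (he : e ∈ C.Test) (hh : h ∈ C.Test) (hG : G ∈ C.Test) (x y : ℝ) :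
    C.Γ (e + x • h - y • G) (e + x • h - y • G)
      = C.Γ e e + (2 * x) • C.Γ e h + (-(2 * y)) • C.Γ e G + (x ^ 2) • C.Γ h h
        + (-(2 * x * y)) • C.Γ h G + (y ^ 2) • C.Γ G G := by
  have e1 := (hC.test_A he).1
  have h1 := (hC.test_A hh).1
  have G1 := (hC.test_A hG).1
  have xh := hC.smul_mem x _ h1
  have yG := hC.smul_mem y _ G1
  have exh := hC.add_mem _ e1 _ xh
  have tot := hC.toIsDir.sub_mem exh yG
  rw [hC.toIsDir.Γ_sub_left exh yG tot, hC.add_left _ e1 _ xh _ tot,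
    hC.toIsDir.Γ_sub_right e1 exh yG, hC.toIsDir.Γ_sub_right xh exh yG,
    hC.toIsDir.Γ_sub_right yG exh yG, hC.toIsDir.Γ_add_right e1 e1 xh,
    hC.toIsDir.Γ_add_right xh e1 xh, hC.toIsDir.Γ_add_right yG e1 xh,
    hC.smul_left _ _ h1 _ e1, hC.smul_left _ _ h1 _ xh, hC.smul_left _ _ h1 _ yG,
    hC.smul_left _ _ G1 _ e1, hC.smul_left _ _ G1 _ xh, hC.smul_left _ _ G1 _ yG,
    hC.toIsDir.Γ_smul_right _ e1 h1, hC.toIsDir.Γ_smul_right _ h1 h1,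
    hC.toIsDir.Γ_smul_right _ G1 h1, hC.toIsDir.Γ_smul_right _ e1 G1,
    hC.toIsDir.Γ_smul_right _ h1 G1, hC.toIsDir.Γ_smul_right _ G1 G1,
    hC.symm _ h1 _ e1, hC.symm _ G1 _ e1, hC.symm _ G1 _ h1]
  algebra

/-- the density on a segment -/
noncomputable def _root_.Vale.Agent.P233.segρ (F Dp De rpp rpe ree : M →ₘ[m] ℝ) (ε s : ℝ) :
    M →ₘ[m] ℝ :=
  F - ε • Dp - s • De + (ε ^ 2 / 2) • rpp + (ε * s) • rpe + (s ^ 2 / 2) • ree

theorem test_Γ2 (he : e ∈ C.Test) (hh : h ∈ C.Test) : MemLp (C.Γ e h) 2 m :=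
  hC.memLp _ (hC.Γ_mem hB he hh).1

/-- The action integrand on a segment is a polynomial in `ε, s`. -/
theorem act_seg (he : e ∈ C.Test) (hh : h ∈ C.Test) (hG : G ∈ C.Test)
    (hF : MemLp F 2 m) (hDp : MemLp Dp 2 m) (hDe : MemLp De 2 m) (hrpp : MemLp rpp 2 m)
    (hrpe : MemLp rpe 2 m) (hree : MemLp ree 2 m)
    (ie : I (e * De) = -I (F * C.Γ e e)) (ih : I (h * De) = -I (F * C.Γ e h))
    (iG : I (G * De) = -I (F * C.Γ e G)) (ε s : ℝ) :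
    C.act (e + ε • h - s • G) (-De + ε • rpe + s • ree) (segρ F Dp De rpp rpe ree ε s)
      = (2⁻¹ * I (F * C.Γ e e)
        + ε * (I (e * rpe) + 2⁻¹ * I (Dp * C.Γ e e))
        + ε ^ 2 * (I (h * rpe) - 2⁻¹ * I (F * C.Γ h h) + I (Dp * C.Γ e h)
            - 4⁻¹ * I (rpp * C.Γ e e))
        + ε ^ 3 * (2⁻¹ * I (Dp * C.Γ h h) - 2⁻¹ * I (rpp * C.Γ e h))
        + ε ^ 4 * (- 4⁻¹ * I (rpp * C.Γ h h)))
      + ((I (e * ree) + 2⁻¹ * I (De * C.Γ e e))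
        + ε * (I (h * ree) - I (G * rpe) + I (F * C.Γ h G) + I (De * C.Γ e h)
            - I (Dp * C.Γ e G) - 2⁻¹ * I (rpe * C.Γ e e))
        + ε ^ 2 * (2⁻¹ * I (De * C.Γ h h) - I (Dp * C.Γ h G) - I (rpe * C.Γ e h)
            + 2⁻¹ * I (rpp * C.Γ e G))
        + ε ^ 3 * (2⁻¹ * I (rpp * C.Γ h G) - 2⁻¹ * I (rpe * C.Γ h h))) * s
      + ((- I (G * ree) - 2⁻¹ * I (F * C.Γ G G) - I (De * C.Γ e G)
            - 4⁻¹ * I (ree * C.Γ e e))
        + ε * (2⁻¹ * I (Dp * C.Γ G G) - I (De * C.Γ h G) + I (rpe * C.Γ e G)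
            - 2⁻¹ * I (ree * C.Γ e h))
        + ε ^ 2 * (- 4⁻¹ * I (rpp * C.Γ G G) + I (rpe * C.Γ h G)
            - 4⁻¹ * I (ree * C.Γ h h))) * s ^ 2
      + ((2⁻¹ * I (De * C.Γ G G) + 2⁻¹ * I (ree * C.Γ e G))
        + ε * (- 2⁻¹ * I (rpe * C.Γ G G) + 2⁻¹ * I (ree * C.Γ h G))) * s ^ 3
      + (- 4⁻¹ * I (ree * C.Γ G G)) * s ^ 4 := by
  have e2 := hC.memLp _ (hC.test_A he).1
  have h2 := hC.memLp _ (hC.test_A hh).1
  have G2 := hC.memLp _ (hC.test_A hG).1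
  have hX : MemLp (-De + ε • rpe + s • ree : M →ₘ[m] ℝ) 2 m :=
    mem_add (mem_add (mem_neg hDe) (mem_smul _ hrpe)) (mem_smul _ hree)
  have hρ : MemLp (segρ F Dp De rpp rpe ree ε s) 2 m :=
    mem_add (mem_add (mem_add (mem_sub (mem_sub hF (mem_smul _ hDp)) (mem_smul _ hDe))
      (mem_smul _ hrpp)) (mem_smul _ hrpe)) (mem_smul _ hree)
  have g1 := hC.test_Γ2 hB he he
  have g2 := hC.test_Γ2 hB he hh
  have g3 := hC.test_Γ2 hB he hG
  have g4 := hC.test_Γ2 hB hh hh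
  have g5 := hC.test_Γ2 hB hh hG
  have g6 := hC.test_Γ2 hB hG hG
  have p1 : I ((e + ε • h - s • G) * (-De + ε • rpe + s • ree))
      = I (e * (-De + ε • rpe + s • ree)) + ε * I (h * (-De + ε • rpe + s • ree))
        - s * I (G * (-De + ε • rpe + s • ree)) := by
    have e0 : (e + ε • h - s • G) * (-De + ε • rpe + s • ree)
        = e * (-De + ε • rpe + s • ree) + ε • (h * (-De + ε • rpe + s • ree))
          - s • (G * (-De + ε • rpe + s • ree)) := by algebra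
    have n0 := mem_mul_22 e2 hX
    have n1 := mem_smul ε (mem_mul_22 h2 hX)
    have n2 := mem_smul s (mem_mul_22 G2 hX)
    rw [e0, I_sub (mem_add n0 n1) n2, I_add n0 n1, I_smul, I_smul]
  have r1 := fun {g : M →ₘ[m] ℝ} (hg : MemLp g 2 m) =>
    I_lin6 hF hDp hDe hrpp hrpe hree hg ε s (ε ^ 2 / 2) (ε * s) (s ^ 2 / 2)
  unfold Calc.act
  rw [p1, I_lin3 hDe hrpe hree e2, I_lin3 hDe hrpe hree h2, I_lin3 hDe hrpe hree G2, ie, ih, iG,
    hC.Γ_expand3 hB he hh hG, I_linΓ hρ g1 g2 g3 g4 g5 g6]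
  unfold segρ
  rw [r1 g1, r1 g2, r1 g3, r1 g4, r1 g5, r1 g6]
  ring

/-- the coefficient of `ε` -/
noncomputable def _root_.Vale.Agent.P233.Calc.k1 (C : Calc m) (F e : M →ₘ[m] ℝ) : ℝ :=
  2⁻¹ * I (F * C.Γ e e)

/-- the coefficient of `ε²` -/
noncomputable def _root_.Vale.Agent.P233.Calc.k2 (C : Calc m) (e Dp De rpe ree : M →ₘ[m] ℝ) : ℝ :=
  (I (e * rpe) + 2⁻¹ * I (Dp * C.Γ e e)) + 2⁻¹ * (I (e * ree) + 2⁻¹ * I (De * C.Γ e e))

/-- the coefficient of `ε³` -/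
noncomputable def _root_.Vale.Agent.P233.Calc.k3 (C : Calc m)
    (F e h G Dp De rpp rpe ree : M →ₘ[m] ℝ) : ℝ :=
  (I (h * rpe) - 2⁻¹ * I (F * C.Γ h h) + I (Dp * C.Γ e h) - 4⁻¹ * I (rpp * C.Γ e e))
    + 2⁻¹ * (I (h * ree) - I (G * rpe) + I (F * C.Γ h G) + I (De * C.Γ e h)
            - I (Dp * C.Γ e G) - 2⁻¹ * I (rpe * C.Γ e e))
    + 3⁻¹ * (- I (G * ree) - 2⁻¹ * I (F * C.Γ G G) - I (De * C.Γ e G)
            - 4⁻¹ * I (ree * C.Γ e e))

/-- The action of a segment as a function of `ε`. -/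
theorem seg_int (he : e ∈ C.Test) (hh : h ∈ C.Test) (hG : G ∈ C.Test)
    (hF : MemLp F 2 m) (hDp : MemLp Dp 2 m) (hDe : MemLp De 2 m) (hrpp : MemLp rpp 2 m)
    (hrpe : MemLp rpe 2 m) (hree : MemLp ree 2 m)
    (ie : I (e * De) = -I (F * C.Γ e e)) (ih : I (h * De) = -I (F * C.Γ e h))
    (iG : I (G * De) = -I (F * C.Γ e G)) :
    ∃ c4 c5 : ℝ, ∀ ε : ℝ,
      ∫ s in (0:ℝ)..ε, C.act (e + ε • h - s • G) (-De + ε • rpe + s • ree)
          (segρ F Dp De rpp rpe ree ε s)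
        = C.k1 F e * ε + C.k2 e Dp De rpe ree * ε ^ 2 + C.k3 F e h G Dp De rpp rpe ree * ε ^ 3
          + c4 * ε ^ 4 + c5 * ε ^ 5 := by
  refine ⟨(2⁻¹ * I (Dp * C.Γ h h) - 2⁻¹ * I (rpp * C.Γ e h))
      + (2⁻¹ * I (De * C.Γ h h) - I (Dp * C.Γ h G) - I (rpe * C.Γ e h)
            + 2⁻¹ * I (rpp * C.Γ e G)) / 2
      + (2⁻¹ * I (Dp * C.Γ G G) - I (De * C.Γ h G) + I (rpe * C.Γ e G)
            - 2⁻¹ * I (ree * C.Γ e h)) / 3
      + (2⁻¹ * I (De * C.Γ G G) + 2⁻¹ * I (ree * C.Γ e G)) / 4,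
      (- 4⁻¹ * I (rpp * C.Γ h h))
      + (2⁻¹ * I (rpp * C.Γ h G) - 2⁻¹ * I (rpe * C.Γ h h)) / 2
      + (- 4⁻¹ * I (rpp * C.Γ G G) + I (rpe * C.Γ h G) - 4⁻¹ * I (ree * C.Γ h h)) / 3
      + (- 2⁻¹ * I (rpe * C.Γ G G) + 2⁻¹ * I (ree * C.Γ h G)) / 4
      + (- 4⁻¹ * I (ree * C.Γ G G)) / 5, fun ε => ?_⟩
  simp only [hC.act_seg hB he hh hG hF hDp hDe hrpp hrpe hree ie ih iG ε]
  rw [poly_int]
  unfold Calc.k1 Calc.k2 Calc.k3
  ring

end IsGamma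

end Vale.Agent.P233
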