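import Vale.Agent.P233.AB.AlgP1

set_option linter.all false

open MeasureTheory Filter Topology
open scoped ENNReal NNReal

namespace Vale.Agent.P233

variable {M : Type*} [MeasurableSpace M] {m : Measure M} {C : Calc m}

/-- `- ∫ ⟨Y_ab, ∇w⟩` with `Y_ab = ½ (D_a ∇b + D_b ∇a) + ½ F ∇Γ(a,b)`, i.e. the pairing of `w`
with `div Y_ab`. -/
noncomputable def Calc.PP (C : Calc m) (F a b w : M →ₘ[m] ℝ) : ℝ :=
  -(2⁻¹ * I (C.De F a * C.Γ b w)) - 2⁻¹ * I (C.De F b * C.Γ a w) - 2⁻¹ * I (F * C.Γ (C.Γ a b) w)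

/-- `½ |∇e|²` -/
noncomputable def Calc.G0 (C : Calc m) (e : M →ₘ[m] ℝ) : M →ₘ[m] ℝ := (2 : ℝ)⁻¹ • C.Γ e e

/-- The limit of the coefficient of `ε³` on the segment from `ε p` in direction `e`. -/
noncomputable def Calc.k3x (C : Calc m) (F p e h : M →ₘ[m] ℝ) : ℝ :=
  -C.HW e p h F - 2⁻¹ * I (F * C.Γ h h)
    + 2⁻¹ * I (C.De F p * C.Γ p (C.G0 e)) + 4⁻¹ * I (F * C.Γ (C.Γ p p) (C.G0 e))
    + 2⁻¹ * I (C.De F e * C.Γ p (C.G0 e)) + 2⁻¹ * I (F * C.Γ (C.Γ p e) (C.G0 e))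
    + 6⁻¹ * I (C.De F e * C.Γ e (C.G0 e)) + 3⁻¹ * I (F * C.Γ (C.G0 e) (C.G0 e))

namespace IsGamma

variable (hC : IsGamma C) {κ : ℝ} (hB : C.BEi κ)
variable {F a b e f g h p u v w : M →ₘ[m] ℝ}

section one
include hC

theorem De_mem2 (hF : F ∈ C.A) (he : e ∈ C.Test) : MemLp (C.De F e) 2 m := by
  unfold Calc.De
  rw [add_comm]
  refine mem_add (mem_mul_top hF.2 (hC.memLp _ (hC.test_lap_mem he))) ?_
  have h1 := hC.toIsDir.Γ_mem2 (hC.test_A he).1 (hC.test_Γ_top he) hF.1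
  rwa [hC.symm _ (hC.test_A he).1 _ hF.1] at h1

/-- integration by parts -/
theorem De_ibp (hF : F ∈ C.A) (he : e ∈ C.Test) (hw : w ∈ C.A) :
    I (w * C.De F e) = -I (F * C.Γ e w) := by
  have eA := hC.test_A he
  have h1 := (hC.test_isLap he).2.2 _ (hC.toIsDir.mul_mem_A hF hw).1
  change I (C.Γ e (F * w)) = -I (C.lap e * (F * w)) at h1
  rw [hC.toIsDir.Γ_mul_right hF hw eA.1] at h1
  have n1 := mem_mul_top hF.2 (hC.toIsDir.Γ_mem1 eA.1 hw.1)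
  have n2 := mem_mul_top hw.2 (hC.toIsDir.Γ_mem1 eA.1 hF.1)
  have n3 : MemLp (C.lap e * (F * w) : M →ₘ[m] ℝ) 1 m :=
    mem_mul_22 (hC.memLp _ (hC.test_lap_mem he)) (hC.memLp _ (hC.toIsDir.mul_mem_A hF hw).1)
  rw [I_add n1 n2] at h1
  have e1 : w * C.De F e = C.lap e * (F * w) + w * C.Γ e F := by
    unfold Calc.De
    rw [hC.symm _ hF.1 _ eA.1]; ring
  rw [e1, I_add n3 n2]
  linarith

/-- `|∫ u Γ(a,w)| ≤ K |∇w|` -/
theorem exists_bd_uΓ (hu : MemLp u 2 m) (ha : a ∈ C.Test) :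
    ∃ K : ℝ, 0 ≤ K ∧ ∀ w ∈ C.W, |I (u * C.Γ a w)| ≤ K * Real.sqrt (I (C.Γ w w)) := by
  obtain ⟨L, hL⟩ := mem_top_iff.1 (hC.test_Γ_top ha)
  have aA := hC.test_A ha
  refine ⟨Real.sqrt (I (u ^ 2)) * Real.sqrt |L|, by positivity, fun w hw => ?_⟩
  have h2 := hC.toIsDir.Γ_mem2 aA.1 (hC.test_Γ_top ha) hw
  refine (I_abs_le hu h2).trans ?_
  rw [mul_assoc]
  refine mul_le_mul_of_nonneg_left ?_ (Real.sqrt_nonneg _)
  rw [← Real.sqrt_mul (abs_nonneg _)]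
  refine Real.sqrt_le_sqrt ?_
  rw [← I_smul]
  refine I_mono (mem_sq h2) (mem_smul _ (hC.mem1 w hw)) ?_
  rw [le_iff_ae]
  filter_upwards [hC.toIsDir.Γ_cs_ae aA.1 hw, hC.toIsDir.Γ_nonneg_ae hw, hL,
    sq_ae (C.Γ a w), smul_ae (C.Γ w w) |L|] with x h1 h3 h4 h5 h6
  rw [h5, h6]
  refine h1.trans (mul_le_mul_of_nonneg_right ?_ h3)
  exact (le_abs_self _).trans (h4.trans (le_abs_self _))

/-- `|∫ F Γ(v,w)| ≤ K |∇v| |∇w|` -/
theorem exists_bd_FΓ (hF : MemLp F ∞ m) :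
    ∃ K : ℝ, 0 ≤ K ∧ ∀ v ∈ C.W, ∀ w ∈ C.W,
      |I (F * C.Γ v w)| ≤ K * (Real.sqrt (I (C.Γ v v)) * Real.sqrt (I (C.Γ w w))) := by
  obtain ⟨L, hL⟩ := mem_top_iff.1 hF
  refine ⟨|L|, abs_nonneg _, fun v hv w hw => ?_⟩
  have h1 := hC.toIsDir.int_abs_Γ_le hv hw
  refine le_trans ?_ (mul_le_mul_of_nonneg_left h1 (abs_nonneg _))
  unfold I
  refine abs_integral_le_integral_abs.trans ?_
  rw [← integral_const_mul]
  refine integral_mono_ae (int_of_mem (mem_mul_top hF (hC.toIsDir.Γ_mem1 hv hw))).abs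
    ((int_of_mem (hC.toIsDir.Γ_mem1 hv hw)).abs.const_mul _) ?_
  filter_upwards [hL, mul_ae F (C.Γ v w)] with x h2 h3
  rw [h3, abs_mul]
  exact mul_le_mul_of_nonneg_right (h2.trans (le_abs_self _)) (abs_nonneg _)

variable {w' : ℕ → M →ₘ[m] ℝ} {w0 : M →ₘ[m] ℝ}

theorem tendsto_uΓ (hu : MemLp u 2 m) (ha : a ∈ C.Test) (hw : ∀ n, w' n ∈ C.W) (hw0 : w0 ∈ C.W)
    (ht : Tendsto (fun n => I (C.Γ (w' n - w0) (w' n - w0))) atTop (𝓝 0)) :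
    Tendsto (fun n => I (u * C.Γ a (w' n))) atTop (𝓝 (I (u * C.Γ a w0))) := by
  obtain ⟨K, hK, hb⟩ := hC.exists_bd_uΓ hu ha
  have aA := hC.test_A ha
  rw [tendsto_iff_norm_sub_tendsto_zero]
  have h1 : Tendsto (fun n => K * Real.sqrt (I (C.Γ (w' n - w0) (w' n - w0)))) atTop (𝓝 0) := by
    have := ((Real.continuous_sqrt.tendsto 0).comp ht).const_mul K
    simpa using this
  refine squeeze_zero (fun _ => norm_nonneg _) (fun n => ?_) h1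
  have h2 := hC.toIsDir.Γ_mem2 aA.1 (hC.test_Γ_top ha) (hw n)
  have h3 := hC.toIsDir.Γ_mem2 aA.1 (hC.test_Γ_top ha) hw0
  rw [← I_sub (mem_mul_22 hu h2) (mem_mul_22 hu h3), ← mul_sub,
    ← hC.toIsDir.Γ_sub_right aA.1 (hw n) hw0, Real.norm_eq_abs]
  exact hb _ (hC.toIsDir.sub_mem (hw n) hw0)

theorem tendsto_FΓ (hF : MemLp F ∞ m) (hv : v ∈ C.W) (hw : ∀ n, w' n ∈ C.W) (hw0 : w0 ∈ C.W)
    (ht : Tendsto (fun n => I (C.Γ (w' n - w0) (w' n - w0))) atTop (𝓝 0)) :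
    Tendsto (fun n => I (F * C.Γ v (w' n))) atTop (𝓝 (I (F * C.Γ v w0))) := by
  obtain ⟨K, hK, hb⟩ := hC.exists_bd_FΓ hF
  rw [tendsto_iff_norm_sub_tendsto_zero]
  have h1 : Tendsto (fun n => K * (Real.sqrt (I (C.Γ v v))
      * Real.sqrt (I (C.Γ (w' n - w0) (w' n - w0))))) atTop (𝓝 0) := by
    have := (((Real.continuous_sqrt.tendsto 0).comp ht).const_mul
      (Real.sqrt (I (C.Γ v v)))).const_mul K
    simpa using this
  refine squeeze_zero (fun _ => norm_nonneg _) (fun n => ?_) h1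
  rw [← I_sub (mem_mul_top hF (hC.toIsDir.Γ_mem1 hv (hw n)))
    (mem_mul_top hF (hC.toIsDir.Γ_mem1 hv hw0)), ← mul_sub,
    ← hC.toIsDir.Γ_sub_right hv (hw n) hw0, Real.norm_eq_abs]
  exact hb _ hv _ (hC.toIsDir.sub_mem (hw n) hw0)

theorem tendsto_FΓΓ (hF : MemLp F ∞ m) (hw : ∀ n, w' n ∈ C.W) (hw0 : w0 ∈ C.W)
    (ht : Tendsto (fun n => I (C.Γ (w' n - w0) (w' n - w0))) atTop (𝓝 0)) :
    Tendsto (fun n => I (F * C.Γ (w' n) (w' n))) atTop (𝓝 (I (F * C.Γ w0 w0))) := by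
  obtain ⟨K, hK, hb⟩ := hC.exists_bd_FΓ hF
  have h0 := hC.tendsto_FΓ hF hw0 hw hw0 ht
  have h1 : Tendsto (fun n => I (F * C.Γ (w' n - w0) (w' n - w0))) atTop (𝓝 0) := by
    have h2 : Tendsto (fun n => K * I (C.Γ (w' n - w0) (w' n - w0))) atTop (𝓝 0) := by
      simpa using ht.const_mul K
    refine squeeze_zero_norm (fun n => ?_) h2
    have h3 := hC.toIsDir.sub_mem (hw n) hw0
    have h4 := hb _ h3 _ h3
    rwa [Real.mul_self_sqrt (hC.toIsDir.E_nonneg h3)] at h4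
  have h2 : ∀ n, I (F * C.Γ (w' n) (w' n)) = I (F * C.Γ (w' n - w0) (w' n - w0))
      + 2 * I (F * C.Γ w0 (w' n)) - I (F * C.Γ w0 w0) := by
    intro n
    have h3 := hC.toIsDir.sub_mem (hw n) hw0
    have n1 := mem_mul_top hF (hC.mem1 _ h3)
    have n2 := mem_mul_top hF (hC.toIsDir.Γ_mem1 hw0 (hw n))
    have n3 := mem_mul_top hF (hC.mem1 _ hw0)
    rw [← I_smul, ← I_add n1 (mem_smul _ n2), ← I_sub (mem_add n1 (mem_smul _ n2)) n3]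
    congr 1
    rw [hC.toIsDir.Γ_sub_left (hw n) hw0 h3, hC.toIsDir.Γ_sub_right (hw n) (hw n) hw0,
      hC.toIsDir.Γ_sub_right hw0 (hw n) hw0, hC.symm _ (hw n) _ hw0]
    algebra
  simp only [h2]
  have := (h1.add (h0.const_mul 2)).sub (tendsto_const_nhds (x := I (F * C.Γ w0 w0)))
  convert this using 2
  ring

theorem tendsto_FΓ2 {h' G' : ℕ → M →ₘ[m] ℝ} {h0 G0 : M →ₘ[m] ℝ} (hF : MemLp F ∞ m)
    (hh : ∀ n, h' n ∈ C.W) (hh0 : h0 ∈ C.W)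
    (hht : Tendsto (fun n => I (C.Γ (h' n - h0) (h' n - h0))) atTop (𝓝 0))
    (hG : ∀ n, G' n ∈ C.W) (hG0 : G0 ∈ C.W)
    (hGt : Tendsto (fun n => I (C.Γ (G' n - G0) (G' n - G0))) atTop (𝓝 0)) :
    Tendsto (fun n => I (F * C.Γ (h' n) (G' n))) atTop (𝓝 (I (F * C.Γ h0 G0))) := by
  obtain ⟨K, hK, hb⟩ := hC.exists_bd_FΓ hF
  have h1 := hC.tendsto_FΓ hF hh0 hG hG0 hGt
  have h2 : Tendsto (fun n => I (F * C.Γ G0 (h' n))) atTop (𝓝 (I (F * C.Γ G0 h0))) :=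
    hC.tendsto_FΓ hF hG0 hh hh0 hht
  have h3 : Tendsto (fun n => I (F * C.Γ (h' n - h0) (G' n - G0))) atTop (𝓝 0) := by
    have h4 : Tendsto (fun n => K * (Real.sqrt (I (C.Γ (h' n - h0) (h' n - h0)))
        * Real.sqrt (I (C.Γ (G' n - G0) (G' n - G0))))) atTop (𝓝 0) := by
      have := (((Real.continuous_sqrt.tendsto 0).comp hht).mul
        ((Real.continuous_sqrt.tendsto 0).comp hGt)).const_mul K
      simpa using this
    refine squeeze_zero_norm (fun n => ?_) h4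
    exact hb _ (hC.toIsDir.sub_mem (hh n) hh0) _ (hC.toIsDir.sub_mem (hG n) hG0)
  have h4 : ∀ n, I (F * C.Γ (h' n) (G' n)) = I (F * C.Γ (h' n - h0) (G' n - G0))
      + I (F * C.Γ h0 (G' n)) + I (F * C.Γ G0 (h' n)) - I (F * C.Γ h0 G0) := by
    intro n
    have s1 := hC.toIsDir.sub_mem (hh n) hh0
    have s2 := hC.toIsDir.sub_mem (hG n) hG0
    have n1 := mem_mul_top hF (hC.toIsDir.Γ_mem1 s1 s2)
    have n2 := mem_mul_top hF (hC.toIsDir.Γ_mem1 hh0 (hG n))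
    have n3 := mem_mul_top hF (hC.toIsDir.Γ_mem1 hG0 (hh n))
    have n4 := mem_mul_top hF (hC.toIsDir.Γ_mem1 hh0 hG0)
    rw [← I_add n1 n2, ← I_add (mem_add n1 n2) n3, ← I_sub (mem_add (mem_add n1 n2) n3) n4]
    congr 1
    rw [hC.toIsDir.Γ_sub_left (hh n) hh0 s2, hC.toIsDir.Γ_sub_right (hh n) (hG n) hG0,
      hC.toIsDir.Γ_sub_right hh0 (hG n) hG0, hC.symm _ hG0 _ (hh n)]
    ring
  simp only [h4]
  have := ((h3.add h1).add h2).sub (tendsto_const_nhds (x := I (F * C.Γ h0 G0)))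
  have e : 0 + I (F * C.Γ h0 G0) + I (F * C.Γ G0 h0) - I (F * C.Γ h0 G0) = I (F * C.Γ h0 G0) := by
    rw [hC.symm _ hG0 _ hh0]; ring
  rw [e] at this
  exact this

theorem sqrtE_tendsto (hw : ∀ n, w' n ∈ C.W) (hw0 : w0 ∈ C.W)
    (ht : Tendsto (fun n => I (C.Γ (w' n - w0) (w' n - w0))) atTop (𝓝 0)) :
    Tendsto (fun n => Real.sqrt (I (C.Γ (w' n) (w' n)))) atTop
      (𝓝 (Real.sqrt (I (C.Γ w0 w0)))) := by
  have h1 := hC.tendsto_FΓΓ (F := 1) mem_top_one hw hw0 ht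
  simp only [one_mul] at h1
  exact (Real.continuous_sqrt.tendsto _).comp h1

end one

include hC hB

theorem PP_tendsto {w' : ℕ → M →ₘ[m] ℝ} {w0 : M →ₘ[m] ℝ} (hF : F ∈ C.A) (ha : a ∈ C.Test)
    (hb : b ∈ C.Test) (hw : ∀ n, w' n ∈ C.W) (hw0 : w0 ∈ C.W)
    (ht : Tendsto (fun n => I (C.Γ (w' n - w0) (w' n - w0))) atTop (𝓝 0)) :
    Tendsto (fun n => C.PP F a b (w' n)) atTop (𝓝 (C.PP F a b w0)) := by
  unfold Calc.PP
  exact ((((hC.tendsto_uΓ (hC.De_mem2 hF ha) hb hw hw0 ht).const_mul 2⁻¹).neg).sub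
    ((hC.tendsto_uΓ (hC.De_mem2 hF hb) ha hw hw0 ht).const_mul 2⁻¹)).sub
    ((hC.tendsto_FΓ hF.2 (hC.Γ_mem hB ha hb).1 hw hw0 ht).const_mul 2⁻¹)

/-- pairing with an approximate divergence -/
theorem pair_tendsto {w' r : ℕ → M →ₘ[m] ℝ} {w0 : M →ₘ[m] ℝ} {δ : ℕ → ℝ}
    (hδ : Tendsto δ atTop (𝓝 0)) (hF : F ∈ C.A) (ha : a ∈ C.Test)
    (hb : b ∈ C.Test)
    (hr : ∀ n, ∀ w ∈ C.A, |I (w * r n) - C.PP F a b w| ≤ δ n * Real.sqrt (I (C.Γ w w)))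
    (hw : ∀ n, w' n ∈ C.A) (hw0 : w0 ∈ C.W)
    (ht : Tendsto (fun n => I (C.Γ (w' n - w0) (w' n - w0))) atTop (𝓝 0)) :
    Tendsto (fun n => I (w' n * r n)) atTop (𝓝 (C.PP F a b w0)) := by
  have h1 := hC.PP_tendsto hB hF ha hb (fun n => (hw n).1) hw0 ht
  have h2 : Tendsto (fun n => I (w' n * r n) - C.PP F a b (w' n)) atTop (𝓝 0) := by
    have h3 := hδ.mul (hC.sqrtE_tendsto (fun n => (hw n).1) hw0 ht)
    rw [zero_mul] at h3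
    exact squeeze_zero_norm (fun n => hr n _ (hw n)) h3
  have := h2.add h1
  simpa using this

theorem G0_mem (he : e ∈ C.Test) : C.G0 e ∈ C.W := hC.smul_mem _ _ (hC.Γ_mem hB he he).1

theorem k3_tendsto {δ : ℕ → ℝ} (hδ : Tendsto δ atTop (𝓝 0)) (hF : F ∈ C.A) (hp : p ∈ C.Test)
    (he : e ∈ C.Test) {h' G' rpp rpe ree : ℕ → M →ₘ[m] ℝ} {h0 : M →ₘ[m] ℝ}
    (hh : ∀ n, h' n ∈ C.Test) (hh0 : h0 ∈ C.W)
    (hht : Tendsto (fun n => I (C.Γ (h' n - h0) (h' n - h0))) atTop (𝓝 0))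
    (hG : ∀ n, G' n ∈ C.Test)
    (hGt : Tendsto (fun n => I (C.Γ (G' n - C.G0 e) (G' n - C.G0 e))) atTop (𝓝 0))
    (hrpp : ∀ n, ∀ w ∈ C.A, |I (w * rpp n) - C.PP F p p w| ≤ δ n * Real.sqrt (I (C.Γ w w)))
    (hrpe : ∀ n, ∀ w ∈ C.A, |I (w * rpe n) - C.PP F p e w| ≤ δ n * Real.sqrt (I (C.Γ w w)))
    (hree : ∀ n, ∀ w ∈ C.A, |I (w * ree n) - C.PP F e e w| ≤ δ n * Real.sqrt (I (C.Γ w w))) :
    Tendsto (fun n => C.k3 F e (h' n) (G' n) (C.De F p) (C.De F e) (rpp n) (rpe n) (ree n)) atTop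
      (𝓝 (C.k3x F p e h0)) := by
  have g0 := hC.G0_mem hB he
  have hhA := fun n => hC.test_A (hh n)
  have hGA := fun n => hC.test_A (hG n)
  have eA := hC.test_A he
  have pA := hC.test_A hp
  have Γee := hC.Γ_mem hB he he
  have hDp := hC.De_mem2 hF hp
  have hDe := hC.De_mem2 hF he
  have hcc : Tendsto (fun _ : ℕ => I (C.Γ (C.Γ e e - C.Γ e e) (C.Γ e e - C.Γ e e))) atTop
      (𝓝 0) := by
    rw [sub_self, hC.toIsDir.Γ_zero_left hC.zero_mem, I_zero]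
    exact tendsto_const_nhds
  have t1 := hC.pair_tendsto hB hδ hF hp he hrpe hhA hh0 hht
  have t2 := hC.tendsto_FΓΓ hF.2 (fun n => (hhA n).1) hh0 hht
  have t3 := hC.tendsto_uΓ hDp he (fun n => (hhA n).1) hh0 hht
  have t4 := hC.pair_tendsto hB hδ hF hp hp hrpp (w' := fun _ => C.Γ e e) (fun _ => Γee) Γee.1 hcc
  have t5 := hC.pair_tendsto hB hδ hF he he hree hhA hh0 hht
  have t6 := hC.pair_tendsto hB hδ hF hp he hrpe hGA g0 hGt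
  have t7 := hC.tendsto_FΓ2 hF.2 (fun n => (hhA n).1) hh0 hht (fun n => (hGA n).1) g0 hGt
  have t8 := hC.tendsto_uΓ hDe he (fun n => (hhA n).1) hh0 hht
  have t9 := hC.tendsto_uΓ hDp he (fun n => (hGA n).1) g0 hGt
  have t10 := hC.pair_tendsto hB hδ hF hp he hrpe (w' := fun _ => C.Γ e e) (fun _ => Γee) Γee.1 hcc
  have t11 := hC.pair_tendsto hB hδ hF he he hree hGA g0 hGt
  have t12 := hC.tendsto_FΓΓ hF.2 (fun n => (hGA n).1) g0 hGt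
  have t13 := hC.tendsto_uΓ hDe he (fun n => (hGA n).1) g0 hGt
  have t14 := hC.pair_tendsto hB hδ hF he he hree (w' := fun _ => C.Γ e e) (fun _ => Γee) Γee.1 hcc
  have hlim := ((((t1.sub (t2.const_mul 2⁻¹)).add t3).sub (t4.const_mul 4⁻¹)).add
    ((((((t5.sub t6).add t7).add t8).sub t9).sub (t10.const_mul 2⁻¹)).const_mul 2⁻¹)).add
    ((((t11.neg.sub (t12.const_mul 2⁻¹)).sub t13).sub (t14.const_mul 4⁻¹)).const_mul 3⁻¹)
  have c4 : ∀ n, I (rpp n * C.Γ e e) = I (C.Γ e e * rpp n) := fun n => by rw [mul_comm]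
  have c10 : ∀ n, I (rpe n * C.Γ e e) = I (C.Γ e e * rpe n) := fun n => by rw [mul_comm]
  have c14 : ∀ n, I (ree n * C.Γ e e) = I (C.Γ e e * ree n) := fun n => by rw [mul_comm]
  unfold Calc.k3
  simp only [c4, c10, c14]
  refine (hlim.congr fun n => ?_).trans_eq ?_
  · rfl
  · congr 1
    have two : C.Γ e e = (2 : ℝ) • C.G0 e := by
      unfold Calc.G0; rw [smul_smul]; norm_num
    have hG2 : ∀ x ∈ C.W, C.Γ x (C.Γ e e) = (2 : ℝ) • C.Γ x (C.G0 e) := by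
      intro x hx
      rw [two, hC.toIsDir.Γ_smul_right _ hx g0]
    have hG2' : ∀ x ∈ C.W, C.Γ (C.Γ e e) x = (2 : ℝ) • C.Γ (C.G0 e) x := by
      intro x hx
      rw [two, hC.smul_left _ _ g0 _ hx]
    have hs : ∀ u x : M →ₘ[m] ℝ, I (u * (2 : ℝ) • x) = 2 * I (u * x) := by
      intro u x
      rw [← I_smul]; congr 1; algebra
    have Γpe := hC.Γ_mem hB hp he
    have Γpp := hC.Γ_mem hB hp hp
    have q2 : C.PP F p p (C.Γ e e) = -2 * I (C.De F p * C.Γ p (C.G0 e))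
        - I (F * C.Γ (C.Γ p p) (C.G0 e)) := by
      unfold Calc.PP; rw [hG2 _ pA.1, hG2 _ Γpp.1, hs, hs]; ring
    have q3 : C.PP F e e h0 = - I (C.De F e * C.Γ e h0) - I (F * C.Γ h0 (C.G0 e)) := by
      unfold Calc.PP; rw [hG2' _ hh0, hs, hC.symm _ g0 _ hh0]; ring
    have q5 : C.PP F p e (C.Γ e e) = - I (C.De F p * C.Γ e (C.G0 e))
        - I (C.De F e * C.Γ p (C.G0 e)) - I (F * C.Γ (C.Γ p e) (C.G0 e)) := by
      unfold Calc.PP; rw [hG2 _ pA.1, hG2 _ eA.1, hG2 _ Γpe.1, hs, hs, hs]; ring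
    have q6 : C.PP F e e (C.G0 e) = - I (C.De F e * C.Γ e (C.G0 e))
        - I (F * C.Γ (C.G0 e) (C.G0 e)) := by
      unfold Calc.PP; rw [hG2' _ g0, hs]; ring
    have q7 : C.PP F e e (C.Γ e e) = -2 * I (C.De F e * C.Γ e (C.G0 e))
        - 2 * I (F * C.Γ (C.G0 e) (C.G0 e)) := by
      unfold Calc.PP
      rw [hG2' _ Γee.1, hG2 _ g0, hG2 _ eA.1, hs, hs, hs]; ring
    have q8 : C.HW e p h0 F = 2⁻¹ * (-I (C.De F p * C.Γ e h0) + I (F * C.Γ (C.Γ p e) h0)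
        + I (C.De F e * C.Γ p h0)) := by
      unfold Calc.HW
      rw [hC.symm _ eA.1 _ pA.1, hC.symm _ hh0 _ Γpe.1, mul_comm (C.Γ e h0),
        mul_comm (C.Γ p h0)]
    rw [q2, q3, q5, q6, q7]
    unfold Calc.k3x
    rw [q8]
    unfold Calc.PP
    ring

end IsGamma

end Vale.Agent.P233
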