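import Vale.Agent.P233.AB.AlgP2

set_option linter.all false

open MeasureTheory Filter Topology
open scoped ENNReal NNReal

namespace Vale.Agent.P233

variable {M : Type*} [MeasurableSpace M] {m : Measure M} {C : Calc m}

/-- the density at the point `(x,y)` of the plane of times:
`F - div (F ∇a_τ) + ½ r_ττ`, `τ = (x,y)`, `a_τ = x a + y b` -/
noncomputable def rhoτ (F Da Db r₁ r₂ r₃ : M →ₘ[m] ℝ) (x y : ℝ) : M →ₘ[m] ℝ :=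
  F - x • Da - y • Db + (x ^ 2 / 2) • r₁ + (x * y) • r₂ + (y ^ 2 / 2) • r₃

/-- the derivative of `rhoτ` at `(x,y)` in direction `(p,q)` -/
noncomputable def drhoτ (Da Db r₁ r₂ r₃ : M →ₘ[m] ℝ) (x y p q : ℝ) : M →ₘ[m] ℝ :=
  -(p • Da + q • Db) + (x * p) • r₁ + (x * q + y * p) • r₂ + (y * q) • r₃

/-- the action of the segment from `ε (p₁,p₂)` in direction `(e₁,e₂)` with the potential
`e + ε h - s G`, `e = e₁ a + e₂ b` -/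
noncomputable def Calc.Sg (C : Calc m) (F a b r₁ r₂ r₃ : M →ₘ[m] ℝ) (p₁ p₂ e₁ e₂ : ℝ)
    (h G : M →ₘ[m] ℝ) (ε : ℝ) : ℝ :=
  ∫ s in (0:ℝ)..ε, C.act ((e₁ • a + e₂ • b) + ε • h - s • G)
    (drhoτ (C.De F a) (C.De F b) r₁ r₂ r₃ (ε * p₁ + s * e₁) (ε * p₂ + s * e₂) e₁ e₂)
    (rhoτ F (C.De F a) (C.De F b) r₁ r₂ r₃ (ε * p₁ + s * e₁) (ε * p₂ + s * e₂))

/-- the symmetric bilinear extension of `r₁, r₂, r₃` -/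
noncomputable def rB (r₁ r₂ r₃ : M →ₘ[m] ℝ) (x y p q : ℝ) : M →ₘ[m] ℝ :=
  (x * p) • r₁ + (x * q + y * p) • r₂ + (y * q) • r₃

theorem I_bil {u v f g h : M →ₘ[m] ℝ} (hu : MemLp u 2 m) (hv : MemLp v 2 m) (hf : MemLp f 2 m)
    (hg : MemLp g 2 m) (hh : MemLp h 2 m) (x y s t z : ℝ) :
    I ((x • u + y • v) * (s • f + t • g + z • h))
      = x * (s * I (u * f) + t * I (u * g) + z * I (u * h))
        + y * (s * I (v * f) + t * I (v * g) + z * I (v * h)) := by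
  have n1 := mem_smul (x * s) (mem_mul_22 hu hf)
  have n2 := mem_smul (x * t) (mem_mul_22 hu hg)
  have n3 := mem_smul (x * z) (mem_mul_22 hu hh)
  have n4 := mem_smul (y * s) (mem_mul_22 hv hf)
  have n5 := mem_smul (y * t) (mem_mul_22 hv hg)
  have n6 := mem_smul (y * z) (mem_mul_22 hv hh)
  have e : (x • u + y • v) * (s • f + t • g + z • h)
      = (x * s) • (u * f) + (x * t) • (u * g) + (x * z) • (u * h) + (y * s) • (v * f)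
        + (y * t) • (v * g) + (y * z) • (v * h) := by algebra
  rw [e, I_add (mem_add (mem_add (mem_add (mem_add n1 n2) n3) n4) n5) n6,
    I_add (mem_add (mem_add (mem_add n1 n2) n3) n4) n5,
    I_add (mem_add (mem_add n1 n2) n3) n4, I_add (mem_add n1 n2) n3, I_add n1 n2,
    I_smul, I_smul, I_smul, I_smul, I_smul, I_smul]
  ring

namespace IsGamma

variable (hC : IsGamma C) {κ : ℝ} (hB : C.BEi κ)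
variable {F a b e f g h p u v w k G r₁ r₂ r₃ : M →ₘ[m] ℝ}

include hC hB

theorem lin_test (ha : a ∈ C.Test) (hb : b ∈ C.Test) (x y : ℝ) : x • a + y • b ∈ C.Test :=
  hC.test_add hB (hC.test_smul hB x ha) (hC.test_smul hB y hb)

theorem De_lin (hF : F ∈ C.A) (ha : a ∈ C.Test) (hb : b ∈ C.Test) (x y : ℝ) :
    C.De F (x • a + y • b) = x • C.De F a + y • C.De F b := by
  unfold Calc.De
  have aA := hC.test_A ha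
  have bA := hC.test_A hb
  rw [hC.lap_add hB (hC.test_smul hB x ha) (hC.test_smul hB y hb), hC.lap_smul hB x ha,
    hC.lap_smul hB y hb, hC.toIsDir.Γ_add_right hF.1 (hC.smul_mem _ _ aA.1)
    (hC.smul_mem _ _ bA.1), hC.toIsDir.Γ_smul_right _ hF.1 aA.1,
    hC.toIsDir.Γ_smul_right _ hF.1 bA.1]
  algebra

theorem Γ_lin (ha : a ∈ C.Test) (hb : b ∈ C.Test) (x y p q : ℝ) :
    C.Γ (x • a + y • b) (p • a + q • b)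
      = (x * p) • C.Γ a a + (x * q + y * p) • C.Γ a b + (y * q) • C.Γ b b := by
  have aA := (hC.test_A ha).1
  have bA := (hC.test_A hb).1
  have h1 := hC.smul_mem x _ aA
  have h2 := hC.smul_mem y _ bA
  have h3 := hC.smul_mem p _ aA
  have h4 := hC.smul_mem q _ bA
  rw [hC.add_left _ h1 _ h2 _ (hC.add_mem _ h3 _ h4), hC.toIsDir.Γ_add_right h1 h3 h4,
    hC.toIsDir.Γ_add_right h2 h3 h4, hC.smul_left _ _ aA _ h3, hC.smul_left _ _ aA _ h4,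
    hC.smul_left _ _ bA _ h3, hC.smul_left _ _ bA _ h4, hC.toIsDir.Γ_smul_right _ aA aA,
    hC.toIsDir.Γ_smul_right _ aA bA, hC.toIsDir.Γ_smul_right _ bA aA,
    hC.toIsDir.Γ_smul_right _ bA bA, hC.symm _ bA _ aA]
  algebra

/-- the action of a segment is a polynomial in `ε` -/
theorem Sg_poly (hF : F ∈ C.A) (ha : a ∈ C.Test) (hb : b ∈ C.Test) (hr₁ : MemLp r₁ 2 m)
    (hr₂ : MemLp r₂ 2 m) (hr₃ : MemLp r₃ 2 m) (hh : h ∈ C.Test) (hG : G ∈ C.Test)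
    (p₁ p₂ e₁ e₂ : ℝ) :
    ∃ c4 c5 : ℝ, ∀ ε : ℝ, C.Sg F a b r₁ r₂ r₃ p₁ p₂ e₁ e₂ h G ε
      = C.k1 F (e₁ • a + e₂ • b) * ε
        + C.k2 (e₁ • a + e₂ • b) (p₁ • C.De F a + p₂ • C.De F b) (e₁ • C.De F a + e₂ • C.De F b)
            (rB r₁ r₂ r₃ p₁ p₂ e₁ e₂) (rB r₁ r₂ r₃ e₁ e₂ e₁ e₂) * ε ^ 2
        + C.k3 F (e₁ • a + e₂ • b) h G (p₁ • C.De F a + p₂ • C.De F b)
            (e₁ • C.De F a + e₂ • C.De F b) (rB r₁ r₂ r₃ p₁ p₂ p₁ p₂)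
            (rB r₁ r₂ r₃ p₁ p₂ e₁ e₂) (rB r₁ r₂ r₃ e₁ e₂ e₁ e₂) * ε ^ 3
        + c4 * ε ^ 4 + c5 * ε ^ 5 := by
  have he := hC.lin_test hB ha hb e₁ e₂
  have hDa := hC.De_mem2 hF ha
  have hDb := hC.De_mem2 hF hb
  have hrB : ∀ x y p q : ℝ, MemLp (rB r₁ r₂ r₃ x y p q) 2 m := fun x y p q =>
    mem_add (mem_add (mem_smul _ hr₁) (mem_smul _ hr₂)) (mem_smul _ hr₃)
  have hDl := hC.De_lin hB hF ha hb e₁ e₂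
  obtain ⟨c4, c5, hc⟩ := hC.seg_int hB (F := F) he hh hG (hC.memLp _ hF.1)
    (mem_add (mem_smul p₁ hDa) (mem_smul p₂ hDb)) (mem_add (mem_smul e₁ hDa) (mem_smul e₂ hDb))
    (hrB p₁ p₂ p₁ p₂) (hrB p₁ p₂ e₁ e₂) (hrB e₁ e₂ e₁ e₂)
    (by rw [← hDl]; exact hC.De_ibp hF he (hC.test_A he))
    (by rw [← hDl]; exact hC.De_ibp hF he (hC.test_A hh))
    (by rw [← hDl]; exact hC.De_ibp hF he (hC.test_A hG))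
  refine ⟨c4, c5, fun ε => ?_⟩
  rw [← hc ε]
  unfold Calc.Sg
  congr 1
  funext s
  congr 1
  · unfold drhoτ rB; algebra
  · unfold rhoτ segρ rB; algebra

theorem k1_lin (hF : F ∈ C.A) (ha : a ∈ C.Test) (hb : b ∈ C.Test) (x y : ℝ) :
    C.k1 F (x • a + y • b) = 2⁻¹ * (x ^ 2 * I (F * C.Γ a a) + 2 * x * y * I (F * C.Γ a b)
      + y ^ 2 * I (F * C.Γ b b)) := by
  unfold Calc.k1
  rw [hC.Γ_lin hB ha hb]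
  have n1 := mem_smul (x * x) (mem_mul_top hF.2 (hC.mem1 _ (hC.test_A ha).1))
  have n2 := mem_smul (x * y + y * x) (mem_mul_top hF.2
    (hC.toIsDir.Γ_mem1 (hC.test_A ha).1 (hC.test_A hb).1))
  have n3 := mem_smul (y * y) (mem_mul_top hF.2 (hC.mem1 _ (hC.test_A hb).1))
  have e : F * ((x * x) • C.Γ a a + (x * y + y * x) • C.Γ a b + (y * y) • C.Γ b b)
      = (x * x) • (F * C.Γ a a) + (x * y + y * x) • (F * C.Γ a b) + (y * y) • (F * C.Γ b b) := by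
    algebra
  rw [e, I_add (mem_add n1 n2) n3, I_add n1 n2, I_smul, I_smul, I_smul]
  ring

theorem k2_lin (hF : F ∈ C.A) (ha : a ∈ C.Test) (hb : b ∈ C.Test) (hr₁ : MemLp r₁ 2 m)
    (hr₂ : MemLp r₂ 2 m) (hr₃ : MemLp r₃ 2 m) (p₁ p₂ e₁ e₂ : ℝ) :
    C.k2 (e₁ • a + e₂ • b) (p₁ • C.De F a + p₂ • C.De F b) (e₁ • C.De F a + e₂ • C.De F b)
            (rB r₁ r₂ r₃ p₁ p₂ e₁ e₂) (rB r₁ r₂ r₃ e₁ e₂ e₁ e₂)
      = (e₁ * ((p₁ * e₁) * I (a * r₁) + (p₁ * e₂ + p₂ * e₁) * I (a * r₂) + (p₂ * e₂) * I (a * r₃))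
          + e₂ * ((p₁ * e₁) * I (b * r₁) + (p₁ * e₂ + p₂ * e₁) * I (b * r₂)
            + (p₂ * e₂) * I (b * r₃)))
        + 2⁻¹ * (p₁ * ((e₁ * e₁) * I (C.De F a * C.Γ a a)
              + (e₁ * e₂ + e₂ * e₁) * I (C.De F a * C.Γ a b) + (e₂ * e₂) * I (C.De F a * C.Γ b b))
          + p₂ * ((e₁ * e₁) * I (C.De F b * C.Γ a a)
              + (e₁ * e₂ + e₂ * e₁) * I (C.De F b * C.Γ a b) + (e₂ * e₂) * I (C.De F b * C.Γ b b)))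
        + 2⁻¹ * ((e₁ * ((e₁ * e₁) * I (a * r₁) + (e₁ * e₂ + e₂ * e₁) * I (a * r₂)
              + (e₂ * e₂) * I (a * r₃))
          + e₂ * ((e₁ * e₁) * I (b * r₁) + (e₁ * e₂ + e₂ * e₁) * I (b * r₂)
            + (e₂ * e₂) * I (b * r₃)))
        + 2⁻¹ * (e₁ * ((e₁ * e₁) * I (C.De F a * C.Γ a a)
              + (e₁ * e₂ + e₂ * e₁) * I (C.De F a * C.Γ a b) + (e₂ * e₂) * I (C.De F a * C.Γ b b))
          + e₂ * ((e₁ * e₁) * I (C.De F b * C.Γ a a)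
              + (e₁ * e₂ + e₂ * e₁) * I (C.De F b * C.Γ a b)
              + (e₂ * e₂) * I (C.De F b * C.Γ b b)))) := by
  have a2 := hC.memLp _ (hC.test_A ha).1
  have b2 := hC.memLp _ (hC.test_A hb).1
  have Da := hC.De_mem2 hF ha
  have Db := hC.De_mem2 hF hb
  unfold Calc.k2 rB
  rw [hC.Γ_lin hB ha hb, I_bil a2 b2 hr₁ hr₂ hr₃, I_bil a2 b2 hr₁ hr₂ hr₃,
    I_bil Da Db (hC.test_Γ2 hB ha ha) (hC.test_Γ2 hB ha hb) (hC.test_Γ2 hB hb hb),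
    I_bil Da Db (hC.test_Γ2 hB ha ha) (hC.test_Γ2 hB ha hb) (hC.test_Γ2 hB hb hb)]

/-- the coefficient of `ε³` of a segment -/
noncomputable def _root_.Vale.Agent.P233.Calc.K3 (C : Calc m) (F a b r₁ r₂ r₃ : M →ₘ[m] ℝ)
    (p₁ p₂ e₁ e₂ : ℝ) (h G : M →ₘ[m] ℝ) : ℝ :=
  C.k3 F (e₁ • a + e₂ • b) h G (p₁ • C.De F a + p₂ • C.De F b)
            (e₁ • C.De F a + e₂ • C.De F b) (rB r₁ r₂ r₃ p₁ p₂ p₁ p₂)
            (rB r₁ r₂ r₃ p₁ p₂ e₁ e₂) (rB r₁ r₂ r₃ e₁ e₂ e₁ e₂)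

theorem total_poly (hF : F ∈ C.A) (ha : a ∈ C.Test) (hb : b ∈ C.Test) (hr₁ : MemLp r₁ 2 m)
    (hr₂ : MemLp r₂ 2 m) (hr₃ : MemLp r₃ 2 m) {G₁ G₂ G₃ G₁₂ G₁₃ G₂₃ h₁₂ h₁₃ h₂₃ : M →ₘ[m] ℝ}
    (hG₁ : G₁ ∈ C.Test) (hG₂ : G₂ ∈ C.Test) (hG₃ : G₃ ∈ C.Test) (hG₁₂ : G₁₂ ∈ C.Test)
    (hG₁₃ : G₁₃ ∈ C.Test) (hG₂₃ : G₂₃ ∈ C.Test) (hh₁₂ : h₁₂ ∈ C.Test) (hh₁₃ : h₁₃ ∈ C.Test)
    (hh₂₃ : h₂₃ ∈ C.Test) :
    ∃ c4 c5 : ℝ, ∀ ε : ℝ,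
      (C.Sg F a b r₁ r₂ r₃ 0 0 1 0 0 G₁ ε + C.Sg F a b r₁ r₂ r₃ 0 0 0 1 0 G₂ ε
        + C.Sg F a b r₁ r₂ r₃ 0 0 (-1) (-1) 0 G₃ ε)
      - 3⁻¹ * (C.Sg F a b r₁ r₂ r₃ 1 0 (-1) 1 h₁₂ G₁₂ ε
        + C.Sg F a b r₁ r₂ r₃ 1 0 (-2) (-1) h₁₃ G₁₃ ε
        + C.Sg F a b r₁ r₂ r₃ 0 1 (-1) (-2) h₂₃ G₂₃ ε)
      = ((C.K3 F a b r₁ r₂ r₃ 0 0 1 0 0 G₁ + C.K3 F a b r₁ r₂ r₃ 0 0 0 1 0 G₂
        + C.K3 F a b r₁ r₂ r₃ 0 0 (-1) (-1) 0 G₃)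
        - 3⁻¹ * (C.K3 F a b r₁ r₂ r₃ 1 0 (-1) 1 h₁₂ G₁₂ + C.K3 F a b r₁ r₂ r₃ 1 0 (-2) (-1) h₁₃ G₁₃
          + C.K3 F a b r₁ r₂ r₃ 0 1 (-1) (-2) h₂₃ G₂₃)) * ε ^ 3 + c4 * ε ^ 4 + c5 * ε ^ 5 := by
  have h0 : (0 : M →ₘ[m] ℝ) ∈ C.Test := hC.test_zero hB
  obtain ⟨u1, v1, w1⟩ := hC.Sg_poly hB hF ha hb hr₁ hr₂ hr₃ h0 hG₁ 0 0 1 0
  obtain ⟨u2, v2, w2⟩ := hC.Sg_poly hB hF ha hb hr₁ hr₂ hr₃ h0 hG₂ 0 0 0 1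
  obtain ⟨u3, v3, w3⟩ := hC.Sg_poly hB hF ha hb hr₁ hr₂ hr₃ h0 hG₃ 0 0 (-1) (-1)
  obtain ⟨u4, v4, w4⟩ := hC.Sg_poly hB hF ha hb hr₁ hr₂ hr₃ hh₁₂ hG₁₂ 1 0 (-1) 1
  obtain ⟨u5, v5, w5⟩ := hC.Sg_poly hB hF ha hb hr₁ hr₂ hr₃ hh₁₃ hG₁₃ 1 0 (-2) (-1)
  obtain ⟨u6, v6, w6⟩ := hC.Sg_poly hB hF ha hb hr₁ hr₂ hr₃ hh₂₃ hG₂₃ 0 1 (-1) (-2)
  refine ⟨(u1 + u2 + u3) - 3⁻¹ * (u4 + u5 + u6), (v1 + v2 + v3) - 3⁻¹ * (v4 + v5 + v6),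
    fun ε => ?_⟩
  rw [w1, w2, w3, w4, w5, w6]
  simp only [hC.k1_lin hB hF ha hb, hC.k2_lin hB hF ha hb hr₁ hr₂ hr₃]
  unfold Calc.K3
  ring

end IsGamma

end Vale.Agent.P233
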