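import Vale.Agent.P233.AB.AlgP3

set_option linter.all false

open MeasureTheory Filter Topology
open scoped ENNReal NNReal

namespace Vale.Agent.P233

variable {M : Type*} [MeasurableSpace M] {m : Measure M} {C : Calc m}

/-- `α Γ(a,a) + β Γ(a,b) + γ Γ(b,b) + z k` -/
noncomputable def Calc.gl (C : Calc m) (a b k : M →ₘ[m] ℝ) (α β γ z : ℝ) : M →ₘ[m] ℝ :=
  α • C.Γ a a + β • C.Γ a b + γ • C.Γ b b + z • k

/-- `∫ D_x Γ(y,g)` -/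
noncomputable def Calc.xx (C : Calc m) (F x y g : M →ₘ[m] ℝ) : ℝ := I (C.De F x * C.Γ y g)

/-- `∫ F Γ(g,h)` -/
noncomputable def Calc.yy (C : Calc m) (F g h : M →ₘ[m] ℝ) : ℝ := I (F * C.Γ g h)

namespace IsGamma

variable (hC : IsGamma C) {κ : ℝ} (hB : C.BEi κ)
variable {F a b e f g h p u v w k G r₁ r₂ r₃ : M →ₘ[m] ℝ}

include hC

theorem yy_comm (hg : g ∈ C.W) (hh : h ∈ C.W) : C.yy F g h = C.yy F h g := by
  unfold Calc.yy; rw [hC.symm _ hg _ hh]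

theorem yy_add (hF : F ∈ C.A) (hg : g ∈ C.W) (hh : h ∈ C.W) (hw : w ∈ C.W) :
    C.yy F g (h + w) = C.yy F g h + C.yy F g w := by
  unfold Calc.yy
  rw [hC.toIsDir.Γ_add_right hg hh hw, mul_add, I_add (mem_mul_top hF.2
    (hC.toIsDir.Γ_mem1 hg hh)) (mem_mul_top hF.2 (hC.toIsDir.Γ_mem1 hg hw))]

theorem yy_smul (c : ℝ) (hg : g ∈ C.W) (hh : h ∈ C.W) :
    C.yy F g (c • h) = c * C.yy F g h := by
  unfold Calc.yy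
  rw [hC.toIsDir.Γ_smul_right _ hg hh, ← I_smul]
  congr 1; algebra

theorem xx_add (hF : F ∈ C.A) (ha : a ∈ C.Test) (hb : b ∈ C.Test) (hg : g ∈ C.W) (hh : h ∈ C.W) :
    C.xx F a b (g + h) = C.xx F a b g + C.xx F a b h := by
  unfold Calc.xx
  have bA := hC.test_A hb
  rw [hC.toIsDir.Γ_add_right bA.1 hg hh, mul_add, I_add
    (mem_mul_22 (hC.De_mem2 hF ha) (hC.toIsDir.Γ_mem2 bA.1 (hC.test_Γ_top hb) hg))
    (mem_mul_22 (hC.De_mem2 hF ha) (hC.toIsDir.Γ_mem2 bA.1 (hC.test_Γ_top hb) hh))]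

theorem xx_smul (c : ℝ) (hb : b ∈ C.Test) (hg : g ∈ C.W) :
    C.xx F a b (c • g) = c * C.xx F a b g := by
  unfold Calc.xx
  rw [hC.toIsDir.Γ_smul_right _ (hC.test_A hb).1 hg, ← I_smul]
  congr 1; algebra

include hB

theorem xx_lin (hF : F ∈ C.A) (ha : a ∈ C.Test) (hb : b ∈ C.Test) (hg : g ∈ C.W) (x y p q : ℝ) :
    C.xx F (x • a + y • b) (p • a + q • b) g
      = x * (p * C.xx F a a g + q * C.xx F a b g) + y * (p * C.xx F b a g + q * C.xx F b b g) := by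
  have aA := hC.test_A ha
  have bA := hC.test_A hb
  have Da := hC.De_mem2 hF ha
  have Db := hC.De_mem2 hF hb
  have ga := hC.toIsDir.Γ_mem2 aA.1 (hC.test_Γ_top ha) hg
  have gb := hC.toIsDir.Γ_mem2 bA.1 (hC.test_Γ_top hb) hg
  unfold Calc.xx
  rw [hC.De_lin hB hF ha hb, hC.add_left _ (hC.smul_mem p _ aA.1) _ (hC.smul_mem q _ bA.1) _ hg,
    hC.smul_left _ _ aA.1 _ hg, hC.smul_left _ _ bA.1 _ hg]
  have := I_bil Da Db ga gb (mem_zero) x y p q 0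
  rw [smul_zero, add_zero] at this
  rw [this]
  ring

theorem gl_mem (ha : a ∈ C.Test) (hb : b ∈ C.Test) (hk : k ∈ C.W) (α β γ z : ℝ) :
    C.gl a b k α β γ z ∈ C.W := by
  unfold Calc.gl
  exact hC.add_mem _ (hC.add_mem _ (hC.add_mem _ (hC.smul_mem _ _ (hC.Γ_mem hB ha ha).1) _
    (hC.smul_mem _ _ (hC.Γ_mem hB ha hb).1)) _ (hC.smul_mem _ _ (hC.Γ_mem hB hb hb).1)) _
    (hC.smul_mem _ _ hk)

theorem xx_gl (hF : F ∈ C.A) (ha : a ∈ C.Test) (hb : b ∈ C.Test) (hk : k ∈ C.W)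
    (hu : u ∈ C.Test) (hv : v ∈ C.Test) (α β γ z : ℝ) :
    C.xx F u v (C.gl a b k α β γ z) = α * C.xx F u v (C.Γ a a) + β * C.xx F u v (C.Γ a b)
      + γ * C.xx F u v (C.Γ b b) + z * C.xx F u v k := by
  have h1 := (hC.Γ_mem hB ha ha).1
  have h2 := (hC.Γ_mem hB ha hb).1
  have h3 := (hC.Γ_mem hB hb hb).1
  have k1 := hC.smul_mem α _ h1
  have k2 := hC.smul_mem β _ h2
  have k3 := hC.smul_mem γ _ h3
  have k4 := hC.smul_mem z _ hk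
  unfold Calc.gl
  rw [hC.xx_add hF hu hv (hC.add_mem _ (hC.add_mem _ k1 _ k2) _ k3) k4,
    hC.xx_add hF hu hv (hC.add_mem _ k1 _ k2) k3, hC.xx_add hF hu hv k1 k2,
    hC.xx_smul _ hv h1, hC.xx_smul _ hv h2, hC.xx_smul _ hv h3, hC.xx_smul _ hv hk]

theorem yy_gl (hF : F ∈ C.A) (ha : a ∈ C.Test) (hb : b ∈ C.Test) (hk : k ∈ C.W)
    (hg : g ∈ C.W) (α β γ z : ℝ) :
    C.yy F g (C.gl a b k α β γ z) = α * C.yy F g (C.Γ a a) + β * C.yy F g (C.Γ a b)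
      + γ * C.yy F g (C.Γ b b) + z * C.yy F g k := by
  have h1 := (hC.Γ_mem hB ha ha).1
  have h2 := (hC.Γ_mem hB ha hb).1
  have h3 := (hC.Γ_mem hB hb hb).1
  have k1 := hC.smul_mem α _ h1
  have k2 := hC.smul_mem β _ h2
  have k3 := hC.smul_mem γ _ h3
  have k4 := hC.smul_mem z _ hk
  unfold Calc.gl
  rw [hC.yy_add hF hg (hC.add_mem _ (hC.add_mem _ k1 _ k2) _ k3) k4,
    hC.yy_add hF hg (hC.add_mem _ k1 _ k2) k3, hC.yy_add hF hg k1 k2,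
    hC.yy_smul _ hg h1, hC.yy_smul _ hg h2, hC.yy_smul _ hg h3, hC.yy_smul _ hg hk]

/-- the full expansion of `yy` on linear combinations -/
theorem yy_gl2 (hF : F ∈ C.A) (ha : a ∈ C.Test) (hb : b ∈ C.Test) (hk : k ∈ C.W)
    (α β γ z α' β' γ' z' : ℝ) :
    C.yy F (C.gl a b k α β γ z) (C.gl a b k α' β' γ' z') =
      α' * (α * C.yy F (C.Γ a a) (C.Γ a a) + β * C.yy F (C.Γ a a) (C.Γ a b)
        + γ * C.yy F (C.Γ a a) (C.Γ b b) + z * C.yy F (C.Γ a a) k)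
      + β' * (α * C.yy F (C.Γ a a) (C.Γ a b) + β * C.yy F (C.Γ a b) (C.Γ a b)
        + γ * C.yy F (C.Γ a b) (C.Γ b b) + z * C.yy F (C.Γ a b) k)
      + γ' * (α * C.yy F (C.Γ a a) (C.Γ b b) + β * C.yy F (C.Γ a b) (C.Γ b b)
        + γ * C.yy F (C.Γ b b) (C.Γ b b) + z * C.yy F (C.Γ b b) k)
      + z' * (α * C.yy F (C.Γ a a) k + β * C.yy F (C.Γ a b) k
        + γ * C.yy F (C.Γ b b) k + z * C.yy F k k) := by
  have hg := hC.gl_mem hB ha hb hk α β γ z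
  have h1 := (hC.Γ_mem hB ha ha).1
  have h2 := (hC.Γ_mem hB ha hb).1
  have h3 := (hC.Γ_mem hB hb hb).1
  rw [hC.yy_gl hB hF ha hb hk hg, hC.yy_comm hg h1, hC.yy_comm hg h2, hC.yy_comm hg h3,
    hC.yy_comm hg hk, hC.yy_gl hB hF ha hb hk h1, hC.yy_gl hB hF ha hb hk h2,
    hC.yy_gl hB hF ha hb hk h3, hC.yy_gl hB hF ha hb hk hk, hC.yy_comm h2 h1, hC.yy_comm h3 h1,
    hC.yy_comm h3 h2, hC.yy_comm hk h1, hC.yy_comm hk h2, hC.yy_comm hk h3]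

theorem G0_lin (ha : a ∈ C.Test) (hb : b ∈ C.Test) (x y : ℝ) :
    C.G0 (x • a + y • b) = C.gl a b k (2⁻¹ * x ^ 2) (x * y) (2⁻¹ * y ^ 2) 0 := by
  unfold Calc.G0 Calc.gl
  rw [hC.Γ_lin hB ha hb]
  algebra

theorem Γ_lin' (ha : a ∈ C.Test) (hb : b ∈ C.Test) (x y p q : ℝ) :
    C.Γ (x • a + y • b) (p • a + q • b) = C.gl a b k (x * p) (x * q + y * p) (y * q) 0 := by
  unfold Calc.gl
  rw [hC.Γ_lin hB ha hb, zero_smul, add_zero]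

theorem HW_eq (ha : a ∈ C.Test) (hb : b ∈ C.Test) (hh : h ∈ C.W) :
    C.HW b a h F = 2⁻¹ * (-C.xx F a b h + C.yy F (C.Γ b a) h + C.xx F b a h) := by
  unfold Calc.HW Calc.xx Calc.yy
  rw [hC.symm _ hh _ (hC.Γ_mem hB hb ha).1, mul_comm (C.Γ b h), mul_comm (C.Γ a h)]

theorem k3x_lin (hF : F ∈ C.A) (ha : a ∈ C.Test) (hb : b ∈ C.Test) (hk : k ∈ C.W)
    (p₁ p₂ e₁ e₂ α β γ z : ℝ) :
    C.k3x F (p₁ • a + p₂ • b) (e₁ • a + e₂ • b) (C.gl a b k α β γ z) =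
      -(2⁻¹ * (-C.xx F (p₁ • a + p₂ • b) (e₁ • a + e₂ • b) (C.gl a b k α β γ z)
        + C.yy F (C.gl a b k (e₁ * p₁) (e₁ * p₂ + e₂ * p₁) (e₂ * p₂) 0) (C.gl a b k α β γ z)
        + C.xx F (e₁ • a + e₂ • b) (p₁ • a + p₂ • b) (C.gl a b k α β γ z)))
      - 2⁻¹ * C.yy F (C.gl a b k α β γ z) (C.gl a b k α β γ z)
      + 2⁻¹ * C.xx F (p₁ • a + p₂ • b) (p₁ • a + p₂ • b)
          (C.gl a b k (2⁻¹ * e₁ ^ 2) (e₁ * e₂) (2⁻¹ * e₂ ^ 2) 0)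
      + 4⁻¹ * C.yy F (C.gl a b k (p₁ * p₁) (p₁ * p₂ + p₂ * p₁) (p₂ * p₂) 0)
          (C.gl a b k (2⁻¹ * e₁ ^ 2) (e₁ * e₂) (2⁻¹ * e₂ ^ 2) 0)
      + 2⁻¹ * C.xx F (e₁ • a + e₂ • b) (p₁ • a + p₂ • b)
          (C.gl a b k (2⁻¹ * e₁ ^ 2) (e₁ * e₂) (2⁻¹ * e₂ ^ 2) 0)
      + 2⁻¹ * C.yy F (C.gl a b k (p₁ * e₁) (p₁ * e₂ + p₂ * e₁) (p₂ * e₂) 0)
          (C.gl a b k (2⁻¹ * e₁ ^ 2) (e₁ * e₂) (2⁻¹ * e₂ ^ 2) 0)
      + 6⁻¹ * C.xx F (e₁ • a + e₂ • b) (e₁ • a + e₂ • b)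
          (C.gl a b k (2⁻¹ * e₁ ^ 2) (e₁ * e₂) (2⁻¹ * e₂ ^ 2) 0)
      + 3⁻¹ * C.yy F (C.gl a b k (2⁻¹ * e₁ ^ 2) (e₁ * e₂) (2⁻¹ * e₂ ^ 2) 0)
          (C.gl a b k (2⁻¹ * e₁ ^ 2) (e₁ * e₂) (2⁻¹ * e₂ ^ 2) 0) := by
  have hp := hC.lin_test hB ha hb p₁ p₂
  have he := hC.lin_test hB ha hb e₁ e₂
  have hg := hC.gl_mem hB ha hb hk α β γ z
  rw [← hC.G0_lin hB ha hb e₁ e₂, ← hC.Γ_lin' hB ha hb p₁ p₂ p₁ p₂,
    ← hC.Γ_lin' hB ha hb p₁ p₂ e₁ e₂, ← hC.Γ_lin' hB ha hb e₁ e₂ p₁ p₂,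
    ← hC.HW_eq hB hp he hg]
  rfl

/-- The algebraic identity behind the core inequality. -/
theorem core_identity (hF : F ∈ C.A) (ha : a ∈ C.Test) (hb : b ∈ C.Test) (hk : k ∈ C.W) :
    6 * ((C.k3x F ((0:ℝ) • a + (0:ℝ) • b) ((1:ℝ) • a + (0:ℝ) • b) (C.gl a b k 0 0 0 0)
        + C.k3x F ((0:ℝ) • a + (0:ℝ) • b) ((0:ℝ) • a + (1:ℝ) • b) (C.gl a b k 0 0 0 0)
        + C.k3x F ((0:ℝ) • a + (0:ℝ) • b) ((-1:ℝ) • a + (-1:ℝ) • b) (C.gl a b k 0 0 0 0))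
      - 3⁻¹ * (C.k3x F ((1:ℝ) • a + (0:ℝ) • b) ((-1:ℝ) • a + (1:ℝ) • b)
          (C.gl a b k 2⁻¹ 0 0 1)
        + C.k3x F ((1:ℝ) • a + (0:ℝ) • b) ((-2:ℝ) • a + (-1:ℝ) • b) (C.gl a b k 1 0 0 (-1))
        + C.k3x F ((0:ℝ) • a + (1:ℝ) • b) ((-1:ℝ) • a + (-2:ℝ) • b) (C.gl a b k 0 1 1 1)))
      = C.S0 a b F + 6 * C.HW b a k F + 3 * I (F * C.Γ k k) := by
  have h1 := (hC.Γ_mem hB ha ha).1
  have h2 := (hC.Γ_mem hB ha hb).1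
  have h3 := (hC.Γ_mem hB hb hb).1
  have hS : C.S0 a b F = -(2⁻¹ * C.xx F a a (C.Γ b b)) + (C.xx F b a (C.Γ a b)
      - 2⁻¹ * C.xx F b b (C.Γ a a)) + 2 * C.HW b a (C.Γ a b) F
      - 4⁻¹ * C.yy F (C.Γ a a) (C.Γ b b) := by
    have aA := hC.test_A ha
    have bA := hC.test_A hb
    have Da := hC.De_mem2 hF ha
    have Db := hC.De_mem2 hF hb
    have q1 : I (C.De F a * C.hess b a b) = 2⁻¹ * C.xx F a a (C.Γ b b) := by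
      unfold Calc.xx Calc.hess
      rw [← I_smul]; congr 1
      rw [hC.symm _ bA.1 _ aA.1]; algebra
    have q2 : I (C.De F b * C.hess b a a) = C.xx F b a (C.Γ a b) - 2⁻¹ * C.xx F b b (C.Γ a a) := by
      unfold Calc.xx Calc.hess
      have n1 := mem_mul_22 Db (hC.toIsDir.Γ_mem2 aA.1 (hC.test_Γ_top ha) h2)
      have n2 := mem_mul_22 Db (hC.toIsDir.Γ_mem2 bA.1 (hC.test_Γ_top hb) h1)
      rw [← I_smul, ← I_sub n1 (mem_smul _ n2)]; congr 1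
      rw [hC.symm _ bA.1 _ aA.1]; algebra
    unfold Calc.S0
    rw [q1, q2]
    rfl
  have hy : C.yy F (C.Γ b a) (C.Γ a b) = C.yy F (C.Γ a b) (C.Γ a b) := by
    rw [hC.symm _ (hC.test_A hb).1 _ (hC.test_A ha).1]
  have hy' : C.yy F (C.Γ b a) k = C.yy F (C.Γ a b) k := by
    rw [hC.symm _ (hC.test_A hb).1 _ (hC.test_A ha).1]
  have hkk : I (F * C.Γ k k) = C.yy F k k := rfl
  rw [hS, hkk, hC.HW_eq hB ha hb h2, hC.HW_eq hB ha hb hk, hy, hy']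
  simp only [hC.k3x_lin hB hF ha hb hk, hC.yy_gl2 hB hF ha hb hk,
    hC.xx_lin hB hF ha hb (hC.gl_mem hB ha hb hk _ _ _ _),
    hC.xx_gl hB hF ha hb hk ha ha, hC.xx_gl hB hF ha hb hk ha hb, hC.xx_gl hB hF ha hb hk hb ha,
    hC.xx_gl hB hF ha hb hk hb hb]
  ring

end IsGamma

end Vale.Agent.P233
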