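import Vale.Agent.P233.AB.HLInt
import Vale.Agent.P233.Metric2

/-!
# The Benamou-Brenier upper bound (Kuwada's inequality) in Sobolev form
-/

open MeasureTheory Filter Topology Set
open scoped ENNReal NNReal

set_option linter.unusedSectionVars false

namespace Vale.Agent.P233

universe u

variable {M : Type u} [MetricSpace M] [MeasurableSpace M] [BorelSpace M]
  [SecondCountableTopology M] {m : Measure M}

/-- localization of a bounded Lipschitz function, with its slope. -/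
theorem exists_local (hfin : ∀ (x : M) (r : ℝ), m (Metric.ball x r) < ∞) {g : M → ℝ}
    {Kg : ℝ≥0} (hg : LipschitzWith Kg g) {b : ℝ} (hb : ∀ x, |g x| ≤ b) {ℓ : M → ℝ}
    (hℓm : Measurable ℓ) (hℓ0 : ∀ x, 0 ≤ ℓ x) {b' : ℝ} (hℓb : ∀ x, ℓ x ≤ b')
    (hsl : ∀ᵐ x ∂m, lipAt g x ≤ ENNReal.ofReal (ℓ x)) (x₀ : M) (R : ℝ) :
    ∃ G ∈ (sob m).W, MemLp G ∞ m ∧ MemLp ((sob m).Γ G G) ∞ m ∧
      (∀ᵐ x ∂m, dist x x₀ ≤ R → G x = g x) ∧
      ∀ᵐ x ∂m, dist x x₀ ≤ R → (sob m).Γ G G x ≤ ℓ x ^ 2 := by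
  set w : M → ℝ := fun x => Met.cutoff x₀ (R + 1) x * g x with hw
  have hcl : Met.IsLip (Met.cutoff x₀ (R + 1)) := ⟨1, Met.cutoff_lip x₀ (R + 1)⟩
  obtain ⟨L, hL⟩ : Met.IsLip w := hcl.mul ⟨Kg, hg⟩
    ⟨1, fun x => abs_le.2 ⟨by linarith [Met.cutoff_nonneg x₀ (R + 1) x], Met.cutoff_le_one x₀ _ x⟩⟩
    ⟨b, hb⟩
  have hsupp : ∀ x, x ∉ Metric.ball x₀ (R + 1 + 1) → w x = 0 := by
    intro x hx
    simp only [hw]
    rw [Met.cutoff_eq_zero hx, zero_mul]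
  have hgood := Met.good_of_bounded_support hfin hL hsupp
  have heq : ∀ x, dist x x₀ < R + 1 → w x = g x := by
    intro x hx
    simp only [hw]
    rw [Met.cutoff_eq_one hx.le, one_mul]
  set bf : M → ℝ := fun x => if dist x x₀ < R + 1 then ℓ x else
    (Metric.ball x₀ (R + 1 + 1 + 1)).indicator (fun _ => (L : ℝ)) x with hbf
  have hbm : MeasurableSet {x : M | dist x x₀ < R + 1} :=
    (isOpen_lt (by fun_prop) (by fun_prop)).measurableSet
  have hbmeas : Measurable bf :=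
    Measurable.ite hbm hℓm (measurable_const.indicator Metric.isOpen_ball.measurableSet)
  have hb0 : 0 ≤ b' := (hℓ0 x₀).trans (hℓb x₀)
  have hgood2 : Met.Good m w bf := by
    refine Met.Good.mk' hgood.1 hgood.2.1 ?_ ?_
    · have h1 : MemLp ((Metric.ball x₀ (R + 1 + 1 + 1)).indicator fun _ => (b' + L : ℝ)) 2 m :=
        memLp_indicator_const 2 Metric.isOpen_ball.measurableSet _ (Or.inr (hfin x₀ _).ne)
      refine h1.mono hbmeas.aestronglyMeasurable ?_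
      filter_upwards with x
      simp only [hbf]
      split_ifs with hx
      · have : x ∈ Metric.ball x₀ (R + 1 + 1 + 1) := by
          rw [Metric.mem_ball]; linarith
        rw [Set.indicator_of_mem this, Real.norm_eq_abs, Real.norm_eq_abs]
        rw [abs_of_nonneg (hℓ0 x), abs_of_nonneg (by positivity)]
        linarith [L.coe_nonneg, hℓb x]
      · by_cases hx2 : x ∈ Metric.ball x₀ (R + 1 + 1 + 1)
        · rw [Set.indicator_of_mem hx2, Set.indicator_of_mem hx2, Real.norm_eq_abs,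
            Real.norm_eq_abs, abs_of_nonneg L.coe_nonneg, abs_of_nonneg (by positivity)]
          linarith
        · rw [Set.indicator_of_notMem hx2, Set.indicator_of_notMem hx2]
    · filter_upwards [hgood.lipBd, hsl] with x hx hx'
      simp only [hbf]
      split_ifs with hxn
      · refine ⟨hℓ0 x, ?_⟩
        have h1 := (Met.lipAt_le_ofReal_iff (hℓ0 x)).1 hx'
        intro c hc
        have h2 : ∀ᶠ y in 𝓝 x, dist y x₀ < R + 1 :=
          (continuous_id.dist continuous_const).continuousAt.eventually_lt_const hxn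
        filter_upwards [h1 c hc, h2] with y hy hy2
        rwa [heq y hy2, heq x hxn]
      · exact hx
  have hW : Met.W12 m w := ⟨_, hgood2.rSlope⟩
  obtain ⟨G, hG, hGe⟩ := exists_class hW
  obtain ⟨C, hC⟩ := Met.bdd_of_bounded_support hL hsupp
  refine ⟨G, hG, ?_, ?_, ?_, ?_⟩
  · rw [mem_top_iff]
    refine ⟨C, ?_⟩
    filter_upwards [hGe] with x hx
    rw [hx]; exact hC x
  · rw [mem_top_iff]
    refine ⟨(L : ℝ) ^ 2, ?_⟩
    have h4 := slope_le_of_lipschitz hfin hG hGe hL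
    rw [le_iff_ae] at h4
    filter_upwards [h4, sob_Γ_self_ae hG, slope_ae hG,
      smul_ae (1 : M →ₘ[m] ℝ) (L : ℝ), one_ae (M := M) (m := m),
      (mem_sob_iff.1 hG).mslope_nonneg] with x a1 a2 a3 a4 a5 a6
    rw [a3, a4, a5, mul_one] at a1
    rw [a2, abs_of_nonneg (sq_nonneg _)]
    gcongr
  · filter_upwards [hGe] with x hx hd
    rw [hx]
    exact heq x (by linarith)
  · filter_upwards [sob_Γ_self_ae hG, (mem_sob_iff.1 hG).mslope_nonneg, hgood2.rSlope.mslope_le,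
      Met.mslope_congr hGe (mem_sob_iff.1 hG)] with x a1 a2 a3 a4 hd
    rw [a1]
    have h5 : Met.mslope m G x ≤ ℓ x := by
      rw [a4]
      refine a3.trans_eq ?_
      simp only [hbf]
      rw [if_pos (by linarith)]
    gcongr

/-- **Kuwada's inequality.** -/
theorem bb (hfin : ∀ (x : M) (r : ℝ), m (Metric.ball x r) < ∞)
    {A B ε : ℝ} (hA : 0 < A) (hB : 0 ≤ B) (hε : 0 < ε) {h : M → ℝ}
    (hL : ∃ K, LipschitzWith K h) (hb : ∃ b, ∀ x, |h x| ≤ b)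
    {F R1 R2 : M →ₘ[m] ℝ} (hF : MemLp F 1 m) (h1 : MemLp R1 1 m) (h2 : MemLp R2 1 m)
    (hsupp : ∃ (x₀ : M) (R : ℝ), ∀ᵐ x ∂m, R < dist x x₀ → F x = 0 ∧ R1 x = 0 ∧ R2 x = 0)
    (hρ : ∀ t ∈ Icc 0 ε, 0 ≤ F + t • R1 + (t ^ 2 / 2) • R2)
    (Jg : ℝ → (M →ₘ[m] ℝ) → (M →ₘ[m] ℝ)) (v2 : ℝ → (M →ₘ[m] ℝ))
    (hv2 : ∀ t ∈ Icc 0 ε, 0 ≤ v2 t) (act : ℝ → ℝ)
    (hdiv : ∀ t ∈ Icc 0 ε, ∀ g ∈ (sob m).W, MemLp g ∞ m → MemLp ((sob m).Γ g g) ∞ m →
      MemLp (Jg t g) 1 m ∧ I (g * (R1 + t • R2)) = I (Jg t g))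
    (hcs : ∀ t ∈ Icc 0 ε, ∀ g ∈ (sob m).W, MemLp g ∞ m → MemLp ((sob m).Γ g g) ∞ m →
      Jg t g ^ 2 ≤ (F + t • R1 + (t ^ 2 / 2) • R2) ^ 2 * v2 t * (sob m).Γ g g)
    (hact1 : ∀ t ∈ Icc 0 ε,
      MemLp ((F + t • R1 + (t ^ 2 / 2) • R2) * (A • v2 t + B • v2 t ^ 2) : M →ₘ[m] ℝ) 1 m)
    (hact : ∀ t ∈ Icc 0 ε,
      I ((F + t • R1 + (t ^ 2 / 2) • R2) * (A • v2 t + B • v2 t ^ 2)) ≤ act t)
    (hai : IntervalIntegrable act volume 0 ε) :
    ∫ x, (⨅ y, h y + (A * dist x y ^ 2 / ε + B * dist x y ^ 4 / ε ^ 3)) * F x ∂m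
      ≤ ∫ x, h x * (F + ε • R1 + (ε ^ 2 / 2) • R2 : M →ₘ[m] ℝ) x ∂m
        + ∫ t in (0 : ℝ)..ε, act t := by
  obtain ⟨K, hK⟩ := hL
  obtain ⟨b, hb⟩ := hb
  obtain ⟨x₀, R, hsupp⟩ := hsupp
  have : SigmaFinite m := sigmaFinite_of_ball hfin
  have D : AB.Dat A B b K h := ⟨hA, hB, hb, fun x y => by
    have := hK.dist_le_mul x y
    rwa [Real.dist_eq] at this, K.coe_nonneg⟩
  -- the density, pointwise
  have hrho : ∀ t : ℝ, ∀ᵐ x ∂m, (F + t • R1 + (t ^ 2 / 2) • R2 : M →ₘ[m] ℝ) x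
      = AB.rho F R1 R2 t x := by
    intro t
    filter_upwards [add_ae (F + t • R1) ((t ^ 2 / 2) • R2), add_ae F (t • R1), smul_ae R1 t,
      smul_ae R2 (t ^ 2 / 2)] with x e1 e2 e3 e4
    rw [e1, e2, e3, e4]
    rfl
  have hw2 : ∀ t ∈ Icc 0 ε, ∀ᵐ x ∂m, √(v2 t x) ^ 2 = v2 t x := by
    intro t ht
    filter_upwards [nonneg_iff_ae.1 (hv2 t ht)] with x hx
    exact Real.sq_sqrt hx
  have hdens : ∀ t ∈ Icc 0 ε, ⇑((F + t • R1 + (t ^ 2 / 2) • R2) * (A • v2 t + B • v2 t ^ 2))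
      =ᵐ[m] fun x => AB.rho F R1 R2 t x * (A * √(v2 t x) ^ 2 + B * √(v2 t x) ^ 4) := by
    intro t ht
    filter_upwards [hrho t, hw2 t ht, mul_ae (F + t • R1 + (t ^ 2 / 2) • R2)
      (A • v2 t + B • v2 t ^ 2), add_ae (A • v2 t) (B • v2 t ^ 2), smul_ae (v2 t) A,
      smul_ae (v2 t ^ 2) B, sq_ae (v2 t)] with x e1 e2 e3 e4 e5 e6 e7
    have e8 : √(v2 t x) ^ 4 = v2 t x ^ 2 := by
      rw [show (4 : ℕ) = 2 * 2 by norm_num, pow_mul, e2]
    rw [e3, e4, e5, e6, e7, e1, e2, e8]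
  have main := D.hl_int (m := m) hε (F := F) (R1 := R1) (R2 := R2) (int_of_mem hF)
    (int_of_mem h1) (int_of_mem h2) ?_ (fun t x => √(v2 t x)) ?_ ?_ act hai ?_ ?_
  · refine (le_of_eq ?_).trans (main.trans (le_of_eq ?_))
    · rfl
    · congr 1
      refine integral_congr_ae ?_
      filter_upwards [hrho ε] with x hx
      rw [hx]
  · intro t ht
    filter_upwards [nonneg_iff_ae.1 (hρ t ht), hrho t] with x e1 e2
    rwa [e2] at e1
  · intro t _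
    exact (v2 t).aestronglyMeasurable.aemeasurable.sqrt.aestronglyMeasurable
  · intro t ht
    exact (int_of_mem (hact1 t ht)).congr (hdens t ht)
  · intro t ht
    refine (le_of_eq ?_).trans (hact t ht)
    unfold I
    exact (integral_congr_ae (hdens t ht)).symm
  · intro t ht g ⟨Kg, hg⟩ ⟨bg, hbg⟩ ℓ hℓm hℓ0 ⟨b', hℓb⟩ hsl hint
    obtain ⟨G, hG, hG1, hG2, hG3, hG4⟩ := exists_local hfin hg hbg hℓm hℓ0 hℓb hsl x₀ R
    obtain ⟨hJ1, hJ2⟩ := hdiv t ht G hG hG1 hG2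
    have hJ3 := hcs t ht G hG hG1 hG2
    have e1 : ∫ x, g x * (R1 x + t * R2 x) ∂m = I (G * (R1 + t • R2)) := by
      unfold I
      refine integral_congr_ae ?_
      filter_upwards [mul_ae G (R1 + t • R2), add_ae R1 (t • R2), smul_ae R2 t, hG3, hsupp]
        with x a1 a2 a3 a4 a5
      rw [a1, a2, a3]
      rcases le_or_gt (dist x x₀) R with hd | hd
      · rw [a4 hd]
      · rw [(a5 hd).2.1, (a5 hd).2.2]; ring
    rw [e1, hJ2, ← integral_neg]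
    unfold I
    refine integral_mono_ae hint.neg (int_of_mem hJ1) ?_
    filter_upwards [le_iff_ae.1 hJ3, sq_ae (Jg t G),
      mul_ae ((F + t • R1 + (t ^ 2 / 2) • R2) ^ 2 * v2 t) ((sob m).Γ G G),
      mul_ae ((F + t • R1 + (t ^ 2 / 2) • R2) ^ 2) (v2 t), sq_ae (F + t • R1 + (t ^ 2 / 2) • R2),
      hrho t, hG4, hsupp, nonneg_iff_ae.1 (hρ t ht), nonneg_iff_ae.1 (hv2 t ht)]
      with x a1 a2 a3 a4 a5 a6 a7 a8 a9 a10
    rw [a2, a3, a4, a5, a6] at a1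
    rw [a6] at a9
    have hpt : |Jg t G x| ≤ AB.rho F R1 R2 t x * (ℓ x * √(v2 t x)) := by
      have hnn : 0 ≤ AB.rho F R1 R2 t x * (ℓ x * √(v2 t x)) := by
        have := hℓ0 x
        positivity
      refine abs_le_of_sq_le_sq (a1.trans ?_) hnn
      have hs := Real.sq_sqrt a10
      rcases le_or_gt (dist x x₀) R with hd | hd
      · calc AB.rho F R1 R2 t x ^ 2 * v2 t x * (sob m).Γ G G x
            ≤ AB.rho F R1 R2 t x ^ 2 * v2 t x * ℓ x ^ 2 := by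
              refine mul_le_mul_of_nonneg_left (a7 hd) (by positivity)
          _ = (AB.rho F R1 R2 t x * (ℓ x * √(v2 t x))) ^ 2 := by
              rw [mul_pow, mul_pow, hs]; ring
      · have : AB.rho F R1 R2 t x = 0 := by
          unfold AB.rho
          rw [(a8 hd).1, (a8 hd).2.1, (a8 hd).2.2]; ring
        rw [this]; simp
    have := neg_abs_le (Jg t G x)
    linarith

end Vale.Agent.P233
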