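import Vale.Agent.P233.Resolvent
import Vale.Agent.P233.Clamp
import Vale.Agent.P233.Bern

open MeasureTheory Filter Topology
open scoped ENNReal NNReal

namespace Vale.Agent.P233

variable {M : Type*} [MeasurableSpace M] {m : Measure M}

/-- The weak Bochner inequality without dimension term, `BE(K,∞)`. -/
def Calc.BEi (C : Calc m) (K : ℝ) : Prop :=
  ∀ f h φ ψ : M →ₘ[m] ℝ, C.IsLap f h → h ∈ C.W → C.IsLap φ ψ → 0 ≤ φ → MemLp φ ∞ m →
    MemLp ψ ∞ m →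
    ∫ x, (φ * (C.Γ f h + K • C.Γ f f)) x ∂m ≤ ∫ x, ((2 : ℝ)⁻¹ • (C.Γ f f * ψ)) x ∂m

theorem IsGamma.bei {C : Calc m} (hC : IsGamma C) {K N : ℝ} (hN : 0 < N) (hB : C.BE K N) :
    C.BEi K := by
  intro f h φ ψ h1 h2 h3 h4 h5 h6
  refine le_trans ?_ (hB f h φ ψ h1 h2 h3 h4 h5 h6)
  have hfW := h1.1
  have hh2 := hC.memLp h h2
  refine I_mono (mem_mul_top h5 (mem_add (hC.toIsDir.Γ_mem1 hfW h2) (mem_smul _ (hC.mem1 f hfW))))
    (mem_mul_top h5 (mem_add (mem_add (hC.toIsDir.Γ_mem1 hfW h2) (mem_smul _ (hC.mem1 f hfW)))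
    (mem_smul _ (mem_sq hh2)))) ?_
  refine mul_le_mul_of_nonneg_left ?_ h4
  rw [le_add_iff_nonneg_right]
  exact smul_nonneg' (inv_nonneg.2 hN.le) (sq_nonneg' _)

end Vale.Agent.P233
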