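import Vale.Agent.P233.AB.Core

open MeasureTheory Filter Topology
open scoped ENNReal NNReal

namespace Vale.Agent.P233

variable {M : Type*} [MeasurableSpace M] {m : Measure M}

/-- a space `T` of functions that is stable under multiplication by the bounded functions of `S` -/
structure IsMod (S T : Set (M →ₘ[m] ℝ)) : Prop where
  zero : 0 ∈ T
  add : ∀ f ∈ T, ∀ g ∈ T, f + g ∈ T
  smul : ∀ (c : ℝ), ∀ f ∈ T, c • f ∈ T
  mul : ∀ f ∈ T, ∀ g ∈ S, f * g ∈ T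
  zeroS : 0 ∈ S
  smulS : ∀ (c : ℝ), ∀ f ∈ S, c • f ∈ S
  topS : ∀ f ∈ S, MemLp f ∞ m

/-- functions that differ from an element of `S` by a constant -/
def APT (S : Set (M →ₘ[m] ℝ)) : Set (M →ₘ[m] ℝ) := {f | ∃ c : ℝ, f - c • (1 : M →ₘ[m] ℝ) ∈ S}

variable {S T : Set (M →ₘ[m] ℝ)}

namespace IsMod

variable (hC : IsMod S T)
include hC
variable {φ ψ z f g : M →ₘ[m] ℝ}

theorem A_add (hf : f ∈ T) (hg : g ∈ T) : f + g ∈ T := hC.add _ hf _ hg

theorem A_smul (c : ℝ) (hf : f ∈ T) : c • f ∈ T := hC.smul c _ hf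

theorem A_zero : (0 : M →ₘ[m] ℝ) ∈ T := hC.zero

theorem mul_mem_A (hf : f ∈ T) (hg : g ∈ S) : f * g ∈ T := hC.mul _ hf _ hg

theorem A_mul_AP (hφ : φ ∈ T) (hz : z ∈ APT S) : φ * z ∈ T := by
  obtain ⟨c, hc⟩ := hz
  have : φ * z = φ * (z - c • (1 : M →ₘ[m] ℝ)) + c • φ := by algebra
  rw [this]
  exact hC.A_add (hC.mul_mem_A hφ hc) (hC.A_smul c hφ)

theorem AP_const (c : ℝ) : c • (1 : M →ₘ[m] ℝ) ∈ APT S :=
  ⟨c, by rw [sub_self]; exact hC.zeroS⟩

theorem AP_of_A (hφ : φ ∈ S) : φ ∈ APT S := ⟨0, by simpa using hφ⟩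

theorem A_aeval (hφ : φ ∈ T) (hz : z ∈ APT S) (P : Polynomial ℝ) :
    φ * Polynomial.aeval z P ∈ T := by
  induction P using Polynomial.induction_on with
  | C a =>
    have : φ * Polynomial.aeval z (Polynomial.C a) = a • φ := by
      rw [Polynomial.aeval_C, Algebra.algebraMap_eq_smul_one]; algebra
    rw [this]; exact hC.A_smul a hφ
  | add p q hp hq => rw [map_add, mul_add]; exact hC.A_add hp hq
  | monomial n a h =>
    have : φ * Polynomial.aeval z (Polynomial.C a * Polynomial.X ^ (n + 1))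
        = φ * Polynomial.aeval z (Polynomial.C a * Polynomial.X ^ n) * z := by
      rw [pow_succ, ← mul_assoc, map_mul, Polynomial.aeval_X, mul_assoc]
    rw [this]; exact hC.A_mul_AP h hz

theorem AP_top (hz : z ∈ APT S) : MemLp z ∞ m := by
  obtain ⟨c, hc⟩ := hz
  have : z = (z - c • (1 : M →ₘ[m] ℝ)) + c • 1 := by algebra
  rw [this]
  exact mem_add (hC.topS _ hc) (mem_smul _ mem_top_one)

/-- a linear functional on `A` passes through finite linear combinations of polynomials -/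
theorem lin_aeval {P0 : (M →ₘ[m] ℝ) → ℝ}
    (h0 : ∀ φ ∈ T, ∀ ψ ∈ T, P0 (φ + ψ) = P0 φ + P0 ψ)
    (s0 : ∀ c : ℝ, ∀ φ ∈ T, P0 (c • φ) = c * P0 φ) (hφ : φ ∈ T) (hz : z ∈ APT S)
    (s : Finset ℕ) (c : ℕ → ℝ) (B : ℕ → Polynomial ℝ) :
    P0 (φ * Polynomial.aeval z (∑ k ∈ s, c k • B k))
      = ∑ k ∈ s, c k * P0 (φ * Polynomial.aeval z (B k)) := by
  classical
  induction s using Finset.induction_on with
  | empty =>
    have := s0 0 0 hC.A_zero
    simp only [Finset.sum_empty, map_zero, mul_zero]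
    simpa using this
  | insert i s hi ih =>
    rw [Finset.sum_insert hi, Finset.sum_insert hi, map_add, mul_add,
      h0 _ (hC.A_aeval hφ hz _) _ (hC.A_aeval hφ hz _), ih, map_smul, mul_smul_comm,
      s0 _ _ (hC.A_aeval hφ hz _)]

theorem bernstein (P0 P1 P2 : (M →ₘ[m] ℝ) → ℝ)
    (h0 : ∀ φ ∈ T, ∀ ψ ∈ T, P0 (φ + ψ) = P0 φ + P0 ψ)
    (h1 : ∀ φ ∈ T, ∀ ψ ∈ T, P1 (φ + ψ) = P1 φ + P1 ψ)
    (h2 : ∀ φ ∈ T, ∀ ψ ∈ T, P2 (φ + ψ) = P2 φ + P2 ψ)
    (s0 : ∀ c : ℝ, ∀ φ ∈ T, P0 (c • φ) = c * P0 φ)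
    (s1 : ∀ c : ℝ, ∀ φ ∈ T, P1 (c • φ) = c * P1 φ)
    (s2 : ∀ c : ℝ, ∀ φ ∈ T, P2 (c • φ) = c * P2 φ)
    (hpos : ∀ c : ℝ, ∀ φ ∈ T, 0 ≤ φ → 0 ≤ P0 φ + c * P1 φ + c ^ 2 * P2 φ)
    {ζ : M →ₘ[m] ℝ} (hζ : ζ ∈ APT S) (hφ : φ ∈ T) (hφ0 : 0 ≤ φ) :
    0 ≤ P0 φ + P1 (φ * ζ) + P2 (φ * ζ ^ 2) := by
  obtain ⟨K, hK⟩ := mem_top_iff.1 (hC.AP_top hζ)
  obtain ⟨c, hc⟩ := hζ
  set R := |K| + 1 with hR
  have hR0 : 0 < R := by positivity
  have hKR : ∀ᵐ x ∂m, |ζ x| ≤ R := by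
    filter_upwards [hK] with x hx
    exact hx.trans ((le_abs_self K).trans (by linarith))
  set z : M →ₘ[m] ℝ := (2 * R)⁻¹ • ζ + (2⁻¹ : ℝ) • 1 with hz
  have hζz : ζ = (2 * R) • z - R • 1 := by
    have a1 : 2 * R * (2 * R)⁻¹ = 1 := by field_simp
    have a2 : 2 * R * (2⁻¹ : ℝ) = R := by ring
    rw [hz, smul_add, smul_smul, smul_smul, a1, a2, one_smul]
    ring
  have hzAP : z ∈ APT S := by
    refine ⟨(2 * R)⁻¹ * c + 2⁻¹, ?_⟩
    have : z - ((2 * R)⁻¹ * c + 2⁻¹) • (1 : M →ₘ[m] ℝ) = (2 * R)⁻¹ • (ζ - c • 1) := by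
      rw [hz]; algebra
    rw [this]; exact hC.smulS _ _ hc
  have hz0 : 0 ≤ z := by
    rw [nonneg_iff_ae]
    filter_upwards [add_ae ((2 * R)⁻¹ • ζ) ((2⁻¹ : ℝ) • (1 : M →ₘ[m] ℝ)), smul_ae ζ (2 * R)⁻¹,
      smul_ae (1 : M →ₘ[m] ℝ) (2⁻¹ : ℝ), one_ae (M := M) (m := m), hKR] with x e1 e2 e3 e4 e5
    rw [hz, e1, e2, e3, e4]
    have := (abs_le.1 e5).1
    have h3 : (2 * R)⁻¹ * (-R) = -2⁻¹ := by field_simp
    have h4 : (2 * R)⁻¹ * (-R) ≤ (2 * R)⁻¹ * ζ x :=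
      mul_le_mul_of_nonneg_left this (by positivity)
    linarith
  have hz1 : 0 ≤ 1 - z := by
    rw [nonneg_iff_ae]
    filter_upwards [add_ae ((2 * R)⁻¹ • ζ) ((2⁻¹ : ℝ) • (1 : M →ₘ[m] ℝ)), smul_ae ζ (2 * R)⁻¹,
      smul_ae (1 : M →ₘ[m] ℝ) (2⁻¹ : ℝ), one_ae (M := M) (m := m), hKR,
      sub_ae (1 : M →ₘ[m] ℝ) z] with x e1 e2 e3 e4 e5 e6
    rw [e6, e4, hz, e1, e2, e3, e4]
    have := (abs_le.1 e5).2
    have h3 : (2 * R)⁻¹ * R = 2⁻¹ := by field_simp
    have h4 : (2 * R)⁻¹ * ζ x ≤ (2 * R)⁻¹ * R :=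
      mul_le_mul_of_nonneg_left this (by positivity)
    linarith
  have hB0 : ∀ n k : ℕ, 0 ≤ φ * Polynomial.aeval z (bernsteinPolynomial ℝ n k) := by
    intro n k
    refine mul_nonneg hφ0 ?_
    have : Polynomial.aeval z (bernsteinPolynomial ℝ n k)
        = (n.choose k : M →ₘ[m] ℝ) * z ^ k * (1 - z) ^ (n - k) := by
      simp [bernsteinPolynomial]
    rw [this]
    have hch : (0 : M →ₘ[m] ℝ) ≤ (n.choose k : M →ₘ[m] ℝ) := by
      have : ((n.choose k : ℕ) : M →ₘ[m] ℝ) = (n.choose k : ℕ) • (1 : M →ₘ[m] ℝ) := by simp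
      rw [this]
      exact nsmul_nonneg zero_le_one _
    exact mul_nonneg (mul_nonneg hch (pow_nonneg hz0 _)) (pow_nonneg hz1 _)
  have key : ∀ n : ℕ, 0 ≤ (P0 φ + P1 (φ * ζ) + P2 (φ * ζ ^ 2))
      + 4 * R ^ 2 * P2 (φ * (z * (1 - z))) / ((n + 1 : ℕ) : ℝ) := by
    intro n
    have hn : n + 1 ≠ 0 := Nat.succ_ne_zero n
    have e0 := hC.lin_aeval h0 s0 hφ hzAP (Finset.range (n + 1 + 1)) (fun _ => 1)
      (bernsteinPolynomial ℝ (n + 1))
    have e1 := hC.lin_aeval h1 s1 hφ hzAP (Finset.range (n + 1 + 1))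
      (fun k => R * (2 * (k : ℝ) / (n + 1 : ℕ) - 1)) (bernsteinPolynomial ℝ (n + 1))
    have e2 := hC.lin_aeval h2 s2 hφ hzAP (Finset.range (n + 1 + 1))
      (fun k => (R * (2 * (k : ℝ) / (n + 1 : ℕ) - 1)) ^ 2) (bernsteinPolynomial ℝ (n + 1))
    simp only [one_smul, one_mul] at e0
    rw [bern_sum0, map_one, mul_one] at e0
    rw [bern_lin R hn] at e1
    rw [bern_quad R hn] at e2
    have a1 : Polynomial.aeval z ((2 * R) • Polynomial.X - R • (1 : Polynomial ℝ)) = ζ := by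
      rw [map_sub, map_smul, map_smul, map_one, Polynomial.aeval_X, ← hζz]
    rw [a1] at e1
    rw [map_add, map_pow, a1, map_smul, map_mul, map_sub, map_one, Polynomial.aeval_X, mul_add,
      mul_smul_comm] at e2
    have m1 : φ * ζ ^ 2 ∈ T := by
      rw [sq, ← mul_assoc]
      exact hC.A_mul_AP (hC.A_mul_AP hφ ⟨c, hc⟩) ⟨c, hc⟩
    have m2 : φ * (z * (1 - z)) ∈ T := by
      have : φ * (z * (1 - z)) = φ * z + (-1 : ℝ) • (φ * z * z) := by algebra
      rw [this]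
      exact hC.A_add (hC.A_mul_AP hφ hzAP) (hC.A_smul _ (hC.A_mul_AP (hC.A_mul_AP hφ hzAP) hzAP))
    rw [h2 _ m1 _ (hC.A_smul _ m2), s2 _ _ m2] at e2
    have e3 : (P0 φ + P1 (φ * ζ) + P2 (φ * ζ ^ 2))
        + 4 * R ^ 2 * P2 (φ * (z * (1 - z))) / ((n + 1 : ℕ) : ℝ)
        = P0 φ + P1 (φ * ζ) + (P2 (φ * ζ ^ 2)
          + 4 * R ^ 2 / ((n + 1 : ℕ) : ℝ) * P2 (φ * (z * (1 - z)))) := by ring
    rw [e3, e0, e1, e2, ← Finset.sum_add_distrib, ← Finset.sum_add_distrib]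
    exact Finset.sum_nonneg fun k _ => hpos _ _ (hC.A_aeval hφ hzAP _) (hB0 _ _)
  have hlim : Tendsto (fun n : ℕ => (P0 φ + P1 (φ * ζ) + P2 (φ * ζ ^ 2))
      + 4 * R ^ 2 * P2 (φ * (z * (1 - z))) / ((n + 1 : ℕ) : ℝ)) atTop
      (𝓝 ((P0 φ + P1 (φ * ζ) + P2 (φ * ζ ^ 2)) + 0)) := by
    refine Tendsto.add tendsto_const_nhds ?_
    exact (tendsto_const_div_atTop_nhds_zero_nat (4 * R ^ 2 * P2 (φ * (z * (1 - z))))).comp
      (tendsto_add_atTop_nat 1)
  rw [add_zero] at hlim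
  exact ge_of_tendsto hlim (Eventually.of_forall key)

section master
variable {ι : Type*} [Fintype ι] [DecidableEq ι] {Q : ι → ι → (M →ₘ[m] ℝ) → ℝ}

theorem update_identity (hadd : ∀ i j, ∀ φ ∈ T, ∀ ψ ∈ T, Q i j (φ + ψ) = Q i j φ + Q i j ψ)
    (hsmul : ∀ i j, ∀ c : ℝ, ∀ φ ∈ T, Q i j (c • φ) = c * Q i j φ)
    {a : ι → M →ₘ[m] ℝ} (ha : ∀ i, a i ∈ APT S) (i₀ : ι) {ζ : M →ₘ[m] ℝ} (hζ : ζ ∈ APT S)
    (hφ : φ ∈ T) :
    ∑ i, ∑ j, Q i j (φ * (Function.update a i₀ ζ i * Function.update a i₀ ζ j))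
      = ∑ i, ∑ j, Q i j (φ * (Function.update a i₀ 0 i * Function.update a i₀ 0 j))
        + (∑ j, Q i₀ j (φ * ζ * Function.update a i₀ 0 j)
          + ∑ i, Q i i₀ (φ * ζ * Function.update a i₀ 0 i)) + Q i₀ i₀ (φ * ζ ^ 2) := by
  set a0 := Function.update a i₀ 0 with ha0
  have ha0' : ∀ i, a0 i ∈ APT S := by
    intro i
    by_cases h : i = i₀
    · rw [h, ha0, Function.update_self]; exact hC.AP_of_A hC.zeroS
    · rw [ha0, Function.update_of_ne h]; exact ha i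
  have hz : ∀ i j, Q i j 0 = 0 := by
    intro i j
    have := hsmul i j 0 0 hC.A_zero
    simpa using this
  have e : ∀ i j, Q i j (φ * (Function.update a i₀ ζ i * Function.update a i₀ ζ j))
      = Q i j (φ * (a0 i * a0 j)) + ((if i = i₀ then Q i j (φ * ζ * a0 j) else 0)
        + (if j = i₀ then Q i j (φ * ζ * a0 i) else 0))
        + (if i = i₀ then (if j = i₀ then Q i j (φ * ζ ^ 2) else 0) else 0) := by
    intro i j
    by_cases hi : i = i₀
    · by_cases hj : j = i₀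
      · subst hi
        subst hj
        simp only [if_true, Function.update_self, ha0, mul_zero, hz, zero_add]
        rw [sq]
      · subst hi
        simp only [if_true, if_neg hj, Function.update_self, Function.update_of_ne hj, ha0,
          zero_mul, mul_zero, hz, zero_add, add_zero]
        rw [mul_assoc]
    · by_cases hj : j = i₀
      · subst hj
        simp only [if_true, if_neg hi, Function.update_self, Function.update_of_ne hi, ha0,
          mul_zero, hz, zero_add, add_zero]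
        rw [mul_assoc, mul_comm (a i)]
      · simp only [if_neg hi, if_neg hj, Function.update_of_ne hi, Function.update_of_ne hj, ha0,
          add_zero]
  simp only [e, Finset.sum_add_distrib]
  congr 1
  · congr 1
    congr 1
    · have : ∀ i, ∑ j, (if i = i₀ then Q i j (φ * ζ * a0 j) else 0)
          = if i = i₀ then ∑ j, Q i j (φ * ζ * a0 j) else 0 := by
        intro i; split_ifs <;> simp
      simp only [this, Finset.sum_ite_eq', Finset.mem_univ, if_true]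
    · simp only [Finset.sum_ite_eq', Finset.mem_univ, if_true]
  · have : ∀ i, ∑ j, (if i = i₀ then (if j = i₀ then Q i j (φ * ζ ^ 2) else 0) else 0)
        = if i = i₀ then Q i i₀ (φ * ζ ^ 2) else 0 := by
      intro i; split_ifs <;> simp
    simp only [this, Finset.sum_ite_eq', Finset.mem_univ, if_true]

/-- positivity for constant coefficients implies positivity for coefficients in `AP` -/
theorem master_fintype
    (hadd : ∀ i j, ∀ φ ∈ T, ∀ ψ ∈ T, Q i j (φ + ψ) = Q i j φ + Q i j ψ)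
    (hsmul : ∀ i j, ∀ c : ℝ, ∀ φ ∈ T, Q i j (c • φ) = c * Q i j φ)
    (hpos : ∀ c : ι → ℝ, ∀ φ ∈ T, 0 ≤ φ → 0 ≤ ∑ i, ∑ j, c i * c j * Q i j φ)
    {a : ι → M →ₘ[m] ℝ} (ha : ∀ i, a i ∈ APT S) (hφ : φ ∈ T) (hφ0 : 0 ≤ φ) :
    0 ≤ ∑ i, ∑ j, Q i j (φ * (a i * a j)) := by
  suffices H : ∀ S' : Finset ι, ∀ a : ι → M →ₘ[m] ℝ, (∀ i, a i ∈ APT S) →
      (∀ i ∉ S', ∃ c : ℝ, a i = c • (1 : M →ₘ[m] ℝ)) → ∀ φ ∈ T, 0 ≤ φ →
      0 ≤ ∑ i, ∑ j, Q i j (φ * (a i * a j)) from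
    H Finset.univ a ha (fun i hi => absurd (Finset.mem_univ i) hi) φ hφ hφ0
  intro S'
  induction S' using Finset.induction_on with
  | empty =>
    intro a _ hc φ hφ hφ0
    choose c hc using fun i => hc i (Finset.notMem_empty i)
    have : ∀ i j, Q i j (φ * (a i * a j)) = c i * c j * Q i j φ := by
      intro i j
      have e : φ * (a i * a j) = (c i * c j) • φ := by rw [hc i, hc j]; algebra
      rw [e, hsmul _ _ _ _ hφ]
    simp only [this]
    exact hpos c φ hφ hφ0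
  | insert i₀ S' hi ih =>
    intro a ha hc φ hφ hφ0
    have hA0 : ∀ i, Function.update a i₀ 0 i ∈ APT S := by
      intro i
      by_cases h : i = i₀
      · rw [h, Function.update_self]; exact hC.AP_of_A hC.zeroS
      · rw [Function.update_of_ne h]; exact ha i
    have key := hC.bernstein
      (fun φ => ∑ i, ∑ j, Q i j (φ * (Function.update a i₀ 0 i * Function.update a i₀ 0 j)))
      (fun φ => ∑ j, Q i₀ j (φ * Function.update a i₀ 0 j)
          + ∑ i, Q i i₀ (φ * Function.update a i₀ 0 i))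
      (fun φ => Q i₀ i₀ φ) ?_ ?_ ?_ ?_ ?_ ?_ ?_ (ha i₀) hφ hφ0
    · have e := hC.update_identity hadd hsmul ha i₀ (ha i₀) hφ
      rw [Function.update_eq_self] at e
      rw [e]
      exact key
    · intro φ hφ ψ hψ
      simp only [← Finset.sum_add_distrib]
      refine Finset.sum_congr rfl fun i _ => Finset.sum_congr rfl fun j _ => ?_
      rw [add_mul, ← mul_assoc, ← mul_assoc]
      exact hadd _ _ _ (hC.A_mul_AP (hC.A_mul_AP hφ (hA0 i)) (hA0 j)) _
        (hC.A_mul_AP (hC.A_mul_AP hψ (hA0 i)) (hA0 j))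
    · intro φ hφ ψ hψ
      have e1 : ∀ i j k, Q i j ((φ + ψ) * Function.update a i₀ 0 k)
          = Q i j (φ * Function.update a i₀ 0 k) + Q i j (ψ * Function.update a i₀ 0 k) := by
        intro i j k
        rw [add_mul]
        exact hadd _ _ _ (hC.A_mul_AP hφ (hA0 k)) _ (hC.A_mul_AP hψ (hA0 k))
      simp only [e1, Finset.sum_add_distrib]
      ring
    · intro φ hφ ψ hψ
      exact hadd _ _ _ hφ _ hψ
    · intro c φ hφ
      simp only [Finset.mul_sum]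
      refine Finset.sum_congr rfl fun i _ => Finset.sum_congr rfl fun j _ => ?_
      rw [smul_mul_assoc, hsmul]
      rw [← mul_assoc]
      exact hC.A_mul_AP (hC.A_mul_AP hφ (hA0 i)) (hA0 j)
    · intro c φ hφ
      simp only [mul_add, Finset.mul_sum]
      congr 1 <;> refine Finset.sum_congr rfl fun i _ => ?_
      all_goals rw [smul_mul_assoc, hsmul _ _ _ _ (hC.A_mul_AP hφ (hA0 i))]
    · intro c φ hφ
      exact hsmul _ _ _ _ hφ
    · intro c φ hφ hφ0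
      have e := hC.update_identity hadd hsmul ha i₀ (hC.AP_const c) hφ
      have h1 := ih (Function.update a i₀ (c • (1 : M →ₘ[m] ℝ))) ?_ ?_ φ hφ hφ0
      · rw [e] at h1
        have e1 : ∀ i j k, Q i j (φ * c • (1 : M →ₘ[m] ℝ) * Function.update a i₀ 0 k)
            = c * Q i j (φ * Function.update a i₀ 0 k) := by
          intro i j k
          rw [← hsmul _ _ _ _ (hC.A_mul_AP hφ (hA0 k))]
          congr 1
          algebra
        have e2 : Q i₀ i₀ (φ * (c • (1 : M →ₘ[m] ℝ)) ^ 2) = c ^ 2 * Q i₀ i₀ φ := by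
          rw [← hsmul _ _ _ _ hφ]
          congr 1
          algebra
        simp only [e1, e2, ← Finset.mul_sum] at h1
        convert h1 using 1
        ring
      · intro i
        by_cases h : i = i₀
        · rw [h, Function.update_self]; exact hC.AP_const c
        · rw [Function.update_of_ne h]; exact ha i
      · intro i hi'
        by_cases h : i = i₀
        · exact ⟨c, by rw [h, Function.update_self]⟩
        · rw [Function.update_of_ne h]
          exact hc i (by simp [h, hi'])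

end master

end IsMod

end Vale.Agent.P233
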