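import Vale.Agent.P233.AB.Mas
import Vale.Agent.P233.Metric2
import Vale.Agent.P233.Growth
import Vale.Agent.P233.Stmt

/-!
P233, block TB: the bridge between the statement in terms of functions and the calculus of classes,
for `BE(K,∞)` (port of `BridgeA.lean` and `Bridge.lean`).
-/

open MeasureTheory Filter Topology
open scoped ENNReal NNReal InnerProductSpace

universe u

set_option linter.unusedSectionVars false

namespace Vale.Agent.P233

section A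

variable {M : Type u} [MetricSpace M] [MeasurableSpace M] {m : Measure M}

theorem S_relaxed_iff {f G : M → ℝ} : S.IsRelaxedSlope m f G ↔ Met.RSlope m f G := Iff.rfl

theorem S_min_iff {f G : M → ℝ} : S.IsMinSlope m f G ↔ Met.RMin m f G := Iff.rfl

theorem S_slope_eq (f : M → ℝ) : S.slope m f = Met.mslope m f := rfl

theorem S_W_iff {f : M → ℝ} : (S.sob m).W f ↔ Met.W12 m f := Iff.rfl

theorem S_Γ_eq (f g : M → ℝ) : (S.sob m).Γ f g = Met.gam m f g := rfl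

/-- `f` is a representative of `F` -/
def R (f : M → ℝ) (F : M →ₘ[m] ℝ) : Prop := f =ᵐ[m] F

theorem R.coe (F : M →ₘ[m] ℝ) : R (m := m) F F := Filter.EventuallyEq.rfl

theorem R.unique {f : M → ℝ} {F G : M →ₘ[m] ℝ} (h : R f F) (h' : R f G) : F = G :=
  AEEqFun.ext (h.symm.trans h')

theorem R.W_iff {f : M → ℝ} {F : M →ₘ[m] ℝ} (h : R f F) : (S.sob m).W f ↔ F ∈ (sob m).W := by
  rw [S_W_iff, mem_sob_iff]
  exact ⟨fun h1 => h1.congr h, fun h1 => h1.congr h.symm⟩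

theorem S_W_exists {f : M → ℝ} (h : (S.sob m).W f) : ∃ F : M →ₘ[m] ℝ, R f F ∧ F ∈ (sob m).W := by
  have h1 : R f (AEEqFun.mk f (Met.W12.memLp h).1) := (AEEqFun.coeFn_mk f _).symm
  exact ⟨_, h1, h1.W_iff.1 h⟩

theorem S_L2_exists {f : M → ℝ} (h : S.L2 m f) : ∃ F : M →ₘ[m] ℝ, R f F :=
  ⟨AEEqFun.mk f h.1, (AEEqFun.coeFn_mk f _).symm⟩

theorem R.B_iff {f : M → ℝ} {F : M →ₘ[m] ℝ} (h : R f F) : (S.sob m).B f ↔ F ∈ (sob m).B := by
  constructor
  · rintro ⟨u, h1, h2, h3⟩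
    exact ⟨u, h1, h2, h.symm.trans h3⟩
  · rintro ⟨u, h1, h2, h3⟩
    exact ⟨u, h1, h2, h.trans h3⟩

theorem R.add {f g : M → ℝ} {F G : M →ₘ[m] ℝ} (h : R f F) (h' : R g G) :
    R (fun x => f x + g x) (F + G) := by
  filter_upwards [h, h', add_ae F G] with x h1 h2 h3
  rw [h1, h2, h3]

theorem R.sub {f g : M → ℝ} {F G : M →ₘ[m] ℝ} (h : R f F) (h' : R g G) :
    R (fun x => f x - g x) (F - G) := by
  filter_upwards [h, h', sub_ae F G] with x h1 h2 h3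
  rw [h1, h2, h3]

theorem R.mul {f g : M → ℝ} {F G : M →ₘ[m] ℝ} (h : R f F) (h' : R g G) :
    R (fun x => f x * g x) (F * G) := by
  filter_upwards [h, h', mul_ae F G] with x h1 h2 h3
  rw [h1, h2, h3]

theorem R.sq {f : M → ℝ} {F : M →ₘ[m] ℝ} (h : R f F) : R (fun x => f x ^ 2) (F ^ 2) := by
  filter_upwards [h, sq_ae F] with x h1 h2
  rw [h1, h2]

theorem R.smul (c : ℝ) {f : M → ℝ} {F : M →ₘ[m] ℝ} (h : R f F) :
    R (fun x => c * f x) (c • F) := by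
  filter_upwards [h, smul_ae F c] with x h1 h2
  rw [h1, h2]

theorem R.zero : R (m := m) (fun _ => 0) 0 := zero_ae.symm

theorem R.int {f : M → ℝ} {F : M →ₘ[m] ℝ} (h : R f F) : (S.sob m).int f = ∫ x, F x ∂m :=
  integral_congr_ae h

end A

section B

variable {M : Type u} [MetricSpace M] [MeasurableSpace M] [BorelSpace M]
  [SecondCountableTopology M] {m : Measure M}

theorem R.Γ {f g : M → ℝ} {F G : M →ₘ[m] ℝ} (h : R f F) (h' : R g G) (hF : F ∈ (sob m).W)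
    (hG : G ∈ (sob m).W) : R ((S.sob m).Γ f g) ((sob m).Γ F G) := by
  rw [S_Γ_eq]
  exact (Met.gam_congr (h.W_iff.2 hF) (h'.W_iff.2 hG) h h').trans (sob_Γ_ae hF hG).symm

theorem R.slope {f : M → ℝ} {F : M →ₘ[m] ℝ} (h : R f F) (hF : F ∈ (sob m).W) :
    R (S.slope m f) (slope F) := by
  rw [S_slope_eq]
  exact (Met.mslope_congr h (h.W_iff.2 hF)).trans (slope_ae hF).symm

theorem R.isLap_iff {f k : M → ℝ} {F K : M →ₘ[m] ℝ} (h : R f F) (h' : R k K) :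
    (S.sob m).IsLap f k ↔ (sob m).IsLap F K := by
  constructor
  · rintro ⟨h1, h2, h3⟩
    have hF := h.W_iff.1 h1
    refine ⟨hF, (memLp_congr_ae h').1 h2, fun G hG => ?_⟩
    have hg := R.coe G
    have h4 := h3 G (hg.W_iff.2 hG)
    rw [(h.Γ hg hF hG).int, (h'.mul hg).int] at h4
    exact h4
  · rintro ⟨h1, h2, h3⟩
    refine ⟨h.W_iff.2 h1, (memLp_congr_ae h').2 h2, fun g hg => ?_⟩
    obtain ⟨G, hgG, hG⟩ := S_W_exists hg
    rw [(h.Γ hgG h1 hG).int, (h'.mul hgG).int]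
    exact h3 G hG

theorem R.lap (hC : IsDir (sob m)) {f : M → ℝ} {F : M →ₘ[m] ℝ} (h : R f F)
    (hF : F ∈ (sob m).Test) : R ((S.sob m).lap f) ((sob m).lap F) := by
  obtain ⟨-, K, hK, -⟩ := hF
  have h1 : ∃ k, (S.sob m).IsLap f k := ⟨K, (h.isLap_iff (R.coe K)).2 hK⟩
  have h2 : (S.sob m).IsLap f ((S.sob m).lap f) := by
    unfold S.Calc.lap
    rw [dif_pos h1]
    exact h1.choose_spec
  obtain ⟨L, hL⟩ := S_L2_exists h2.2.1
  have h3 := (h.isLap_iff hL).1 h2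
  rw [hC.lap_eq h3]
  exact hL

theorem R.test_iff {f : M → ℝ} {F : M →ₘ[m] ℝ} (h : R f F) :
    (S.sob m).Test f ↔ F ∈ (sob m).Test := by
  constructor
  · rintro ⟨h1, k, h2, h3⟩
    obtain ⟨K, hkK, hK⟩ := S_W_exists h3
    exact ⟨h.B_iff.1 h1, K, (h.isLap_iff hkK).1 h2, hK⟩
  · rintro ⟨h1, K, h2, h3⟩
    exact ⟨h.B_iff.2 h1, K, (h.isLap_iff (R.coe K)).2 h2, (R.coe K).W_iff.2 h3⟩

theorem S_test_exists {f : M → ℝ} (h : (S.sob m).Test f) :
    ∃ F : M →ₘ[m] ℝ, R f F ∧ F ∈ (sob m).Test := by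
  obtain ⟨-, k, h2, h3⟩ := id h
  obtain ⟨F, hF, -⟩ := S_W_exists h2.1
  exact ⟨F, hF, hF.test_iff.1 h⟩

theorem BE_of_S {K N : ℝ} (h : (S.sob m).BE K N) : (sob m).BE K N := by
  intro F H Φ Ψ h1 h2 h3 h4 h5 h6
  obtain ⟨b, hb⟩ := mem_top_iff.1 h5
  obtain ⟨c, hc⟩ := mem_top_iff.1 h6
  have rF := R.coe F
  have rH := R.coe H
  have rΦ := R.coe Φ
  have rΨ := R.coe Ψ
  have h7 := h F H Φ Ψ (max b c) ((rF.isLap_iff rH).2 h1) (rH.W_iff.2 h2)
    ((rΦ.isLap_iff rΨ).2 h3) (by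
      filter_upwards [hb, hc, nonneg_iff_ae.1 h4] with x a1 a2 a3
      exact ⟨a3, (le_abs_self _).trans (a1.trans (le_max_left _ _)), a2.trans (le_max_right _ _)⟩)
  have e1 : R (fun x => Φ x * ((S.sob m).Γ F H x + K * (S.sob m).Γ F F x + H x ^ 2 / N))
      (Φ * ((sob m).Γ F H + K • (sob m).Γ F F + N⁻¹ • H ^ 2)) := by
    refine rΦ.mul (R.add (R.add (rF.Γ rH h1.1 h2) (R.smul K (rF.Γ rF h1.1 h1.1))) ?_)
    filter_upwards [R.smul N⁻¹ rH.sq] with x hx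
    rw [← hx]
    ring
  have e2 : R (fun x => (S.sob m).Γ F F x * Ψ x) ((sob m).Γ F F * Ψ) :=
    R.mul (rF.Γ rF h1.1 h1.1) rΨ
  rw [e1.int, e2.int] at h7
  refine h7.trans (le_of_eq ?_)
  rw [integral_congr_ae (smul_ae ((sob m).Γ F F * Ψ) (2 : ℝ)⁻¹), integral_const_mul]
  ring

theorem isRCD_of_S {K N : ℝ} (h : S.IsRCD m K N) : IsRCD m K N where
  quadratic := by
    intro F hF G hG
    have rF := R.coe F
    have rG := R.coe G
    have h1 := h.quadratic F G (rF.W_iff.2 hF) (rG.W_iff.2 hG)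
    have hs := sob_add_mem hF hG
    have hd := sob_sub_mem hF hG
    have a1 := ((rF.add rG).slope hs).sq
    have a2 := ((rF.sub rG).slope hd).sq
    have a3 := (rF.slope hF).sq
    have a4 := (rG.slope hG).sq
    have key : ∀ E : M →ₘ[m] ℝ, E ∈ (sob m).W → Integrable (slope E ^ 2 : M →ₘ[m] ℝ) m := by
      intro E hE
      exact int_of_mem (mem_sq (exists_minSlope' hE).1.2.1)
    have e1 : ∫ x, S.slope m (fun y => F y + G y) x ^ 2 + S.slope m (fun y => F y - G y) x ^ 2 ∂m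
        = ∫ x, (slope (F + G) ^ 2) x ∂m + ∫ x, (slope (F - G) ^ 2) x ∂m := by
      rw [← integral_add (key _ hs) (key _ hd)]
      refine integral_congr_ae ?_
      filter_upwards [a1, a2] with x b1 b2
      rw [b1, b2]
    have e2 : ∫ x, 2 * S.slope m F x ^ 2 + 2 * S.slope m G x ^ 2 ∂m
        = 2 * ∫ x, (slope F ^ 2) x ∂m + 2 * ∫ x, (slope G ^ 2) x ∂m := by
      rw [← integral_const_mul, ← integral_const_mul,
        ← integral_add ((key _ hF).const_mul 2) ((key _ hG).const_mul 2)]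
      refine integral_congr_ae ?_
      filter_upwards [a3, a4] with x b3 b4
      rw [b3, b4]
    rw [← e1, h1, e2]
  growth := h.growth
  sobolev_to_lipschitz := by
    intro F hF h1
    have rF := R.coe F
    refine h.sobolev_to_lipschitz F (rF.W_iff.2 hF) ?_
    filter_upwards [rF.slope hF, le_iff_ae.1 h1, one_ae (M := M) (m := m)] with x b1 b2 b3
    rw [b1]
    rwa [b3] at b2
  bochner := BE_of_S h.bochner

end B


variable {M : Type u} [MetricSpace M] [MeasurableSpace M] [BorelSpace M]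
  [SecondCountableTopology M] {m : Measure M}

/-- pairs of representatives of test functions -/
def RT (p : (M → ℝ) × (M → ℝ)) (q : (M →ₘ[m] ℝ) × (M →ₘ[m] ℝ)) : Prop :=
  R p.1 q.1 ∧ R p.2 q.2 ∧ q.1 ∈ (sob m).Test ∧ q.2 ∈ (sob m).Test

/-- lists of pairs of representatives of test functions -/
def RV (X : S.VF M) (X' : List ((M →ₘ[m] ℝ) × (M →ₘ[m] ℝ))) : Prop :=
  List.Forall₂ (RT (m := m)) X X'

/-- the list of the representatives -/
noncomputable def coeV (X' : List ((M →ₘ[m] ℝ) × (M →ₘ[m] ℝ))) : S.VF M :=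
  X'.map fun (p : (M →ₘ[m] ℝ) × (M →ₘ[m] ℝ)) => ((p.1 : M → ℝ), (p.2 : M → ℝ))

open Classical in
/-- the class of a function -/
noncomputable def cls (m : Measure M) (f : M → ℝ) : M →ₘ[m] ℝ :=
  if h : AEStronglyMeasurable f m then AEEqFun.mk f h else 0

theorem R_cls {f : M → ℝ} {F : M →ₘ[m] ℝ} (h : R f F) : cls m f = F := by
  have h1 : AEStronglyMeasurable f m := F.aestronglyMeasurable.congr h.symm
  unfold cls
  rw [dif_pos h1]
  exact AEEqFun.ext ((AEEqFun.coeFn_mk f h1).trans h)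

/-- the list of the classes -/
noncomputable def clsV (m : Measure M) (X : S.VF M) : List ((M →ₘ[m] ℝ) × (M →ₘ[m] ℝ)) :=
  X.map fun p => (cls m p.1, cls m p.2)

theorem RV_coeV {X' : List ((M →ₘ[m] ℝ) × (M →ₘ[m] ℝ))} (h : (sob m).IsTestV X') :
    RV (coeV X') X' := by
  unfold RV coeV
  induction X' with
  | nil => exact List.Forall₂.nil
  | cons p X' ih =>
    have hp := h p List.mem_cons_self
    exact List.Forall₂.cons ⟨R.coe _, R.coe _, hp.1, hp.2⟩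
      (ih fun q hq => h q (List.mem_cons_of_mem _ hq))

theorem RV_clsV {X : S.VF M} (h : (S.sob m).TestV X) : RV X (clsV m X) := by
  unfold RV clsV
  induction X with
  | nil => exact List.Forall₂.nil
  | cons p X ih =>
    have hp := h p List.mem_cons_self
    obtain ⟨F, hF, hF'⟩ := S_test_exists hp.1
    obtain ⟨G, hG, hG'⟩ := S_test_exists hp.2
    refine List.Forall₂.cons ⟨?_, ?_, ?_, ?_⟩ (ih fun q hq => h q (List.mem_cons_of_mem _ hq))
    · simp only [R_cls hF]; exact hF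
    · simp only [R_cls hG]; exact hG
    · simp only [R_cls hF]; exact hF'
    · simp only [R_cls hG]; exact hG'

theorem RV.testV {X : S.VF M} {X' : List ((M →ₘ[m] ℝ) × (M →ₘ[m] ℝ))} (h : RV X X') :
    (S.sob m).TestV X := by
  unfold RV at h
  induction h with
  | nil => intro p hp; simp at hp
  | cons h1 _ ih =>
    intro p hp
    rcases List.mem_cons.1 hp with rfl | hp
    · exact ⟨h1.1.test_iff.2 h1.2.2.1, h1.2.1.test_iff.2 h1.2.2.2⟩
    · exact ih p hp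

theorem RV.isTestV {X : S.VF M} {X' : List ((M →ₘ[m] ℝ) × (M →ₘ[m] ℝ))} (h : RV X X') :
    (sob m).IsTestV X' := by
  unfold RV at h
  induction h with
  | nil => intro p hp; simp at hp
  | cons h1 _ ih =>
    intro p hp
    rcases List.mem_cons.1 hp with rfl | hp
    · exact ⟨h1.2.2.1, h1.2.2.2⟩
    · exact ih p hp

theorem RV.sum {X : S.VF M} {X' : List ((M →ₘ[m] ℝ) × (M →ₘ[m] ℝ))} (h : RV X X')
    {φ : (M → ℝ) × (M → ℝ) → M → ℝ} {Φ : (M →ₘ[m] ℝ) × (M →ₘ[m] ℝ) → (M →ₘ[m] ℝ)}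
    (hφ : ∀ p q, RT p q → R (φ p) (Φ q)) :
    R (fun x => (X.map fun p => φ p x).sum) (X'.map Φ).sum := by
  unfold RV at h
  induction h with
  | nil => simpa using R.zero
  | cons h1 _ ih =>
    simp only [List.map_cons, List.sum_cons]
    exact R.add (hφ _ _ h1) ih

theorem RV.ip {X Y : S.VF M} {X' Y' : List ((M →ₘ[m] ℝ) × (M →ₘ[m] ℝ))} (hX : RV X X')
    (hY : RV Y Y') (hC : IsGamma (sob m)) : R ((S.sob m).ip X Y) ((sob m).ip X' Y') := by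
  unfold S.Calc.ip Calc.ip
  refine hX.sum (φ := fun p x => (Y.map fun q => p.1 x * q.1 x * (S.sob m).Γ p.2 q.2 x).sum)
    fun p p' hp => ?_
  refine hY.sum (φ := fun q x => p.1 x * q.1 x * (S.sob m).Γ p.2 q.2 x) fun q q' hq => ?_
  exact (hp.1.mul hq.1).mul (hp.2.1.Γ hq.2.1 (hC.test_A hp.2.2.2).1 (hC.test_A hq.2.2.2).1)

theorem RV.dv {X : S.VF M} {X' : List ((M →ₘ[m] ℝ) × (M →ₘ[m] ℝ))} (hX : RV X X')
    (hC : IsGamma (sob m)) : R ((S.sob m).dv X) ((sob m).dv X') := by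
  unfold S.Calc.dv Calc.dv
  refine hX.sum (φ := fun p x => (S.sob m).Γ p.1 p.2 x + p.1 x * (S.sob m).lap p.2 x)
    fun p p' hp => ?_
  exact R.add (hp.1.Γ hp.2.1 (hC.test_A hp.2.2.1).1 (hC.test_A hp.2.2.2).1)
    (hp.1.mul (hp.2.1.lap hC.toIsDir hp.2.2.2))

theorem R.hess {κ : ℝ} (hC : IsGamma (sob m)) (hB : (sob m).BEi κ) {b g h : M → ℝ}
    {b' g' h' : M →ₘ[m] ℝ} (rb : R b b') (rg : R g g') (rh : R h h') (tb : b' ∈ (sob m).Test)
    (tg : g' ∈ (sob m).Test) (th : h' ∈ (sob m).Test) :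
    R ((S.sob m).hess b g h) ((sob m).hess b' g' h') := by
  unfold S.Calc.hess Calc.hess
  have wb := (hC.test_A tb).1
  have wg := (hC.test_A tg).1
  have wh := (hC.test_A th).1
  have e1 := rg.Γ (rb.Γ rh wb wh) wg (hC.Γ_mem hB tb th).1
  have e2 := rh.Γ (rb.Γ rg wb wg) wh (hC.Γ_mem hB tb tg).1
  have e3 := rb.Γ (rg.Γ rh wg wh) wb (hC.Γ_mem hB tg th).1
  filter_upwards [R.smul (2 : ℝ)⁻¹ (R.sub (R.add e1 e2) e3)] with x hx
  rw [← hx]
  ring

theorem RT.nab {κ : ℝ} (hC : IsGamma (sob m)) (hB : (sob m).BEi κ)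
    {p q r : (M → ℝ) × (M → ℝ)} {p' q' r' : (M →ₘ[m] ℝ) × (M →ₘ[m] ℝ)} (hp : RT p p')
    (hq : RT q q') (hr : RT r r') :
    R (fun x => p.1 x * r.1 x * ((S.sob m).Γ p.2 q.1 x * (S.sob m).Γ q.2 r.2 x
      + q.1 x * (S.sob m).hess q.2 p.2 r.2 x))
    (p'.1 * r'.1 * ((sob m).Γ p'.2 q'.1 * (sob m).Γ q'.2 r'.2
      + q'.1 * (sob m).hess q'.2 p'.2 r'.2)) := by
  have p2 := (hC.test_A hp.2.2.2).1
  have q1 := (hC.test_A hq.2.2.1).1
  have q2 := (hC.test_A hq.2.2.2).1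
  have r2 := (hC.test_A hr.2.2.2).1
  have a1 := R.Γ hp.2.1 hq.1 p2 q1
  have a2 := R.Γ hq.2.1 hr.2.1 q2 r2
  have a3 := R.hess hC hB hq.2.1 hp.2.1 hr.2.1 hq.2.2.2 hp.2.2.2 hr.2.2.2
  have a4 := R.add (R.mul a1 a2) (R.mul hq.1 a3)
  exact R.mul (R.mul hp.1 hr.1) a4

theorem RV.nab1 {κ : ℝ} (hC : IsGamma (sob m)) (hB : (sob m).BEi κ) {Z : S.VF M}
    {Z' : List ((M →ₘ[m] ℝ) × (M →ₘ[m] ℝ))} (hZ : RV Z Z') {p q : (M → ℝ) × (M → ℝ)}
    {p' q' : (M →ₘ[m] ℝ) × (M →ₘ[m] ℝ)} (hp : RT p p') (hq : RT q q') :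
    R (fun x => (Z.map fun r => p.1 x * r.1 x * ((S.sob m).Γ p.2 q.1 x * (S.sob m).Γ q.2 r.2 x
        + q.1 x * (S.sob m).hess q.2 p.2 r.2 x)).sum)
      (Z'.map fun r' => p'.1 * r'.1 * ((sob m).Γ p'.2 q'.1 * (sob m).Γ q'.2 r'.2
        + q'.1 * (sob m).hess q'.2 p'.2 r'.2)).sum :=
  RV.sum hZ fun _ _ hr => RT.nab hC hB hp hq hr

theorem RV.nab2 {κ : ℝ} (hC : IsGamma (sob m)) (hB : (sob m).BEi κ) {Y Z : S.VF M}
    {Y' Z' : List ((M →ₘ[m] ℝ) × (M →ₘ[m] ℝ))} (hY : RV Y Y') (hZ : RV Z Z')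
    {p : (M → ℝ) × (M → ℝ)} {p' : (M →ₘ[m] ℝ) × (M →ₘ[m] ℝ)} (hp : RT p p') :
    R (fun x => (Y.map fun q => (Z.map fun r =>
        p.1 x * r.1 x * ((S.sob m).Γ p.2 q.1 x * (S.sob m).Γ q.2 r.2 x
          + q.1 x * (S.sob m).hess q.2 p.2 r.2 x)).sum).sum)
      (Y'.map fun q' => (Z'.map fun r' => p'.1 * r'.1 * ((sob m).Γ p'.2 q'.1 *
        (sob m).Γ q'.2 r'.2 + q'.1 * (sob m).hess q'.2 p'.2 r'.2)).sum).sum :=
  RV.sum hY fun _ _ hq => RV.nab1 hC hB hZ hp hq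

theorem RV.nab {κ : ℝ} (hC : IsGamma (sob m)) (hB : (sob m).BEi κ) {X Y Z : S.VF M}
    {X' Y' Z' : List ((M →ₘ[m] ℝ) × (M →ₘ[m] ℝ))} (hX : RV X X') (hY : RV Y Y')
    (hZ : RV Z Z') : R ((S.sob m).nab X Y Z) ((sob m).nab X' Y' Z') :=
  RV.sum hX fun _ _ hp => RV.nab2 hC hB hY hZ hp

section hilb

variable {H : Type u} [NormedAddCommGroup H] [InnerProductSpace ℝ H]

theorem iota_eq (hC : IsGamma (sob m)) {ι : S.VF M → H} (hι : (S.sob m).IsL2TM ι) {X : S.VF M}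
    {X' : List ((M →ₘ[m] ℝ) × (M →ₘ[m] ℝ))} (h : RV X X') : ι X = ι (coeV X') := by
  have h' := RV_coeV h.isTestV
  have i1 := hι.2.1 X X h.testV h.testV
  have i2 := hι.2.1 X (coeV X') h.testV h'.testV
  have i3 := hι.2.1 (coeV X') (coeV X') h'.testV h'.testV
  rw [(h.ip h hC).int] at i1
  rw [(h.ip h' hC).int] at i2
  rw [(h'.ip h' hC).int] at i3
  rw [← sub_eq_zero, ← norm_eq_zero, ← sq_eq_zero_iff, ← real_inner_self_eq_norm_sq]
  rw [inner_sub_left, inner_sub_right, inner_sub_right, real_inner_comm (ι X) (ι (coeV X')),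
    i1, i2, i3]
  ring

theorem isL2TM_coe (hC : IsGamma (sob m)) {ι : S.VF M → H} (hι : (S.sob m).IsL2TM ι) :
    (sob m).IsL2TM (fun X' => ι (coeV X')) := by
  constructor
  · intro X' Y' hX hY
    have rX := RV_coeV hX
    have rY := RV_coeV hY
    rw [hι.2.1 _ _ rX.testV rY.testV, (rX.ip rY hC).int]
  · intro v
    rw [Metric.mem_closure_iff]
    intro ε hε
    obtain ⟨X, hX, hX'⟩ := hι.2.2 v ε hε
    have r := RV_clsV hX
    refine ⟨ι X, ⟨clsV m X, r.isTestV, (iota_eq hC hι r).symm⟩, ?_⟩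
    rw [dist_comm, dist_eq_norm]
    exact hX'

theorem eq_of_reps {ι : List ((M →ₘ[m] ℝ) × (M →ₘ[m] ℝ)) → H} (hι : (sob m).IsL2TM ι) {V V' : H}
    (h : ∀ X, (sob m).IsTestV X → ⟪V, ι X⟫_ℝ = ⟪V', ι X⟫_ℝ) : V = V' := by
  have h1 : ∀ w : H, ⟪V - V', w⟫_ℝ = 0 := by
    intro w
    have hcl : IsClosed {w : H | ⟪V - V', w⟫_ℝ = 0} :=
      isClosed_eq (by fun_prop) continuous_const
    have hsub : {v | ∃ X, (sob m).IsTestV X ∧ ι X = v} ⊆ {w : H | ⟪V - V', w⟫_ℝ = 0} := by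
      rintro _ ⟨X, hX, rfl⟩
      change ⟪V - V', ι X⟫_ℝ = 0
      rw [inner_sub_left]
      rw [h X hX, sub_self]
    exact closure_minimal hsub hcl (hι.2 w)
  rw [← sub_eq_zero]
  exact inner_self_eq_zero.1 (h1 (V - V'))

theorem reps_iff (hC : IsGamma (sob m)) {ι : S.VF M → H} (hι : (S.sob m).IsL2TM ι)
    {φ : S.VF M → ℝ} {φ' : List ((M →ₘ[m] ℝ) × (M →ₘ[m] ℝ)) → ℝ}
    (hφ : ∀ Z Z', RV Z Z' → φ Z = φ' Z') {V : H} :
    S.Calc.Reps (S.sob m) ι φ V ↔ ∀ Z', (sob m).IsTestV Z' → ⟪V, ι (coeV Z')⟫_ℝ = φ' Z' := by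
  constructor
  · intro h Z' hZ'
    have r := RV_coeV hZ'
    rw [h _ r.testV, hφ _ _ r]
  · intro h Z hZ
    have r := RV_clsV hZ
    rw [iota_eq hC hι r, h _ r.isTestV, hφ _ _ r]

theorem rep_cov {κ : ℝ} (hC : IsGamma (sob m)) (hB : (sob m).BEi κ) {ι : S.VF M → H}
    (hι : (S.sob m).IsL2TM ι) {X Y : S.VF M}
    {X' Y' : List ((M →ₘ[m] ℝ) × (M →ₘ[m] ℝ))} (hX : RV X X') (hY : RV Y Y') :
    (∀ V, (S.sob m).Reps ι (fun Z => (S.sob m).int ((S.sob m).nab X Y Z)) V ↔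
      (sob m).IsCov (fun X' => ι (coeV X')) X' Y' V) ∧
    (S.sob m).cov ι X Y = (sob m).cov (fun X' => ι (coeV X')) X' Y' := by
  have key : ∀ V, (S.sob m).Reps ι (fun Z => (S.sob m).int ((S.sob m).nab X Y Z)) V ↔
      (sob m).IsCov (fun X' => ι (coeV X')) X' Y' V := fun V =>
    reps_iff hC hι (φ' := fun Z' => ∫ x, (sob m).nab X' Y' Z' x ∂m) fun Z Z' hZ =>
      (RV.nab hC hB hX hY hZ).int
  refine ⟨key, ?_⟩
  unfold S.Calc.cov S.Calc.rep Calc.cov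
  by_cases h : ∃ V, (S.sob m).Reps ι (fun Z => (S.sob m).int ((S.sob m).nab X Y Z)) V
  · have h' : ∃ V, (sob m).IsCov (fun X' => ι (coeV X')) X' Y' V :=
      ⟨h.choose, (key _).1 h.choose_spec⟩
    rw [dif_pos h, dif_pos h']
    refine eq_of_reps (isL2TM_coe hC hι) fun Z' hZ' => ?_
    rw [(key _).1 h.choose_spec Z' hZ', h'.choose_spec Z' hZ']
  · have h' : ¬ ∃ V, (sob m).IsCov (fun X' => ι (coeV X')) X' Y' V := by
      rintro ⟨V, hV⟩
      exact h ⟨V, (key V).2 hV⟩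
    rw [dif_neg h, dif_neg h']

theorem rep_covT {κ : ℝ} (hC : IsGamma (sob m)) (hB : (sob m).BEi κ) {ι : S.VF M → H}
    (hι : (S.sob m).IsL2TM ι) {Y Z : S.VF M}
    {Y' Z' : List ((M →ₘ[m] ℝ) × (M →ₘ[m] ℝ))} (hY : RV Y Y') (hZ : RV Z Z') :
    (∀ V, (S.sob m).Reps ι (fun X => (S.sob m).int ((S.sob m).nab X Y Z)) V ↔
      (sob m).IsCovT (fun X' => ι (coeV X')) Y' Z' V) ∧
    S.Calc.rep (S.sob m) ι (fun X => (S.sob m).int ((S.sob m).nab X Y Z))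
      = (sob m).covT (fun X' => ι (coeV X')) Y' Z' := by
  have key : ∀ V, (S.sob m).Reps ι (fun X => (S.sob m).int ((S.sob m).nab X Y Z)) V ↔
      (sob m).IsCovT (fun X' => ι (coeV X')) Y' Z' V := fun V =>
    reps_iff hC hι (φ' := fun X' => ∫ x, (sob m).nab X' Y' Z' x ∂m) fun X X' hX =>
      (RV.nab hC hB hX hY hZ).int
  refine ⟨key, ?_⟩
  unfold S.Calc.rep Calc.covT
  by_cases h : ∃ V, (S.sob m).Reps ι (fun X => (S.sob m).int ((S.sob m).nab X Y Z)) V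
  · have h' : ∃ V, (sob m).IsCovT (fun X' => ι (coeV X')) Y' Z' V :=
      ⟨h.choose, (key _).1 h.choose_spec⟩
    rw [dif_pos h, dif_pos h']
    refine eq_of_reps (isL2TM_coe hC hι) fun X' hX' => ?_
    rw [(key _).1 h.choose_spec X' hX', h'.choose_spec X' hX']
  · have h' : ¬ ∃ V, (sob m).IsCovT (fun X' => ι (coeV X')) Y' Z' V := by
      rintro ⟨V, hV⟩
      exact h ⟨V, (key V).2 hV⟩
    rw [dif_neg h, dif_neg h']

theorem RV_mulV {κ : ℝ} (hC : IsGamma (sob m)) (hB : (sob m).BEi κ) {X : S.VF M}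
    {X' : List ((M →ₘ[m] ℝ) × (M →ₘ[m] ℝ))} (hX : RV X X') {f : M → ℝ} {F : M →ₘ[m] ℝ}
    (hf : R f F) (hF : F ∈ (sob m).Test) :
    RV (X.map fun p => (fun x => f x * p.1 x, p.2)) (Calc.mulV F X') := by
  unfold RV Calc.mulV at *
  induction hX with
  | nil => exact List.Forall₂.nil
  | cons h1 _ ih =>
    simp only [List.map_cons]
    exact List.Forall₂.cons ⟨hf.mul h1.1, h1.2.1, hC.test_mul hB hF h1.2.2.1, h1.2.2.2⟩ ih

theorem curv_coe {κ : ℝ} (hC : IsGamma (sob m)) (hB : (sob m).BEi κ) {ι : S.VF M → H}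
    (hι : (S.sob m).IsL2TM ι) {X Y : S.VF M}
    {X' Y' : List ((M →ₘ[m] ℝ) × (M →ₘ[m] ℝ))} (hX : RV X X') (hY : RV Y Y') {f : M → ℝ}
    {F : M →ₘ[m] ℝ} (hf : R f F) (hF : F ∈ (sob m).Test) :
    (S.sob m).curv ι X Y Y X f = (sob m).curv (fun X' => ι (coeV X')) X' Y' Y' X' F := by
  unfold S.Calc.curv S.Calc.curvAux Calc.curv
  have hV := RV_mulV hC hB hX hf hF
  rw [(rep_cov hC hB hι hX hV).2, (rep_cov hC hB hι hY hY).2, (rep_cov hC hB hι hY hV).2,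
    (rep_cov hC hB hι hX hY).2, (rep_cov hC hB hι hY hX).2, (rep_covT hC hB hι hY hV).2]
  have e1 : (S.sob m).int (fun x => f x * (S.sob m).nab Y Y X x * (S.sob m).dv X x)
      = ∫ x, (F * (sob m).nab Y' Y' X' * (sob m).dv X') x ∂m :=
    R.int ((hf.mul (RV.nab hC hB hY hY hX)).mul (hX.dv hC))
  have e2 : (S.sob m).int (fun x => f x * (S.sob m).nab X Y X x * (S.sob m).dv Y x)
      = ∫ x, (F * (sob m).nab X' Y' X' * (sob m).dv Y') x ∂m :=
    R.int ((hf.mul (RV.nab hC hB hX hY hX)).mul (hY.dv hC))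
  rw [e1, e2]

end hilb

/-- The inequality for the classes gives the inequality for functions. -/
theorem distSec_of (m : Measure M) {K N κ : ℝ} (hN : 0 < N) (h : S.IsRCD m K N)
    (H0 : ∀ (H : Type u) [NormedAddCommGroup H] [InnerProductSpace ℝ H] [CompleteSpace H]
      (ι : List ((M →ₘ[m] ℝ) × (M →ₘ[m] ℝ)) → H), (sob m).IsL2TM ι →
      ∀ X Y, (sob m).IsTestV X → (sob m).IsTestV Y →
        (∃ V, (sob m).IsCov ι X Y V) ∧ (∃ V, (sob m).IsCovT ι X Y V) ∧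
        ∀ f ∈ (sob m).Test, 0 ≤ f →
          κ * I (f * ((sob m).ip X X * (sob m).ip Y Y - (sob m).ip X Y ^ 2))
            ≤ (sob m).curv ι X Y Y X f) :
    (S.sob m).DistSecGE κ := by
  have hR := isRCD_of_S h
  have hfin := ball_lt_top_of_growth hR.growth
  have hC : IsGamma (sob m) := isGamma_sob hfin hR.quadratic hR.sobolev_to_lipschitz
  have hB : (sob m).BEi K := IsGamma.bei hC hN hR.bochner
  intro H _ _ ι hι X Y hX hY
  have := hι.1
  have rX := RV_clsV hX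
  have rY := RV_clsV hY
  obtain ⟨⟨V, hV⟩, ⟨V', hV'⟩, h3⟩ := H0 H (fun X' => ι (coeV X')) (isL2TM_coe hC hι)
    (clsV m X) (clsV m Y) rX.isTestV rY.isTestV
  refine ⟨⟨V, ((rep_cov hC hB hι rX rY).1 V).2 hV⟩, ⟨V', ((rep_covT hC hB hι rX rY).1 V').2 hV'⟩,
    ?_⟩
  intro f hf h0
  obtain ⟨F, hF, hF'⟩ := S_test_exists hf
  have h4 := h3 F hF' (nonneg_iff_ae.2 (by
    filter_upwards [h0, hF] with x a1 a2
    rwa [← a2]))
  rw [curv_coe hC hB hι rX rY hF hF']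
  refine le_trans (le_of_eq ?_) h4
  congr 1
  exact R.int (hF.mul (R.sub ((rX.ip rX hC).mul (rY.ip rY hC)) (rX.ip rY hC).sq))

end Vale.Agent.P233
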