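import Mathlib

namespace Vale.Agent.P233.AB

private theorem bddCR (P : (Fin 8 → ℝ) → ℝ) (hP : Continuous P) (M : ℝ) :
    ∃ C, 0 ≤ C ∧ ∀ v : Fin 8 → ℝ, (∀ i, |v i| ≤ M) → |P v| ≤ C := by
  have hK : IsCompact (Metric.closedBall (0 : Fin 8 → ℝ) (max M 0)) := isCompact_closedBall _ _
  obtain ⟨C, hC⟩ := hK.exists_bound_of_continuousOn hP.continuousOn
  refine ⟨max C 0, le_max_right _ _, fun v hv => ?_⟩
  have : v ∈ Metric.closedBall (0 : Fin 8 → ℝ) (max M 0) := by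
    rw [mem_closedBall_zero_iff, pi_norm_le_iff_of_nonneg (le_max_right _ _)]
    intro i
    exact (hv i).trans (le_max_left _ _)
  exact (hC v this).trans (le_max_left _ _)

private theorem bddCR' (P : ℝ → ℝ → ℝ → ℝ → ℝ → ℝ → ℝ → ℝ → ℝ)
    (hP : Continuous fun v : Fin 8 → ℝ => P (v 0) (v 1) (v 2) (v 3) (v 4) (v 5) (v 6) (v 7))
    (M : ℝ) :
    ∃ C, 0 ≤ C ∧ ∀ a b c d e f g h : ℝ, |a| ≤ M → |b| ≤ M → |c| ≤ M → |d| ≤ M → |e| ≤ M →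
      |f| ≤ M → |g| ≤ M → |h| ≤ M → |P a b c d e f g h| ≤ C := by
  obtain ⟨C, hC0, hC⟩ := bddCR _ hP M
  refine ⟨C, hC0, fun a b c d e f g h h0 h1 h2 h3 h4 h5 h6 h7 => ?_⟩
  have := hC ![a, b, c, d, e, f, g, h] (by
    intro i
    fin_cases i
    · exact h0
    · exact h1
    · exact h2
    · exact h3
    · exact h4
    · exact h5
    · exact h6
    · exact h7)
  exact this

private theorem cenAlgR {F g D y y2 r t w ρ N A₁ A₂ e p : ℝ} (hFw : F * w = 1) (hρ0 : 0 < ρ)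
    (hρe : ρ = F - t * D + t ^ 2 / 2 * r)
    (hNe : N = F ^ 2 * g - 2 * t * (F * y) + t ^ 2 * y2) (hA₁ : A₁ = D * g - 2 * y)
    (hA₂ : A₂ = (y2 - 2 * y * D + D ^ 2 * g) * w - 1 / 2 * (r * g))
    (he : e = r / 2 * A₁ - D * A₂ + t * r * A₂ / 2)
    (hp : p = 2 * F ^ 2 * g * (-2 * F * y + t * y2) + t * (-2 * F * y + t * y2) ^ 2
      - F * g ^ 2 * (3 * F ^ 2 * (-D + t / 2 * r) + 3 * t * F * (-D + t / 2 * r) ^ 2
        + t ^ 2 * (-D + t / 2 * r) ^ 3)) :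
    N / ρ = F * g + t * A₁ + t ^ 2 * A₂ - t ^ 3 * (e / ρ) ∧
      N ^ 2 / ρ ^ 3 = F * g ^ 2 + t * (p / ρ ^ 3) := by
  have key1 : N = ρ * (F * g + t * A₁ + t ^ 2 * A₂) - t ^ 3 * e := by
    rw [hNe, hρe, he, hA₁, hA₂]
    linear_combination (-(t ^ 2) * (y2 - 2 * y * D + D ^ 2 * g)) * hFw
  have key2 : N ^ 2 = ρ ^ 3 * (F * g ^ 2) + t * p := by
    rw [hNe, hρe, hp]
    ring
  constructor
  · rw [div_eq_iff hρ0.ne', key1]
    have : t ^ 3 * (e / ρ) * ρ = t ^ 3 * e := by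
      rw [mul_assoc, div_mul_cancel₀ _ hρ0.ne']
    linear_combination this
  · rw [div_eq_iff (by positivity), key2]
    have : t * (p / ρ ^ 3) * ρ ^ 3 = t * p := by
      rw [mul_assoc, div_mul_cancel₀ _ (by positivity)]
    linear_combination -this

private theorem cenQuotR {η ρ e p C₁ C₄ : ℝ} (hη : 0 < η) (hρ : η / 2 ≤ ρ) (hC₁ : 0 ≤ C₁)
    (hC₄ : 0 ≤ C₄) (B₁ : |e| ≤ C₁) (B₄ : |p| ≤ C₄) :
    |e / ρ| ≤ 2 * C₁ / η ∧ |p / ρ ^ 3| ≤ 8 * C₄ / η ^ 3 := by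
  have hρ0 : 0 < ρ := by linarith
  constructor
  · rw [abs_div, abs_of_pos hρ0, div_le_div_iff₀ hρ0 hη]
    have h1 : |e| * η ≤ C₁ * η := mul_le_mul_of_nonneg_right B₁ hη.le
    have h2 : C₁ * η ≤ 2 * C₁ * ρ := by
      have := mul_le_mul_of_nonneg_left hρ hC₁
      linarith
    linarith
  · have hρ3 : (η / 2) ^ 3 ≤ ρ ^ 3 := pow_le_pow_left₀ (by positivity) hρ 3
    rw [abs_div, abs_of_pos (by positivity : 0 < ρ ^ 3),
      div_le_div_iff₀ (by positivity) (by positivity)]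
    have h1 : |p| * η ^ 3 ≤ C₄ * η ^ 3 := mul_le_mul_of_nonneg_right B₄ (by positivity)
    have h2 : C₄ * η ^ 3 ≤ 8 * C₄ * ρ ^ 3 := by
      have := mul_le_mul_of_nonneg_left hρ3 hC₄
      have e : (η / 2) ^ 3 = η ^ 3 / 8 := by ring
      rw [e] at this
      linarith
    linarith

private theorem cenFinR {η α β t ε X₀ X₁ Y A₁ A₂ E P C₁ C₂ C₃ C₄ : ℝ} (hα : 0 ≤ α)
    (ht : 0 ≤ t) (htε : t ≤ ε) (hε1 : ε ≤ 1)
    (B₂ : |A₁| ≤ C₂) (B₃ : |A₂| ≤ C₃) (E₁ : |E| ≤ 2 * C₁ / η) (E₂ : |P| ≤ 8 * C₄ / η ^ 3)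
    (hX : X₁ = 1 / 2 * X₀ + t / 2 * A₁ + t ^ 2 / 2 * A₂) :
    (1 / 2 - β * ε ^ 2) * (X₀ + t * A₁ + t ^ 2 * A₂ - t ^ 3 * E)
        + α * ε ^ 2 * (Y + t * P)
      ≤ X₁ - β * ε ^ 2 * X₀ + α * ε ^ 2 * Y
        + (C₁ / η + |β| * (C₂ + C₃ + 2 * C₁ / η) + α * (8 * C₄ / η ^ 3)) * ε ^ 3 := by
  have hε0 : 0 ≤ ε := ht.trans htε
  have ht1 : t ≤ 1 := htε.trans hε1
  have ht3 : t ^ 3 ≤ ε ^ 3 := pow_le_pow_left₀ ht htε 3
  have ht30 : 0 ≤ t ^ 3 := by positivity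
  have hε2' : 0 ≤ ε ^ 2 := by positivity
  have t2ε : t ^ 2 ≤ ε := by
    calc t ^ 2 = t * t := by ring
      _ ≤ ε * 1 := mul_le_mul htε ht1 ht hε0
      _ = ε := mul_one ε
  have t3ε : t ^ 3 ≤ ε := by
    calc t ^ 3 = t ^ 2 * t := by ring
      _ ≤ ε * 1 := mul_le_mul t2ε ht1 ht hε0
      _ = ε := mul_one ε
  have q1 : t ^ 3 * |E| ≤ ε ^ 3 * (2 * C₁ / η) := mul_le_mul ht3 E₁ (abs_nonneg _) (by positivity)
  have q1' : t ^ 3 * |E| ≤ ε * (2 * C₁ / η) := mul_le_mul t3ε E₁ (abs_nonneg _) hε0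
  have q2 : t * |A₁| ≤ ε * C₂ := mul_le_mul htε B₂ (abs_nonneg _) hε0
  have q3 : t ^ 2 * |A₂| ≤ ε * C₃ := mul_le_mul t2ε B₃ (abs_nonneg _) hε0
  have q4 : t * |P| ≤ ε * (8 * C₄ / η ^ 3) := mul_le_mul htε E₂ (abs_nonneg _) hε0
  have z1 : -(t ^ 3 * E) ≤ t ^ 3 * |E| := by
    have := mul_le_mul_of_nonneg_left (neg_le_abs E) ht30
    linarith
  have z2 : -β * ε ^ 2 * (t * A₁ + t ^ 2 * A₂ - t ^ 3 * E)
      ≤ |β| * ε ^ 2 * (ε * C₂ + ε * C₃ + ε * (2 * C₁ / η)) := by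
    have h : |t * A₁ + t ^ 2 * A₂ - t ^ 3 * E| ≤ ε * C₂ + ε * C₃ + ε * (2 * C₁ / η) := by
      refine (abs_sub _ _).trans (add_le_add ((abs_add_le _ _).trans (add_le_add ?_ ?_)) ?_)
      · rw [abs_mul, abs_of_nonneg ht]; exact q2
      · rw [abs_mul, abs_of_nonneg (by positivity : 0 ≤ t ^ 2)]; exact q3
      · rw [abs_mul, abs_of_nonneg ht30]; exact q1'
    calc -β * ε ^ 2 * (t * A₁ + t ^ 2 * A₂ - t ^ 3 * E)
        ≤ |-β * ε ^ 2 * (t * A₁ + t ^ 2 * A₂ - t ^ 3 * E)| := le_abs_self _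
      _ = |β| * ε ^ 2 * |t * A₁ + t ^ 2 * A₂ - t ^ 3 * E| := by
          rw [abs_mul, abs_mul, abs_neg, abs_of_nonneg hε2']
      _ ≤ _ := mul_le_mul_of_nonneg_left h (by positivity)
  have z3 : α * ε ^ 2 * (t * P) ≤ α * ε ^ 2 * (ε * (8 * C₄ / η ^ 3)) := by
    refine mul_le_mul_of_nonneg_left ?_ (by positivity)
    exact (mul_le_mul_of_nonneg_left (le_abs_self _) ht).trans q4
  have f1 : ε ^ 3 * (2 * C₁ / η) = 2 * (C₁ / η * ε ^ 3) := by ring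
  rw [f1] at q1
  have f2 : |β| * ε ^ 2 * (ε * C₂ + ε * C₃ + ε * (2 * C₁ / η))
      = |β| * (C₂ + C₃ + 2 * C₁ / η) * ε ^ 3 := by ring
  have f3 : α * ε ^ 2 * (ε * (8 * C₄ / η ^ 3)) = α * (8 * C₄ / η ^ 3) * ε ^ 3 := by ring
  rw [f2] at z2
  rw [f3] at z3
  rw [hX]
  linarith [z1, z2, z3, q1]

/-- pointwise expansion of the cost of a centre curve -/
theorem cen_real (η Λ β α : ℝ) (hη : 0 < η) (hα : 0 ≤ α) :
    ∃ C₀ ≥ 0, ∃ ε₀ > 0, ∀ F g D y y2 r t ε : ℝ, η ≤ F → F ≤ Λ → |g| ≤ Λ → |D| ≤ Λ → |y| ≤ Λ →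
      |y2| ≤ Λ → |r| ≤ Λ → 0 ≤ t → t ≤ ε → ε ≤ ε₀ →
      η / 2 ≤ F - t * D + t ^ 2 / 2 * r ∧
      (1 / 2 - β * ε ^ 2) * ((F ^ 2 * g - 2 * t * (F * y) + t ^ 2 * y2) / (F - t * D + t ^ 2 / 2 * r))
        + α * ε ^ 2 * ((F ^ 2 * g - 2 * t * (F * y) + t ^ 2 * y2) ^ 2
          / (F - t * D + t ^ 2 / 2 * r) ^ 3)
        ≤ 1 / 2 * (F * g) + t / 2 * (D * g - 2 * y)
          + t ^ 2 / 2 * ((y2 - 2 * y * D + D ^ 2 * g) / F - 1 / 2 * (r * g))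
          - β * ε ^ 2 * (F * g) + α * ε ^ 2 * (F * g ^ 2) + C₀ * ε ^ 3 := by
  obtain ⟨M, hM⟩ : ∃ M : ℝ, M = |Λ| + 1 + 1 / η := ⟨_, rfl⟩
  have hη' : 0 < 1 / η := by positivity
  have hM1 : 1 ≤ M := by have := abs_nonneg Λ; linarith
  have hΛM : Λ ≤ M := by have := le_abs_self Λ; linarith
  -- the polynomials: variables F w g D y y2 r t, with w = 1 / F
  obtain ⟨C₁, hC₁, b₁⟩ := bddCR' (fun _ w g D y y2 r t => r / 2 * (D * g - 2 * y)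
    - D * ((y2 - 2 * y * D + D ^ 2 * g) * w - 1 / 2 * (r * g))
    + t * r * ((y2 - 2 * y * D + D ^ 2 * g) * w - 1 / 2 * (r * g)) / 2) (by fun_prop) M
  obtain ⟨C₂, hC₂, b₂⟩ := bddCR' (fun _ _ g D y _ _ _ => D * g - 2 * y) (by fun_prop) M
  obtain ⟨C₃, hC₃, b₃⟩ := bddCR' (fun _ w g D y y2 r _ =>
    (y2 - 2 * y * D + D ^ 2 * g) * w - 1 / 2 * (r * g)) (by fun_prop) M
  obtain ⟨C₄, hC₄, b₄⟩ := bddCR' (fun F _ g D y y2 r t =>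
    2 * F ^ 2 * g * (-2 * F * y + t * y2) + t * (-2 * F * y + t * y2) ^ 2
      - F * g ^ 2 * (3 * F ^ 2 * (-D + t / 2 * r) + 3 * t * F * (-D + t / 2 * r) ^ 2
        + t ^ 2 * (-D + t / 2 * r) ^ 3)) (by fun_prop) M
  refine ⟨C₁ / η + |β| * (C₂ + C₃ + 2 * C₁ / η) + α * (8 * C₄ / η ^ 3), by positivity,
    min 1 (η / (3 * M)), by positivity, ?_⟩
  intro F g D y y2 r t ε hF hFΛ hg hD hy hy2 hr ht htε hε
  have hε1 : ε ≤ 1 := hε.trans (min_le_left _ _)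
  have hε2 : ε ≤ η / (3 * M) := hε.trans (min_le_right _ _)
  have hF0 : 0 < F := hη.trans_le hF
  have ht1 : t ≤ 1 := htε.trans hε1
  have htM : t * (3 * M) ≤ η := by
    have h := mul_le_mul_of_nonneg_right (htε.trans hε2) (by positivity : (0 : ℝ) ≤ 3 * M)
    rwa [div_mul_cancel₀ _ (by positivity : (3 * M : ℝ) ≠ 0)] at h
  have hDM : |D| ≤ M := hD.trans hΛM
  have hrM : |r| ≤ M := hr.trans hΛM
  have hgM : |g| ≤ M := hg.trans hΛM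
  have hyM : |y| ≤ M := hy.trans hΛM
  have hy2M : |y2| ≤ M := hy2.trans hΛM
  have hFM : |F| ≤ M := by rw [abs_of_pos hF0]; exact hFΛ.trans hΛM
  have htM' : |t| ≤ M := by rw [abs_of_nonneg ht]; linarith
  have hρ : η / 2 ≤ F - t * D + t ^ 2 / 2 * r := by
    have h1 : t * D ≤ t * M := mul_le_mul_of_nonneg_left ((le_abs_self D).trans hDM) ht
    have h2 : t ^ 2 / 2 * (-r) ≤ t ^ 2 / 2 * M :=
      mul_le_mul_of_nonneg_left ((neg_le_abs r).trans hrM) (by positivity)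
    have h3 : t ^ 2 * M ≤ t * M := by
      have : t ^ 2 ≤ t := by
        calc t ^ 2 = t * t := by ring
          _ ≤ t * 1 := mul_le_mul_of_nonneg_left ht1 ht
          _ = t := mul_one t
      exact mul_le_mul_of_nonneg_right this (by linarith)
    linarith
  refine ⟨hρ, ?_⟩
  obtain ⟨w, hw⟩ : ∃ w, w = 1 / F := ⟨_, rfl⟩
  have hFw : F * w = 1 := by rw [hw]; field_simp
  have hwM : |w| ≤ M := by
    rw [hw, abs_of_pos (by positivity)]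
    have : 1 / F ≤ 1 / η := one_div_le_one_div_of_le hη hF
    have := abs_nonneg Λ
    linarith
  have B₁ := b₁ F w g D y y2 r t hFM hwM hgM hDM hyM hy2M hrM htM'
  have B₂ := b₂ F w g D y y2 r t hFM hwM hgM hDM hyM hy2M hrM htM'
  have B₃ := b₃ F w g D y y2 r t hFM hwM hgM hDM hyM hy2M hrM htM'
  have B₄ := b₄ F w g D y y2 r t hFM hwM hgM hDM hyM hy2M hrM htM'
  have hdivF : (y2 - 2 * y * D + D ^ 2 * g) / F = (y2 - 2 * y * D + D ^ 2 * g) * w := by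
    rw [hw]; ring
  rw [hdivF]
  obtain ⟨k1, k2⟩ := cenAlgR hFw (by linarith : 0 < F - t * D + t ^ 2 / 2 * r) rfl rfl
    (rfl : D * g - 2 * y = D * g - 2 * y)
    (rfl : (y2 - 2 * y * D + D ^ 2 * g) * w - 1 / 2 * (r * g) = _) rfl rfl
  rw [k1, k2]
  obtain ⟨E₁, E₂⟩ := cenQuotR hη hρ hC₁ hC₄ B₁ B₄
  exact cenFinR hα ht htε hε1 B₂ B₃ E₁ E₂ rfl

end Vale.Agent.P233.AB
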