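import Vale.Agent.P233.AB.CenK
import Vale.Agent.P233.AB.CenR

/-!
Block CENI-2: the action of the centre curve.
-/

open MeasureTheory Filter Topology
open scoped ENNReal NNReal

namespace Vale.Agent.P233

variable {M : Type*} [MeasurableSpace M] {m : Measure M} {C : Calc m}

theorem AB.act_alg {ρ J A B : ℝ} (hρ : ρ ≠ 0) :
    ρ * (A * (J / ρ ^ 2) + B * (J / ρ ^ 2) ^ 2) = A * (J / ρ) + B * (J ^ 2 / ρ ^ 3) := by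
  field_simp

theorem AB.q_alg {F g D d b c : ℝ} (hF : F ≠ 0) :
    ((d ^ 2 * g + d * F * b + 4⁻¹ * (F ^ 2 * c)) - 2 * (d * g + 2⁻¹ * (F * b)) * D + D ^ 2 * g) / F
      = (d - D) ^ 2 * g / F + (d - D) * b + 4⁻¹ * (F * c) := by
  field_simp
  ring

theorem AB.int_poly (c0 c1 c2 ε : ℝ) :
    ∫ t in (0 : ℝ)..ε, (c0 + c1 * t + c2 * t ^ 2) = c0 * ε + c1 * (ε ^ 2 / 2) + c2 * (ε ^ 3 / 3) := by
  rw [intervalIntegral.integral_add, intervalIntegral.integral_add,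
    intervalIntegral.integral_const, intervalIntegral.integral_const_mul,
    intervalIntegral.integral_const_mul, integral_id, integral_pow]
  · simp
    ring
  all_goals exact (by fun_prop : Continuous _).intervalIntegrable _ _

theorem AB.y_bd {B d g f b : ℝ} (hB : 0 ≤ B) (hd : |d| ≤ B) (hg : |g| ≤ B) (hf : |f| ≤ B)
    (hb : |b| ≤ B) : |d * g + 2⁻¹ * (f * b)| ≤ B + 2 * B ^ 2 + 3 * B ^ 3 := by
  have h0 : 0 ≤ B ^ 3 := by positivity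
  have h1 : 0 ≤ B ^ 2 := by positivity
  calc |d * g + 2⁻¹ * (f * b)| ≤ |d * g| + |2⁻¹ * (f * b)| := abs_add_le _ _
    _ = |d| * |g| + 2⁻¹ * (|f| * |b|) := by
        rw [abs_mul, abs_mul, abs_mul, abs_of_pos (by norm_num : (0 : ℝ) < 2⁻¹)]
    _ ≤ B * B + 2⁻¹ * (B * B) := by gcongr
    _ = 3 / 2 * B ^ 2 := by ring
    _ ≤ B + 2 * B ^ 2 + 3 * B ^ 3 := by linarith

theorem AB.y2_bd {B d g f b c : ℝ} (hB : 0 ≤ B) (hd : |d| ≤ B) (hg : |g| ≤ B) (hf : |f| ≤ B)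
    (hb : |b| ≤ B) (hc : |c| ≤ B) :
    |d ^ 2 * g + d * f * b + 4⁻¹ * (f ^ 2 * c)| ≤ B + 2 * B ^ 2 + 3 * B ^ 3 := by
  have h0 : 0 ≤ B ^ 3 := by positivity
  have h1 : 0 ≤ B ^ 2 := by positivity
  calc |d ^ 2 * g + d * f * b + 4⁻¹ * (f ^ 2 * c)|
      ≤ |d ^ 2 * g| + |d * f * b| + |4⁻¹ * (f ^ 2 * c)| := abs_add_three _ _ _
    _ = |d| ^ 2 * |g| + |d| * |f| * |b| + 4⁻¹ * (|f| ^ 2 * |c|) := by
        rw [abs_mul, abs_mul, abs_mul, abs_mul, abs_mul, abs_pow, abs_pow,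
          abs_of_pos (by norm_num : (0 : ℝ) < 4⁻¹)]
    _ ≤ B ^ 2 * B + B * B * B + 4⁻¹ * (B ^ 2 * B) := by gcongr
    _ = 9 / 4 * B ^ 3 := by ring
    _ ≤ B + 2 * B ^ 2 + 3 * B ^ 3 := by linarith

/-- the pointwise part of `act_le` -/
theorem AB.act_pt {η B β α C₁ ε₁ : ℝ} (hη : 0 < η) (hB : 0 ≤ B) (hC₁ : 0 ≤ C₁)
    (hreal : ∀ F g D y y2 r t ε : ℝ, η ≤ F → F ≤ B + 2 * B ^ 2 + 3 * B ^ 3 →
      |g| ≤ B + 2 * B ^ 2 + 3 * B ^ 3 → |D| ≤ B + 2 * B ^ 2 + 3 * B ^ 3 →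
      |y| ≤ B + 2 * B ^ 2 + 3 * B ^ 3 → |y2| ≤ B + 2 * B ^ 2 + 3 * B ^ 3 →
      |r| ≤ B + 2 * B ^ 2 + 3 * B ^ 3 → 0 ≤ t → t ≤ ε → ε ≤ ε₁ →
      η / 2 ≤ F - t * D + t ^ 2 / 2 * r ∧
      (1 / 2 - β * ε ^ 2) * ((F ^ 2 * g - 2 * t * (F * y) + t ^ 2 * y2) / (F - t * D + t ^ 2 / 2 * r))
        + α * ε ^ 2 * ((F ^ 2 * g - 2 * t * (F * y) + t ^ 2 * y2) ^ 2
          / (F - t * D + t ^ 2 / 2 * r) ^ 3)
        ≤ 1 / 2 * (F * g) + t / 2 * (D * g - 2 * y)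
          + t ^ 2 / 2 * ((y2 - 2 * y * D + D ^ 2 * g) / F - 1 / 2 * (r * g))
          - β * ε ^ 2 * (F * g) + α * ε ^ 2 * (F * g ^ 2) + C₁ * ε ^ 3)
    {F g D d b c r q y y2 J ρ v th t ε : ℝ} (hε : 0 ≤ ε) (ht0 : 0 ≤ t) (htε : t ≤ ε)
    (hε1 : ε ≤ ε₁) (c1 : |F| ≤ B) (c2 : |D| ≤ B) (c3 : |r| ≤ B) (c4 : |d| ≤ B) (c5 : |g| ≤ B)
    (c6 : |b| ≤ B) (c7 : |c| ≤ B) (ay : y = d * g + 2⁻¹ * (F * b))
    (ay2 : y2 = d ^ 2 * g + d * F * b + 4⁻¹ * (F ^ 2 * c))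
    (aq : q = (d - D) ^ 2 * g / F + (d - D) * b + 4⁻¹ * (F * c))
    (aρ : ρ = F - t * D + t ^ 2 / 2 * r) (av : v = J / ρ ^ 2)
    (aJ : J = F ^ 2 * g - 2 * t * (F * y) + t ^ 2 * y2) (b1 : th = 1 → η / 2 ≤ ρ)
    (al : (th = 1 ∧ η ≤ F) ∨ (th ≠ 1 ∧ 0 ≤ F ∧ D = 0 ∧ r = 0 ∧ g = 0 ∧ b = 0 ∧ c = 0)) :
    ρ * ((1 / 2 - β * ε ^ 2) * v + α * ε ^ 2 * v ^ 2)
      ≤ 2⁻¹ * (F * g) + t / 2 * (D * g - 2 * y) + t ^ 2 / 2 * (q - 2⁻¹ * (r * g))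
        - β * ε ^ 2 * (F * g) + α * ε ^ 2 * (F * g ^ 2) + C₁ * ε ^ 3 * th ^ 2 := by
  rcases al with ⟨hθ, hF⟩ | ⟨-, hF, z1, z2, z3, z4, z5⟩
  · have hρ := b1 hθ
    have hρ0 : ρ ≠ 0 := (lt_of_lt_of_le (by positivity) hρ).ne'
    have hF0 : F ≠ 0 := (hη.trans_le hF).ne'
    have hL1 : B ≤ B + 2 * B ^ 2 + 3 * B ^ 3 := by
      have : 0 ≤ 2 * B ^ 2 + 3 * B ^ 3 := by positivity
      linarith
    have hyB : |y| ≤ B + 2 * B ^ 2 + 3 * B ^ 3 := by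
      rw [ay]; exact AB.y_bd hB c4 c5 c1 c6
    have hy2B : |y2| ≤ B + 2 * B ^ 2 + 3 * B ^ 3 := by
      rw [ay2]; exact AB.y2_bd hB c4 c5 c1 c6 c7
    have hr := (hreal F g D y y2 r t ε hF ((le_abs_self _).trans (c1.trans hL1)) (c5.trans hL1)
      (c2.trans hL1) hyB hy2B (c3.trans hL1) ht0 htε hε1).2
    have hq : (y2 - 2 * y * D + D ^ 2 * g) / F = q := by
      rw [ay2, ay, aq]
      exact AB.q_alg hF0
    rw [← aρ, ← aJ, hq] at hr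
    rw [av, AB.act_alg hρ0, hθ]
    linarith
  · have hJ : J = 0 := by
      rw [aJ, ay, ay2, z3, z4, z5]; ring
    have hv : v = 0 := by rw [av, hJ, zero_div]
    have hq : q = 0 := by
      rw [aq, z3, z4, z5]; simp
    have hy0 : y = 0 := by rw [ay, z3, z4]; ring
    rw [hv, hq, hy0, z3, z1, z2]
    have h1 : 0 ≤ C₁ * ε ^ 3 * th ^ 2 := by positivity
    have e1 : ρ * ((1 / 2 - β * ε ^ 2) * 0 + α * ε ^ 2 * 0 ^ 2) = 0 := by ring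
    have e2 : 2⁻¹ * (F * 0) + t / 2 * (0 * 0 - 2 * 0) + t ^ 2 / 2 * (0 - 2⁻¹ * (0 * 0))
        - β * ε ^ 2 * (F * 0) + α * ε ^ 2 * (F * 0 ^ 2) + C₁ * ε ^ 3 * th ^ 2
        = C₁ * ε ^ 3 * th ^ 2 := by ring
    rw [e1, e2]
    exact h1

theorem AB.actL_ae {ρ v : M →ₘ[m] ℝ} (A B : ℝ) : ∀ᵐ x ∂m, (ρ * (A • v + B • v ^ 2)) x
    = ρ x * (A * v x + B * v x ^ 2) := by
  filter_upwards [mul_ae ρ (A • v + B • v ^ 2), add_ae (A • v) (B • v ^ 2), smul_ae v A,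
    smul_ae (v ^ 2) B, sq_ae v] with x a2 a3 a4 a5 a6
  rw [a2, a3, a4, a5, a6]

theorem AB.actR_ae {F g D y q r th : M →ₘ[m] ℝ} (c0 c1 c2 c3 c4 c5 : ℝ) :
    ∀ᵐ x ∂m, (c0 • (F * g) + c1 • (D * g - (2 : ℝ) • y)
      + c2 • (q - (2 : ℝ)⁻¹ • (r * g)) - c3 • (F * g) + c4 • (F * g ^ 2) + c5 • th ^ 2
        : M →ₘ[m] ℝ) x
      = c0 * (F x * g x) + c1 * (D x * g x - 2 * y x) + c2 * (q x - 2⁻¹ * (r x * g x))
        - c3 * (F x * g x) + c4 * (F x * g x ^ 2) + c5 * th x ^ 2 := by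
  set s1 : M →ₘ[m] ℝ := c0 • (F * g) with hs1
  set s2 : M →ₘ[m] ℝ := c1 • (D * g - (2 : ℝ) • y) with hs2
  set s3 : M →ₘ[m] ℝ := c2 • (q - (2 : ℝ)⁻¹ • (r * g)) with hs3
  set s4 : M →ₘ[m] ℝ := c3 • (F * g) with hs4
  set s5 : M →ₘ[m] ℝ := c4 • (F * g ^ 2) with hs5
  set s6 : M →ₘ[m] ℝ := c5 • th ^ 2 with hs6
  have h1 : ∀ᵐ x ∂m, s1 x = c0 * (F x * g x) := by
    filter_upwards [smul_ae (F * g) c0, mul_ae F g] with x a1 a2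
    rw [hs1, a1, a2]
  have h2 : ∀ᵐ x ∂m, s2 x = c1 * (D x * g x - 2 * y x) := by
    filter_upwards [smul_ae (D * g - (2 : ℝ) • y) c1, sub_ae (D * g) ((2 : ℝ) • y), mul_ae D g,
      smul_ae y 2] with x a1 a2 a3 a4
    rw [hs2, a1, a2, a3, a4]
  have h3 : ∀ᵐ x ∂m, s3 x = c2 * (q x - 2⁻¹ * (r x * g x)) := by
    filter_upwards [smul_ae (q - (2 : ℝ)⁻¹ • (r * g)) c2, sub_ae q ((2 : ℝ)⁻¹ • (r * g)),
      smul_ae (r * g) (2 : ℝ)⁻¹, mul_ae r g] with x a1 a2 a3 a4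
    rw [hs3, a1, a2, a3, a4]
  have h4 : ∀ᵐ x ∂m, s4 x = c3 * (F x * g x) := by
    filter_upwards [smul_ae (F * g) c3, mul_ae F g] with x a1 a2
    rw [hs4, a1, a2]
  have h5 : ∀ᵐ x ∂m, s5 x = c4 * (F x * g x ^ 2) := by
    filter_upwards [smul_ae (F * g ^ 2) c4, mul_ae F (g ^ 2), sq_ae g] with x a1 a2 a3
    rw [hs5, a1, a2, a3]
  have h6 : ∀ᵐ x ∂m, s6 x = c5 * th x ^ 2 := by
    filter_upwards [smul_ae (th ^ 2) c5, sq_ae th] with x a1 a2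
    rw [hs6, a1, a2]
  filter_upwards [add_ae (s1 + s2 + s3 - s4 + s5) s6, add_ae (s1 + s2 + s3 - s4) s5,
    sub_ae (s1 + s2 + s3) s4, add_ae (s1 + s2) s3, add_ae s1 s2, h1, h2, h3, h4, h5, h6]
    with x a1 a2 a3 a4 a5 b1 b2 b3 b4 b5 b6
  rw [a1, a2, a3, a4, a5, b1, b2, b3, b4, b5, b6]

namespace Dat

variable {X : Dat m} {θ : M →ₘ[m] ℝ} {η δ : ℝ}

section Ok

variable (hC : IsGamma C) {κ : ℝ} (hB : C.BEi κ) (hX : X.Ok C θ η δ)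
include hC hB hX

theorem Yp_ae (e : ℝ × ℝ) : ∀ᵐ x ∂m, X.Y C e e (X.pt e) x
    = X.D' e x * C.Γ (X.pt e) (X.pt e) x + 2⁻¹ * (X.F x * C.Γ (X.pt e) (X.G' e e) x) := by
  have h := Y_self_ae (X := X) (C := C) e (X.pt e)
  rw [hC.symm _ (hC.test_A (G'_memI hC hB hX e e).1).1 _
    (hC.test_A (pt_memI hC hB hX e).1).1] at h
  exact h

omit hC hB hX in
theorem Y2_ae (e : ℝ × ℝ) : ∀ᵐ x ∂m, X.Y2 C e x
    = X.D' e x ^ 2 * C.Γ (X.pt e) (X.pt e) x + X.D' e x * X.F x * C.Γ (X.pt e) (X.G' e e) x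
      + 4⁻¹ * (X.F x ^ 2 * C.Γ (X.G' e e) (X.G' e e) x) := by
  unfold Y2
  filter_upwards [add_ae (X.D' e ^ 2 * C.Γ (X.pt e) (X.pt e)
      + X.D' e * X.F * C.Γ (X.pt e) (X.G' e e)) ((4 : ℝ)⁻¹ • (X.F ^ 2 * C.Γ (X.G' e e) (X.G' e e))),
    add_ae (X.D' e ^ 2 * C.Γ (X.pt e) (X.pt e)) (X.D' e * X.F * C.Γ (X.pt e) (X.G' e e)),
    mul_ae (X.D' e ^ 2) (C.Γ (X.pt e) (X.pt e)), sq_ae (X.D' e),
    mul_ae (X.D' e * X.F) (C.Γ (X.pt e) (X.G' e e)), mul_ae (X.D' e) X.F,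
    smul_ae (X.F ^ 2 * C.Γ (X.G' e e) (X.G' e e)) (4 : ℝ)⁻¹,
    mul_ae (X.F ^ 2) (C.Γ (X.G' e e) (X.G' e e)), sq_ae X.F] with x a1 a2 a3 a4 a5 a6 a7 a8 a9
  rw [a1, a2, a3, a4, a5, a6, a7, a8, a9]

omit hC hB hX in
theorem J2_ae' (t : ℝ) (e : ℝ × ℝ) : ∀ᵐ x ∂m, X.J2 C e t x
    = X.F x ^ 2 * C.Γ (X.pt e) (X.pt e) x - 2 * t * (X.F x * X.Y C e e (X.pt e) x)
      + t ^ 2 * X.Y2 C e x := by
  unfold J2
  filter_upwards [add_ae (X.F ^ 2 * C.Γ (X.pt e) (X.pt e) - (2 * t) • (X.F * X.Y C e e (X.pt e)))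
      (t ^ 2 • X.Y2 C e), sub_ae (X.F ^ 2 * C.Γ (X.pt e) (X.pt e))
      ((2 * t) • (X.F * X.Y C e e (X.pt e))), mul_ae (X.F ^ 2) (C.Γ (X.pt e) (X.pt e)), sq_ae X.F,
    smul_ae (X.F * X.Y C e e (X.pt e)) (2 * t), mul_ae X.F (X.Y C e e (X.pt e)),
    smul_ae (X.Y2 C e) (t ^ 2)] with x a1 a2 a3 a4 a5 a6 a7
  rw [a1, a2, a3, a4, a5, a6, a7]

theorem Y2_mem1 (e : ℝ × ℝ) : MemLp (X.Y2 C e) 1 m := by
  have hD := hC.toIsDir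
  have hp := pt_memI hC hB hX e
  have hg := G'_memI hC hB hX e e
  have pW := (hC.test_A hp.1).1
  have gW := (hC.test_A hg.1).1
  have dT := (hC.test_A (D'_memI hC hB hX e).1).2
  have FT := (hC.test_A hX.hF.1).2
  have d2 : MemLp (X.D' e ^ 2 : M →ₘ[m] ℝ) ∞ m := by rw [sq]; exact mem_mul_top dT dT
  have F2 : MemLp (X.F ^ 2 : M →ₘ[m] ℝ) ∞ m := by rw [sq]; exact mem_mul_top FT FT
  exact mem_add (mem_add (mem_mul_top d2 (hC.mem1 _ pW))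
    (mem_mul_top (mem_mul_top dT FT) (hD.Γ_mem1 pW gW))) (mem_smul _ (mem_mul_top F2 (hC.mem1 _ gW)))

theorem J2_mem1 (t : ℝ) (e : ℝ × ℝ) : MemLp (X.J2 C e t) 1 m := by
  have pW := (hC.test_A (pt_memI hC hB hX e).1).1
  have FT := (hC.test_A hX.hF.1).2
  have F2 : MemLp (X.F ^ 2 : M →ₘ[m] ℝ) ∞ m := by rw [sq]; exact mem_mul_top FT FT
  exact mem_add (mem_sub (mem_mul_top F2 (hC.mem1 _ pW))
    (mem_smul _ (mem_mul_top FT (Y_mem1 hC hB hX e e pW)))) (mem_smul _ (Y2_mem1 hC hB hX e))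

/-- the integrand of the action is integrable -/
theorem act_mem (e : ℝ × ℝ) : ∃ ε₀ > 0, ∀ t ∈ Set.Icc (0 : ℝ) ε₀, ∀ A B : ℝ,
    MemLp (X.rho C (t • e) * (A • X.v2 C e t + B • X.v2 C e t ^ 2) : M →ₘ[m] ℝ) 1 m := by
  obtain ⟨ε₀, hε₀, -, V, hV, hp⟩ := pos_ae hC hB hX e
  refine ⟨ε₀, hε₀, fun t ht A B => ?_⟩
  have hη := hX.hη
  refine mem_of_le (mem_smul ((|A| + |B| * V) * (2 / η)) (J2_mem1 hC hB hX t e)) ?_
  filter_upwards [hp t ht, mul_ae (X.rho C (t • e)) (A • X.v2 C e t + B • X.v2 C e t ^ 2),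
    add_ae (A • X.v2 C e t) (B • X.v2 C e t ^ 2), smul_ae (X.v2 C e t) A,
    smul_ae (X.v2 C e t ^ 2) B, sq_ae (X.v2 C e t),
    smul_ae (X.J2 C e t) ((|A| + |B| * V) * (2 / η)), loc_ae hC hB hX e,
    v2_ae (X := X) (C := C) e t, J2_ae hC hB hX t e] with x a1 a2 a3 a4 a5 a6 a7 a8 a9 a10
  obtain ⟨b1, b2, b3, b4, b5, b6⟩ := a1
  rw [a2, a3, a4, a5, a6, a7, abs_mul, abs_of_nonneg b2,
    abs_of_nonneg (mul_nonneg (by positivity) b3)]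
  set ρ := X.rho C (t • e) x
  set v := X.v2 C e t x
  set J := X.J2 C e t x
  have h1 : |A * v + B * v ^ 2| ≤ (|A| + |B| * V) * v := by
    have e1 : |A * v| = |A| * v := by rw [abs_mul, abs_of_nonneg b4]
    have e2 : |B * v ^ 2| = |B| * v * v := by
      rw [abs_mul, abs_of_nonneg (sq_nonneg v)]; ring
    have e3 : |B| * v * v ≤ |B| * V * v := by gcongr
    calc |A * v + B * v ^ 2| ≤ |A * v| + |B * v ^ 2| := abs_add_le _ _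
      _ ≤ |A| * v + |B| * V * v := by rw [e1, e2]; linarith
      _ = _ := by ring
  have h2 : ρ * v ≤ 2 / η * J := by
    rcases a8 with ⟨hθ, -⟩ | ⟨-, -, -, -, z3, z4, z5⟩
    · have hρ := b1 hθ
      have hρ0 : 0 < ρ := lt_of_lt_of_le (by positivity) hρ
      have e1 : ρ * v = J / ρ := by
        rw [← b6]; field_simp
      rw [e1, div_le_iff₀ hρ0]
      have e2 : J * (2 / η * (η / 2)) ≤ J * (2 / η * ρ) := by gcongr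
      have e3 : (2 / η * (η / 2) : ℝ) = 1 := by field_simp
      rw [e3, mul_one] at e2
      linarith
    · have hJ : J = 0 := by
        rw [a10, z3, z4, z5]; ring
      have hv : v = 0 := by
        rw [a9, hJ, zero_div]
      rw [hv, hJ]; simp
  calc ρ * |A * v + B * v ^ 2| ≤ ρ * ((|A| + |B| * V) * v) := mul_le_mul_of_nonneg_left h1 b2
    _ = (|A| + |B| * V) * (ρ * v) := by ring
    _ ≤ (|A| + |B| * V) * (2 / η * J) := mul_le_mul_of_nonneg_left h2 (by positivity)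
    _ = _ := by ring

/-- the pointwise upper bound of the integrand of the action -/
theorem act_le (e : ℝ × ℝ) (β α : ℝ) (hα : 0 ≤ α) : ∃ C₁ ≥ 0, ∃ ε₀ > 0, ∀ ε, 0 < ε → ε ≤ ε₀ →
    ∀ t ∈ Set.Icc 0 ε,
      X.rho C (t • e) * ((1 / 2 - β * ε ^ 2) • X.v2 C e t + (α * ε ^ 2) • X.v2 C e t ^ 2)
        ≤ (2 : ℝ)⁻¹ • (X.F * X.Ge C e) + (t / 2) • (X.D C e * X.Ge C e
            - (2 : ℝ) • X.Y C e e (X.pt e))
          + (t ^ 2 / 2) • (X.qc C e - (2 : ℝ)⁻¹ • (X.r C e e * X.Ge C e))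
          - (β * ε ^ 2) • (X.F * X.Ge C e) + (α * ε ^ 2) • (X.F * X.Ge C e ^ 2)
          + (C₁ * ε ^ 3) • θ ^ 2 := by
  have hη := hX.hη
  obtain ⟨B, hB0, hb⟩ := exists_bound hC hB hX e
  obtain ⟨C₁, hC₁, ε₁, hε₁, hreal⟩ := AB.cen_real η (B + 2 * B ^ 2 + 3 * B ^ 3) β α hη hα
  obtain ⟨ε₂, hε₂, -, V, hV, hp⟩ := pos_ae hC hB hX e
  refine ⟨C₁, hC₁, min ε₁ ε₂, lt_min hε₁ hε₂, fun ε hε hεε t ht => ?_⟩
  have ht2 : t ∈ Set.Icc (0 : ℝ) ε₂ := ⟨ht.1, ht.2.trans (hεε.trans (min_le_right _ _))⟩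
  have hε1 : ε ≤ ε₁ := hεε.trans (min_le_left _ _)
  rw [le_iff_ae]
  filter_upwards [AB.actL_ae (ρ := X.rho C (t • e)) (v := X.v2 C e t) (1 / 2 - β * ε ^ 2)
      (α * ε ^ 2), AB.actR_ae (F := X.F) (g := X.Ge C e) (D := X.D C e)
      (y := X.Y C e e (X.pt e)) (q := X.qc C e) (r := X.r C e e) (th := θ) (2 : ℝ)⁻¹ (t / 2)
      (t ^ 2 / 2) (β * ε ^ 2) (α * ε ^ 2) (C₁ * ε ^ 3), hb, hp t ht2, loc_ae hC hB hX e,
    rho_ae hC hB hX t e, v2_ae (X := X) (C := C) e t, J2_ae' (X := X) (C := C) t e,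
    Yp_ae hC hB hX e, Y2_ae (X := X) (C := C) e, qc_ae (X := X) (C := C) e]
    with x aL aR ab ap al aρ av aJ ay ay2 aq
  rw [aL, aR]
  exact AB.act_pt hη hB0 hC₁ hreal hε.le ht.1 ht.2 hε1 ab.1 ab.2.1 ab.2.2.1 ab.2.2.2.1
    ab.2.2.2.2.1 ab.2.2.2.2.2.1 ab.2.2.2.2.2.2 ay ay2 aq aρ av aJ ap.1 al

end Ok

/-- the action of the centre curve, with a constant `K₁` that does not depend on `δ` and on the
approximations -/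
theorem cen_act [SigmaFinite m] (hC : IsGamma C) {K : ℝ} (hB : C.BEi K)
    (a b F θ : M →ₘ[m] ℝ) (η : ℝ) (e : ℝ × ℝ) :
    ∃ K₁ ≥ 0, ∀ δ, 0 < δ → δ ≤ 1 → ∀ X : Dat m, X.Ok C θ η δ → X.a = a → X.b = b →
      X.F = F → ∀ β α : ℝ, 0 ≤ α → ∃ C₀ ≥ 0, ∃ ε₀ > 0, ∀ ε, 0 < ε → ε ≤ ε₀ →
      ∃ act : ℝ → ℝ, Continuous act ∧ (∀ t ∈ Set.Icc 0 ε,
        MemLp (X.rho C (t • e) * ((1 / 2 - β * ε ^ 2) • X.v2 C e t
          + (α * ε ^ 2) • X.v2 C e t ^ 2) : M →ₘ[m] ℝ) 1 m ∧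
        I (X.rho C (t • e) * ((1 / 2 - β * ε ^ 2) • X.v2 C e t
          + (α * ε ^ 2) • X.v2 C e t ^ 2)) ≤ act t) ∧
        ∫ t in (0 : ℝ)..ε, act t ≤ ε / 2 * X.E2 C e e
          + ε ^ 2 / 2 * (X.X3 C e e e + X.W3 C e e e)
          + ε ^ 3 * (X.C3 C e - β * I (X.F * X.Ge C e) + α * I (X.F * X.Ge C e ^ 2))
          + K₁ * δ * ε ^ 3 + C₀ * ε ^ 4 := by
  by_cases h : a ∈ C.TestI ∧ b ∈ C.TestI ∧ F ∈ C.TestI ∧ 0 < η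
  swap
  · exact ⟨0, le_rfl, fun δ _ _ X hX ha hb hF => absurd
      ⟨ha ▸ hX.ha, hb ▸ hX.hb, hF ▸ hX.hF, hX.hη⟩ h⟩
  obtain ⟨ha, hb, hF, hη⟩ := h
  have hD := hC.toIsDir
  have hpt : e.1 • a + e.2 • b ∈ C.TestI :=
    hC.testI_add hB (hC.testI_smul hB _ ha) (hC.testI_smul hB _ hb)
  obtain ⟨Kg, hKg⟩ := mem_top_iff.1 (hC.Γ_mem hB hpt.1 hpt.1).2
  obtain ⟨KF, hKF⟩ := mem_top_iff.1 (hC.test_A hF.1).2
  set Cd : ℝ := 2 * e.1 ^ 2 + 2 * e.2 ^ 2 with hCd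
  set Cu : ℝ := 4 * (e.1 * e.1) ^ 2 + 4 * (e.1 * e.2 + e.2 * e.1) ^ 2 + 2 * (e.2 * e.2) ^ 2
    with hCu
  set G0 := C.Γ (e.1 • a + e.2 • b) (e.1 • a + e.2 • b) with hG0
  have hE0 : 0 ≤ I (C.Γ G0 G0) := hD.E_nonneg (hC.Γ_mem hB hpt.1 hpt.1).1
  set K₆ : ℝ := (|Kg| / η + 1 / 2) * Cd + 3 / 4 * Cd + (3 / 4 * |Kg| + 3 / 8 * |KF|)
    * I (C.Γ G0 G0) + (|Kg| / 2 + |KF| / 4) * Cu + 3 / 8 * |KF| * Cu with hK₆
  have hCd0 : 0 ≤ Cd := by positivity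
  have hCu0 : 0 ≤ Cu := by positivity
  have hK₆0 : 0 ≤ K₆ := by positivity
  refine ⟨K₆ / 6, by positivity, fun δ hδ hδ1 X hX hXa hXb hXF β α hα => ?_⟩
  subst hXa hXb hXF
  have eG : X.Ge C e = G0 := rfl
  have hck := cenK hC hB hX hδ hδ1 e (Kg := |Kg|) (KF := |KF|)
    (hKg.mono fun x hx => ((le_abs_self _).trans hx).trans (le_abs_self _))
    (hKF.mono fun x hx => ((le_abs_self _).trans hx).trans (le_abs_self _))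
    (abs_nonneg _) (abs_nonneg _) hCd hCu
  rw [eG] at hck
  obtain ⟨ε₁, hε₁, hmem⟩ := act_mem hC hB hX e
  obtain ⟨C₁, hC₁, ε₂, hε₂, hle⟩ := act_le hC hB hX e β α hα
  have hθ2 : 0 ≤ I (θ ^ 2) := I_sq_nonneg θ
  refine ⟨C₁ * I (θ ^ 2), by positivity, min ε₁ ε₂, lt_min hε₁ hε₂, fun ε hε hεε => ?_⟩
  have hε1 : ε ≤ ε₁ := hεε.trans (min_le_left _ _)
  have hε2 : ε ≤ ε₂ := hεε.trans (min_le_right _ _)
  -- the pieces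
  have pW := (hC.test_A (pt_memI hC hB hX e).1).1
  have GA : X.Ge C e ∈ C.A := Ge_memA hC hB hX e
  have G1 : MemLp (X.Ge C e) 1 m := hC.mem1 _ pW
  have FT := (hC.test_A hX.hF.1).2
  have m1 : MemLp (X.F * X.Ge C e : M →ₘ[m] ℝ) 1 m := mem_mul_top FT G1
  have m2 : MemLp (X.D C e * X.Ge C e : M →ₘ[m] ℝ) 1 m := mem_mul_top (D_memA hC hB hX e).2 G1
  have m3 : MemLp (X.Y C e e (X.pt e)) 1 m := Y_mem1 hC hB hX e e pW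
  have m4 : MemLp (X.qc C e) 1 m := qc_mem1 hC hB hX e
  have m5 : MemLp (X.r C e e * X.Ge C e : M →ₘ[m] ℝ) 1 m :=
    mem_mul_top (r_memA hC hB hX e e).2 G1
  have m6 : MemLp (X.F * X.Ge C e ^ 2 : M →ₘ[m] ℝ) 1 m :=
    mem_mul_top FT (by rw [sq]; exact mem_mul_top GA.2 G1)
  have m7 : MemLp (θ ^ 2 : M →ₘ[m] ℝ) 1 m := mem_sq (hC.memLp _ (hC.test_A hX.hθ.1).1)
  set c0 : ℝ := 2⁻¹ * I (X.F * X.Ge C e) - β * ε ^ 2 * I (X.F * X.Ge C e)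
    + α * ε ^ 2 * I (X.F * X.Ge C e ^ 2) + C₁ * ε ^ 3 * I (θ ^ 2) with hc0
  set c1 : ℝ := 2⁻¹ * (I (X.D C e * X.Ge C e) - 2 * I (X.Y C e e (X.pt e))) with hc1
  set c2 : ℝ := 2⁻¹ * (I (X.qc C e) - 2⁻¹ * I (X.r C e e * X.Ge C e)) with hc2
  refine ⟨fun t => c0 + c1 * t + c2 * t ^ 2, by fun_prop, fun t ht => ?_, ?_⟩
  · have hm := hmem t ⟨ht.1, ht.2.trans hε1⟩ (1 / 2 - β * ε ^ 2) (α * ε ^ 2)
    refine ⟨hm, ?_⟩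
    have n1 := mem_smul (2 : ℝ)⁻¹ m1
    have n2 := mem_smul (t / 2) (mem_sub m2 (mem_smul (2 : ℝ) m3))
    have n3 := mem_smul (t ^ 2 / 2) (mem_sub m4 (mem_smul (2 : ℝ)⁻¹ m5))
    have n4 := mem_smul (β * ε ^ 2) m1
    have n5 := mem_smul (α * ε ^ 2) m6
    have n6 := mem_smul (C₁ * ε ^ 3) m7
    refine (I_mono hm (mem_add (mem_add (mem_sub (mem_add (mem_add n1 n2) n3) n4) n5) n6)
      (hle ε hε hε2 t ht)).trans (le_of_eq ?_)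
    rw [I_add (mem_add (mem_sub (mem_add (mem_add n1 n2) n3) n4) n5) n6,
      I_add (mem_sub (mem_add (mem_add n1 n2) n3) n4) n5,
      I_sub (mem_add (mem_add n1 n2) n3) n4, I_add (mem_add n1 n2) n3, I_add n1 n2,
      I_smul, I_smul, I_smul, I_smul, I_smul, I_smul, I_sub m2 (mem_smul _ m3), I_smul,
      I_sub m4 (mem_smul _ m5), I_smul]
    rw [hc0, hc1, hc2]
    ring
  · rw [AB.int_poly]
    have e1 : X.E2 C e e = I (X.F * X.Ge C e) := rfl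
    have e2 : X.X3 C e e e = -I (X.Y C e e (X.pt e)) := rfl
    have e3 : X.W3 C e e e = 2⁻¹ * I (X.D C e * X.Ge C e) := rfl
    rw [e1, e2, e3, hc0, hc1, hc2]
    have h3 : ε ^ 3 * (I (X.qc C e) - 2⁻¹ * I (X.r C e e * X.Ge C e))
        ≤ ε ^ 3 * (6 * X.C3 C e + K₆ * δ) := by
      refine mul_le_mul_of_nonneg_left ?_ (by positivity)
      rw [eG]
      exact hck
    linarith [h3]

end Dat

end Vale.Agent.P233
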