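import Vale.Agent.P233.AB.DatL

/-!
Block CENI-1: the flux of the centre curve.
-/

open MeasureTheory Filter Topology
open scoped ENNReal NNReal

namespace Vale.Agent.P233

variable {M : Type*} [MeasurableSpace M] {m : Measure M} {C : Calc m}

/-- `v² = |J|²/ρ²` along the centre curve -/
noncomputable def Dat.v2 (X : Dat m) (C : Calc m) (e : ℝ × ℝ) (t : ℝ) : M →ₘ[m] ℝ :=
  AEEqFun.mk (fun x => X.J2 C e t x / X.rho C (t • e) x ^ 2)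
    ((AEEqFun.aestronglyMeasurable _).aemeasurable.div
      ((AEEqFun.aestronglyMeasurable _).aemeasurable.pow_const 2)).aestronglyMeasurable

theorem AB.rho_real {η B F D r t : ℝ} (hB0 : 0 ≤ B) (ht0 : 0 ≤ t) (ht1 : t ≤ 1)
    (ht3 : t * (4 * (B + 1)) ≤ η) (hF : η ≤ F) (hD : |D| ≤ B) (hr : |r| ≤ B) :
    η / 2 ≤ F - t * D + t ^ 2 / 2 * r := by
  have e1 : t * D ≤ t * B := mul_le_mul_of_nonneg_left (abs_le.1 hD).2 ht0
  have e2 : t ^ 2 / 2 * (-B) ≤ t ^ 2 / 2 * r :=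
    mul_le_mul_of_nonneg_left (abs_le.1 hr).1 (by positivity)
  have e3 : t ^ 2 * B ≤ t * B := by
    have : t ^ 2 ≤ t := by nlinarith
    exact mul_le_mul_of_nonneg_right this hB0
  have e4 : t * (4 * (B + 1)) = 4 * (t * B) + 4 * t := by ring
  have e5 : 0 ≤ t * B := mul_nonneg ht0 hB0
  have e6 : t ^ 2 / 2 * (-B) = -(t ^ 2 * B / 2) := by ring
  rw [e4] at ht3
  rw [e6] at e2
  linarith

theorem AB.J_real {B f d a b c t : ℝ} (hB0 : 0 ≤ B) (ht0 : 0 ≤ t) (ht1 : t ≤ 1) (hf : |f| ≤ B)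
    (hd : |d| ≤ B) (ha : |a| ≤ B) (hb : |b| ≤ B) (hc : |c| ≤ B) :
    (f - t * d) ^ 2 * a + 2 * (f - t * d) * (-(t / 2 * f)) * b + (-(t / 2 * f)) ^ 2 * c
      ≤ 9 * B ^ 3 := by
  have f1 : |f - t * d| ≤ 2 * B := by
    have g1 : |t * d| ≤ B := by
      rw [abs_mul, abs_of_nonneg ht0]
      calc t * |d| ≤ 1 * B := by gcongr
        _ = B := one_mul B
    rw [abs_le] at g1 hf ⊢
    constructor <;> linarith [g1.1, g1.2, hf.1, hf.2]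
  have f2 : |-(t / 2 * f)| ≤ B := by
    rw [abs_neg, abs_mul, abs_of_nonneg (by positivity : (0:ℝ) ≤ t / 2)]
    calc t / 2 * |f| ≤ 1 * B := by
          have : t / 2 ≤ 1 := by linarith
          gcongr
      _ = B := one_mul B
  have g1 : (f - t * d) ^ 2 * a ≤ (2 * B) ^ 2 * B := by
    have h1 : (f - t * d) ^ 2 ≤ (2 * B) ^ 2 := by
      rw [← sq_abs]; gcongr
    calc (f - t * d) ^ 2 * a ≤ (f - t * d) ^ 2 * B :=
          mul_le_mul_of_nonneg_left (abs_le.1 ha).2 (sq_nonneg _)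
      _ ≤ (2 * B) ^ 2 * B := mul_le_mul_of_nonneg_right h1 hB0
  have g2 : 2 * (f - t * d) * (-(t / 2 * f)) * b ≤ 2 * (2 * B) * B * B := by
    refine (le_abs_self _).trans ?_
    rw [abs_mul, abs_mul, abs_mul, abs_two]
    gcongr
  have g3 : (-(t / 2 * f)) ^ 2 * c ≤ B ^ 2 * B := by
    have h1 : (-(t / 2 * f)) ^ 2 ≤ B ^ 2 := by
      rw [← sq_abs]; gcongr
    calc (-(t / 2 * f)) ^ 2 * c ≤ (-(t / 2 * f)) ^ 2 * B :=
          mul_le_mul_of_nonneg_left (abs_le.1 hc).2 (sq_nonneg _)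
      _ ≤ B ^ 2 * B := mul_le_mul_of_nonneg_right h1 hB0
  have e : (2 * B) ^ 2 * B + 2 * (2 * B) * B * B + B ^ 2 * B = 9 * B ^ 3 := by ring
  linarith

namespace Dat

variable {X : Dat m} {θ : M →ₘ[m] ℝ} {η δ : ℝ}

theorem v2_ae (e : ℝ × ℝ) (t : ℝ) :
    ∀ᵐ x ∂m, X.v2 C e t x = X.J2 C e t x / X.rho C (t • e) x ^ 2 :=
  AEEqFun.coeFn_mk _ _

section Ok

variable (hC : IsGamma C) {κ : ℝ} (hB : C.BEi κ) (hX : X.Ok C θ η δ)
include hC hB hX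

theorem rho_eq (t : ℝ) (e : ℝ × ℝ) :
    X.rho C (t • e) = X.F - t • X.D C e + (t ^ 2 / 2) • X.r C e e := by
  unfold rho
  rw [D_smul, r_smul hC hB hX, smul_smul]
  congr 2
  ring

theorem rho_ae (t : ℝ) (e : ℝ × ℝ) :
    ∀ᵐ x ∂m, X.rho C (t • e) x = X.F x - t * X.D C e x + t ^ 2 / 2 * X.r C e e x := by
  rw [rho_eq hC hB hX]
  filter_upwards [add_ae (X.F - t • X.D C e) ((t ^ 2 / 2) • X.r C e e),
    sub_ae X.F (t • X.D C e), smul_ae (X.D C e) t, smul_ae (X.r C e e) (t ^ 2 / 2)]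
    with x a1 a2 a3 a4
  rw [a1, a2, a3, a4]

theorem J2_eq (t : ℝ) (e : ℝ × ℝ) :
    X.J2 C e t = (X.F - t • X.D' e) * (X.F - t • X.D' e) * C.Γ (X.pt e) (X.pt e)
      + (2 : ℝ) • ((X.F - t • X.D' e) * ((-(t / 2)) • X.F) * C.Γ (X.pt e) (X.G' e e))
      + ((-(t / 2)) • X.F) * ((-(t / 2)) • X.F) * C.Γ (X.G' e e) (X.G' e e) := by
  have pW := (hC.test_A (pt_memI hC hB hX e).1).1
  have gW := (hC.test_A (G'_memI hC hB hX e e).1).1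
  unfold J2 Y Y2
  rw [hC.symm _ gW _ pW]
  algebra

omit hC hB hX in
theorem flux_eq (t : ℝ) (e : ℝ × ℝ) (g : M →ₘ[m] ℝ) :
    X.F * C.Γ (X.pt e) g - t • X.Y C e e g
      = (X.F - t • X.D' e) * C.Γ (X.pt e) g + ((-(t / 2)) • X.F) * C.Γ (X.G' e e) g := by
  unfold Y
  algebra

omit hC hB hX in
theorem coef_ae (t : ℝ) (e : ℝ × ℝ) :
    ∀ᵐ x ∂m, (X.F - t • X.D' e) x = X.F x - t * X.D' e x ∧
      ((-(t / 2)) • X.F) x = -(t / 2 * X.F x) := by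
  filter_upwards [sub_ae X.F (t • X.D' e), smul_ae (X.D' e) t, smul_ae X.F (-(t / 2))]
    with x a1 a2 a3
  refine ⟨by rw [a1, a2], by rw [a3]; ring⟩

theorem J2_ae (t : ℝ) (e : ℝ × ℝ) :
    ∀ᵐ x ∂m, X.J2 C e t x = (X.F x - t * X.D' e x) ^ 2 * C.Γ (X.pt e) (X.pt e) x
      + 2 * (X.F x - t * X.D' e x) * (-(t / 2 * X.F x)) * C.Γ (X.pt e) (X.G' e e) x
      + (-(t / 2 * X.F x)) ^ 2 * C.Γ (X.G' e e) (X.G' e e) x := by
  rw [J2_eq hC hB hX]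
  set c₁ := X.F - t • X.D' e with hc₁
  set c₂ := (-(t / 2)) • X.F with hc₂
  filter_upwards [coef_ae (X := X) t e, add_ae (c₁ * c₁ * C.Γ (X.pt e) (X.pt e)
      + (2 : ℝ) • (c₁ * c₂ * C.Γ (X.pt e) (X.G' e e))) (c₂ * c₂ * C.Γ (X.G' e e) (X.G' e e)),
    add_ae (c₁ * c₁ * C.Γ (X.pt e) (X.pt e)) ((2 : ℝ) • (c₁ * c₂ * C.Γ (X.pt e) (X.G' e e))),
    mul_ae (c₁ * c₁) (C.Γ (X.pt e) (X.pt e)), mul_ae c₁ c₁,
    smul_ae (c₁ * c₂ * C.Γ (X.pt e) (X.G' e e)) 2, mul_ae (c₁ * c₂) (C.Γ (X.pt e) (X.G' e e)),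
    mul_ae c₁ c₂, mul_ae (c₂ * c₂) (C.Γ (X.G' e e) (X.G' e e)), mul_ae c₂ c₂]
    with x a0 a1 a2 a3 a4 a5 a6 a7 a8 a9
  rw [a1, a2, a3, a4, a5, a6, a7, a8, a9, a0.1, a0.2]
  ring

omit hC hB hX in
theorem flux_ae (t : ℝ) (e : ℝ × ℝ) (g : M →ₘ[m] ℝ) :
    ∀ᵐ x ∂m, (X.F * C.Γ (X.pt e) g - t • X.Y C e e g) x
      = (X.F x - t * X.D' e x) * C.Γ (X.pt e) g x
        + (-(t / 2 * X.F x)) * C.Γ (X.G' e e) g x := by
  rw [flux_eq]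
  set c₁ := X.F - t • X.D' e with hc₁
  set c₂ := (-(t / 2)) • X.F with hc₂
  filter_upwards [coef_ae (X := X) t e, add_ae (c₁ * C.Γ (X.pt e) g) (c₂ * C.Γ (X.G' e e) g),
    mul_ae c₁ (C.Γ (X.pt e) g), mul_ae c₂ (C.Γ (X.G' e e) g)] with x a0 a1 a2 a3
  rw [a1, a2, a3, a0.1, a0.2]

/-- where `θ ≠ 1`, everything except `F` vanishes -/
theorem loc_ae (e : ℝ × ℝ) : ∀ᵐ x ∂m, (θ x = 1 ∧ η ≤ X.F x) ∨
    (θ x ≠ 1 ∧ 0 ≤ X.F x ∧ X.D C e x = 0 ∧ X.r C e e x = 0 ∧ C.Γ (X.pt e) (X.pt e) x = 0 ∧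
      C.Γ (X.pt e) (X.G' e e) x = 0 ∧ C.Γ (X.G' e e) (X.G' e e) x = 0) := by
  have pW := (hC.test_A (pt_memI hC hB hX e).1).1
  have gW := (hC.test_A (G'_memI hC hB hX e e).1).1
  filter_upwards [eq_zero_of_loc (loc_D hC hB hX e), eq_zero_of_loc (loc_r hC hB hX e e),
    eq_zero_of_loc (loc_Γpt hC hB hX e pW), eq_zero_of_loc (loc_Γpt hC hB hX e gW),
    eq_zero_of_loc (loc_ΓG' hC hB hX e e gW), le_iff_ae.1 hX.Fη, smul_ae θ η,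
    nonneg_iff_ae.1 hX.hθ0] with x a1 a2 a3 a4 a5 a6 a7 a8
  rw [a7] at a6
  have hη := hX.hη
  by_cases h : θ x = 1
  · left
    refine ⟨h, ?_⟩
    rw [h, mul_one] at a6
    exact a6
  · right
    exact ⟨h, (mul_nonneg hη.le a8).trans a6, a1.resolve_left h, a2.resolve_left h,
      a3.resolve_left h, a4.resolve_left h, a5.resolve_left h⟩

/-- one bound for all functions -/
theorem exists_bound (e : ℝ × ℝ) : ∃ B : ℝ, 0 ≤ B ∧ ∀ᵐ x ∂m, |X.F x| ≤ B ∧ |X.D C e x| ≤ B ∧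
    |X.r C e e x| ≤ B ∧ |X.D' e x| ≤ B ∧ |C.Γ (X.pt e) (X.pt e) x| ≤ B ∧
      |C.Γ (X.pt e) (X.G' e e) x| ≤ B ∧ |C.Γ (X.G' e e) (X.G' e e) x| ≤ B := by
  have hp := pt_memI hC hB hX e
  have hg := G'_memI hC hB hX e e
  obtain ⟨K1, h1⟩ := mem_top_iff.1 (hC.test_A hX.hF.1).2
  obtain ⟨K2, h2⟩ := mem_top_iff.1 (D_memA hC hB hX e).2
  obtain ⟨K3, h3⟩ := mem_top_iff.1 (r_memA hC hB hX e e).2
  obtain ⟨K4, h4⟩ := mem_top_iff.1 (hC.test_A (D'_memI hC hB hX e).1).2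
  obtain ⟨K5, h5⟩ := mem_top_iff.1 (hC.Γ_mem hB hp.1 hp.1).2
  obtain ⟨K6, h6⟩ := mem_top_iff.1 (hC.Γ_mem hB hp.1 hg.1).2
  obtain ⟨K7, h7⟩ := mem_top_iff.1 (hC.Γ_mem hB hg.1 hg.1).2
  refine ⟨|K1| + |K2| + |K3| + |K4| + |K5| + |K6| + |K7|, by positivity, ?_⟩
  filter_upwards [h1, h2, h3, h4, h5, h6, h7] with x b1 b2 b3 b4 b5 b6 b7
  have p1 := abs_nonneg K1
  have p2 := abs_nonneg K2
  have p3 := abs_nonneg K3
  have p4 := abs_nonneg K4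
  have p5 := abs_nonneg K5
  have p6 := abs_nonneg K6
  have p7 := abs_nonneg K7
  refine ⟨?_, ?_, ?_, ?_, ?_, ?_, ?_⟩
  · linarith [le_abs_self K1]
  · linarith [le_abs_self K2]
  · linarith [le_abs_self K3]
  · linarith [le_abs_self K4]
  · linarith [le_abs_self K5]
  · linarith [le_abs_self K6]
  · linarith [le_abs_self K7]

/-- positivity -/
theorem pos_ae (e : ℝ × ℝ) : ∃ ε₀ > 0, ε₀ ≤ 1 ∧ ∃ V ≥ 0, ∀ t ∈ Set.Icc (0 : ℝ) ε₀, ∀ᵐ x ∂m,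
    (θ x = 1 → η / 2 ≤ X.rho C (t • e) x) ∧ 0 ≤ X.rho C (t • e) x ∧ 0 ≤ X.J2 C e t x ∧
      0 ≤ X.v2 C e t x ∧ X.v2 C e t x ≤ V ∧
      X.rho C (t • e) x ^ 2 * X.v2 C e t x = X.J2 C e t x := by
  obtain ⟨B, hB0, hb⟩ := exists_bound hC hB hX e
  have hη := hX.hη
  have pW := (hC.test_A (pt_memI hC hB hX e).1).1
  have gW := (hC.test_A (G'_memI hC hB hX e e).1).1
  refine ⟨min 1 (η / (4 * (B + 1))), lt_min one_pos (by positivity), min_le_left _ _,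
    9 * B ^ 3 / (η / 2) ^ 2, by positivity, ?_⟩
  intro t ht
  have ht0 := ht.1
  have ht1 : t ≤ 1 := ht.2.trans (min_le_left _ _)
  have ht2 : t ≤ η / (4 * (B + 1)) := ht.2.trans (min_le_right _ _)
  have ht3 : t * (4 * (B + 1)) ≤ η := (le_div_iff₀ (by positivity)).1 ht2
  filter_upwards [hb, loc_ae hC hB hX e, rho_ae hC hB hX t e, J2_ae hC hB hX t e,
    v2_ae (X := X) (C := C) e t, hC.toIsDir.gram2_ae pW gW]
    with x b1 b2 b3 b4 b5 b6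
  obtain ⟨c1, c2, c3, c4, c5, c6, c7⟩ := b1
  have hJ0 : 0 ≤ X.J2 C e t x := by
    rw [b4]
    exact b6 _ _
  rcases b2 with ⟨hθ, hF⟩ | ⟨hθ, hF, z1, z2, z3, z4, z5⟩
  · have hρ : η / 2 ≤ X.rho C (t • e) x := by
      rw [b3]
      exact AB.rho_real hB0 ht0 ht1 ht3 hF c2 c3
    have hρ0 : 0 < X.rho C (t • e) x := lt_of_lt_of_le (by positivity) hρ
    have hJB : X.J2 C e t x ≤ 9 * B ^ 3 := by
      rw [b4]
      exact AB.J_real hB0 ht0 ht1 c1 c4 c5 c6 c7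
    have hr2 : (η / 2) ^ 2 ≤ X.rho C (t • e) x ^ 2 := by gcongr
    refine ⟨fun _ => hρ, hρ0.le, hJ0, ?_, ?_, ?_⟩
    · rw [b5]; positivity
    · rw [b5]
      exact div_le_div₀ (by positivity) hJB (by positivity) hr2
    · rw [b5]
      field_simp
  · have hρ : X.rho C (t • e) x = X.F x := by
      rw [b3, z1, z2]; ring
    have hJ : X.J2 C e t x = 0 := by
      rw [b4, z3, z4, z5]; ring
    have hv : X.v2 C e t x = 0 := by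
      rw [b5, hJ, zero_div]
    refine ⟨?_, by rw [hρ]; exact hF, hJ0, hv.ge, ?_, ?_⟩
    · exact fun h => absurd h hθ
    · rw [hv]; positivity
    · rw [hv, hJ, mul_zero]

end Ok

/-- the algebraic part: `J` is dominated by `ρ v`, `v` is bounded, and positivity of `ρ` -/
theorem cen_flux [SigmaFinite m] (hC : IsGamma C) {K : ℝ} (hB : C.BEi K) {θ : M →ₘ[m] ℝ}
    {η δ : ℝ} {X : Dat m} (hX : X.Ok C θ η δ) (e : ℝ × ℝ) :
    ∃ ε₀ > 0, ∃ V ≥ 0, ∀ t ∈ Set.Icc (0 : ℝ) ε₀, 0 ≤ X.rho C (t • e) ∧ 0 ≤ X.v2 C e t ∧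
      (∀ᵐ x ∂m, X.v2 C e t x ≤ V) ∧ X.rho C (t • e) ^ 2 * X.v2 C e t = X.J2 C e t ∧
      ∀ g ∈ C.W, MemLp g ∞ m → MemLp (C.Γ g g) ∞ m →
        MemLp (X.F * C.Γ (X.pt e) g - t • X.Y C e e g : M →ₘ[m] ℝ) 1 m ∧
        I (g * (t • X.r C e e - X.D C e)) = I (X.F * C.Γ (X.pt e) g - t • X.Y C e e g) ∧
        (X.F * C.Γ (X.pt e) g - t • X.Y C e e g) ^ 2
          ≤ X.rho C (t • e) ^ 2 * X.v2 C e t * C.Γ g g := by
  obtain ⟨ε₀, hε₀, -, V, hV, hp⟩ := pos_ae hC hB hX e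
  refine ⟨ε₀, hε₀, V, hV, fun t ht => ?_⟩
  have h := hp t ht
  have hprod : X.rho C (t • e) ^ 2 * X.v2 C e t = X.J2 C e t := by
    rw [eq_iff_ae]
    filter_upwards [h, mul_ae (X.rho C (t • e) ^ 2) (X.v2 C e t), sq_ae (X.rho C (t • e))]
      with x a1 a2 a3
    rw [a2, a3]
    exact a1.2.2.2.2.2
  refine ⟨nonneg_iff_ae.2 (h.mono fun x hx => hx.2.1), nonneg_iff_ae.2
    (h.mono fun x hx => hx.2.2.2.1), h.mono fun x hx => hx.2.2.2.2.1, hprod, ?_⟩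
  intro g hg hg1 hg2
  have hD := hC.toIsDir
  have pI := pt_memI hC hB hX e
  have pW := (hC.test_A pI.1).1
  have gW := (hC.test_A (G'_memI hC hB hX e e).1).1
  have q1 : MemLp (X.F * C.Γ (X.pt e) g : M →ₘ[m] ℝ) 1 m :=
    mem_mul_top (hC.test_A hX.hF.1).2 (hD.Γ_mem1 pW hg)
  have q2 := Y_mem1 hC hB hX e e hg
  refine ⟨mem_sub q1 (mem_smul _ q2), ?_, ?_⟩
  · have g2 := hC.memLp g hg
    have n1 : MemLp (g * X.r C e e : M →ₘ[m] ℝ) 1 m :=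
      mem_mul_22 g2 (hC.memLp _ (r_memA hC hB hX e e).1)
    have n2 : MemLp (g * X.D C e : M →ₘ[m] ℝ) 1 m :=
      mem_mul_22 g2 (hC.memLp _ (D_memA hC hB hX e).1)
    rw [mul_sub, mul_smul_comm, I_sub (mem_smul _ n1) n2, I_smul, ibp_r hC hB hX e e hg,
      ibp_D hC hB hX e hg, I_sub q1 (mem_smul _ q2), I_smul]
    ring
  · rw [hprod, le_iff_ae]
    filter_upwards [flux_ae (X := X) (C := C) t e g, J2_ae hC hB hX t e,
      sq_ae (X.F * C.Γ (X.pt e) g - t • X.Y C e e g), mul_ae (X.J2 C e t) (C.Γ g g),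
      hD.cs2_ae pW gW hg] with x a1 a2 a3 a4 a5
    rw [a3, a4, a1, a2]
    exact a5 _ _

end Dat

end Vale.Agent.P233
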