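import Vale.Agent.P233.AB.CenI1

/-!
Block CENI-2, first part: the `δ`-errors of the coefficient of `ε³` of a centre curve.
-/

open MeasureTheory Filter Topology
open scoped ENNReal NNReal

namespace Vale.Agent.P233

variable {M : Type*} [MeasurableSpace M] {m : Measure M} {C : Calc m}

theorem AB.cenK_real {η Kg KF δ f g0 pg pu gg gu uu dd dp : ℝ} (hδ : 0 < δ) (hη : 0 < η)
    (hf0 : 0 ≤ f) (hfK : f ≤ KF) (hreg : η ≤ f ∨ g0 = 0) (hg0 : 0 ≤ g0) (hgK : g0 ≤ Kg)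
    (h1 : pg ^ 2 ≤ g0 * gg) (h2 : pu ^ 2 ≤ g0 * uu) (h3 : 0 ≤ gg) (h4 : 0 ≤ uu)
    (h5 : 0 ≤ δ ^ 2 * gg + 2 * δ * (-1) * gu + (-1) ^ 2 * uu) :
    ((dp - dd) ^ 2 * g0 / f + (dp - dd) * (pg + pu) + 4⁻¹ * (f * (gg + 2 * gu + uu)))
      + 2⁻¹ * (dp * pg + 2⁻¹ * (f * (gg + gu)))
      ≤ 2⁻¹ * (f * gg + dd * pg) + (Kg / η + 3 / 4 / δ + 1 / 2) * (dp - dd) ^ 2
        + (3 / 4 * δ * Kg + 3 / 8 * δ * KF) * gg
        + (Kg / 2 + 3 / 8 / δ * KF + KF / 4) * uu := by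
  set d := dp - dd with hd
  have hKg : 0 ≤ Kg := hg0.trans hgK
  have hKF : 0 ≤ KF := hf0.trans hfK
  have a1 : d ^ 2 * g0 / f ≤ Kg / η * d ^ 2 := by
    rcases hreg with h | h
    · have hf : 0 < f := hη.trans_le h
      calc d ^ 2 * g0 / f ≤ d ^ 2 * Kg / η := by
            apply div_le_div₀ (by positivity) (by gcongr) hη h
        _ = Kg / η * d ^ 2 := by ring
    · rw [h, mul_zero, zero_div]
      positivity
  have k1 : pg ^ 2 ≤ Kg * gg := h1.trans (mul_le_mul_of_nonneg_right hgK h3)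
  have k2 : pu ^ 2 ≤ Kg * uu := h2.trans (mul_le_mul_of_nonneg_right hgK h4)
  have a2 : 2 * (d * pg) ≤ d ^ 2 / δ + δ * (Kg * gg) := by
    have e1 : 2 * (d * pg) ≤ d ^ 2 / δ + δ * pg ^ 2 := by
      have e2 : d ^ 2 / δ + δ * pg ^ 2 - 2 * (d * pg) = (d - δ * pg) ^ 2 / δ := by
        field_simp
        ring
      have e3 : 0 ≤ (d - δ * pg) ^ 2 / δ := by positivity
      linarith
    have e4 : δ * pg ^ 2 ≤ δ * (Kg * gg) := mul_le_mul_of_nonneg_left k1 hδ.le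
    linarith
  have a3 : 2 * (d * pu) ≤ d ^ 2 + Kg * uu := by nlinarith [sq_nonneg (d - pu)]
  have a4 : gu ≤ δ / 2 * gg + uu / (2 * δ) := by
    have e1 : δ / 2 * gg + uu / (2 * δ) - gu
        = (δ ^ 2 * gg + 2 * δ * (-1) * gu + (-1) ^ 2 * uu) / (2 * δ) := by
      field_simp
      ring
    have e2 : 0 ≤ (δ ^ 2 * gg + 2 * δ * (-1) * gu + (-1) ^ 2 * uu) / (2 * δ) := by positivity
    linarith
  have a5 : f * gu ≤ KF * (δ / 2 * gg + uu / (2 * δ)) := by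
    have e1 : f * gu ≤ f * (δ / 2 * gg + uu / (2 * δ)) := mul_le_mul_of_nonneg_left a4 hf0
    have e2 : 0 ≤ δ / 2 * gg + uu / (2 * δ) := by positivity
    exact e1.trans (mul_le_mul_of_nonneg_right hfK e2)
  have a6 : f * uu ≤ KF * uu := mul_le_mul_of_nonneg_right hfK h4
  have e : (d ^ 2 * g0 / f + d * (pg + pu) + 4⁻¹ * (f * (gg + 2 * gu + uu)))
      + 2⁻¹ * (dp * pg + 2⁻¹ * (f * (gg + gu)))
      = 2⁻¹ * (f * gg + dd * pg) + d ^ 2 * g0 / f + 3 / 4 * (2 * (d * pg)) + 1 / 2 * (2 * (d * pu))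
        + 3 / 4 * (f * gu) + 1 / 4 * (f * uu) := by
    rw [hd]; ring
  have e' : (Kg / η + 3 / 4 / δ + 1 / 2) * d ^ 2
        + (3 / 4 * δ * Kg + 3 / 8 * δ * KF) * gg
        + (Kg / 2 + 3 / 8 / δ * KF + KF / 4) * uu
      = Kg / η * d ^ 2 + 3 / 4 * (d ^ 2 / δ + δ * (Kg * gg)) + 1 / 2 * (d ^ 2 + Kg * uu)
        + 3 / 4 * (KF * (δ / 2 * gg + uu / (2 * δ))) + 1 / 4 * (KF * uu) := by
    field_simp
    ring
  rw [e]
  linarith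

namespace Dat

/-- `|Y_ee - D_e ∇e|²/F` -/
noncomputable def qc (X : Dat m) (C : Calc m) (e : ℝ × ℝ) : M →ₘ[m] ℝ :=
  AEEqFun.mk (fun x => (X.D' e x - X.D C e x) ^ 2 * C.Γ (X.pt e) (X.pt e) x / X.F x)
    ((((((AEEqFun.measurable _).sub (AEEqFun.measurable _)).pow_const 2).mul
      (AEEqFun.measurable _)).div (AEEqFun.measurable _)).aestronglyMeasurable)
    + (X.D' e - X.D C e) * C.Γ (X.pt e) (X.G' e e)
    + (4 : ℝ)⁻¹ • (X.F * C.Γ (X.G' e e) (X.G' e e))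

variable {X : Dat m} {θ : M →ₘ[m] ℝ} {η δ : ℝ}

theorem qc_ae (e : ℝ × ℝ) : ∀ᵐ x ∂m, X.qc C e x
    = (X.D' e x - X.D C e x) ^ 2 * C.Γ (X.pt e) (X.pt e) x / X.F x
      + (X.D' e x - X.D C e x) * C.Γ (X.pt e) (X.G' e e) x
      + 4⁻¹ * (X.F x * C.Γ (X.G' e e) (X.G' e e) x) := by
  unfold qc
  set q₁ : M →ₘ[m] ℝ :=
    AEEqFun.mk (fun x => (X.D' e x - X.D C e x) ^ 2 * C.Γ (X.pt e) (X.pt e) x / X.F x)
    ((((((AEEqFun.measurable _).sub (AEEqFun.measurable _)).pow_const 2).mul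
      (AEEqFun.measurable _)).div (AEEqFun.measurable _)).aestronglyMeasurable) with hq₁
  have h1 : ∀ᵐ x ∂m, q₁ x
      = (X.D' e x - X.D C e x) ^ 2 * C.Γ (X.pt e) (X.pt e) x / X.F x := AEEqFun.coeFn_mk _ _
  filter_upwards [h1, add_ae (q₁ + (X.D' e - X.D C e) * C.Γ (X.pt e) (X.G' e e))
      ((4 : ℝ)⁻¹ • (X.F * C.Γ (X.G' e e) (X.G' e e))),
    add_ae q₁ ((X.D' e - X.D C e) * C.Γ (X.pt e) (X.G' e e)),
    mul_ae (X.D' e - X.D C e) (C.Γ (X.pt e) (X.G' e e)), sub_ae (X.D' e) (X.D C e),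
    smul_ae (X.F * C.Γ (X.G' e e) (X.G' e e)) (4 : ℝ)⁻¹,
    mul_ae X.F (C.Γ (X.G' e e) (X.G' e e))] with x a1 a2 a3 a4 a5 a6 a7
  rw [a2, a3, a1, a4, a5, a6, a7]

section Ok

variable (hC : IsGamma C) {κ : ℝ} (hB : C.BEi κ) (hX : X.Ok C θ η δ)
include hC hB hX

theorem qc_mem1 (e : ℝ × ℝ) : MemLp (X.qc C e) 1 m := by
  have hD := hC.toIsDir
  have hp := pt_memI hC hB hX e
  have hg := G'_memI hC hB hX e e
  have pW := (hC.test_A hp.1).1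
  have gW := (hC.test_A hg.1).1
  have dA := hD.A_sub (hC.test_A (D'_memI hC hB hX e).1) (D_memA hC hB hX e)
  refine mem_add (mem_add ?_ ?_) ?_
  · obtain ⟨K, hK⟩ := mem_top_iff.1 dA.2
    refine mem_of_le (mem_smul (K ^ 2 / η) (hC.mem1 _ pW)) ?_
    have h1 : ∀ᵐ x ∂m, (AEEqFun.mk (fun x => (X.D' e x - X.D C e x) ^ 2
        * C.Γ (X.pt e) (X.pt e) x / X.F x) ((((((AEEqFun.measurable _).sub
        (AEEqFun.measurable _)).pow_const 2).mul (AEEqFun.measurable _)).div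
        (AEEqFun.measurable _)).aestronglyMeasurable) : M →ₘ[m] ℝ) x
      = (X.D' e x - X.D C e x) ^ 2 * C.Γ (X.pt e) (X.pt e) x / X.F x := AEEqFun.coeFn_mk _ _
    filter_upwards [h1, hK, sub_ae (X.D' e) (X.D C e), loc_ae hC hB hX e,
      hD.Γ_nonneg_ae pW, smul_ae (C.Γ (X.pt e) (X.pt e)) (K ^ 2 / η)] with x a1 a2 a3 a4 a5 a6
    rw [a1, a6]
    rw [a3] at a2
    have hη := hX.hη
    rcases a4 with ⟨-, hF⟩ | ⟨-, hF, -, -, z, -, -⟩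
    · have hF0 : 0 < X.F x := hη.trans_le hF
      rw [abs_of_nonneg (by positivity), abs_of_nonneg (by positivity)]
      have h2 : (X.D' e x - X.D C e x) ^ 2 ≤ K ^ 2 := by
        rw [← sq_abs]; gcongr
      calc (X.D' e x - X.D C e x) ^ 2 * C.Γ (X.pt e) (X.pt e) x / X.F x
          ≤ K ^ 2 * C.Γ (X.pt e) (X.pt e) x / η :=
            div_le_div₀ (by positivity) (mul_le_mul_of_nonneg_right h2 a5) hη hF
        _ = K ^ 2 / η * C.Γ (X.pt e) (X.pt e) x := by ring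
    · rw [z]
      simp
  · exact mem_mul_top dA.2 (hD.Γ_mem1 pW gW)
  · exact mem_smul _ (mem_mul_top (hC.test_A hX.hF.1).2 (hC.mem1 _ gW))

theorem Ge_memA (e : ℝ × ℝ) : X.Ge C e ∈ C.A :=
  hC.Γ_mem hB (pt_memI hC hB hX e).1 (pt_memI hC hB hX e).1

/-- the difference of `Γ(e,e)` and its approximation -/
theorem nrm2_Ge (e : ℝ × ℝ) : C.nrm2 (X.G' e e - X.Ge C e)
    ≤ (4 * (e.1 * e.1) ^ 2 + 4 * (e.1 * e.2 + e.2 * e.1) ^ 2 + 2 * (e.2 * e.2) ^ 2) * δ ^ 2 := by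
  have hD := hC.toIsDir
  have aW := (hC.test_A hX.ha.1).1
  have bW := (hC.test_A hX.hb.1).1
  have hsm : ∀ (c : ℝ) {f : M →ₘ[m] ℝ}, f ∈ C.W → C.nrm2 (c • f) = c ^ 2 * C.nrm2 f := by
    intro c f hf
    unfold Calc.nrm2
    have e1 : (c • f) ^ 2 = c ^ 2 • f ^ 2 := by algebra
    rw [hD.E_smul c hf, e1, I_smul]
    ring
  have m1 := hD.sub_mem (hC.test_A hX.hP.1).1 (hC.Γ_mem hB hX.ha.1 hX.ha.1).1
  have m2 := hD.sub_mem (hC.test_A hX.hQ.1).1 (hC.Γ_mem hB hX.ha.1 hX.hb.1).1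
  have m3 := hD.sub_mem (hC.test_A hX.hR.1).1 (hC.Γ_mem hB hX.hb.1 hX.hb.1).1
  have s1 := hD.smul_mem (e.1 * e.1) _ m1
  have s2 := hD.smul_mem (e.1 * e.2 + e.2 * e.1) _ m2
  have s3 := hD.smul_mem (e.2 * e.2) _ m3
  have e0 : X.G' e e - X.Ge C e = (e.1 * e.1) • (X.P - C.Γ X.a X.a)
      + (e.1 * e.2 + e.2 * e.1) • (X.Q - C.Γ X.a X.b) + (e.2 * e.2) • (X.R - C.Γ X.b X.b) := by
    have a1 := hD.smul_mem e.1 _ aW
    have b1 := hD.smul_mem e.2 _ bW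
    have e1 : X.Ge C e = (e.1 * e.1) • C.Γ X.a X.a + (e.1 * e.2 + e.2 * e.1) • C.Γ X.a X.b
        + (e.2 * e.2) • C.Γ X.b X.b := by
      unfold Ge pt
      rw [hD.add_left _ a1 _ b1 _ (hD.add_mem _ a1 _ b1), hD.Γ_add_right a1 a1 b1,
        hD.Γ_add_right b1 a1 b1, hD.smul_left _ _ aW _ a1, hD.smul_left _ _ aW _ b1,
        hD.smul_left _ _ bW _ a1, hD.smul_left _ _ bW _ b1, hD.Γ_smul_right _ aW aW,
        hD.Γ_smul_right _ aW bW, hD.Γ_smul_right _ bW aW, hD.Γ_smul_right _ bW bW,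
        hD.symm _ bW _ aW]
      algebra
    rw [e1]
    unfold G'
    algebra
  rw [e0]
  have h1 := hD.nrm2_add_le (hD.add_mem _ s1 _ s2) s3
  have h2 := hD.nrm2_add_le s1 s2
  rw [hsm _ m1, hsm _ m2] at h2
  rw [hsm _ m3] at h1
  have q1 : (e.1 * e.1) ^ 2 * C.nrm2 (X.P - C.Γ X.a X.a) ≤ (e.1 * e.1) ^ 2 * δ ^ 2 :=
    mul_le_mul_of_nonneg_left hX.nP (sq_nonneg _)
  have q2 : (e.1 * e.2 + e.2 * e.1) ^ 2 * C.nrm2 (X.Q - C.Γ X.a X.b)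
      ≤ (e.1 * e.2 + e.2 * e.1) ^ 2 * δ ^ 2 :=
    mul_le_mul_of_nonneg_left hX.nQ (sq_nonneg _)
  have q3 : (e.2 * e.2) ^ 2 * C.nrm2 (X.R - C.Γ X.b X.b) ≤ (e.2 * e.2) ^ 2 * δ ^ 2 :=
    mul_le_mul_of_nonneg_left hX.nR (sq_nonneg _)
  linarith

theorem I_D_sub (e : ℝ × ℝ) : I ((X.D' e - X.D C e) ^ 2) ≤ (2 * e.1 ^ 2 + 2 * e.2 ^ 2) * δ ^ 2 := by
  have hD := hC.toIsDir
  have m1 := hD.sub_mem (hC.test_A hX.hA.1).1 (De_memA hC hB hX.hF hX.ha).1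
  have m2 := hD.sub_mem (hC.test_A hX.hB.1).1 (De_memA hC hB hX.hF hX.hb).1
  have e0 : X.D' e - X.D C e = e.1 • (X.A - C.De X.F X.a) + e.2 • (X.B - C.De X.F X.b) := by
    unfold D' D
    algebra
  rw [e0]
  have s1 := hD.smul_mem e.1 _ m1
  have s2 := hD.smul_mem e.2 _ m2
  have h1 := I_sq_add_le (hC.memLp _ s1) (hC.memLp _ s2)
  have e1 : ∀ (c : ℝ) (f : M →ₘ[m] ℝ), I ((c • f) ^ 2) = c ^ 2 * I (f ^ 2) := by
    intro c f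
    have e1 : (c • f) ^ 2 = c ^ 2 • f ^ 2 := by algebra
    rw [e1, I_smul]
  rw [e1, e1] at h1
  have q1 : e.1 ^ 2 * I ((X.A - C.De X.F X.a) ^ 2) ≤ e.1 ^ 2 * δ ^ 2 :=
    mul_le_mul_of_nonneg_left ((hD.I_sq_le_nrm2 m1).trans hX.nA) (sq_nonneg _)
  have q2 : e.2 ^ 2 * I ((X.B - C.De X.F X.b) ^ 2) ≤ e.2 ^ 2 * δ ^ 2 :=
    mul_le_mul_of_nonneg_left ((hD.I_sq_le_nrm2 m2).trans hX.nB) (sq_nonneg _)
  linarith

omit hC hB hX in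
theorem Y_self_ae (e : ℝ × ℝ) (g : M →ₘ[m] ℝ) : ∀ᵐ x ∂m, X.Y C e e g x
    = X.D' e x * C.Γ (X.pt e) g x + 2⁻¹ * (X.F x * C.Γ (X.G' e e) g x) := by
  have e0 : X.Y C e e g = X.D' e * C.Γ (X.pt e) g + (2 : ℝ)⁻¹ • (X.F * C.Γ (X.G' e e) g) := by
    unfold Y
    algebra
  rw [e0]
  filter_upwards [add_ae (X.D' e * C.Γ (X.pt e) g) ((2 : ℝ)⁻¹ • (X.F * C.Γ (X.G' e e) g)),
    mul_ae (X.D' e) (C.Γ (X.pt e) g), smul_ae (X.F * C.Γ (X.G' e e) g) (2 : ℝ)⁻¹,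
    mul_ae X.F (C.Γ (X.G' e e) g)] with x a1 a2 a3 a4
  rw [a1, a2, a3, a4]

/-- the coefficient of `ε³`, up to `δ` -/
theorem cenK (hδ : 0 < δ) (hδ1 : δ ≤ 1) (e : ℝ × ℝ) {Kg KF : ℝ}
    (hKg : ∀ᵐ x ∂m, C.Γ (X.pt e) (X.pt e) x ≤ Kg) (hKF : ∀ᵐ x ∂m, X.F x ≤ KF) (hKg0 : 0 ≤ Kg)
    (hKF0 : 0 ≤ KF) {Cd Cu : ℝ} (hCd : Cd = 2 * e.1 ^ 2 + 2 * e.2 ^ 2)
    (hCu : Cu = 4 * (e.1 * e.1) ^ 2 + 4 * (e.1 * e.2 + e.2 * e.1) ^ 2 + 2 * (e.2 * e.2) ^ 2) :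
    I (X.qc C e) - 2⁻¹ * I (X.r C e e * X.Ge C e) ≤ 6 * X.C3 C e
      + ((Kg / η + 1 / 2) * Cd + 3 / 4 * Cd + (3 / 4 * Kg + 3 / 8 * KF) * I (C.Γ (X.Ge C e)
        (X.Ge C e)) + (Kg / 2 + KF / 4) * Cu + 3 / 8 * KF * Cu) * δ := by
  have hD := hC.toIsDir
  have hη := hX.hη
  have hp := pt_memI hC hB hX e
  have hg := G'_memI hC hB hX e e
  have pW := (hC.test_A hp.1).1
  have gW := (hC.test_A hg.1).1
  have GA := Ge_memA hC hB hX e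
  have GW := GA.1
  set G := X.Ge C e with hG
  set u := X.G' e e - G with hu
  have uW : u ∈ C.W := hD.sub_mem gW GW
  have eG : X.G' e e = G + u := by rw [hu]; ring
  have dA := hD.A_sub (hC.test_A (D'_memI hC hB hX e).1) (D_memA hC hB hX e)
  have d2 : MemLp (X.D' e - X.D C e : M →ₘ[m] ℝ) 2 m := hC.memLp _ dA.1
  have FA := hC.test_A hX.hF.1
  have i1 : I (G * X.r C e e) = - I (X.Y C e e G) := ibp_r hC hB hX e e GW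
  rw [mul_comm (X.r C e e) G, i1]
  have YM := Y_mem1 hC hB hX e e GW
  have qM := qc_mem1 hC hB hX e
  have lhs : I (X.qc C e) - 2⁻¹ * -I (X.Y C e e G) = I (X.qc C e + (2 : ℝ)⁻¹ • X.Y C e e G) := by
    rw [I_add qM (mem_smul _ YM), I_smul]
    ring
  rw [lhs]
  have c3 : 6 * X.C3 C e = I ((2 : ℝ)⁻¹ • (X.F * C.Γ G G + X.D C e * C.Γ (X.pt e) G)) := by
    unfold C3
    rw [← hG, I_smul, I_add (mem_mul_top FA.2 (hC.mem1 _ GW))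
      (mem_mul_top (D_memA hC hB hX e).2 (hD.Γ_mem1 pW GW))]
    ring
  set R0 : M →ₘ[m] ℝ := (2 : ℝ)⁻¹ • (X.F * C.Γ G G + X.D C e * C.Γ (X.pt e) G) with hR0
  set c1 : ℝ := Kg / η + 3 / 4 / δ + 1 / 2 with hc1
  set c2 : ℝ := 3 / 4 * δ * Kg + 3 / 8 * δ * KF with hc2
  set c3' : ℝ := Kg / 2 + 3 / 8 / δ * KF + KF / 4 with hc3
  have mR0 : MemLp R0 1 m := mem_smul _ (mem_add (mem_mul_top FA.2 (hC.mem1 _ GW))
      (mem_mul_top (D_memA hC hB hX e).2 (hD.Γ_mem1 pW GW)))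
  have mono : I (X.qc C e + (2 : ℝ)⁻¹ • X.Y C e e G)
      ≤ I (R0 + c1 • (X.D' e - X.D C e) ^ 2 + c2 • C.Γ G G + c3' • C.Γ u u) := by
    refine I_mono (mem_add qM (mem_smul _ YM)) (mem_add (mem_add (mem_add mR0
      (mem_smul _ (mem_sq d2))) (mem_smul _ (hC.mem1 _ GW))) (mem_smul _ (hC.mem1 _ uW))) ?_
    rw [le_iff_ae]
    have f1 : C.Γ (X.pt e) (X.G' e e) = C.Γ (X.pt e) G + C.Γ (X.pt e) u := by
      rw [eG, hD.Γ_add_right pW GW uW]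
    have f2 : C.Γ (X.G' e e) (X.G' e e) = C.Γ G G + (2 : ℝ) • C.Γ G u + C.Γ u u := by
      have := hD.Γ_expand 1 GW uW
      rw [one_smul, mul_one, one_pow, one_smul] at this
      rw [eG, this]
    have f3 : C.Γ (X.G' e e) G = C.Γ G G + C.Γ G u := by
      rw [eG, hD.add_left _ GW _ uW _ GW, hD.symm _ uW _ GW]
    filter_upwards [add_ae (X.qc C e) ((2 : ℝ)⁻¹ • X.Y C e e G), smul_ae (X.Y C e e G) (2 : ℝ)⁻¹,
      qc_ae (X := X) (C := C) e, Y_self_ae (X := X) (C := C) e G, eq_iff_ae.1 f1, eq_iff_ae.1 f2,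
      eq_iff_ae.1 f3, add_ae (C.Γ (X.pt e) G) (C.Γ (X.pt e) u),
      add_ae (C.Γ G G + (2 : ℝ) • C.Γ G u) (C.Γ u u), add_ae (C.Γ G G) ((2 : ℝ) • C.Γ G u),
      smul_ae (C.Γ G u) 2, add_ae (C.Γ G G) (C.Γ G u),
      add_ae (R0 + c1 • (X.D' e - X.D C e) ^ 2 + c2 • C.Γ G G) (c3' • C.Γ u u),
      add_ae (R0 + c1 • (X.D' e - X.D C e) ^ 2) (c2 • C.Γ G G),
      add_ae R0 (c1 • (X.D' e - X.D C e) ^ 2), smul_ae ((X.D' e - X.D C e) ^ 2) c1,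
      sq_ae (X.D' e - X.D C e), sub_ae (X.D' e) (X.D C e), smul_ae (C.Γ G G) c2,
      smul_ae (C.Γ u u) c3', smul_ae (X.F * C.Γ G G + X.D C e * C.Γ (X.pt e) G) (2 : ℝ)⁻¹,
      add_ae (X.F * C.Γ G G) (X.D C e * C.Γ (X.pt e) G), mul_ae X.F (C.Γ G G),
      mul_ae (X.D C e) (C.Γ (X.pt e) G), loc_ae hC hB hX e, hD.Γ_nonneg_ae pW, hKg, hKF,
      hD.Γ_cs_ae pW GW, hD.Γ_cs_ae pW uW, hD.Γ_nonneg_ae GW, hD.Γ_nonneg_ae uW,
      hD.gram2_ae GW uW]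
      with x a1 a2 a3 a4 a5 a6 a7 a8 a9 a10 a11 a12 a13 a14 a15 a16 a17 a18 a19 a20 a21 a22 a23 a24
        b1 b2 b3 b4 b5 b6 b7 b8 b9
    rw [a1, a2, a3, a4, a5, a6, a7, a8, a9, a10, a11, a12, a13, a14, a15, a16, a17, a18, a19, a20,
      hR0, a21, a22, a23, a24, hc1, hc2, hc3]
    refine AB.cenK_real hδ hη ?_ b4 ?_ b2 b3 b5 b6 b7 b8 (b9 δ (-1))
    · rcases b1 with ⟨-, h⟩ | ⟨-, h, -⟩
      · exact hη.le.trans h
      · exact h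
    · rcases b1 with ⟨-, h⟩ | ⟨-, -, -, -, z, -, -⟩
      · exact Or.inl h
      · exact Or.inr z
  refine mono.trans ?_
  rw [I_add (mem_add (mem_add mR0 (mem_smul _ (mem_sq d2))) (mem_smul _ (hC.mem1 _ GW)))
    (mem_smul _ (hC.mem1 _ uW)), I_add (mem_add mR0 (mem_smul _ (mem_sq d2)))
    (mem_smul _ (hC.mem1 _ GW)), I_add mR0 (mem_smul _ (mem_sq d2)), I_smul c1,
    I_smul c2, I_smul c3', ← c3]
  have hI1 : I ((X.D' e - X.D C e) ^ 2) ≤ Cd * δ ^ 2 := by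
    rw [hCd]; exact I_D_sub hC hB hX e
  have hI2 : I (C.Γ u u) ≤ Cu * δ ^ 2 := by
    rw [hCu]; exact (hD.E_le_nrm2 u).trans (nrm2_Ge hC hB hX e)
  have hE : 0 ≤ I (C.Γ G G) := hD.E_nonneg GW
  have hCd0 : 0 ≤ Cd := by rw [hCd]; positivity
  have hCu0 : 0 ≤ Cu := by rw [hCu]; positivity
  have hc10 : 0 ≤ c1 := by rw [hc1]; positivity
  have hc30 : 0 ≤ c3' := by rw [hc3]; positivity
  have t1 : c1 * I ((X.D' e - X.D C e) ^ 2) ≤ ((Kg / η + 1 / 2) * Cd + 3 / 4 * Cd) * δ := by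
    calc c1 * I ((X.D' e - X.D C e) ^ 2) ≤ c1 * (Cd * δ ^ 2) :=
          mul_le_mul_of_nonneg_left hI1 hc10
      _ = (Kg / η + 1 / 2) * Cd * δ * δ + 3 / 4 * Cd * δ := by
          rw [hc1]; field_simp; ring
      _ ≤ (Kg / η + 1 / 2) * Cd * δ * 1 + 3 / 4 * Cd * δ := by gcongr
      _ = _ := by ring
  have t2 : c2 * I (C.Γ G G) = (3 / 4 * Kg + 3 / 8 * KF) * I (C.Γ G G) * δ := by
    rw [hc2]; ring
  have t3 : c3' * I (C.Γ u u) ≤ ((Kg / 2 + KF / 4) * Cu + 3 / 8 * KF * Cu) * δ := by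
    calc c3' * I (C.Γ u u) ≤ c3' * (Cu * δ ^ 2) := mul_le_mul_of_nonneg_left hI2 hc30
      _ = (Kg / 2 + KF / 4) * Cu * δ * δ + 3 / 8 * KF * Cu * δ := by
          rw [hc3]; field_simp; ring
      _ ≤ (Kg / 2 + KF / 4) * Cu * δ * 1 + 3 / 8 * KF * Cu * δ := by gcongr
      _ = _ := by ring
  linarith

end Ok

end Dat

end Vale.Agent.P233
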