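import Vale.Agent.P233.AB.Mas

open MeasureTheory Filter Topology
open scoped ENNReal NNReal

namespace Vale.Agent.P233

variable {M : Type*} [MeasurableSpace M] {m : Measure M}

/-- `div (φ ∇a)` -/
noncomputable def Calc.De (C : Calc m) (φ a : M →ₘ[m] ℝ) : M →ₘ[m] ℝ :=
  C.Γ φ a + φ * C.lap a

/-- `∫ φ Hess b (∇a, ∇h)` for test functions `a`, `b` and `h ∈ W` -/
noncomputable def Calc.HW (C : Calc m) (b a h φ : M →ₘ[m] ℝ) : ℝ :=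
  (2 : ℝ)⁻¹ * (-I (C.Γ b h * C.De φ a) + I (φ * C.Γ h (C.Γ b a)) + I (C.Γ a h * C.De φ b))

/-- `R(∇a,∇b,∇b,∇a)(f) + 3 ∫ f |∇_{∇a} ∇b|²` -/
noncomputable def Calc.S0 (C : Calc m) (a b f : M →ₘ[m] ℝ) : ℝ :=
  -I (C.De f a * C.hess b a b) + I (C.De f b * C.hess b a a) + 2 * C.HW b a (C.Γ a b) f
    - (4 : ℝ)⁻¹ * I (f * C.Γ (C.Γ a a) (C.Γ b b))

/-- The core inequality for a triple `(a,b,f)`:
`κ ∫ f |∇a ∧ ∇b|² ≤ R(∇a,∇b,∇b,∇a)(f) + 3 ∫ f |∇_{∇a} ∇b + ∇k|² + K ∑ ∫ f (|∇a_i|² - t_i)²`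
for all test functions `k` and all constants `t_i ≥ 0` (`a_1 = a`, `a_2 = b`, `a_3 = -a-b`). -/
def Calc.CoreAt (C : Calc m) (κ K : ℝ) (a b f : M →ₘ[m] ℝ) : Prop :=
  ∀ k ∈ C.Test, ∀ t₁ t₂ t₃ : ℝ, 0 ≤ t₁ → 0 ≤ t₂ → 0 ≤ t₃ →
    κ * I (f * (C.Γ a a * C.Γ b b - C.Γ a b ^ 2)) ≤
      C.S0 a b f + 6 * C.HW b a k f + 3 * I (f * C.Γ k k)
        + K * (I (f * (C.Γ a a - t₁ • 1) ^ 2) + I (f * (C.Γ b b - t₂ • 1) ^ 2)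
          + I (f * (C.Γ (a + b) (a + b) - t₃ • 1) ^ 2))

end Vale.Agent.P233
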