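import Vale.Agent.P233.AB.Ext4
import Vale.Agent.P233.Metric2

set_option linter.all false

open MeasureTheory Filter Topology
open scoped ENNReal NNReal

namespace Vale.Agent.P233

/-- one smooth step with levels `1/4` and `3/4` -/
theorem exists_step4 : ∃ h : ℝ → ℝ, ContDiff ℝ 3 h ∧ (∀ x, x ≤ 1 / 4 → h x = 0) ∧
    (∀ x, 3 / 4 ≤ x → h x = 1) ∧ (∀ x, 0 ≤ h x ∧ h x ≤ 1) := by
  refine ⟨fun x => Real.smoothTransition (2 * x - 1 / 2),
    Real.smoothTransition.contDiff.comp (by fun_prop), fun x hx =>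
    Real.smoothTransition.zero_of_nonpos (by linarith), fun x hx =>
    Real.smoothTransition.one_of_one_le (by linarith),
    fun x => ⟨Real.smoothTransition.nonneg _, Real.smoothTransition.le_one _⟩⟩

variable {M : Type*} [MetricSpace M] [SecondCountableTopology M] [MeasurableSpace M]
  [BorelSpace M] {m : Measure M}

/-- the Lipschitz cut-off function -/
theorem exists_eta (hfin : ∀ (x : M) (r : ℝ), m (Metric.ball x r) < ∞) (x₀ : M) {R : ℝ}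
    (hR : 0 < R) : ∃ η ∈ (sob m).W, (∀ᵐ x ∂m, |η x| ≤ 1) ∧
      (∀ᵐ x ∂m, dist x x₀ ≤ 2 * R → η x = 1) ∧ (∀ᵐ x ∂m, 3 * R ≤ dist x x₀ → η x = 0) ∧
      ∀ᵐ x ∂m, |(sob m).Γ η η x| ≤ (R⁻¹) ^ 2 := by
  set w : M → ℝ := fun x => max 0 (min 1 (3 - dist x x₀ / R)) with hw
  have hlip : LipschitzWith (Real.toNNReal R⁻¹) w := by
    have h1 : LipschitzWith (Real.toNNReal R⁻¹) (fun x : M => 3 - dist x x₀ / R) := by
      refine LipschitzWith.of_dist_le_mul fun x y => ?_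
      rw [Real.dist_eq, Real.coe_toNNReal _ (inv_nonneg.2 hR.le)]
      have e : 3 - dist x x₀ / R - (3 - dist y x₀ / R) = R⁻¹ * (dist y x₀ - dist x x₀) := by ring
      rw [e, abs_mul, abs_of_nonneg (inv_nonneg.2 hR.le)]
      refine mul_le_mul_of_nonneg_left ?_ (inv_nonneg.2 hR.le)
      rw [dist_comm x y]
      exact abs_dist_sub_le y x x₀
    exact (h1.const_min 1).const_max 0
  have hw0 : ∀ x, 0 ≤ w x := fun x => le_max_left _ _
  have hw1 : ∀ x, w x ≤ 1 := fun x => max_le zero_le_one (min_le_left _ _)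
  have hz : ∀ x, 3 * R ≤ dist x x₀ → w x = 0 := by
    intro x hx
    have h1 : 3 ≤ dist x x₀ / R := by rw [le_div_iff₀ hR]; exact hx
    exact max_eq_left ((min_le_right _ _).trans (by linarith))
  have ho : ∀ x, dist x x₀ ≤ 2 * R → w x = 1 := by
    intro x hx
    have h1 : dist x x₀ / R ≤ 2 := by rw [div_le_iff₀ hR]; exact hx
    simp only [hw]
    rw [min_eq_left (by linarith), max_eq_right zero_le_one]
  have hsupp : ∀ x : M, x ∉ Metric.ball x₀ (3 * R) → w x = 0 := by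
    intro x hx
    rw [Metric.mem_ball, not_lt] at hx
    exact hz x hx
  have hgood : Met.Good m w _ := Met.good_of_bounded_support hfin hlip hsupp
  have hW : Met.W12 m w := ⟨_, hgood.rSlope⟩
  obtain ⟨η, hη1, hη2⟩ := exists_class hW
  refine ⟨η, hη1, ?_, ?_, ?_, ?_⟩
  · filter_upwards [hη2] with x hx
    rw [hx, abs_of_nonneg (hw0 x)]; exact hw1 x
  · filter_upwards [hη2] with x hx h
    rw [hx]; exact ho x h
  · filter_upwards [hη2] with x hx h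
    rw [hx]; exact hz x h
  · have h1 := slope_le_of_lipschitz hfin hη1 hη2 hlip
    rw [Real.coe_toNNReal _ (inv_nonneg.2 hR.le)] at h1
    rw [le_iff_ae] at h1
    filter_upwards [h1, sob_Γ_self_ae hη1, slope_ae hη1, smul_ae (1 : M →ₘ[m] ℝ) R⁻¹,
      one_ae (M := M) (m := m), (mem_sob_iff.1 hη1).mslope_nonneg] with x a1 a2 a3 a4 a5 a6
    rw [a3, a4, a5, mul_one] at a1
    rw [a2, abs_of_nonneg (sq_nonneg _)]
    exact pow_le_pow_left₀ a6 a1 2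

/-- cut-off functions with bounded Laplacian and bounded support, from the displacement estimate
of the resolvent -/
theorem exists_cutI_of (hfin : ∀ (x : M) (r : ℝ), m (Metric.ball x r) < ∞) (hC : IsGamma (sob m))
    {K : ℝ} (hB : (sob m).BEi K) {μ c : ℝ} (hμ : 0 < μ) (hμK : 1 / 2 ≤ 1 + 2 * μ * K)
    (hc : c ≤ 1 / 4)
    (hJ : ∀ f ∈ (sob m).A, ∀ l : ℝ, 0 ≤ l → (∀ᵐ x ∂m, (sob m).Γ f f x ≤ l ^ 2) →
      ∀ᵐ x ∂m, |(sob m).J μ f x - f x| ≤ c * l) (x₀ : M) :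
    ∃ Cc : ℝ, ∀ R : ℝ, 1 ≤ R → ∃ χ ∈ (sob m).TestI, 0 ≤ χ ∧ χ ≤ 1 ∧
      (∀ᵐ x ∂m, dist x x₀ ≤ R → χ x = 1) ∧ (∃ R', ∀ᵐ x ∂m, R' < dist x x₀ → χ x = 0) ∧
      (∀ᵐ x ∂m, (sob m).Γ χ χ x ≤ Cc / R ^ 2) ∧ (∀ᵐ x ∂m, |(sob m).lap χ x| ≤ Cc / R) := by
  have hD := hC.toIsDir
  haveI : SigmaFinite m := by
    refine ⟨⟨⟨fun n => Metric.ball x₀ n, fun n => trivial, fun n => hfin _ _, ?_⟩⟩⟩
    exact Metric.iUnion_ball_nat x₀
  obtain ⟨h, hh, hh0, hh1, hhb⟩ := exists_step4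
  have hh1' : ContDiff ℝ 2 (deriv h) := (contDiff_succ_iff_deriv (n := 2)).1 (by
    norm_num; exact hh) |>.2.2
  have hh2' : ContDiff ℝ 1 (deriv (deriv h)) := (contDiff_succ_iff_deriv (n := 1)).1 (by
    norm_num; exact hh1') |>.2.2
  obtain ⟨B1, hB1⟩ := (isCompact_Icc (a := (-1 : ℝ)) (b := 1)).exists_bound_of_continuousOn
    hh1'.continuous.continuousOn
  obtain ⟨B2, hB2⟩ := (isCompact_Icc (a := (-1 : ℝ)) (b := 1)).exists_bound_of_continuousOn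
    hh2'.continuous.continuousOn
  have hB10 : 0 ≤ B1 := (norm_nonneg _).trans (hB1 0 (by norm_num))
  have hB20 : 0 ≤ B2 := (norm_nonneg _).trans (hB2 0 (by norm_num))
  refine ⟨max (B1 ^ 2 * 2) (B1 * μ⁻¹ + B2 * 2), fun R hR => ?_⟩
  have hR0 : 0 < R := by linarith
  obtain ⟨η, η1, η2, η3, η4, η5⟩ := exists_eta hfin x₀ hR0
  have ηA : η ∈ (sob m).A := ⟨η1, mem_top_iff.2 ⟨1, η2⟩⟩
  have ηT : MemLp ((sob m).Γ η η) ∞ m := mem_top_iff.2 ⟨_, η5⟩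
  have η2' := hC.memLp _ η1
  have hpos : 0 < 1 + 2 * μ * K := by linarith
  set u := (sob m).J μ η with hu
  have uT : u ∈ (sob m).TestI := hC.testI_J hB hμ hpos ηA ηT
  have uW := (hC.test_A uT.1).1
  have uΓ : ∀ᵐ x ∂m, |(sob m).Γ u u x| ≤ 2 * (R⁻¹) ^ 2 := by
    filter_upwards [hC.J_grad_le hB hμ hpos ηA (sq_nonneg _) η5, hD.Γ_nonneg_ae uW] with x b1 b2
    rw [abs_of_nonneg b2]
    refine b1.trans ?_
    rw [div_le_iff₀ hpos]
    nlinarith [sq_nonneg R⁻¹]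
  have uη : ∀ᵐ x ∂m, |u x - η x| ≤ c * R⁻¹ := hJ η ηA R⁻¹ (inv_nonneg.2 hR0.le) (by
    filter_upwards [η5] with x hx; exact (le_abs_self _).trans hx)
  have hRi : R⁻¹ ≤ 1 := inv_le_one_of_one_le₀ hR
  have hRi0 : 0 < R⁻¹ := inv_pos.2 hR0
  have uη' : ∀ᵐ x ∂m, |u x - η x| ≤ 1 / 4 ∧ |u x - η x| ≤ R⁻¹ := by
    filter_upwards [uη] with x hx
    constructor
    · refine hx.trans ?_
      nlinarith
    · refine hx.trans ?_
      nlinarith
  have ub : ∀ᵐ x ∂m, |u x| ≤ 1 := hD.J_bdd hμ η2' η2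
  have ulap : ∀ᵐ x ∂m, |(sob m).lap u x| ≤ μ⁻¹ * R⁻¹ := by
    rw [hD.lap_eq (hD.J_isLap hμ η2')]
    filter_upwards [smul_ae (u - η) μ⁻¹, sub_ae u η, uη'] with x b1 b2 b3
    rw [b1, b2, abs_mul, abs_of_pos (inv_pos.2 hμ)]
    exact mul_le_mul_of_nonneg_left b3.2 (inv_pos.2 hμ).le
  obtain ⟨χ, χ1, χ2, χ3, χ4⟩ := hC.testI_comp hB uT h hh (hh0 0 (by norm_num))
  have χW := (hC.test_A χ1.1).1
  refine ⟨χ, χ1, ?_, ?_, ?_, ⟨3 * R, ?_⟩, ?_, ?_⟩
  · rw [nonneg_iff_ae]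
    filter_upwards [χ2] with x hx
    rw [hx]; exact (hhb _).1
  · rw [le_iff_ae]
    filter_upwards [χ2, one_ae (M := M) (m := m)] with x hx h1
    rw [hx, h1]; exact (hhb _).2
  · filter_upwards [χ2, uη', η3] with x b1 b2 b3 hx
    rw [b1]
    refine hh1 _ ?_
    have h3 := b3 (by linarith)
    have h4 := (abs_le.1 b2.1).1
    linarith
  · filter_upwards [χ2, uη', η4] with x b1 b2 b3 hx
    rw [b1]
    refine hh0 _ ?_
    have h3 := b3 hx.le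
    have h4 := (abs_le.1 b2.1).2
    linarith
  · have hs : (sob m).Γ u χ = (sob m).Γ χ u := hC.symm _ uW _ χW
    filter_upwards [χ3 _ χW, χ3 _ uW, ub, uΓ] with x b1 b2 b3 b4
    rw [b1, hs, b2]
    have b5 := hB1 _ (abs_le.1 b3)
    rw [Real.norm_eq_abs] at b5
    have e : deriv h (u x) * (deriv h (u x) * (sob m).Γ u u x)
        = deriv h (u x) ^ 2 * (sob m).Γ u u x := by ring
    rw [e, div_eq_mul_inv, ← inv_pow]
    have h6 : deriv h (u x) ^ 2 ≤ B1 ^ 2 := by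
      rw [← sq_abs]; exact pow_le_pow_left₀ (abs_nonneg _) b5 2
    calc deriv h (u x) ^ 2 * (sob m).Γ u u x
        ≤ deriv h (u x) ^ 2 * (2 * (R⁻¹) ^ 2) :=
          mul_le_mul_of_nonneg_left ((le_abs_self _).trans b4) (sq_nonneg _)
      _ ≤ B1 ^ 2 * (2 * (R⁻¹) ^ 2) := mul_le_mul_of_nonneg_right h6 (by positivity)
      _ = (B1 ^ 2 * 2) * (R⁻¹) ^ 2 := by ring
      _ ≤ _ := mul_le_mul_of_nonneg_right (le_max_left _ _) (by positivity)
  · filter_upwards [χ4, ulap, uΓ, ub] with x b1 b2 b3 b4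
    rw [b1]
    have c1 := hB1 _ (abs_le.1 b4)
    have c2 := hB2 _ (abs_le.1 b4)
    rw [Real.norm_eq_abs] at c1 c2
    refine (abs_add_le _ _).trans ?_
    rw [abs_mul, abs_mul, div_eq_mul_inv]
    calc |deriv h (u x)| * |(sob m).lap u x| + |deriv (deriv h) (u x)| * |(sob m).Γ u u x|
        ≤ B1 * (μ⁻¹ * R⁻¹) + B2 * (2 * (R⁻¹) ^ 2) :=
          add_le_add (mul_le_mul c1 b2 (abs_nonneg _) hB10)
            (mul_le_mul c2 b3 (abs_nonneg _) hB20)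
      _ ≤ B1 * (μ⁻¹ * R⁻¹) + B2 * (2 * R⁻¹) := by
          have h7 : (R⁻¹) ^ 2 ≤ R⁻¹ := by nlinarith
          nlinarith
      _ = (B1 * μ⁻¹ + B2 * 2) * R⁻¹ := by ring
      _ ≤ _ := mul_le_mul_of_nonneg_right (le_max_right _ _) hRi0.le

end Vale.Agent.P233
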