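import Vale.Agent.P233.AB.CutA
import Vale.Agent.P233.AB.CutB
import Vale.Agent.P233.AB.TI

set_option linter.all false

open MeasureTheory Filter Topology
open scoped ENNReal NNReal

namespace Vale.Agent.P233

theorem IsGamma.be_mono {M : Type*} [MeasurableSpace M] {m : Measure M} {C : Calc m}
    (hC : IsGamma C) {K K' N : ℝ} (hN : 0 < N) (hK : K' ≤ K) (hB : C.BE K N) : C.BE K' N := by
  intro f h φ ψ h1 h2 h3 h4 h5 h6
  refine le_trans ?_ (hB f h φ ψ h1 h2 h3 h4 h5 h6)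
  have hfW := h1.1
  have hh2 := hC.memLp h h2
  have hG := hC.toIsDir.Γ_mem1 hfW h2
  refine I_mono (mem_mul_top h5 (mem_add (mem_add hG (mem_smul _ (hC.mem1 f hfW)))
    (mem_smul _ (mem_sq hh2)))) (mem_mul_top h5 (mem_add (mem_add hG
    (mem_smul _ (hC.mem1 f hfW))) (mem_smul _ (mem_sq hh2)))) ?_
  refine mul_le_mul_of_nonneg_left ?_ h4
  have h7 : K' • C.Γ f f ≤ K • C.Γ f f := by
    rw [le_iff_ae]
    filter_upwards [smul_ae (C.Γ f f) K', smul_ae (C.Γ f f) K,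
      hC.toIsDir.Γ_nonneg_ae hfW] with x a1 a2 a3
    rw [a1, a2]
    exact mul_le_mul_of_nonneg_right hK a3
  exact add_le_add (add_le_add le_rfl h7) le_rfl

/-- cut-off functions with bounded Laplacian and bounded support in finite dimension -/
theorem exists_cutI {M : Type*} [MetricSpace M] [SecondCountableTopology M] [MeasurableSpace M]
    [BorelSpace M] {m : Measure M}
    (hfin : ∀ (x : M) (r : ℝ), m (Metric.ball x r) < ∞) (hC : IsGamma (sob m))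
    {K N : ℝ} (hN : 0 < N) (hB : (sob m).BE K N) (x₀ : M) :
    ∃ Cc : ℝ, ∀ R : ℝ, 1 ≤ R → ∃ χ ∈ (sob m).TestI, 0 ≤ χ ∧ χ ≤ 1 ∧
      (∀ᵐ x ∂m, dist x x₀ ≤ R → χ x = 1) ∧ (∃ R', ∀ᵐ x ∂m, R' < dist x x₀ → χ x = 0) ∧
      (∀ᵐ x ∂m, (sob m).Γ χ χ x ≤ Cc / R ^ 2) ∧ (∀ᵐ x ∂m, |(sob m).lap χ x| ≤ Cc / R) := by
  haveI : SigmaFinite m := by
    refine ⟨⟨⟨fun n => Metric.ball x₀ n, fun n => trivial, fun n => hfin _ _, ?_⟩⟩⟩
    exact Metric.iUnion_ball_nat x₀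
  have hBi : (sob m).BEi K := hC.bei hN hB
  set k : ℝ := |K| with hk
  have hk0 : 0 ≤ k := abs_nonneg K
  have hB' : (sob m).BE (-k) N := hC.be_mono hN (neg_abs_le K) hB
  set μ : ℝ := (8 * k + 256 * N + 1)⁻¹ with hμ
  have hd : 0 < 8 * k + 256 * N + 1 := by positivity
  have hμ0 : 0 < μ := inv_pos.2 hd
  have hμ1 : μ * (8 * k + 256 * N + 1) = 1 := inv_mul_cancel₀ hd.ne'
  have hμk : 8 * μ * k ≤ 1 := by nlinarith [mul_pos hμ0 hN]
  have hμN : N * μ ≤ 1 / 256 := by nlinarith [mul_nonneg hμ0.le hk0]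
  have hμK : 1 / 2 ≤ 1 + 2 * μ * K := by
    have h1 : -k ≤ K := neg_abs_le K
    nlinarith [mul_le_mul_of_nonneg_left h1 hμ0.le]
  have hc : 4 * √(N * μ) ≤ 1 / 4 := by
    have h1 : √(N * μ) ≤ 1 / 16 := by
      refine Real.sqrt_le_iff.2 ⟨by norm_num, ?_⟩
      norm_num
      linarith
    linarith
  refine exists_cutI_of hfin hC hBi hμ0 hμK hc (fun f hf l hl hf' => ?_) x₀
  filter_upwards [hC.J_sub_le hk0 hN hB' hf hl hf' hμ0 hμk] with x hx
  refine hx.trans (le_of_eq ?_)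
  ring

end Vale.Agent.P233
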