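import Vale.Agent.P233.AB.Sav

set_option linter.all false

open MeasureTheory Filter Topology
open scoped ENNReal NNReal

namespace Vale.Agent.P233

variable {M : Type*} [MeasurableSpace M] {m : Measure M} {C : Calc m}

/-- a pointwise bound from integrated bounds, for functions in `L²` -/
theorem le_const_of_forall2 {F : M →ₘ[m] ℝ} (hF : MemLp F 2 m) {K : ℝ} (hK : 0 ≤ K)
    (h : ∀ ψ : M →ₘ[m] ℝ, 0 ≤ ψ → MemLp ψ 2 m → MemLp ψ 1 m → MemLp ψ ∞ m →
      I (F * ψ) ≤ K * I ψ) : ∀ᵐ x ∂m, F x ≤ K := by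
  have hFm : StronglyMeasurable (F : M → ℝ) := AEEqFun.stronglyMeasurable F
  have key : ∀ n : ℕ, m {x | K + ((n : ℝ) + 1)⁻¹ < F x} = 0 := by
    intro n
    set ε : ℝ := ((n : ℝ) + 1)⁻¹ with hε
    have hε0 : 0 < ε := by positivity
    set S : Set M := {x | K + ε < F x} with hS
    have hSm : MeasurableSet S := measurableSet_lt measurable_const hFm.measurable
    have hSfin : m S < ∞ := by
      have h1 : S ⊆ {x | ENNReal.ofReal ε ≤ ‖F x‖ₑ} := by
        intro x hx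
        have hx' : K + ε < F x := hx
        show ENNReal.ofReal ε ≤ ‖F x‖ₑ
        rw [Real.enorm_eq_ofReal (by linarith)]
        exact ENNReal.ofReal_le_ofReal (by linarith)
      exact (measure_mono h1).trans_lt (hF.meas_ge_lt_top' (by norm_num) (by norm_num)
        (by simpa using hε0))
    have hind : ∀ p : ℝ≥0∞, MemLp (S.indicator (fun _ => (1 : ℝ))) p m := fun p =>
      memLp_indicator_const p hSm 1 (Or.inr hSfin.ne)
    set χ : M →ₘ[m] ℝ := AEEqFun.mk _ (hind 2).1 with hχ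
    have hχae := AEEqFun.coeFn_mk _ (hind 2).1
    have hχp : ∀ p : ℝ≥0∞, MemLp χ p m := fun p => (memLp_congr_ae hχae).2 (hind p)
    have h1 := h χ (by
      rw [nonneg_iff_ae]
      filter_upwards [hχae] with x hx
      rw [hχ, hx]
      exact Set.indicator_nonneg (fun _ _ => zero_le_one) x) (hχp 2) (hχp 1) (hχp ∞)
    have hFint : Integrable (fun x => S.indicator F x) m := by
      refine (int_of_mem (mem_mul_22 hF (hχp 2))).congr ?_
      filter_upwards [mul_ae F χ, hχae] with x a1 a2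
      rw [a1, hχ, a2]
      by_cases hx : x ∈ S
      · rw [Set.indicator_of_mem hx, Set.indicator_of_mem hx, mul_one]
      · rw [Set.indicator_of_notMem hx, Set.indicator_of_notMem hx, mul_zero]
    have h5 : I (F * χ) = ∫ x in S, F x ∂m := by
      rw [← integral_indicator hSm]
      unfold I
      refine integral_congr_ae ?_
      filter_upwards [mul_ae F χ, hχae] with x a1 a2
      rw [a1, hχ, a2]
      by_cases hx : x ∈ S
      · rw [Set.indicator_of_mem hx, Set.indicator_of_mem hx, mul_one]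
      · rw [Set.indicator_of_notMem hx, Set.indicator_of_notMem hx, mul_zero]
    have h6 : I χ = m.real S := by
      unfold I
      rw [integral_congr_ae hχae, integral_indicator hSm, setIntegral_const, smul_eq_mul, mul_one]
    have h7 : ∫ x in S, (K + ε) ∂m ≤ ∫ x in S, F x ∂m := by
      refine setIntegral_mono_on ?_ ((integrable_indicator_iff hSm).1 hFint) hSm
        fun x hx => le_of_lt hx
      exact integrableOn_const (hs := hSfin.ne)
    rw [setIntegral_const, smul_eq_mul] at h7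
    rw [h5, h6] at h1
    have h8 : m.real S ≤ 0 := by
      have h9 : 0 ≤ m.real S := measureReal_nonneg
      by_contra hcon
      push Not at hcon
      nlinarith
    exact (measureReal_eq_zero_iff hSfin.ne).1 (le_antisymm h8 measureReal_nonneg)
  have h9 : ∀ᵐ x ∂m, ∀ n : ℕ, ¬ (K + ((n : ℝ) + 1)⁻¹ < F x) := by
    rw [ae_all_iff]
    intro n
    exact measure_eq_zero_iff_ae_notMem.1 (key n)
  filter_upwards [h9] with x hx
  by_contra hcon
  push Not at hcon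
  obtain ⟨n, hn⟩ := exists_nat_one_div_lt (show (0 : ℝ) < F x - K by linarith)
  rw [one_div] at hn
  exact hx n (by linarith)

namespace IsGamma

variable (hC : IsGamma C) {k N : ℝ}
variable {f g h φ ψ : M →ₘ[m] ℝ}

include hC

/-- weighted Cauchy-Schwarz -/
theorem cs_weight (hh : MemLp h 2 m) (hφ0 : 0 ≤ φ) (hφt : MemLp φ ∞ m) (hφ1 : MemLp φ 1 m)
    (hφ2 : MemLp φ 2 m) : I (h * φ) ^ 2 ≤ I (φ * h ^ 2) * I φ := by
  have n1 : MemLp (φ * h ^ 2 : M →ₘ[m] ℝ) 1 m := mem_mul_top hφt (mem_sq hh)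
  have n2 : MemLp (h * φ : M →ₘ[m] ℝ) 1 m := mem_mul_22 hh hφ2
  refine disc_of_forall fun t => ?_
  have e : φ * (h + t • 1) ^ 2 = φ * h ^ 2 + (2 * t) • (h * φ) + t ^ 2 • φ := by algebra
  have h1 : 0 ≤ I (φ * (h + t • 1) ^ 2) := I_nonneg (mul_nonneg hφ0 (sq_nonneg' _))
  rw [e, I_add (mem_add n1 (mem_smul _ n2)) (mem_smul _ hφ1), I_add n1 (mem_smul _ n2), I_smul,
    I_smul] at h1
  linarith

/-- one doubling step -/
theorem J_step [SigmaFinite m] (hk : 0 ≤ k) (hN : 0 < N) (hB : C.BE (-k) N) (hf : f ∈ C.A)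
    {l : ℝ} (hl : 0 ≤ l) (hf' : ∀ᵐ x ∂m, C.Γ f f x ≤ l ^ 2) {μ : ℝ} (hμ : 0 < μ)
    (hμk : 8 * μ * k ≤ 1) :
    ∀ᵐ x ∂m, |C.J (2 * μ) f x - C.J μ f x| ≤ l * √(N * μ / 2) := by
  have hD := hC.toIsDir
  have hf2 := hC.memLp _ hf.1
  have h2μ : 0 < 2 * μ := by linarith
  have hLap := hD.J_isLap hμ hf2
  set u := C.J μ f with hu
  set h := μ⁻¹ • (u - f) with hh
  have huW : u ∈ C.W := hLap.1
  have hhW : h ∈ C.W := hD.smul_mem _ _ (hD.sub_mem huW hf.1)
  have hh2 := hC.memLp _ hhW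
  -- the weak estimate
  have key : ∀ ψ : M →ₘ[m] ℝ, 0 ≤ ψ → MemLp ψ 2 m → MemLp ψ 1 m → MemLp ψ ∞ m →
      |I (h * C.J (2 * μ) ψ)| ≤ l * √(N / (2 * μ)) * I ψ := by
    intro ψ h0 h2 h1 ht
    have φLap := hD.J_isLap h2μ h2
    have φ0 := hD.J_nonneg h2μ h2 h0
    obtain ⟨B, hBψ⟩ := mem_top_iff.1 ht
    have φb := hD.J_bdd h2μ h2 hBψ
    have φ1 := hD.J_L1 h2μ h2 h1 h0
    set φ := C.J (2 * μ) ψ with hφ
    have φt : MemLp φ ∞ m := mem_top_iff.2 ⟨B, φb⟩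
    have φ2 : MemLp φ 2 m := hC.memLp _ φLap.1
    have hbe : I (φ * (C.Γ u h + (-k) • C.Γ u u + N⁻¹ • h ^ 2)) ≤
        I ((2 : ℝ)⁻¹ • (C.Γ u u * ((2 * μ)⁻¹ • (φ - ψ)))) :=
      hB u h φ _ hLap hhW φLap φ0 φt (mem_smul _ (mem_sub φt ht))
    have hΓuu := hC.mem1 u huW
    have hΓff := hC.mem1 f hf.1
    have n1 : MemLp (φ * C.Γ u u) 1 m := mem_mul_top φt hΓuu
    have n2 : MemLp (φ * C.Γ f f) 1 m := mem_mul_top φt hΓff
    have n3 : MemLp (φ * h ^ 2 : M →ₘ[m] ℝ) 1 m := mem_mul_top φt (mem_sq hh2)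
    have n4 : MemLp (C.Γ u u * ψ) 1 m := mem_top_mul hΓuu ht
    -- lower bound of the left hand side
    have hlow : I (φ * (((2 * μ)⁻¹ - k) • C.Γ u u - (2 * μ)⁻¹ • C.Γ f f + N⁻¹ • h ^ 2)) ≤
        I (φ * (C.Γ u h + (-k) • C.Γ u u + N⁻¹ • h ^ 2)) := by
      refine I_mono (mem_mul_top φt (mem_add (mem_sub (mem_smul _ hΓuu) (mem_smul _ hΓff))
        (mem_smul _ (mem_sq hh2)))) (mem_mul_top φt (mem_add (mem_add (hC.Γ_mem1 huW hhW)
        (mem_smul _ hΓuu)) (mem_smul _ (mem_sq hh2)))) ?_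
      refine mul_le_mul_of_nonneg_left ?_ φ0
      have e2 : C.Γ u h = μ⁻¹ • (C.Γ u u - C.Γ u f) := by
        rw [hh, hD.Γ_smul_right _ huW (hD.sub_mem huW hf.1), hD.Γ_sub_right huW huW hf.1]
      have hnn := hC.nonneg _ (hD.sub_mem huW hf.1)
      rw [hD.Γ_sub_left huW hf.1 (hD.sub_mem huW hf.1), hD.Γ_sub_right huW huW hf.1,
        hD.Γ_sub_right hf.1 huW hf.1, hD.symm f hf.1 u huW] at hnn
      have hnn2 := smul_nonneg' (show 0 ≤ (2 * μ)⁻¹ by positivity) hnn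
      rw [← sub_nonneg, e2]
      have e3 : μ⁻¹ • (C.Γ u u - C.Γ u f) + (-k) • C.Γ u u + N⁻¹ • h ^ 2
          - (((2 * μ)⁻¹ - k) • C.Γ u u - (2 * μ)⁻¹ • C.Γ f f + N⁻¹ • h ^ 2)
          = (2 * μ)⁻¹ • (C.Γ u u - C.Γ u f - (C.Γ u f - C.Γ f f)) := by
        have : μ⁻¹ = 2 * (2 * μ)⁻¹ := by field_simp
        rw [this]
        algebra
      rw [e3]
      exact hnn2
    have eL : I (φ * (((2 * μ)⁻¹ - k) • C.Γ u u - (2 * μ)⁻¹ • C.Γ f f + N⁻¹ • h ^ 2)) =
        ((2 * μ)⁻¹ - k) * I (φ * C.Γ u u) - (2 * μ)⁻¹ * I (φ * C.Γ f f) + N⁻¹ * I (φ * h ^ 2) := by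
      rw [← I_smul, ← I_smul, ← I_smul, ← I_sub (mem_smul _ n1) (mem_smul _ n2),
        ← I_add (mem_sub (mem_smul _ n1) (mem_smul _ n2)) (mem_smul _ n3)]
      congr 1
      algebra
    have eR : I ((2 : ℝ)⁻¹ • (C.Γ u u * ((2 * μ)⁻¹ • (φ - ψ)))) =
        (2 : ℝ)⁻¹ * (2 * μ)⁻¹ * (I (φ * C.Γ u u) - I (C.Γ u u * ψ)) := by
      rw [← I_sub n1 n4, ← I_smul]
      congr 1
      algebra
    rw [eL] at hlow
    rw [eR] at hbe
    have p1 : 0 ≤ I (φ * C.Γ u u) := I_nonneg (mul_nonneg φ0 (hC.nonneg _ huW))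
    have p2 : 0 ≤ I (C.Γ u u * ψ) := I_nonneg (mul_nonneg (hC.nonneg _ huW) h0)
    have p3 : I (φ * C.Γ f f) ≤ l ^ 2 * I ψ := by
      calc I (φ * C.Γ f f) ≤ I (l ^ 2 • φ) := by
            refine I_mono n2 (mem_smul _ φ1.1) ?_
            rw [le_iff_ae]
            filter_upwards [mul_ae φ (C.Γ f f), smul_ae φ (l ^ 2), nonneg_iff_ae.1 φ0, hf']
              with x a1 a2 a3 a4
            rw [a1, a2, mul_comm (l ^ 2)]
            exact mul_le_mul_of_nonneg_left a4 a3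
        _ = l ^ 2 * I φ := I_smul _
        _ ≤ l ^ 2 * I ψ := mul_le_mul_of_nonneg_left φ1.2 (sq_nonneg _)
    have hkk : 0 ≤ (2 * μ)⁻¹ - k - (2 : ℝ)⁻¹ * (2 * μ)⁻¹ := by
      have e : (2 * μ)⁻¹ - k - (2 : ℝ)⁻¹ * (2 * μ)⁻¹ = (1 - 4 * μ * k) / (4 * μ) := by
        field_simp; ring
      rw [e]
      have : 0 ≤ 1 - 4 * μ * k := by nlinarith [mul_nonneg hμ.le hk]
      positivity
    have hmain : N⁻¹ * I (φ * h ^ 2) ≤ (2 * μ)⁻¹ * (l ^ 2 * I ψ) := by
      have h5 := mul_nonneg hkk p1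
      have h6 : (2 * μ)⁻¹ * I (φ * C.Γ f f) ≤ (2 * μ)⁻¹ * (l ^ 2 * I ψ) :=
        mul_le_mul_of_nonneg_left p3 (by positivity)
      have h7 : 0 ≤ (2 : ℝ)⁻¹ * (2 * μ)⁻¹ * I (C.Γ u u * ψ) := by positivity
      nlinarith
    have hI0 : 0 ≤ I ψ := I_nonneg h0
    have hIφ : 0 ≤ I φ := I_nonneg φ0
    have hcs := hC.cs_weight hh2 φ0 φt φ1.1 φ2
    have h8 : I (φ * h ^ 2) ≤ N / (2 * μ) * l ^ 2 * I ψ := by
      have h9 := mul_le_mul_of_nonneg_left hmain hN.le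
      rw [← mul_assoc, mul_inv_cancel₀ hN.ne', one_mul] at h9
      refine h9.trans (le_of_eq ?_)
      ring
    have h10 : 0 ≤ I (φ * h ^ 2) := I_nonneg (mul_nonneg φ0 (sq_nonneg' _))
    refine abs_le_of_sq_le_sq ?_ (by positivity)
    rw [mul_pow, mul_pow, Real.sq_sqrt (by positivity)]
    calc I (h * φ) ^ 2 ≤ I (φ * h ^ 2) * I φ := hcs
      _ ≤ (N / (2 * μ) * l ^ 2 * I ψ) * I ψ := mul_le_mul h8 φ1.2 hIφ (by positivity)
      _ = l ^ 2 * (N / (2 * μ)) * I ψ ^ 2 := by ring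
  -- the pointwise estimate
  have hF2 : MemLp (C.J (2 * μ) h) 2 m := hD.J_mem2 h2μ hh2
  have hc : 0 ≤ l * √(N / (2 * μ)) := by positivity
  have up : ∀ᵐ x ∂m, C.J (2 * μ) h x ≤ l * √(N / (2 * μ)) := by
    refine le_const_of_forall2 hF2 hc fun ψ h0 h2 h1 ht => ?_
    rw [hD.J_symm h2μ hh2 h2]
    exact (le_abs_self _).trans (key ψ h0 h2 h1 ht)
  have lo : ∀ᵐ x ∂m, (-C.J (2 * μ) h : M →ₘ[m] ℝ) x ≤ l * √(N / (2 * μ)) := by
    refine le_const_of_forall2 (mem_neg hF2) hc fun ψ h0 h2 h1 ht => ?_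
    rw [neg_mul, I_neg, hD.J_symm h2μ hh2 h2]
    exact (neg_le_abs _).trans (key ψ h0 h2 h1 ht)
  -- the resolvent identity
  have hid : C.J (2 * μ) f - u = μ • C.J (2 * μ) h := by
    rw [← hD.J_smul h2μ μ hh2]
    symm
    refine hD.J_eq h2μ ⟨hD.sub_mem (hD.J_mem h2μ hf2) huW, fun g hg => ?_⟩
    have hg2 := hC.memLp g hg
    have a1 := (hD.J_spec h2μ hf2).2 g hg
    have a2 := (hD.J_spec hμ hf2).2 g hg
    rw [← hu] at a2
    have vW := hD.J_mem h2μ hf2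
    have hv2 := hC.memLp _ vW
    have hu2 := hC.memLp _ huW
    have e1 : μ • h = u - f := by rw [hh, smul_smul, mul_inv_cancel₀ hμ.ne', one_smul]
    rw [e1, sub_mul, sub_mul, I_sub (mem_mul_22 hv2 hg2) (mem_mul_22 hu2 hg2),
      I_sub (mem_mul_22 hu2 hg2) (mem_mul_22 hf2 hg2), hD.Γ_sub_left vW huW hg,
      I_sub (hD.Γ_mem1 vW hg) (hD.Γ_mem1 huW hg)]
    linarith
  have hs : μ * √(N / (2 * μ)) = √(N * μ / 2) := by
    have h3 : N * μ / 2 = μ ^ 2 * (N / (2 * μ)) := by field_simp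
    rw [h3, Real.sqrt_mul (sq_nonneg _), Real.sqrt_sq hμ.le]
  filter_upwards [up, lo, neg_ae (C.J (2 * μ) h), sub_ae (C.J (2 * μ) f) u,
    smul_ae (C.J (2 * μ) h) μ, eq_iff_ae.1 hid] with x b1 b2 b3 b4 b5 b6
  rw [b3] at b2
  rw [← b4, b6, b5, abs_mul, abs_of_pos hμ, ← hs]
  have : |C.J (2 * μ) h x| ≤ l * √(N / (2 * μ)) := abs_le.2 ⟨by linarith, b1⟩
  calc μ * |C.J (2 * μ) h x| ≤ μ * (l * √(N / (2 * μ))) := mul_le_mul_of_nonneg_left this hμ.le
    _ = _ := by ring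

/-- In finite dimension the resolvent moves Lipschitz functions uniformly little. -/
theorem J_sub_le [SigmaFinite m] (hk : 0 ≤ k) (hN : 0 < N)
    (hB : C.BE (-k) N) {f : M →ₘ[m] ℝ} (hf : f ∈ C.A) {l : ℝ} (hl : 0 ≤ l)
    (hf' : ∀ᵐ x ∂m, C.Γ f f x ≤ l ^ 2) {μ : ℝ} (hμ : 0 < μ) (hμk : 8 * μ * k ≤ 1) :
    ∀ᵐ x ∂m, |C.J μ f x - f x| ≤ 4 * l * √(N * μ) := by
  have hD := hC.toIsDir
  have hf2 := hC.memLp _ hf.1
  set ν : ℕ → ℝ := fun n => μ / 2 ^ n with hν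
  have ν0 : ∀ n, 0 < ν n := fun n => by positivity
  have ν2 : ∀ n, 2 * ν (n + 1) = ν n := fun n => by
    simp only [hν]; rw [pow_succ]; field_simp
  have νk : ∀ n, 8 * ν n * k ≤ 1 := by
    intro n
    have h1 : ν n ≤ μ := by
      simp only [hν]
      exact div_le_self hμ.le (one_le_pow₀ (by norm_num))
    have := mul_le_mul_of_nonneg_right h1 hk
    nlinarith
  have step : ∀ᵐ x ∂m, ∀ n, |C.J (ν n) f x - C.J (ν (n + 1)) f x| ≤
      l * √(N * μ) / 2 * (3 / 4) ^ n := by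
    rw [ae_all_iff]
    intro n
    have h1 := hC.J_step hk hN hB hf hl hf' (ν0 (n + 1)) (νk (n + 1))
    rw [ν2] at h1
    filter_upwards [h1] with x hx
    refine hx.trans ?_
    have h2 : √(N * ν (n + 1) / 2) ≤ √(N * μ) / 2 * (3 / 4) ^ n := by
      refine Real.sqrt_le_iff.2 ⟨by positivity, ?_⟩
      rw [mul_pow, div_pow, Real.sq_sqrt (by positivity), ← pow_mul, mul_comm n 2, pow_mul]
      have h3 : N * ν (n + 1) / 2 = N * μ / 4 * (1 / 2) ^ n := by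
        simp only [hν]; rw [pow_succ, one_div, inv_pow]; field_simp; ring
      rw [h3]
      have h4 : (1 / 2 : ℝ) ^ n ≤ ((3 / 4) ^ 2) ^ n := pow_le_pow_left₀ (by norm_num) (by norm_num) n
      have h5 : (2 : ℝ) ^ 2 = 4 := by norm_num
      rw [h5]
      exact mul_le_mul_of_nonneg_left h4 (by positivity)
    calc l * √(N * ν (n + 1) / 2) ≤ l * (√(N * μ) / 2 * (3 / 4) ^ n) :=
          mul_le_mul_of_nonneg_left h2 hl
      _ = _ := by ring
  have tel : ∀ᵐ x ∂m, ∀ n, |C.J μ f x - C.J (ν n) f x| ≤ 4 * l * √(N * μ) := by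
    filter_upwards [step] with x hx
    have h1 : ∀ n, |C.J μ f x - C.J (ν n) f x| ≤ l * √(N * μ) / 2 * (4 * (1 - (3 / 4) ^ n)) := by
      intro n
      induction n with
      | zero =>
        have : ν 0 = μ := by simp [hν]
        rw [this]; simp
      | succ n ih =>
        have h2 : C.J μ f x - C.J (ν (n + 1)) f x =
          (C.J μ f x - C.J (ν n) f x) + (C.J (ν n) f x - C.J (ν (n + 1)) f x) := by ring
        rw [h2]
        refine (abs_add_le _ _).trans ((add_le_add ih (hx n)).trans (le_of_eq ?_))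
        rw [pow_succ]; ring
    intro n
    refine (h1 n).trans ?_
    have h3 : 0 ≤ l * √(N * μ) := by positivity
    have h4 : (0 : ℝ) ≤ (3 / 4) ^ n := by positivity
    nlinarith
  -- convergence
  have hlim : Tendsto (fun n => I ((C.J (ν n) f - f) ^ 2)) atTop (𝓝 0) := by
    have h1 : Tendsto (fun n : ℕ => ν n * I (C.Γ f f)) atTop (𝓝 0) := by
      have h2 : Tendsto ν atTop (𝓝 0) := by
        have h3 := tendsto_pow_atTop_nhds_zero_of_lt_one (r := (1 / 2 : ℝ)) (by norm_num)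
          (by norm_num)
        have h4 := h3.const_mul μ
        rw [mul_zero] at h4
        refine h4.congr fun n => ?_
        simp only [hν, one_div, inv_pow]; rw [div_eq_mul_inv]
      simpa using h2.mul_const (I (C.Γ f f))
    exact squeeze_zero (fun n => I_sq_nonneg _) (fun n => (hD.J_est (ν0 n) hf.1).2.2) h1
  obtain ⟨ns, hns, hae⟩ := exists_subseq_of_I_sq (fun n => hD.J_mem2 (ν0 n) hf2) hf2 hlim
  filter_upwards [tel, hae] with x b1 b2
  exact le_of_tendsto ((tendsto_const_nhds.sub b2).abs) (Eventually.of_forall fun n => b1 (ns n))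

end IsGamma

end Vale.Agent.P233
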