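import Vale.Agent.P233.AB.TI
import Vale.Agent.P233.AB.Core

open MeasureTheory Filter Topology
open scoped ENNReal NNReal

namespace Vale.Agent.P233

variable {M : Type*} [MeasurableSpace M] {m : Measure M}

/-- The data of the construction: potentials `a`, `b`, a density `F`, a cut-off `θ`, and test
functions `P`, `Q`, `R`, `A`, `B` which are close to `Γ(a,a)`, `Γ(a,b)`, `Γ(b,b)`,
`div(F∇a)`, `div(F∇b)`. -/
structure Dat (m : Measure M) where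
  (a b F P Q R A B : M →ₘ[m] ℝ)

namespace Dat

variable (X : Dat m) (C : Calc m)

/-- the potential of direction `v` -/
noncomputable def pt (v : ℝ × ℝ) : M →ₘ[m] ℝ := v.1 • X.a + v.2 • X.b

/-- `div (F ∇ v)` -/
noncomputable def D (v : ℝ × ℝ) : M →ₘ[m] ℝ := v.1 • C.De X.F X.a + v.2 • C.De X.F X.b

/-- approximation of `D v` -/
noncomputable def D' (v : ℝ × ℝ) : M →ₘ[m] ℝ := v.1 • X.A + v.2 • X.B

/-- approximation of `Γ(v,w)` -/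
noncomputable def G' (v w : ℝ × ℝ) : M →ₘ[m] ℝ :=
  (v.1 * w.1) • X.P + (v.1 * w.2 + v.2 * w.1) • X.Q + (v.2 * w.2) • X.R

/-- `⟨Y_{vw}, ∇g⟩`, where `Y_{vw} = ½ (D_v ∇w + D_w ∇v) + ½ F ∇Γ(v,w)` approximately -/
noncomputable def Y (v w : ℝ × ℝ) (g : M →ₘ[m] ℝ) : M →ₘ[m] ℝ :=
  (2 : ℝ)⁻¹ • (X.D' v * C.Γ (X.pt w) g + X.D' w * C.Γ (X.pt v) g + X.F * C.Γ (X.G' v w) g)

/-- `div Y_{vw}` -/
noncomputable def r (v w : ℝ × ℝ) : M →ₘ[m] ℝ :=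
  (2 : ℝ)⁻¹ • (C.Γ (X.D' v) (X.pt w) + X.D' v * C.lap (X.pt w) + (C.Γ (X.D' w) (X.pt v)
    + X.D' w * C.lap (X.pt v)) + (C.Γ X.F (X.G' v w) + X.F * C.lap (X.G' v w)))

/-- the density `F - D_v + ½ r_{vv}` -/
noncomputable def rho (v : ℝ × ℝ) : M →ₘ[m] ℝ := X.F - X.D C v + (2 : ℝ)⁻¹ • X.r C v v

/-- the reference potential of the pair with difference vector `e` -/
noncomputable def ph (e : ℝ × ℝ) (h : M →ₘ[m] ℝ) (ε t : ℝ) : M →ₘ[m] ℝ :=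
  X.pt e + ε • h - (t / 2) • X.G' e e

/-- the action of the pair of directions `v`, `v + e` -/
noncomputable def actP (v e : ℝ × ℝ) (h : M →ₘ[m] ℝ) (ε : ℝ) : ℝ :=
  ∫ t in (0 : ℝ)..ε, (I (X.ph e h ε t * (X.r C (ε • v + t • e) e - X.D C e))
    - 2⁻¹ * I (X.rho C (ε • v + t • e) * C.Γ (X.ph e h ε t) (X.ph e h ε t)))

/-- `|Y_{vv}|²` -/
noncomputable def Y2 (v : ℝ × ℝ) : M →ₘ[m] ℝ :=
  X.D' v ^ 2 * C.Γ (X.pt v) (X.pt v) + X.D' v * X.F * C.Γ (X.pt v) (X.G' v v)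
    + (4 : ℝ)⁻¹ • (X.F ^ 2 * C.Γ (X.G' v v) (X.G' v v))

/-- `|F ∇v - t Y_{vv}|²` -/
noncomputable def J2 (v : ℝ × ℝ) (t : ℝ) : M →ₘ[m] ℝ :=
  X.F ^ 2 * C.Γ (X.pt v) (X.pt v) - (2 * t) • (X.F * X.Y C v v (X.pt v)) + t ^ 2 • X.Y2 C v

/-- the standing hypotheses: `a`, `b`, `F`, … are test functions with bounded Laplacian, all of
them except `F` live in the region where `θ = 1`, and there `F ≥ η`; `P`, … are
`δ`-approximations. -/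
structure Ok (θ : M →ₘ[m] ℝ) (η δ : ℝ) : Prop where
  ha : X.a ∈ C.TestI
  hb : X.b ∈ C.TestI
  hF : X.F ∈ C.TestI
  hP : X.P ∈ C.TestI
  hQ : X.Q ∈ C.TestI
  hR : X.R ∈ C.TestI
  hA : X.A ∈ C.TestI
  hB : X.B ∈ C.TestI
  hθ : θ ∈ C.TestI
  hF1 : MemLp X.F 1 m
  hθ0 : 0 ≤ θ
  θa : θ * X.a = X.a
  θb : θ * X.b = X.b
  θP : θ * X.P = X.P
  θQ : θ * X.Q = X.Q
  θR : θ * X.R = X.R
  θA : θ * X.A = X.A
  θB : θ * X.B = X.B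
  hη : 0 < η
  Fη : η • θ ≤ X.F
  nP : C.nrm2 (X.P - C.Γ X.a X.a) ≤ δ ^ 2
  nQ : C.nrm2 (X.Q - C.Γ X.a X.b) ≤ δ ^ 2
  nR : C.nrm2 (X.R - C.Γ X.b X.b) ≤ δ ^ 2
  nA : C.nrm2 (X.A - C.De X.F X.a) ≤ δ ^ 2
  nB : C.nrm2 (X.B - C.De X.F X.b) ≤ δ ^ 2

end Dat

end Vale.Agent.P233
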