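import Vale.Agent.P233.AB.Dat

open MeasureTheory Filter Topology
open scoped ENNReal NNReal

namespace Vale.Agent.P233

variable {M : Type*} [MeasurableSpace M] {m : Measure M}

namespace Dat

variable (X : Dat m) (C : Calc m)

/-- `½ ∫ D_u Γ(v,w)` -/
noncomputable def W3 (u v w : ℝ × ℝ) : ℝ := 2⁻¹ * I (X.D C u * C.Γ (X.pt v) (X.pt w))

/-- `∫ u div Y_{vw}` -/
noncomputable def X3 (u v w : ℝ × ℝ) : ℝ := -I (X.Y C v w (X.pt u))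

/-- `∫ F Γ(v,w)` -/
noncomputable def E2 (v w : ℝ × ℝ) : ℝ := I (X.F * C.Γ (X.pt v) (X.pt w))

/-- ideal value of `∫ g div Y_{vw}` -/
noncomputable def RR (v w : ℝ × ℝ) (g : M →ₘ[m] ℝ) : ℝ :=
  -(2⁻¹ * (I (X.D C v * C.Γ (X.pt w) g) + I (X.D C w * C.Γ (X.pt v) g)
    + I (X.F * C.Γ (C.Γ (X.pt v) (X.pt w)) g)))

/-- `Γ(e,e)` -/
noncomputable def Ge (e : ℝ × ℝ) : M →ₘ[m] ℝ := C.Γ (X.pt e) (X.pt e)

/-- ideal integrand of order two of a pair -/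
noncomputable def O2 (v e : ℝ × ℝ) (g : M →ₘ[m] ℝ) (s : ℝ) : ℝ :=
  X.RR C (v + s • e) e (g - (s / 2) • X.Ge C e)
    + I (X.D C (v + s • e) * C.Γ (X.pt e) (g - (s / 2) • X.Ge C e))
    - 2⁻¹ * I (X.F * C.Γ (g - (s / 2) • X.Ge C e) (g - (s / 2) • X.Ge C e))
    - 4⁻¹ * X.RR C (v + s • e) (v + s • e) (X.Ge C e)

/-- ideal coefficient of `ε³` of a pair -/
noncomputable def P3 (v e : ℝ × ℝ) (g : M →ₘ[m] ℝ) : ℝ := ∫ s in (0 : ℝ)..1, X.O2 C v e g s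

/-- ideal coefficient of `ε³` of a centre curve -/
noncomputable def C3 (e : ℝ × ℝ) : ℝ :=
  12⁻¹ * (I (X.F * C.Γ (X.Ge C e) (X.Ge C e)) + I (X.D C e * C.Γ (X.pt e) (X.Ge C e)))

end Dat

/-- the three directions `a`, `b`, `-a-b` -/
def dir : Fin 3 → ℝ × ℝ := ![(1, 0), (0, 1), (-1, -1)]

/-- `H(t) = 2 (t₀t₁ + t₁t₂ + t₀t₂) - t₀² - t₁² - t₂²` -/
def HH (t : Fin 3 → ℝ) : ℝ :=
  2 * (t 0 * t 1 + t 1 * t 2 + t 0 * t 2) - (t 0 ^ 2 + t 1 ^ 2 + t 2 ^ 2)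

/-- `∂ᵢ H` -/
def dHH (t : Fin 3 → ℝ) (i : Fin 3) : ℝ := 2 * (t 0 + t 1 + t 2) - 4 * t i

end Vale.Agent.P233
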