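import Vale.Agent.P233.AB.DatI

/-!
Locality, integration by parts and Cauchy-Schwarz for the data `Dat`.
-/

open MeasureTheory Filter Topology
open scoped ENNReal NNReal

namespace Vale.Agent.P233

variable {M : Type*} [MeasurableSpace M] {m : Measure M} {C : Calc m}

theorem mul_zero_of_sq {u v : M →ₘ[m] ℝ} (h : u * (u * v) = 0) : u * v = 0 := by
  rw [eq_iff_ae] at h ⊢
  filter_upwards [h, mul_ae u (u * v), mul_ae u v, zero_ae (M := M) (m := m)] with x h1 h2 h3 h4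
  rw [h2, h3, h4] at h1
  rw [h3, h4]
  rcases mul_eq_zero.1 h1 with h | h
  · rw [h, zero_mul]
  · exact h

namespace IsDir

variable (hC : IsDir C)
include hC

theorem cs2_ae {f₁ f₂ g : M →ₘ[m] ℝ} (h₁ : f₁ ∈ C.W) (h₂ : f₂ ∈ C.W) (hg : g ∈ C.W) :
    ∀ᵐ x ∂m, ∀ s t : ℝ, (s * C.Γ f₁ g x + t * C.Γ f₂ g x) ^ 2
      ≤ (s ^ 2 * C.Γ f₁ f₁ x + 2 * s * t * C.Γ f₁ f₂ x + t ^ 2 * C.Γ f₂ f₂ x) * C.Γ g g x := by
  have h : ∀ᵐ x ∂m, ∀ s t : ℚ, ((s : ℝ) * C.Γ f₁ g x + (t : ℝ) * C.Γ f₂ g x) ^ 2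
      ≤ ((s : ℝ) ^ 2 * C.Γ f₁ f₁ x + 2 * s * t * C.Γ f₁ f₂ x + (t : ℝ) ^ 2 * C.Γ f₂ f₂ x)
        * C.Γ g g x := by
    refine ae_all_iff.2 fun s => ae_all_iff.2 fun t => ?_
    have m1 := hC.smul_mem (s : ℝ) _ h₁
    have m2 := hC.smul_mem (t : ℝ) _ h₂
    have m3 := hC.add_mem _ m1 _ m2
    have e1 : C.Γ ((s : ℝ) • f₁ + (t : ℝ) • f₂) g = (s : ℝ) • C.Γ f₁ g + (t : ℝ) • C.Γ f₂ g := by
      rw [hC.add_left _ m1 _ m2 _ hg, hC.smul_left _ _ h₁ _ hg, hC.smul_left _ _ h₂ _ hg]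
    have e2 : C.Γ ((s : ℝ) • f₁ + (t : ℝ) • f₂) ((s : ℝ) • f₁ + (t : ℝ) • f₂)
        = (s : ℝ) ^ 2 • C.Γ f₁ f₁ + (2 * (s : ℝ) * t) • C.Γ f₁ f₂ + (t : ℝ) ^ 2 • C.Γ f₂ f₂ := by
      rw [hC.add_left _ m1 _ m2 _ m3, hC.Γ_add_right m1 m1 m2, hC.Γ_add_right m2 m1 m2,
        hC.smul_left _ _ h₁ _ m1, hC.smul_left _ _ h₁ _ m2, hC.smul_left _ _ h₂ _ m1,
        hC.smul_left _ _ h₂ _ m2, hC.Γ_smul_right _ h₁ h₁, hC.Γ_smul_right _ h₁ h₂,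
        hC.Γ_smul_right _ h₂ h₁, hC.Γ_smul_right _ h₂ h₂, hC.symm _ h₂ _ h₁]
      algebra
    filter_upwards [hC.Γ_cs_ae m3 hg, eq_iff_ae.1 e1, eq_iff_ae.1 e2,
      add_ae ((s : ℝ) • C.Γ f₁ g) ((t : ℝ) • C.Γ f₂ g), smul_ae (C.Γ f₁ g) (s : ℝ),
      smul_ae (C.Γ f₂ g) (t : ℝ),
      add_ae ((s : ℝ) ^ 2 • C.Γ f₁ f₁ + (2 * (s : ℝ) * t) • C.Γ f₁ f₂) ((t : ℝ) ^ 2 • C.Γ f₂ f₂),
      add_ae ((s : ℝ) ^ 2 • C.Γ f₁ f₁) ((2 * (s : ℝ) * t) • C.Γ f₁ f₂),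
      smul_ae (C.Γ f₁ f₁) ((s : ℝ) ^ 2), smul_ae (C.Γ f₁ f₂) (2 * (s : ℝ) * t),
      smul_ae (C.Γ f₂ f₂) ((t : ℝ) ^ 2)] with x a1 a2 a3 a4 a5 a6 a7 a8 a9 a10 a11
    rw [a2, a3, a4, a5, a6, a7, a8, a9, a10, a11] at a1
    exact a1
  filter_upwards [h] with x hx
  have hcl : IsClosed {p : ℝ × ℝ | (p.1 * C.Γ f₁ g x + p.2 * C.Γ f₂ g x) ^ 2
      ≤ (p.1 ^ 2 * C.Γ f₁ f₁ x + 2 * p.1 * p.2 * C.Γ f₁ f₂ x + p.2 ^ 2 * C.Γ f₂ f₂ x)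
        * C.Γ g g x} := isClosed_le (by fun_prop) (by fun_prop)
  have hd : DenseRange (Prod.map (fun q : ℚ => (q : ℝ)) (fun q : ℚ => (q : ℝ))) :=
    Rat.denseRange_cast.prodMap Rat.denseRange_cast
  intro s t
  have hmem : ∀ p : ℝ × ℝ, p ∈ {p : ℝ × ℝ | (p.1 * C.Γ f₁ g x + p.2 * C.Γ f₂ g x) ^ 2
      ≤ (p.1 ^ 2 * C.Γ f₁ f₁ x + 2 * p.1 * p.2 * C.Γ f₁ f₂ x + p.2 ^ 2 * C.Γ f₂ f₂ x)
        * C.Γ g g x} := fun p => hd.induction_on p hcl fun q => hx q.1 q.2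
  exact hmem (s, t)

theorem gram2_ae {f₁ f₂ : M →ₘ[m] ℝ} (h₁ : f₁ ∈ C.W) (h₂ : f₂ ∈ C.W) :
    ∀ᵐ x ∂m, ∀ s t : ℝ,
      0 ≤ s ^ 2 * C.Γ f₁ f₁ x + 2 * s * t * C.Γ f₁ f₂ x + t ^ 2 * C.Γ f₂ f₂ x := by
  filter_upwards [hC.Γ_cs_ae h₁ h₂, hC.Γ_nonneg_ae h₁, hC.Γ_nonneg_ae h₂] with x a1 a2 a3 s t
  set A := C.Γ f₁ f₁ x
  set B := C.Γ f₁ f₂ x
  set D := C.Γ f₂ f₂ x
  have h1 : (2 * s * t * B) ^ 2 ≤ (s ^ 2 * A + t ^ 2 * D) ^ 2 := by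
    have h2 : (s * t) ^ 2 * B ^ 2 ≤ (s * t) ^ 2 * (A * D) :=
      mul_le_mul_of_nonneg_left a1 (sq_nonneg _)
    nlinarith [sq_nonneg (s ^ 2 * A - t ^ 2 * D)]
  have h3 := abs_le_of_sq_le_sq h1 (by positivity)
  linarith [(abs_le.1 h3).1]

end IsDir

namespace IsGamma

variable (hC : IsGamma C) {κ : ℝ} (hB : C.BEi κ)
variable {θ u g F : M →ₘ[m] ℝ}

include hC

/-- locality -/
theorem loc_Γ (hθ : θ ∈ C.Test) (hu : u ∈ C.Test) (h : θ * u = u) (hg : g ∈ C.W) :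
    (1 - θ) * C.Γ u g = 0 := by
  have hD := hC.toIsDir
  refine mul_zero_of_sq ?_
  have e1 : C.Γ u g = θ * C.Γ u g + u * C.Γ θ g := by
    have := hD.Γ_mul_left (hC.test_A hθ) (hC.test_A hu) hg
    rwa [h] at this
  have e2 : (1 - θ) * C.Γ u g = u * C.Γ θ g := by
    linear_combination e1
  rw [e2]
  have e3 : (1 - θ) * u = 0 := by
    linear_combination -h
  rw [← mul_assoc, e3, zero_mul]

include hB in
/-- locality -/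
theorem loc_lap (hθ : θ ∈ C.Test) (hu : u ∈ C.Test) (h : θ * u = u) :
    (1 - θ) * C.lap u = 0 := by
  have hD := hC.toIsDir
  refine mul_zero_of_sq ?_
  have e1 := hC.lap_mul hB hθ hu
  rw [h] at e1
  have e2 : (1 - θ) * C.Γ u θ = 0 := hC.loc_Γ hθ hu h (hC.test_A hθ).1
  rw [hC.symm _ (hC.test_A hu).1 _ (hC.test_A hθ).1] at e2
  have e3 : (1 - θ) * u = 0 := by
    linear_combination -h
  have e4 : (1 - θ) * ((1 - θ) * C.lap u)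
      = ((1 - θ) * u) * C.lap θ + (2 : ℝ) • ((1 - θ) * C.Γ θ u) := by
    have e5 : (1 - θ) * C.lap u = u * C.lap θ + (2 : ℝ) • C.Γ θ u := by
      linear_combination e1
    rw [e5]
    algebra
  rw [e4, e3, e2, zero_mul, smul_zero, add_zero]

/-- `∫ g div(F∇u) = - ∫ F Γ(u,g)` -/
theorem ibp_De (hF : F ∈ C.Test) (hu : u ∈ C.TestI) (hg : g ∈ C.W) :
    I (g * C.De F u) = - I (F * C.Γ u g) := by
  have hD := hC.toIsDir
  have FA := hC.test_A hF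
  have FT := hC.test_Γ_top hF
  have uA := hC.test_A hu.1
  have uT := hC.test_Γ_top hu.1
  have hFg := hD.mul_mem_lip FA FT hg
  have h1 := (hC.test_isLap hu.1).2.2 _ hFg
  change I (C.Γ u (F * g)) = -I (C.lap u * (F * g)) at h1
  have e1 : C.Γ u (F * g) = F * C.Γ u g + g * C.Γ F u := by
    rw [hC.symm _ uA.1 _ hFg, hD.Γ_mul_left_lip FA FT hg uA.1, hC.symm _ hg _ uA.1]
  have g2 := hC.memLp g hg
  have m1 : MemLp (F * C.Γ u g : M →ₘ[m] ℝ) 1 m := mem_mul_top FA.2 (hD.Γ_mem1 uA.1 hg)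
  have m2 : MemLp (g * C.Γ F u : M →ₘ[m] ℝ) 1 m :=
    mem_mul_22 g2 (hD.Γ_mem2 FA.1 FT uA.1)
  have m3 : MemLp (g * (F * C.lap u) : M →ₘ[m] ℝ) 1 m :=
    mem_mul_22 g2 (mem_mul_top FA.2 (hC.test_isLap hu.1).2.1)
  rw [e1, I_add m1 m2] at h1
  have e2 : g * C.De F u = g * C.Γ F u + g * (F * C.lap u) := by
    unfold Calc.De; ring
  have e3 : C.lap u * (F * g) = g * (F * C.lap u) := by ring
  rw [e3] at h1
  rw [e2, I_add m2 m3]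
  linarith

end IsGamma

theorem sub_one_mul_eq {θ u : M →ₘ[m] ℝ} (h : θ * u = u) : (1 - θ) * u = 0 := by
  linear_combination -h

theorem mul_eq_of_sub_one {θ u : M →ₘ[m] ℝ} (h : (1 - θ) * u = 0) : θ * u = u := by
  linear_combination -h

/-- where `θ ≠ 1` the function vanishes -/
theorem eq_zero_of_loc {θ u : M →ₘ[m] ℝ} (h : (1 - θ) * u = 0) :
    ∀ᵐ x ∂m, θ x = 1 ∨ u x = 0 := by
  rw [eq_iff_ae] at h
  filter_upwards [h, mul_ae (1 - θ) u, sub_ae 1 θ, one_ae (M := M) (m := m),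
    zero_ae (M := M) (m := m)] with x a1 a2 a3 a4 a5
  rw [a2, a3, a4, a5] at a1
  rcases mul_eq_zero.1 a1 with h | h
  · left; linarith
  · right; exact h

namespace Dat

variable {X : Dat m} {θ : M →ₘ[m] ℝ} {η δ : ℝ}

section lin
variable (X C)

theorem pt_smul (t : ℝ) (e : ℝ × ℝ) : X.pt (t • e) = t • X.pt e := by
  simp only [pt, Prod.smul_fst, Prod.smul_snd, smul_eq_mul, mul_smul, smul_add]

theorem D_smul (t : ℝ) (e : ℝ × ℝ) : X.D C (t • e) = t • X.D C e := by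
  simp only [D, Prod.smul_fst, Prod.smul_snd, smul_eq_mul, mul_smul, smul_add]

theorem D'_smul (t : ℝ) (e : ℝ × ℝ) : X.D' (t • e) = t • X.D' e := by
  simp only [D', Prod.smul_fst, Prod.smul_snd, smul_eq_mul, mul_smul, smul_add]

theorem G'_smul (t : ℝ) (e : ℝ × ℝ) : X.G' (t • e) (t • e) = t ^ 2 • X.G' e e := by
  simp only [G', Prod.smul_fst, Prod.smul_snd, smul_eq_mul]
  rw [show t * e.1 * (t * e.1) = t ^ 2 * (e.1 * e.1) by ring,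
    show t * e.1 * (t * e.2) + t * e.2 * (t * e.1) = t ^ 2 * (e.1 * e.2 + e.2 * e.1) by ring,
    show t * e.2 * (t * e.2) = t ^ 2 * (e.2 * e.2) by ring]
  simp only [mul_smul, smul_add]

theorem pt_add (v w : ℝ × ℝ) : X.pt (v + w) = X.pt v + X.pt w := by
  simp only [pt, Prod.fst_add, Prod.snd_add, add_smul]
  abel

theorem D_add (v w : ℝ × ℝ) : X.D C (v + w) = X.D C v + X.D C w := by
  simp only [D, Prod.fst_add, Prod.snd_add, add_smul]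
  abel

theorem D'_add (v w : ℝ × ℝ) : X.D' (v + w) = X.D' v + X.D' w := by
  simp only [D', Prod.fst_add, Prod.snd_add, add_smul]
  abel

theorem G'_comm (v w : ℝ × ℝ) : X.G' v w = X.G' w v := by
  simp only [G']
  rw [mul_comm v.1 w.1, mul_comm v.2 w.2, show v.1 * w.2 + v.2 * w.1 = w.1 * v.2 + w.2 * v.1 by ring]

theorem G'_add (v w u : ℝ × ℝ) : X.G' (v + w) u = X.G' v u + X.G' w u := by
  simp only [G', Prod.fst_add, Prod.snd_add]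
  rw [show (v.1 + w.1) * u.1 = v.1 * u.1 + w.1 * u.1 by ring,
    show (v.1 + w.1) * u.2 + (v.2 + w.2) * u.1
      = (v.1 * u.2 + v.2 * u.1) + (w.1 * u.2 + w.2 * u.1) by ring,
    show (v.2 + w.2) * u.2 = v.2 * u.2 + w.2 * u.2 by ring]
  simp only [add_smul]
  abel

end lin

section Ok

variable (hC : IsGamma C) {κ : ℝ} (hB : C.BEi κ) (hX : X.Ok C θ η δ)
include hC hB hX

theorem pt_memI (v : ℝ × ℝ) : X.pt v ∈ C.TestI :=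
  hC.testI_add hB (hC.testI_smul hB _ hX.ha) (hC.testI_smul hB _ hX.hb)

theorem D'_memI (v : ℝ × ℝ) : X.D' v ∈ C.TestI :=
  hC.testI_add hB (hC.testI_smul hB _ hX.hA) (hC.testI_smul hB _ hX.hB)

theorem G'_memI (v w : ℝ × ℝ) : X.G' v w ∈ C.TestI :=
  hC.testI_add hB (hC.testI_add hB (hC.testI_smul hB _ hX.hP) (hC.testI_smul hB _ hX.hQ))
    (hC.testI_smul hB _ hX.hR)

omit hC hB in
theorem θ_pt (v : ℝ × ℝ) : θ * X.pt v = X.pt v := by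
  simp only [pt, mul_add, mul_smul_comm, hX.θa, hX.θb]

omit hC hB in
theorem θ_D' (v : ℝ × ℝ) : θ * X.D' v = X.D' v := by
  simp only [D', mul_add, mul_smul_comm, hX.θA, hX.θB]

omit hC hB in
theorem θ_G' (v w : ℝ × ℝ) : θ * X.G' v w = X.G' v w := by
  simp only [G', mul_add, mul_smul_comm, hX.θP, hX.θQ, hX.θR]

/-- `D v = div(F∇v)` -/
theorem D_eq (v : ℝ × ℝ) : X.D C v = C.De X.F (X.pt v) := by
  have hF := (hC.test_A hX.hF.1).1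
  have ha := (hC.test_A hX.ha.1).1
  have hb := (hC.test_A hX.hb.1).1
  unfold D pt Calc.De
  rw [hC.toIsDir.Γ_add_right hF (hC.smul_mem _ _ ha) (hC.smul_mem _ _ hb),
    hC.toIsDir.Γ_smul_right _ hF ha, hC.toIsDir.Γ_smul_right _ hF hb,
    hC.lap_add hB (hC.test_smul hB _ hX.ha.1) (hC.test_smul hB _ hX.hb.1),
    hC.lap_smul hB _ hX.ha.1, hC.lap_smul hB _ hX.hb.1]
  algebra

omit hC hB hX in
/-- `r v w` in terms of divergences -/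
theorem r_eq (v w : ℝ × ℝ) : X.r C v w = (2 : ℝ)⁻¹ • (C.De (X.D' v) (X.pt w)
    + C.De (X.D' w) (X.pt v) + C.De X.F (X.G' v w)) := rfl

theorem r_smul (t : ℝ) (e : ℝ × ℝ) : X.r C (t • e) (t • e) = t ^ 2 • X.r C e e := by
  have hF := (hC.test_A hX.hF.1).1
  have hp := pt_memI hC hB hX e
  have hd := D'_memI hC hB hX e
  have hg := G'_memI hC hB hX e e
  have pW := (hC.test_A hp.1).1
  have dW := (hC.test_A hd.1).1
  have gW := (hC.test_A hg.1).1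
  rw [r_eq, r_eq, pt_smul, D'_smul, G'_smul]
  unfold Calc.De
  rw [hC.lap_smul hB _ hp.1, hC.lap_smul hB _ hg.1,
    hC.smul_left _ _ dW _ (hC.smul_mem _ _ pW), hC.toIsDir.Γ_smul_right _ dW pW,
    hC.toIsDir.Γ_smul_right _ hF gW]
  algebra

omit hX in
theorem De_memA {f g : M →ₘ[m] ℝ} (hf : f ∈ C.TestI) (hg : g ∈ C.TestI) : C.De f g ∈ C.A := by
  have h1 := hC.Γ_mem hB hf.1 hg.1
  have h2 := hC.toIsDir.mul_mem_A (hC.test_A hf.1) (hC.testI_lap_A hB hg)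
  exact hC.toIsDir.A_add h1 h2

theorem D_memA (v : ℝ × ℝ) : X.D C v ∈ C.A := by
  rw [D_eq hC hB hX]
  exact De_memA hC hB hX.hF (pt_memI hC hB hX v)

theorem r_memA (v w : ℝ × ℝ) : X.r C v w ∈ C.A := by
  rw [r_eq]
  exact hC.toIsDir.A_smul _ (hC.toIsDir.A_add (hC.toIsDir.A_add
    (De_memA hC hB (D'_memI hC hB hX v) (pt_memI hC hB hX w))
    (De_memA hC hB (D'_memI hC hB hX w) (pt_memI hC hB hX v)))
    (De_memA hC hB hX.hF (G'_memI hC hB hX v w)))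

omit hX in
theorem loc_De {f g : M →ₘ[m] ℝ} (hθ : θ ∈ C.Test) (hf : f ∈ C.Test) (hg : g ∈ C.TestI)
    (h : θ * g = g) : (1 - θ) * C.De f g = 0 := by
  unfold Calc.De
  have h1 := hC.loc_Γ hθ hg.1 h (hC.test_A hf).1
  rw [hC.symm _ (hC.test_A hg.1).1 _ (hC.test_A hf).1] at h1
  have h2 := hC.loc_lap hB hθ hg.1 h
  have e : (1 - θ) * (C.Γ f g + f * C.lap g) = (1 - θ) * C.Γ f g + f * ((1 - θ) * C.lap g) := by
    ring
  rw [e, h1, h2, mul_zero, add_zero]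

theorem loc_D (v : ℝ × ℝ) : (1 - θ) * X.D C v = 0 := by
  rw [D_eq hC hB hX]
  exact loc_De hC hB hX.hθ.1 hX.hF.1 (pt_memI hC hB hX v) (θ_pt hX v)

theorem loc_r (v w : ℝ × ℝ) : (1 - θ) * X.r C v w = 0 := by
  rw [r_eq, mul_smul_comm, mul_add, mul_add,
    loc_De hC hB hX.hθ.1 (D'_memI hC hB hX v).1 (pt_memI hC hB hX w) (θ_pt hX w),
    loc_De hC hB hX.hθ.1 (D'_memI hC hB hX w).1 (pt_memI hC hB hX v) (θ_pt hX v),
    loc_De hC hB hX.hθ.1 hX.hF.1 (G'_memI hC hB hX v w) (θ_G' hX v w)]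
  simp

theorem loc_Γpt (v : ℝ × ℝ) {g : M →ₘ[m] ℝ} (hg : g ∈ C.W) : (1 - θ) * C.Γ (X.pt v) g = 0 :=
  hC.loc_Γ hX.hθ.1 (pt_memI hC hB hX v).1 (θ_pt hX v) hg

theorem loc_ΓG' (v w : ℝ × ℝ) {g : M →ₘ[m] ℝ} (hg : g ∈ C.W) :
    (1 - θ) * C.Γ (X.G' v w) g = 0 :=
  hC.loc_Γ hX.hθ.1 (G'_memI hC hB hX v w).1 (θ_G' hX v w) hg

theorem loc_Y (v w : ℝ × ℝ) {g : M →ₘ[m] ℝ} (hg : g ∈ C.W) : (1 - θ) * X.Y C v w g = 0 := by
  have h1 := loc_Γpt hC hB hX v hg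
  have h2 := loc_Γpt hC hB hX w hg
  have h3 := loc_ΓG' hC hB hX v w hg
  unfold Y
  rw [mul_smul_comm]
  have e : (1 - θ) * (X.D' v * C.Γ (X.pt w) g + X.D' w * C.Γ (X.pt v) g
      + X.F * C.Γ (X.G' v w) g) = X.D' v * ((1 - θ) * C.Γ (X.pt w) g)
      + X.D' w * ((1 - θ) * C.Γ (X.pt v) g) + X.F * ((1 - θ) * C.Γ (X.G' v w) g) := by ring
  rw [e, h1, h2, h3]
  simp

theorem Y_mem1 (v w : ℝ × ℝ) {g : M →ₘ[m] ℝ} (hg : g ∈ C.W) : MemLp (X.Y C v w g) 1 m := by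
  have hD := hC.toIsDir
  have pv := (hC.test_A (pt_memI hC hB hX v).1).1
  have pw := (hC.test_A (pt_memI hC hB hX w).1).1
  have gg := (hC.test_A (G'_memI hC hB hX v w).1).1
  exact mem_smul _ (mem_add (mem_add
    (mem_mul_top (hC.test_A (D'_memI hC hB hX v).1).2 (hD.Γ_mem1 pw hg))
    (mem_mul_top (hC.test_A (D'_memI hC hB hX w).1).2 (hD.Γ_mem1 pv hg)))
    (mem_mul_top (hC.test_A hX.hF.1).2 (hD.Γ_mem1 gg hg)))

/-- `∫ g D_v = - ∫ F Γ(v,g)` -/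
theorem ibp_D (v : ℝ × ℝ) {g : M →ₘ[m] ℝ} (hg : g ∈ C.W) :
    I (g * X.D C v) = - I (X.F * C.Γ (X.pt v) g) := by
  rw [D_eq hC hB hX]
  exact hC.ibp_De hX.hF.1 (pt_memI hC hB hX v) hg

/-- `∫ g r_{vw} = - ∫ Y_{vw}(g)` -/
theorem ibp_r (v w : ℝ × ℝ) {g : M →ₘ[m] ℝ} (hg : g ∈ C.W) :
    I (g * X.r C v w) = - I (X.Y C v w g) := by
  have hD := hC.toIsDir
  have g2 := hC.memLp g hg
  have Pv := pt_memI hC hB hX v
  have Pw := pt_memI hC hB hX w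
  have Dv := D'_memI hC hB hX v
  have Dw := D'_memI hC hB hX w
  have Gg := G'_memI hC hB hX v w
  have h1 := hC.ibp_De Dv.1 Pw hg
  have h2 := hC.ibp_De Dw.1 Pv hg
  have h3 := hC.ibp_De hX.hF.1 Gg hg
  have n1 : MemLp (g * C.De (X.D' v) (X.pt w) : M →ₘ[m] ℝ) 1 m :=
    mem_mul_22 g2 (hC.memLp _ (De_memA hC hB Dv Pw).1)
  have n2 : MemLp (g * C.De (X.D' w) (X.pt v) : M →ₘ[m] ℝ) 1 m :=
    mem_mul_22 g2 (hC.memLp _ (De_memA hC hB Dw Pv).1)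
  have n3 : MemLp (g * C.De X.F (X.G' v w) : M →ₘ[m] ℝ) 1 m :=
    mem_mul_22 g2 (hC.memLp _ (De_memA hC hB hX.hF Gg).1)
  have q1 : MemLp (X.D' v * C.Γ (X.pt w) g : M →ₘ[m] ℝ) 1 m :=
    mem_mul_top (hC.test_A Dv.1).2 (hD.Γ_mem1 (hC.test_A Pw.1).1 hg)
  have q2 : MemLp (X.D' w * C.Γ (X.pt v) g : M →ₘ[m] ℝ) 1 m :=
    mem_mul_top (hC.test_A Dw.1).2 (hD.Γ_mem1 (hC.test_A Pv.1).1 hg)
  have q3 : MemLp (X.F * C.Γ (X.G' v w) g : M →ₘ[m] ℝ) 1 m :=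
    mem_mul_top (hC.test_A hX.hF.1).2 (hD.Γ_mem1 (hC.test_A Gg.1).1 hg)
  have e1 : g * X.r C v w = (2 : ℝ)⁻¹ • (g * C.De (X.D' v) (X.pt w)
      + g * C.De (X.D' w) (X.pt v) + g * C.De X.F (X.G' v w)) := by
    rw [r_eq]; algebra
  rw [e1, I_smul, I_add (mem_add n1 n2) n3, I_add n1 n2, h1, h2, h3]
  unfold Y
  rw [I_smul, I_add (mem_add q1 q2) q3, I_add q1 q2]
  ring

end Ok

end Dat

end Vale.Agent.P233
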