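import Vale.Agent.P233.AB.Dual0

namespace Vale.Agent.P233

/-- the real inequality behind the dual form: after the quadratic inequality for the squared
distances `D i`, the right-hand side is the sum of the centre costs. -/
theorem dual_real (κ ε : ℝ) (hε : 0 < ε) (t : Fin 3 → ℝ) (D0 D1 D2 : ℝ) :
    (3 * (D0 + D1 + D2) - κ / 4 * (2 * (D0 * D1 + D1 * D2 + D0 * D2)
      - (D0 ^ 2 + D1 ^ 2 + D2 ^ 2))) / (6 * ε)
      ≤ (1 / 2 - bet κ t 0 * ε ^ 2) * D0 / ε + (|κ| / 8 * ε ^ 2) * D0 ^ 2 / ε ^ 3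
        + ((1 / 2 - bet κ t 1 * ε ^ 2) * D1 / ε + (|κ| / 8 * ε ^ 2) * D1 ^ 2 / ε ^ 3)
        + ((1 / 2 - bet κ t 2 * ε ^ 2) * D2 / ε + (|κ| / 8 * ε ^ 2) * D2 ^ 2 / ε ^ 3)
        + ε ^ 3 * (κ / 24 * HH t + |κ| / 8 * (t 0 ^ 2 + t 1 ^ 2 + t 2 ^ 2)) := by
  set s0 := D0 - ε ^ 2 * t 0 with hs0
  set s1 := D1 - ε ^ 2 * t 1 with hs1
  set s2 := D2 - ε ^ 2 * t 2 with hs2
  have hκ := abs_nonneg κ
  have hκ1 := le_abs_self κ
  have hκ2 := neg_abs_le κ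
  have key : 0 ≤ (3 * |κ| * (s0 ^ 2 + s1 ^ 2 + s2 ^ 2)
      + κ * (2 * (s0 * s1 + s1 * s2 + s0 * s2) - (s0 ^ 2 + s1 ^ 2 + s2 ^ 2))) / (24 * ε) := by
    apply div_nonneg _ (by positivity)
    have h1 : |2 * (s0 * s1 + s1 * s2 + s0 * s2) - (s0 ^ 2 + s1 ^ 2 + s2 ^ 2)|
        ≤ 3 * (s0 ^ 2 + s1 ^ 2 + s2 ^ 2) := by
      rw [abs_le]
      constructor
      · nlinarith [sq_nonneg (s0 + s1 + s2), sq_nonneg s0, sq_nonneg s1, sq_nonneg s2]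
      · nlinarith [sq_nonneg (s0 - s1), sq_nonneg (s1 - s2), sq_nonneg (s0 - s2), sq_nonneg s0,
          sq_nonneg s1, sq_nonneg s2]
    have h2 : |κ * (2 * (s0 * s1 + s1 * s2 + s0 * s2) - (s0 ^ 2 + s1 ^ 2 + s2 ^ 2))|
        ≤ |κ| * (3 * (s0 ^ 2 + s1 ^ 2 + s2 ^ 2)) := by
      rw [abs_mul]; exact mul_le_mul_of_nonneg_left h1 hκ
    have h3 := (abs_le.1 h2).1
    linarith
  have e : ((1 / 2 - bet κ t 0 * ε ^ 2) * D0 / ε + (|κ| / 8 * ε ^ 2) * D0 ^ 2 / ε ^ 3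
        + ((1 / 2 - bet κ t 1 * ε ^ 2) * D1 / ε + (|κ| / 8 * ε ^ 2) * D1 ^ 2 / ε ^ 3)
        + ((1 / 2 - bet κ t 2 * ε ^ 2) * D2 / ε + (|κ| / 8 * ε ^ 2) * D2 ^ 2 / ε ^ 3)
        + ε ^ 3 * (κ / 24 * HH t + |κ| / 8 * (t 0 ^ 2 + t 1 ^ 2 + t 2 ^ 2)))
        - (3 * (D0 + D1 + D2) - κ / 4 * (2 * (D0 * D1 + D1 * D2 + D0 * D2)
      - (D0 ^ 2 + D1 ^ 2 + D2 ^ 2))) / (6 * ε)
      = (3 * |κ| * (s0 ^ 2 + s1 ^ 2 + s2 ^ 2)
      + κ * (2 * (s0 * s1 + s1 * s2 + s0 * s2) - (s0 ^ 2 + s1 ^ 2 + s2 ^ 2))) / (24 * ε) := by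
    simp only [bet, dHH, HH, hs0, hs1, hs2]
    have := hε.ne'
    field_simp
    ring
  linarith

theorem inf3 {M : Type*} [Nonempty M] (F0 F1 F2 : M → ℝ) (X : ℝ)
    (h : ∀ x y w, X ≤ F0 x + F1 y + F2 w) : X ≤ (⨅ x, F0 x) + (⨅ x, F1 x) + ⨅ x, F2 x := by
  have h1 : ∀ y w, X - F2 w - F1 y ≤ ⨅ x, F0 x := fun y w => le_ciInf fun x => by
    linarith [h x y w]
  have h2 : ∀ w, X - F2 w - (⨅ x, F0 x) ≤ ⨅ x, F1 x := fun w => le_ciInf fun y => by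
    linarith [h1 y w]
  have h3 : X - (⨅ x, F0 x) - (⨅ x, F1 x) ≤ ⨅ x, F2 x := le_ciInf fun w => by
    linarith [h2 w]
  linarith

/-- dual form of the quadratic (1+3)-point inequality -/
theorem dual_lss {M : Type*} [MetricSpace M] {κ r₀ C : ℝ} (hr₀ : 0 < r₀) (hC : 0 ≤ C)
    (h : LSS M κ r₀ C) (t : Fin 3 → ℝ) (L : ℝ) (hL : 0 ≤ L) :
    ∃ C₁ ≥ 0, ∃ ε₀ > 0, ∀ ε, 0 < ε → ε ≤ ε₀ → ∀ ξ : ℝ, 0 ≤ ξ →
      ∀ u₁₂ w₁₂ u₁₃ w₁₃ u₂₃ w₂₃ : M → ℝ,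
      (∀ f ∈ ({u₁₂, w₁₂, u₁₃, w₁₃, u₂₃, w₂₃} : Set (M → ℝ)),
        (∀ x y, |f x - f y| ≤ L * dist x y) ∧ ∃ b, ∀ x, |f x| ≤ b) →
      (∀ x y, w₁₂ y - u₁₂ x ≤ dist x y ^ 2 / (2 * ε) + ξ) →
      (∀ x y, w₁₃ y - u₁₃ x ≤ dist x y ^ 2 / (2 * ε) + ξ) →
      (∀ x y, w₂₃ y - u₂₃ x ≤ dist x y ^ 2 / (2 * ε) + ξ) →
      ∀ z, -(ε ^ 3 * (κ / 24 * HH t + |κ| / 8 * (t 0 ^ 2 + t 1 ^ 2 + t 2 ^ 2))) - C₁ * ε ^ 5 - ξ
        ≤ (⨅ y, ((u₁₂ y + u₁₃ y) / 3 + cst κ t 0 ε (dist z y)))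
          + (⨅ y, ((u₂₃ y - w₁₂ y) / 3 + cst κ t 1 ε (dist z y)))
          + (⨅ y, (-(w₁₃ y + w₂₃ y) / 3 + cst κ t 2 ε (dist z y))) := by
  set R : ℝ := 4 * L + 4 with hR
  have hR0 : 0 < R := by positivity
  set Bt : ℝ := |bet κ t 0| + |bet κ t 1| + |bet κ t 2| + 1 with hBt
  have hBt0 : 0 < Bt := by positivity
  refine ⟨C * R ^ 6 / 6, by positivity, min 1 (min (1 / (4 * Bt)) (r₀ / R)), by positivity, ?_⟩
  intro ε hε hε0 ξ hξ u₁₂ w₁₂ u₁₃ w₁₃ u₂₃ w₂₃ hf h12 h13 h23 z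
  have hε1 : ε ≤ 1 := hε0.trans (min_le_left _ _)
  have hε2 : ε ≤ 1 / (4 * Bt) := hε0.trans ((min_le_right _ _).trans (min_le_left _ _))
  have hε3 : ε ≤ r₀ / R := hε0.trans ((min_le_right _ _).trans (min_le_right _ _))
  have hRε : R * ε ≤ r₀ := by
    rw [le_div_iff₀ hR0] at hε3; linarith
  have hBε : Bt * ε ^ 2 ≤ 1 / 4 := by
    rw [le_div_iff₀ (by positivity)] at hε2
    nlinarith
  have : Nonempty M := ⟨z⟩
  -- localisation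
  have loc : ∀ (f : M → ℝ), (∀ x y, |f x - f y| ≤ L * dist x y) → ∀ i : Fin 3, ∀ x : M,
      ∃ x' : M, dist z x' ≤ R * ε ∧
        f x' + cst κ t i ε (dist z x') ≤ f x + cst κ t i ε (dist z x) := by
    intro f hfL i x
    by_cases hx : dist z x ≤ R * ε
    · exact ⟨x, hx, le_refl _⟩
    · push Not at hx
      refine ⟨z, by rw [dist_self]; positivity, ?_⟩
      have h1 := (abs_le.1 (hfL x z)).1
      rw [dist_comm] at h1
      have hd : 0 ≤ dist z x := dist_nonneg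
      have h2 : cst κ t i ε (dist z z) = 0 := by
        rw [dist_self]; simp [cst]
      have hbi : bet κ t i ≤ Bt := by
        have h3 : |bet κ t i| ≤ Bt := by
          have a0 := abs_nonneg (bet κ t 0)
          have a1 := abs_nonneg (bet κ t 1)
          have a2 := abs_nonneg (bet κ t 2)
          fin_cases i <;> simp only [hBt] <;> simp <;> linarith
        exact (le_abs_self _).trans h3
      have h4 : (1 : ℝ) / 4 ≤ 1 / 2 - bet κ t i * ε ^ 2 := by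
        have : bet κ t i * ε ^ 2 ≤ Bt * ε ^ 2 := mul_le_mul_of_nonneg_right hbi (by positivity)
        linarith
      have h5 : L * dist z x ≤ cst κ t i ε (dist z x) := by
        have h6 : 0 ≤ (|κ| / 8 * ε ^ 2) * dist z x ^ 4 / ε ^ 3 := by positivity
        have h7 : 1 / 4 * dist z x ^ 2 / ε ≤ (1 / 2 - bet κ t i * ε ^ 2) * dist z x ^ 2 / ε := by
          gcongr
        have h8 : L * dist z x ≤ 1 / 4 * dist z x ^ 2 / ε := by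
          rw [le_div_iff₀ hε]
          have h9 : L * ε ≤ 1 / 4 * dist z x := by nlinarith
          nlinarith
        rw [cst]; linarith
      rw [h2]
      linarith
  -- the inequality for points
  have main : ∀ x0 x1 x2 : M,
      -(ε ^ 3 * (κ / 24 * HH t + |κ| / 8 * (t 0 ^ 2 + t 1 ^ 2 + t 2 ^ 2)))
        - C * R ^ 6 / 6 * ε ^ 5 - ξ
        ≤ ((u₁₂ x0 + u₁₃ x0) / 3 + cst κ t 0 ε (dist z x0))
          + ((u₂₃ x1 - w₁₂ x1) / 3 + cst κ t 1 ε (dist z x1))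
          + (-(w₁₃ x2 + w₂₃ x2) / 3 + cst κ t 2 ε (dist z x2)) := by
    intro x0 x1 x2
    have lip2 : ∀ (f g : M → ℝ), (∀ x y, |f x - f y| ≤ L * dist x y) →
        (∀ x y, |g x - g y| ≤ L * dist x y) → ∀ x y : M,
        |f x - f y| + |g x - g y| ≤ 3 * (L * dist x y) := by
      intro f g hf hg x y
      have := mul_nonneg hL (dist_nonneg (x := x) (y := y))
      linarith [hf x y, hg x y]
    have l12 := (hf u₁₂ (by simp)).1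
    have lw12 := (hf w₁₂ (by simp)).1
    have l13 := (hf u₁₃ (by simp)).1
    have lw13 := (hf w₁₃ (by simp)).1
    have l23 := (hf u₂₃ (by simp)).1
    have lw23 := (hf w₂₃ (by simp)).1
    obtain ⟨y0, hy0, hy0'⟩ := loc (fun y => (u₁₂ y + u₁₃ y) / 3) (by
      intro x y
      have h1 := lip2 _ _ l12 l13 x y
      have h2 := abs_add_le (u₁₂ x - u₁₂ y) (u₁₃ x - u₁₃ y)
      have h3 : (u₁₂ x + u₁₃ x) / 3 - (u₁₂ y + u₁₃ y) / 3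
        = ((u₁₂ x - u₁₂ y) + (u₁₃ x - u₁₃ y)) / 3 := by ring
      rw [h3, abs_div, abs_of_pos (show (0 : ℝ) < 3 by norm_num), div_le_iff₀ (by norm_num)]
      linarith) 0 x0
    obtain ⟨y1, hy1, hy1'⟩ := loc (fun y => (u₂₃ y - w₁₂ y) / 3) (by
      intro x y
      have h1 := lip2 _ _ l23 lw12 x y
      have h2 := abs_sub (u₂₃ x - u₂₃ y) (w₁₂ x - w₁₂ y)
      have h3 : (u₂₃ x - w₁₂ x) / 3 - (u₂₃ y - w₁₂ y) / 3
        = ((u₂₃ x - u₂₃ y) - (w₁₂ x - w₁₂ y)) / 3 := by ring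
      rw [h3, abs_div, abs_of_pos (show (0 : ℝ) < 3 by norm_num), div_le_iff₀ (by norm_num)]
      linarith) 1 x1
    obtain ⟨y2, hy2, hy2'⟩ := loc (fun y => -(w₁₃ y + w₂₃ y) / 3) (by
      intro x y
      have h1 := lip2 _ _ lw13 lw23 x y
      have h2 := abs_add_le (w₁₃ x - w₁₃ y) (w₂₃ x - w₂₃ y)
      have h3 : -(w₁₃ x + w₂₃ x) / 3 - -(w₁₃ y + w₂₃ y) / 3
        = -(((w₁₃ x - w₁₃ y) + (w₂₃ x - w₂₃ y)) / 3) := by ring
      rw [h3, abs_neg, abs_div, abs_of_pos (show (0 : ℝ) < 3 by norm_num),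
        div_le_iff₀ (by norm_num)]
      linarith) 2 x2
    refine le_trans ?_ (add_le_add (add_le_add hy0' hy1') hy2')
    have hl := h z y0 y1 y2 (R * ε) hy0 hy1 hy2 hRε
    have hr := dual_real κ ε hε t (dist z y0 ^ 2) (dist z y1 ^ 2) (dist z y2 ^ 2)
    have e12 := h12 y0 y1
    have e13 := h13 y0 y2
    have e23 := h23 y1 y2
    have hε6 : 0 < 6 * ε := by positivity
    have hl2 : (dist y0 y1 ^ 2 + dist y1 y2 ^ 2 + dist y0 y2 ^ 2) / (6 * ε)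
        ≤ (3 * (dist z y0 ^ 2 + dist z y1 ^ 2 + dist z y2 ^ 2)
          - κ / 4 * (2 * (dist z y0 ^ 2 * dist z y1 ^ 2 + dist z y1 ^ 2 * dist z y2 ^ 2
          + dist z y0 ^ 2 * dist z y2 ^ 2)
          - ((dist z y0 ^ 2) ^ 2 + (dist z y1 ^ 2) ^ 2 + (dist z y2 ^ 2) ^ 2))) / (6 * ε)
          + C * R ^ 6 / 6 * ε ^ 5 := by
      have h5 : C * R ^ 6 / 6 * ε ^ 5 = (C * (R * ε) ^ 6) / (6 * ε) := by
        have := hε.ne'
        field_simp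
      rw [h5, ← add_div]
      apply div_le_div_of_nonneg_right _ hε6.le
      have h6 : ∀ x : ℝ, (x ^ 2) ^ 2 = x ^ 4 := fun x => by ring
      rw [h6, h6, h6]
      linarith
    have e3 : (dist y0 y1 ^ 2 + dist y1 y2 ^ 2 + dist y0 y2 ^ 2) / (6 * ε)
        = (dist y0 y1 ^ 2 / (2 * ε) + dist y1 y2 ^ 2 / (2 * ε) + dist y0 y2 ^ 2 / (2 * ε)) / 3 := by
      have := hε.ne'
      field_simp
      ring
    have c0 : ∀ (i : Fin 3) (d : ℝ), cst κ t i ε d = (1 / 2 - bet κ t i * ε ^ 2) * d ^ 2 / ε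
        + (|κ| / 8 * ε ^ 2) * (d ^ 2) ^ 2 / ε ^ 3 := by
      intro i d; rw [cst]; ring_nf
    rw [c0, c0, c0]
    linarith
  exact inf3 _ _ _ _ main

end Vale.Agent.P233
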