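import Vale.Agent.P233.AB.DatI

namespace Vale.Agent.P233

/-- the quadratic (1+3)-point inequality of curvature `≥ κ` at small scales -/
def LSS (M : Type*) [MetricSpace M] (κ r₀ C : ℝ) : Prop :=
  ∀ (z x₁ x₂ x₃ : M) (r : ℝ), dist z x₁ ≤ r → dist z x₂ ≤ r → dist z x₃ ≤ r → r ≤ r₀ →
      dist x₁ x₂ ^ 2 + dist x₂ x₃ ^ 2 + dist x₁ x₃ ^ 2
        + κ / 4 * (2 * (dist z x₁ ^ 2 * dist z x₂ ^ 2 + dist z x₂ ^ 2 * dist z x₃ ^ 2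
        + dist z x₁ ^ 2 * dist z x₃ ^ 2) - (dist z x₁ ^ 4 + dist z x₂ ^ 4 + dist z x₃ ^ 4))
        ≤ 3 * (dist z x₁ ^ 2 + dist z x₂ ^ 2 + dist z x₃ ^ 2) + C * r ^ 6

/-- the coefficient `A = ½ - β ε²` of the centre cost -/
noncomputable def bet (κ : ℝ) (t : Fin 3 → ℝ) (i : Fin 3) : ℝ :=
  κ / 24 * dHH t i + |κ| / 4 * t i

/-- the centre cost -/
noncomputable def cst (κ : ℝ) (t : Fin 3 → ℝ) (i : Fin 3) (ε d : ℝ) : ℝ :=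
  (1 / 2 - bet κ t i * ε ^ 2) * d ^ 2 / ε + (|κ| / 8 * ε ^ 2) * d ^ 4 / ε ^ 3

end Vale.Agent.P233
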