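import Vale.Agent.P233.AB.VHJ

open MeasureTheory Filter Topology
open scoped ENNReal NNReal

namespace Vale.Agent.P233

variable {M : Type*} [MeasurableSpace M] {m : Measure M} {C : Calc m}

namespace IsGamma

variable (hC : IsGamma C) {κ : ℝ} (hB : C.BEi κ)
variable {u v w φ G r : M →ₘ[m] ℝ}

include hC hB

theorem en_sub (hf : u ∈ C.Test) (hg : v ∈ C.Test) : u - v ∈ C.Test := by
  have h := hC.test_add hB hf (hC.test_smul hB (-1) hg)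
  rwa [neg_one_smul, ← sub_eq_add_neg] at h

theorem en_lap_sub (hf : u ∈ C.Test) (hg : v ∈ C.Test) : C.lap (u - v) = C.lap u - C.lap v := by
  have h := hC.lap_add hB hf (hC.test_smul hB (-1) hg)
  rw [hC.lap_smul hB (-1) hg, neg_one_smul, neg_one_smul, ← sub_eq_add_neg, ← sub_eq_add_neg] at h
  exact h

/-- `∫ Δw Γ(φ,w) = -∫ Hess φ(∇w,∇w) + ½ ∫ Δφ Γ(w,w)` -/
theorem en_cross (hw : w ∈ C.Test) (hφ : φ ∈ C.Test) :
    I (C.lap w * C.Γ φ w) = -I (C.hess φ w w) + (2 : ℝ)⁻¹ * I (C.lap φ * C.Γ w w) := by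
  have wA := hC.test_A hw
  have φA := hC.test_A hφ
  have g1 := hC.Γ_mem hB hφ hw
  have g2 := hC.Γ_mem hB hw hw
  have e1 : I (C.Γ w (C.Γ φ w)) = -I (C.lap w * C.Γ φ w) := (hC.test_isLap hw).2.2 _ g1.1
  have e2 : I (C.Γ φ (C.Γ w w)) = -I (C.lap φ * C.Γ w w) := (hC.test_isLap hφ).2.2 _ g2.1
  have m1 := hC.Γ_mem1 wA.1 g1.1
  have m2 := hC.Γ_mem1 φA.1 g2.1
  unfold Calc.hess
  rw [I_smul, I_sub (mem_add m1 m1) m2, I_add m1 m1]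
  linarith

/-- the energy dissipation identity, with `-σ a² - σ a b ≤ σ b²/4` -/
theorem en_main {σ : ℝ} (hσ : 0 ≤ σ) (hw : w ∈ C.Test) (hφ : φ ∈ C.Test) (hG : G ∈ C.Test) :
    -I (C.lap w * (σ • C.lap (φ + w) - (2 : ℝ)⁻¹ • C.Γ (φ + w) (φ + w) + G))
      ≤ σ / 4 * I (C.lap φ ^ 2) - I (C.hess φ w w) + (2 : ℝ)⁻¹ * I (C.lap φ * C.Γ w w)
        + (2 : ℝ)⁻¹ * I (C.lap w * C.Γ w w) + I (C.Γ w (G - (2 : ℝ)⁻¹ • C.Γ φ φ)) := by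
  have wA := hC.test_A hw
  have φA := hC.test_A hφ
  have GA := hC.test_A hG
  have a2 : MemLp (C.lap w) 2 m := (hC.test_isLap hw).2.1
  have b2 : MemLp (C.lap φ) 2 m := (hC.test_isLap hφ).2.1
  have g1 := hC.Γ_mem hB hφ hφ
  have g2 := hC.Γ_mem hB hφ hw
  have g3 := hC.Γ_mem hB hw hw
  have k1 := mem_mul_22 a2 a2
  have k2 := mem_mul_22 a2 b2
  have k3 := mem_mul_22 a2 (hC.memLp _ g1.1)
  have k4 := mem_mul_22 a2 (hC.memLp _ g2.1)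
  have k5 := mem_mul_22 a2 (hC.memLp _ g3.1)
  have k6 := mem_mul_22 a2 (hC.memLp _ GA.1)
  have k7 := mem_mul_22 b2 b2
  have e1 := hC.en_cross hB hw hφ
  have e2 : I (C.Γ w (G - (2 : ℝ)⁻¹ • C.Γ φ φ))
      = -I (C.lap w * (G - (2 : ℝ)⁻¹ • C.Γ φ φ)) :=
    (hC.test_isLap hw).2.2 _ (hC.sub_mem GA.1 (hC.smul_mem _ _ g1.1))
  have e3 : C.lap w * (G - (2 : ℝ)⁻¹ • C.Γ φ φ)
      = C.lap w * G - (2 : ℝ)⁻¹ • (C.lap w * C.Γ φ φ) := by algebra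
  rw [e3, I_sub k6 (mem_smul _ k3), I_smul] at e2
  have e4 : C.Γ (φ + w) (φ + w) = C.Γ φ φ + (2 : ℝ) • C.Γ φ w + C.Γ w w := by
    have h := hC.Γ_expand 1 φA.1 wA.1
    rw [one_smul, mul_one, one_pow, one_smul] at h
    exact h
  have e5 : C.lap w * (σ • C.lap (φ + w) - (2 : ℝ)⁻¹ • C.Γ (φ + w) (φ + w) + G)
      = σ • (C.lap w * C.lap w) + σ • (C.lap w * C.lap φ)
        - (2 : ℝ)⁻¹ • (C.lap w * C.Γ φ φ) - C.lap w * C.Γ φ w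
        - (2 : ℝ)⁻¹ • (C.lap w * C.Γ w w) + C.lap w * G := by
    rw [e4, hC.lap_add hB hφ hw]
    algebra
  have e6 : I (C.lap w * (σ • C.lap (φ + w) - (2 : ℝ)⁻¹ • C.Γ (φ + w) (φ + w) + G))
      = σ * I (C.lap w * C.lap w) + σ * I (C.lap w * C.lap φ)
        - (2 : ℝ)⁻¹ * I (C.lap w * C.Γ φ φ) - I (C.lap w * C.Γ φ w)
        - (2 : ℝ)⁻¹ * I (C.lap w * C.Γ w w) + I (C.lap w * G) := by
    rw [e5, I_add (mem_sub (mem_sub (mem_sub (mem_add (mem_smul _ k1) (mem_smul _ k2))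
      (mem_smul _ k3)) k4) (mem_smul _ k5)) k6,
      I_sub (mem_sub (mem_sub (mem_add (mem_smul _ k1) (mem_smul _ k2))
      (mem_smul _ k3)) k4) (mem_smul _ k5),
      I_sub (mem_sub (mem_add (mem_smul _ k1) (mem_smul _ k2)) (mem_smul _ k3)) k4,
      I_sub (mem_add (mem_smul _ k1) (mem_smul _ k2)) (mem_smul _ k3),
      I_add (mem_smul _ k1) (mem_smul _ k2), I_smul, I_smul, I_smul, I_smul]
  have e7 : 0 ≤ I (C.lap w * C.lap w) + I (C.lap w * C.lap φ) + 4⁻¹ * I (C.lap φ * C.lap φ) := by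
    have h := I_sq_nonneg (C.lap w + (2 : ℝ)⁻¹ • C.lap φ)
    have h2 : (C.lap w + (2 : ℝ)⁻¹ • C.lap φ) ^ 2
        = C.lap w * C.lap w + C.lap w * C.lap φ + (4 : ℝ)⁻¹ • (C.lap φ * C.lap φ) := by algebra
    rw [h2, I_add (mem_add k1 k2) (mem_smul _ k7), I_add k1 k2, I_smul] at h
    exact h
  rw [e6, sq]
  nlinarith [mul_nonneg hσ e7]

/-- the energy is convex -/
theorem en_convex (hw : w ∈ C.Test) (hv : v ∈ C.Test) :
    (2 : ℝ)⁻¹ * I (C.Γ v v) - (2 : ℝ)⁻¹ * I (C.Γ w w) ≤ -I (C.lap v * (v - w)) := by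
  have wA := hC.test_A hw
  have vA := hC.test_A hv
  have e1 : I (C.Γ v (v - w)) = -I (C.lap v * (v - w)) :=
    (hC.test_isLap hv).2.2 _ (hC.sub_mem vA.1 wA.1)
  rw [← e1, hC.Γ_sub_right vA.1 vA.1 wA.1, I_sub (hC.Γ_mem1 vA.1 vA.1) (hC.Γ_mem1 vA.1 wA.1)]
  have h1 : 0 ≤ I (C.Γ (v - w) (v - w)) := I_nonneg (hC.nonneg _ (hC.sub_mem vA.1 wA.1))
  rw [hC.E_sub vA.1 wA.1] at h1
  linarith

end IsGamma

end Vale.Agent.P233
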