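import Vale.Agent.P233.AB.En1

open MeasureTheory Filter Topology
open scoped ENNReal NNReal

namespace Vale.Agent.P233

variable {M : Type*} [MeasurableSpace M] {m : Measure M} {C : Calc m}

/-- discrete Gronwall -/
theorem en_gronwall {x : ℕ → ℝ} {a b : ℝ} (ha : 0 ≤ a) (ha2 : a ≤ 1 / 2) (hb : 0 ≤ b)
    (h0 : x 0 ≤ 0) {n : ℕ} (h : ∀ k < n, (1 - a) * x (k + 1) ≤ x k + b) :
    ∀ k ≤ n, x k ≤ k * b * Real.exp (2 * a * k) := by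
  intro k
  induction k with
  | zero => intro _; simpa using h0
  | succ k ih =>
    intro hk
    have h1 := ih (by omega)
    have h2 := h k (by omega)
    have h3 : 1 ≤ (1 - a) * Real.exp (2 * a) := by
      nlinarith [Real.add_one_le_exp (2 * a)]
    have h4 : (1 : ℝ) ≤ Real.exp (2 * a * k) := Real.one_le_exp (by positivity)
    have h5 : x k + b ≤ (k + 1) * b * Real.exp (2 * a * k) := by nlinarith
    have h6 : (0 : ℝ) ≤ (k + 1) * b * Real.exp (2 * a * k) := by positivity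
    have h7 : (1 - a) * x (k + 1) ≤ (1 - a) * (((k + 1 : ℕ) : ℝ) * b
        * Real.exp (2 * a * ((k + 1 : ℕ) : ℝ))) := by
      have h8 : Real.exp (2 * a * ((k + 1 : ℕ) : ℝ)) = Real.exp (2 * a * k) * Real.exp (2 * a) := by
        rw [← Real.exp_add]; push_cast; ring_nf
      rw [h8]
      push_cast
      nlinarith
    exact le_of_mul_le_mul_left h7 (by linarith)

theorem en_sqrt_le {B X ε : ℝ} (hX : 0 ≤ X) (hε : 0 < ε) :
    B * Real.sqrt X ≤ X / ε + B ^ 2 * ε / 4 := by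
  have h1 := Real.sq_sqrt hX
  set y := Real.sqrt X
  rw [← h1]
  have h2 : 0 ≤ (y - B * ε / 2) ^ 2 / ε := by positivity
  have h3 : (y - B * ε / 2) ^ 2 / ε = y ^ 2 / ε + B ^ 2 * ε / 4 - B * y := by
    field_simp
    ring
  linarith

namespace IsGamma

variable (hC : IsGamma C) {κ : ℝ} (hB : C.BEi κ)
variable {u v w φ G r : M →ₘ[m] ℝ}

include hC hB

/-- the energy inequality for one step -/
theorem en_one {σ τ D P Λ δ γ Q ρ : ℝ} (hσ : 0 ≤ σ) (hτ : 0 ≤ τ)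
    (hu : u ∈ C.Test) (hv : v ∈ C.Test) (hφ : φ ∈ C.Test) (hG : G ∈ C.Test)
    (hr0 : 0 ≤ r) (hr1 : MemLp r 1 m) (hrI : I r ≤ ρ) (hD : 0 ≤ D) (hP0 : 0 ≤ P)
    (hlu : ∀ᵐ x ∂m, C.lap v x ≤ D) (hlb : MemLp (C.lap v) ∞ m)
    (hlφ : ∀ᵐ x ∂m, |C.lap (φ - τ • G) x| ≤ P)
    (hstep : v - u = τ • (σ • C.lap v - (2 : ℝ)⁻¹ • C.Γ v v) - r)
    (hh : |I (C.hess (φ - τ • G) (v - (φ - τ • G)) (v - (φ - τ • G)))|
      ≤ Λ * I (C.Γ (v - (φ - τ • G)) (v - (φ - τ • G)))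
        + δ * Real.sqrt (I (C.Γ (v - (φ - τ • G)) (v - (φ - τ • G)))))
    (hγ : Real.sqrt (I (C.Γ (G - (2 : ℝ)⁻¹ • C.Γ (φ - τ • G) (φ - τ • G))
      (G - (2 : ℝ)⁻¹ • C.Γ (φ - τ • G) (φ - τ • G)))) ≤ γ)
    (hQ : I (C.lap (φ - τ • G) ^ 2) ≤ Q) :
    I (C.Γ (v - (φ - τ • G)) (v - (φ - τ • G)))
      ≤ I (C.Γ (u - φ) (u - φ))
        + τ * ((2 * Λ + 2 * P + D) * I (C.Γ (v - (φ - τ • G)) (v - (φ - τ • G)))
          + 2 * (δ + γ) * Real.sqrt (I (C.Γ (v - (φ - τ • G)) (v - (φ - τ • G))))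
          + σ / 2 * Q) + 2 * (D + P) * ρ := by
  set ψ := φ - τ • G with hψ
  set w := v - ψ with hw
  have hψT : ψ ∈ C.Test := hC.en_sub hB hφ (hC.test_smul hB τ hG)
  have hwT : w ∈ C.Test := hC.en_sub hB hv hψT
  have hw0T : u - φ ∈ C.Test := hC.en_sub hB hu hφ
  have wA := hC.test_A hwT
  have e1 := hC.en_convex hB hw0T hwT
  have hvw : v = ψ + w := by rw [hw]; abel
  have e2 : w - (u - φ) = τ • (σ • C.lap (ψ + w) - (2 : ℝ)⁻¹ • C.Γ (ψ + w) (ψ + w) + G) - r := by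
    rw [← hvw, hw, hψ]
    have : v - (φ - τ • G) - (u - φ) = (v - u) + τ • G := by abel
    rw [this, hstep, smul_add]
    abel
  have e3 := hC.en_main hB hσ hwT hψT hG
  have lwlap : C.lap w = C.lap v - C.lap ψ := hC.en_lap_sub hB hv hψT
  have lψtop : MemLp (C.lap ψ) ∞ m := mem_top_iff.2 ⟨P, hlφ⟩
  have lwtop : MemLp (C.lap w) ∞ m := by rw [lwlap]; exact mem_sub hlb lψtop
  have g1 := hC.Γ_mem hB hψT hψT
  have g2 := hC.Γ_mem hB hv hv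
  have GA := hC.test_A hG
  have hlw : ∀ᵐ x ∂m, C.lap w x ≤ D + P := by
    filter_upwards [hlu, hlφ, eq_iff_ae.1 lwlap, sub_ae (C.lap v) (C.lap ψ)] with x h1 h2 h3 h4
    rw [h3, h4]
    linarith [neg_abs_le (C.lap ψ x)]
  have a2 : MemLp (C.lap w) 2 m := (hC.test_isLap hwT).2.1
  have b2 : MemLp (σ • C.lap (ψ + w) - (2 : ℝ)⁻¹ • C.Γ (ψ + w) (ψ + w) + G : M →ₘ[m] ℝ) 2 m := by
    rw [← hvw]
    exact mem_add (mem_sub (mem_smul _ (hC.test_isLap hv).2.1)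
      (mem_smul _ (hC.memLp _ g2.1))) (hC.memLp _ GA.1)
  have e4 : I (C.lap w * (w - (u - φ)))
      = τ * I (C.lap w * (σ • C.lap (ψ + w) - (2 : ℝ)⁻¹ • C.Γ (ψ + w) (ψ + w) + G))
        - I (C.lap w * r) := by
    rw [e2, mul_sub, I_sub (mem_mul_22 a2 (mem_smul _ b2)) (mem_mul_top lwtop hr1),
      mul_smul_comm, I_smul]
  have e5 : I (C.lap w * r) ≤ (D + P) * ρ := by
    have hP : 0 ≤ D + P := by linarith
    have h1 : I (C.lap w * r) ≤ I ((D + P) • r) := by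
      refine I_mono (mem_mul_top lwtop hr1) (mem_smul _ hr1) ?_
      rw [le_iff_ae]
      filter_upwards [hlw, nonneg_iff_ae.1 hr0, mul_ae (C.lap w) r, smul_ae r (D + P)]
        with x h1 h2 h3 h4
      rw [h3, h4]
      exact mul_le_mul_of_nonneg_right h1 h2
    rw [I_smul] at h1
    exact h1.trans (mul_le_mul_of_nonneg_left hrI hP)
  have wm1 : MemLp (C.Γ w w) 1 m := hC.mem1 w wA.1
  have wnn := hC.nonneg w wA.1
  have hX : 0 ≤ I (C.Γ w w) := I_nonneg wnn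
  have f1 : I (C.lap ψ * C.Γ w w) ≤ P * I (C.Γ w w) := by
    rw [← I_smul]
    refine I_mono (mem_mul_top lψtop wm1) (mem_smul _ wm1) ?_
    rw [le_iff_ae]
    filter_upwards [hlφ, nonneg_iff_ae.1 wnn, mul_ae (C.lap ψ) (C.Γ w w), smul_ae (C.Γ w w) P]
      with x h1 h2 h3 h4
    rw [h3, h4]
    exact mul_le_mul_of_nonneg_right ((le_abs_self _).trans h1) h2
  have f2 : I (C.lap w * C.Γ w w) ≤ (D + P) * I (C.Γ w w) := by
    rw [← I_smul]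
    refine I_mono (mem_mul_top lwtop wm1) (mem_smul _ wm1) ?_
    rw [le_iff_ae]
    filter_upwards [hlw, nonneg_iff_ae.1 wnn, mul_ae (C.lap w) (C.Γ w w), smul_ae (C.Γ w w) (D + P)]
      with x h1 h2 h3 h4
    rw [h3, h4]
    exact mul_le_mul_of_nonneg_right h1 h2
  have f3 : I (C.Γ w (G - (2 : ℝ)⁻¹ • C.Γ ψ ψ)) ≤ Real.sqrt (I (C.Γ w w)) * γ :=
    ((le_abs_self _).trans (hC.E_abs_le wA.1 (hC.sub_mem GA.1 (hC.smul_mem _ _ g1.1)))).trans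
      (mul_le_mul_of_nonneg_left hγ (Real.sqrt_nonneg _))
  have f4 := (neg_abs_le (I (C.hess ψ w w)))
  have f5 : -I (C.lap w * (σ • C.lap (ψ + w) - (2 : ℝ)⁻¹ • C.Γ (ψ + w) (ψ + w) + G))
      ≤ σ / 4 * Q + (Λ + P + D / 2) * I (C.Γ w w) + (δ + γ) * Real.sqrt (I (C.Γ w w)) := by
    have h7 := mul_le_mul_of_nonneg_left hQ (show 0 ≤ σ / 4 by positivity)
    linarith
  have f6 := mul_le_mul_of_nonneg_left f5 hτ
  linarith

/-- the remainder of one step of the scheme -/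
theorem vhj_step {σ τ L Λ D : ℝ} {n : ℕ} {U : ℕ → M →ₘ[m] ℝ} (hU : C.VHJ σ τ L Λ D n U)
    {k : ℕ} (hk : k < n) : ∃ r : M →ₘ[m] ℝ, 0 ≤ r ∧ MemLp r 1 m ∧ I r ≤ D * τ ^ 2 ∧
      (∀ᵐ x ∂m, r x ≤ D * τ ^ 2) ∧
      U (k + 1) - U k
        = τ • (σ • C.lap (U (k + 1)) - (2 : ℝ)⁻¹ • C.Γ (U (k + 1)) (U (k + 1))) - r := by
  obtain ⟨R, hR1, hRI, hR⟩ := hU.step_ge k hk
  set r := τ • (σ • C.lap (U (k + 1)) - (2 : ℝ)⁻¹ • C.Γ (U (k + 1)) (U (k + 1)))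
    - (U (k + 1) - U k) with hr
  have hae : ∀ᵐ x ∂m, 0 ≤ r x ∧ r x ≤ R x := by
    filter_upwards [hR, hU.step_le k hk,
      sub_ae (τ • (σ • C.lap (U (k + 1)) - (2 : ℝ)⁻¹ • C.Γ (U (k + 1)) (U (k + 1))))
        (U (k + 1) - U k), sub_ae (U (k + 1)) (U k),
      smul_ae (σ • C.lap (U (k + 1)) - (2 : ℝ)⁻¹ • C.Γ (U (k + 1)) (U (k + 1))) τ,
      sub_ae (σ • C.lap (U (k + 1))) ((2 : ℝ)⁻¹ • C.Γ (U (k + 1)) (U (k + 1))),
      smul_ae (C.lap (U (k + 1))) σ, smul_ae (C.Γ (U (k + 1)) (U (k + 1))) (2 : ℝ)⁻¹]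
      with x h1 h2 h3 h4 h5 h6 h7 h8
    rw [hr, h3, h4, h5, h6, h7, h8]
    constructor <;> linarith [h1.2.2]
  have hr0 : 0 ≤ r := nonneg_iff_ae.2 (hae.mono fun x hx => hx.1)
  have hr1 : MemLp r 1 m := by
    refine mem_of_le hR1 ?_
    filter_upwards [hae] with x hx
    rw [abs_of_nonneg hx.1, abs_of_nonneg (hx.1.trans hx.2)]
    exact hx.2
  refine ⟨r, hr0, hr1, ?_, ?_, ?_⟩
  · exact (I_mono hr1 hR1 (le_iff_ae.2 (hae.mono fun x hx => hx.2))).trans hRI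
  · filter_upwards [hae, hR] with x hx h2
    exact hx.2.trans h2.2.1
  · rw [hr]; abel

/-- THE ENERGY ESTIMATE -/
theorem en_iter {σ ε L Λ D P Λh δ γ Q Lφ : ℝ} {n : ℕ} {U : ℕ → M →ₘ[m] ℝ}
    (hσ : 0 ≤ σ) (hε : 0 < ε) (hn : 0 < n)
    (hΛ : 0 ≤ Λ) (hD : 0 ≤ D) (hP0 : 0 ≤ P) (hΛh : 0 ≤ Λh) (hQ0 : 0 ≤ Q)
    (hφ : φ ∈ C.Test) (hG : G ∈ C.Test)
    (hU : C.VHJ σ (ε / n) L Λ D n U) (hU0 : U 0 = φ)
    (hP : ∀ s, 0 ≤ s → s ≤ ε → ∀ᵐ x ∂m, |C.lap (φ - s • G) x| ≤ P)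
    (hLφ : ∀ s, 0 ≤ s → s ≤ ε → ∀ᵐ x ∂m, C.Γ (φ - s • G) (φ - s • G) x ≤ Lφ)
    (hh : ∀ s, 0 ≤ s → s ≤ ε → ∀ w ∈ C.Test, (∀ᵐ x ∂m, C.Γ w w x ≤ 2 * (L + Lφ)) →
      |I (C.hess (φ - s • G) w w)| ≤ Λh * I (C.Γ w w) + δ * Real.sqrt (I (C.Γ w w)))
    (hγ : ∀ s, 0 ≤ s → s ≤ ε → Real.sqrt (I (C.Γ (G - (2 : ℝ)⁻¹ • C.Γ (φ - s • G) (φ - s • G))
      (G - (2 : ℝ)⁻¹ • C.Γ (φ - s • G) (φ - s • G)))) ≤ γ)
    (hQ : ∀ s, 0 ≤ s → s ≤ ε → I (C.lap (φ - s • G) ^ 2) ≤ Q)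
    (hnb : 2 * ((2 * Λh + 2 * P + Λ) * ε + 1) ≤ n) :
    ∀ k ≤ n, I (C.Γ (U k - (φ - ((k : ℝ) * (ε / n)) • G)) (U k - (φ - ((k : ℝ) * (ε / n)) • G)))
      ≤ (ε ^ 2 * (δ + γ) ^ 2 + ε * σ * Q / 2 + 2 * (Λ + P) * D * ε ^ 2 / n)
        * Real.exp (2 * ((2 * Λh + 2 * P + Λ) * ε + 1)) := by
  have hn0 : (0 : ℝ) < n := by exact_mod_cast hn
  set τ := ε / n with hτ
  have hτ0 : 0 < τ := by positivity
  set A := 2 * Λh + 2 * P + Λ with hA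
  have hA0 : 0 ≤ A := by positivity
  set a := τ * (A + 1 / ε) with ha
  set b := τ * ((2 * (δ + γ)) ^ 2 * ε / 4 + σ / 2 * Q) + 2 * (Λ + P) * (D * τ ^ 2) with hb
  have ha0 : 0 ≤ a := by positivity
  have hb0 : 0 ≤ b := by positivity
  have han : a * n = A * ε + 1 := by
    rw [ha, hτ]; field_simp
  have ha2 : a ≤ 1 / 2 := by
    have : a * n ≤ 1 / 2 * n := by rw [han]; linarith
    exact le_of_mul_le_mul_right this hn0
  set x : ℕ → ℝ := fun k => I (C.Γ (U k - (φ - ((k : ℝ) * τ) • G)) (U k - (φ - ((k : ℝ) * τ) • G)))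
    with hx
  have hx0 : x 0 ≤ 0 := by
    simp only [hx, Nat.cast_zero, zero_mul, zero_smul, sub_zero, hU0, sub_self]
    rw [hC.Γ_zero_left hC.zero_mem, I_zero]
  have hTs : ∀ s : ℝ, φ - s • G ∈ C.Test := fun s => hC.en_sub hB hφ (hC.test_smul hB s hG)
  have hkτ : ∀ k ≤ n, 0 ≤ (k : ℝ) * τ ∧ (k : ℝ) * τ ≤ ε := by
    intro k hk
    refine ⟨by positivity, ?_⟩
    have hk' : (k : ℝ) ≤ n := by exact_mod_cast hk
    calc (k : ℝ) * τ ≤ n * τ := mul_le_mul_of_nonneg_right hk' hτ0.le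
      _ = ε := by rw [hτ]; field_simp
  have key : ∀ k < n, (1 - a) * x (k + 1) ≤ x k + b := by
    intro k hk
    obtain ⟨r, hr0, hr1, hrI, -, hstep⟩ := hC.vhj_step hB hU hk
    have hs := hkτ (k + 1) hk
    have e1 : φ - ((k : ℝ) * τ) • G - τ • G = φ - (((k + 1 : ℕ) : ℝ) * τ) • G := by
      push_cast; rw [add_mul, one_mul, add_smul]; abel
    have hlip : ∀ᵐ y ∂m, C.Γ (U (k + 1) - (φ - (((k + 1 : ℕ) : ℝ) * τ) • G))
        (U (k + 1) - (φ - (((k + 1 : ℕ) : ℝ) * τ) • G)) y ≤ 2 * (L + Lφ) := by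
      have vA := (hC.test_A (hU.test (k + 1))).1
      have pA := (hC.test_A (hTs (((k + 1 : ℕ) : ℝ) * τ))).1
      have h1 : C.Γ (U (k + 1) - (φ - (((k + 1 : ℕ) : ℝ) * τ) • G))
          (U (k + 1) - (φ - (((k + 1 : ℕ) : ℝ) * τ) • G))
          + C.Γ (U (k + 1) + (φ - (((k + 1 : ℕ) : ℝ) * τ) • G))
          (U (k + 1) + (φ - (((k + 1 : ℕ) : ℝ) * τ) • G))
          = (2 : ℝ) • C.Γ (U (k + 1)) (U (k + 1))
            + (2 : ℝ) • C.Γ (φ - (((k + 1 : ℕ) : ℝ) * τ) • G)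
              (φ - (((k + 1 : ℕ) : ℝ) * τ) • G) := by
        have h2 := hC.Γ_expand 1 vA pA
        have h3 := hC.Γ_expand (-1) vA pA
        rw [one_smul, mul_one, one_pow, one_smul] at h2
        rw [neg_one_smul, ← sub_eq_add_neg] at h3
        rw [h2, h3]
        module
      filter_upwards [eq_iff_ae.1 h1, hU.grad (k + 1) hk, hLφ _ hs.1 hs.2,
        add_ae (C.Γ (U (k + 1) - (φ - (((k + 1 : ℕ) : ℝ) * τ) • G))
          (U (k + 1) - (φ - (((k + 1 : ℕ) : ℝ) * τ) • G)))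
          (C.Γ (U (k + 1) + (φ - (((k + 1 : ℕ) : ℝ) * τ) • G))
          (U (k + 1) + (φ - (((k + 1 : ℕ) : ℝ) * τ) • G))),
        add_ae ((2 : ℝ) • C.Γ (U (k + 1)) (U (k + 1)))
          ((2 : ℝ) • C.Γ (φ - (((k + 1 : ℕ) : ℝ) * τ) • G) (φ - (((k + 1 : ℕ) : ℝ) * τ) • G)),
        smul_ae (C.Γ (U (k + 1)) (U (k + 1))) (2 : ℝ),
        smul_ae (C.Γ (φ - (((k + 1 : ℕ) : ℝ) * τ) • G) (φ - (((k + 1 : ℕ) : ℝ) * τ) • G)) (2 : ℝ),
        hC.Γ_nonneg_ae (hC.add_mem _ vA _ pA)] with y q1 q2 q3 q4 q5 q6 q7 q8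
      rw [q4, q5, q6, q7] at q1
      linarith
    have hwT : U (k + 1) - (φ - (((k + 1 : ℕ) : ℝ) * τ) • G) ∈ C.Test :=
      hC.en_sub hB (hU.test _) (hTs _)
    have h1 := hC.en_one hB (φ := φ - ((k : ℝ) * τ) • G) (G := G) (τ := τ) (P := P) (D := Λ)
      (Λ := Λh) (δ := δ) (γ := γ) (Q := Q) (ρ := D * τ ^ 2) hσ hτ0.le (hU.test k) (hU.test (k + 1))
      (hTs _) hG hr0 hr1 hrI hΛ hP0 (hU.lap_le (k + 1) hk)
      (mem_top_iff.2 ⟨D, hU.lap_abs (k + 1) hk⟩) (by rw [e1]; exact hP _ hs.1 hs.2) hstep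
      (by rw [e1]; exact hh _ hs.1 hs.2 _ hwT hlip) (by rw [e1]; exact hγ _ hs.1 hs.2)
      (by rw [e1]; exact hQ _ hs.1 hs.2)
    rw [e1] at h1
    change x (k + 1) ≤ x k + τ * (A * x (k + 1) + 2 * (δ + γ) * Real.sqrt (x (k + 1)) + σ / 2 * Q)
      + 2 * (Λ + P) * (D * τ ^ 2) at h1
    have hxn : 0 ≤ x (k + 1) := I_nonneg (hC.nonneg _ (hC.test_A hwT).1)
    have h2 := en_sqrt_le (B := 2 * (δ + γ)) hxn hε
    have h3 := mul_le_mul_of_nonneg_left h2 hτ0.le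
    have h4 : a * x (k + 1) = τ * (A * x (k + 1)) + τ * (x (k + 1) / ε) := by
      rw [ha]; ring
    rw [hb]
    nlinarith
  intro k hk
  have h1 := en_gronwall ha0 ha2 hb0 hx0 key k hk
  have hk' : (k : ℝ) ≤ n := by exact_mod_cast hk
  refine h1.trans ?_
  have h2 : Real.exp (2 * a * k) ≤ Real.exp (2 * (A * ε + 1)) := by
    apply Real.exp_le_exp.2
    rw [← han]
    nlinarith
  have h3 : (k : ℝ) * b ≤ ε ^ 2 * (δ + γ) ^ 2 + ε * σ * Q / 2 + 2 * (Λ + P) * D * ε ^ 2 / n := by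
    have h4 : (n : ℝ) * b
        = ε ^ 2 * (δ + γ) ^ 2 + ε * σ * Q / 2 + 2 * (Λ + P) * D * ε ^ 2 / n := by
      rw [hb, hτ]; field_simp; ring
    rw [← h4]
    exact mul_le_mul_of_nonneg_right hk' hb0
  have h5 : 0 ≤ (k : ℝ) * b := by positivity
  exact mul_le_mul h3 h2 (Real.exp_pos _).le (h5.trans h3)

end IsGamma

end Vale.Agent.P233
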