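import Vale.Agent.P233.AB.Space
import Vale.Agent.P233.AB.CenI
import Vale.Agent.P233.AB.BB

/-!
Block EPS-2: one centre curve at scale `ε`.
-/

open MeasureTheory Filter Topology
open scoped ENNReal NNReal

namespace Vale.Agent.P233

section

variable {M : Type*} [MeasurableSpace M] {m : Measure M} {C : Calc m} {X : Dat m}
  {θ : M →ₘ[m] ℝ} {η δ : ℝ}

theorem Dat.eps2_D_mem1 (hC : IsGamma C) {κ : ℝ} (hB : C.BEi κ) (hX : X.Ok C θ η δ) (e : ℝ × ℝ) :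
    MemLp (X.D C e) 1 m := by
  rw [← mul_eq_of_sub_one (Dat.loc_D hC hB hX e)]
  exact mem_mul_22 (hC.memLp _ (hC.test_A hX.hθ.1).1) (hC.memLp _ (Dat.D_memA hC hB hX e).1)

theorem Dat.eps2_r_mem1 (hC : IsGamma C) {κ : ℝ} (hB : C.BEi κ) (hX : X.Ok C θ η δ) (e : ℝ × ℝ) :
    MemLp (X.r C e e) 1 m := by
  rw [← mul_eq_of_sub_one (Dat.loc_r hC hB hX e e)]
  exact mem_mul_22 (hC.memLp _ (hC.test_A hX.hθ.1).1) (hC.memLp _ (Dat.r_memA hC hB hX e e).1)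

end

variable {M : Type*} [MetricSpace M] [SecondCountableTopology M] [MeasurableSpace M]
  [BorelSpace M] {m : Measure M}

/-- One centre curve at scale `ε`. -/
theorem eps_centre {κ K N : ℝ} (hM : ABSpace m κ K N) (a b F θ : M →ₘ[m] ℝ)
    (η : ℝ) (hsupp : ∃ (x₀ : M) (R : ℝ), ∀ᵐ x ∂m, R < dist x x₀ → F x = 0)
    (e : ℝ × ℝ) :
    ∃ K₁ ≥ 0, ∀ δ, 0 < δ → δ ≤ 1 → ∀ X : Dat m, X.Ok (sob m) θ η δ → X.a = a → X.b = b →
      X.F = F → ∀ β α : ℝ, 0 ≤ α → ∃ C₀ ≥ 0, ∃ ε₀ > 0, ∀ ε, 0 < ε → ε ≤ ε₀ →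
      ∀ ψ : M → ℝ, (∃ L : ℝ, ∀ x y, |ψ x - ψ y| ≤ L * dist x y) → (∃ b, ∀ x, |ψ x| ≤ b) →
        ∫ x, (⨅ y, (ψ y + ((1 / 2 - β * ε ^ 2) * dist x y ^ 2 / ε
          + (α * ε ^ 2) * dist x y ^ 4 / ε ^ 3))) * F x ∂m
        ≤ (∫ x, ψ x * X.rho (sob m) (ε • e) x ∂m) + X.cp (sob m) e β α ε
          + K₁ * δ * ε ^ 3 + C₀ * ε ^ 4 := by
  have hC := hM.hC
  have hB := hM.hB
  have : SigmaFinite m := sigmaFinite_of_ball hM.hfin
  obtain ⟨K₁, hK₁, hact⟩ := Dat.cen_act hC hB a b F θ η e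
  refine ⟨K₁, hK₁, fun δ hδ hδ1 X hX ha hb hF β α hα => ?_⟩
  obtain ⟨C₀, hC₀, ε₁, hε₁, H⟩ := hact δ hδ hδ1 X hX ha hb hF β α hα
  obtain ⟨ε₂, hε₂, V, hV, Hf⟩ := Dat.cen_flux hC hB hX e
  refine ⟨C₀, hC₀, min ε₁ (min ε₂ (1 / (4 * (|β| + 1)))),
    lt_min hε₁ (lt_min hε₂ (by positivity)), ?_⟩
  intro ε hε hεm ψ hψL hψb
  have k1 : ε ≤ ε₁ := hεm.trans (min_le_left _ _)
  have k2 : ε ≤ ε₂ := hεm.trans ((min_le_right _ _).trans (min_le_left _ _))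
  have k3 : ε ≤ 1 / (4 * (|β| + 1)) := hεm.trans ((min_le_right _ _).trans (min_le_right _ _))
  have hA : 0 < 1 / 2 - β * ε ^ 2 := by
    rw [le_div_iff₀ (by positivity)] at k3
    have h0 := abs_nonneg β
    have h1 : β * ε ^ 2 ≤ |β| * ε ^ 2 := mul_le_mul_of_nonneg_right (le_abs_self β) (sq_nonneg ε)
    have h2 : 0 ≤ |β| * ε := mul_nonneg h0 hε.le
    have h3 : ε ≤ 1 / 4 := by nlinarith
    have h4 : |β| * ε ^ 2 ≤ |β| * ε * (1 / 4) := by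
      calc |β| * ε ^ 2 = |β| * ε * ε := by ring
        _ ≤ |β| * ε * (1 / 4) := mul_le_mul_of_nonneg_left h3 h2
    nlinarith
  obtain ⟨act, hac, hact1, hact2⟩ := H ε hε k1
  have hrho : ∀ t : ℝ, X.rho (sob m) (t • e)
      = F + t • (-X.D (sob m) e) + (t ^ 2 / 2) • X.r (sob m) e e := by
    intro t
    rw [Dat.rho_eq hC hB hX, hF, smul_neg, ← sub_eq_add_neg]
  have hL : ∃ K, LipschitzWith K ψ := by
    obtain ⟨L, hL⟩ := hψL
    refine ⟨L.toNNReal, LipschitzWith.of_dist_le_mul fun x y => ?_⟩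
    rw [Real.dist_eq]
    exact (hL x y).trans (mul_le_mul_of_nonneg_right (Real.le_coe_toNNReal L) dist_nonneg)
  have hs : ∃ (x₀ : M) (R : ℝ), ∀ᵐ x ∂m, R < dist x x₀ →
      F x = 0 ∧ (-X.D (sob m) e : M →ₘ[m] ℝ) x = 0 ∧ X.r (sob m) e e x = 0 := by
    obtain ⟨x₀, R, hR⟩ := hsupp
    refine ⟨x₀, R, ?_⟩
    filter_upwards [hR, Dat.loc_ae hC hB hX e, neg_ae (X.D (sob m) e)] with x h1 h2 h3 hd
    have h4 := h1 hd
    rcases h2 with h2 | h2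
    · have := hX.hη
      rw [hF, h4] at h2
      linarith [h2.2]
    · refine ⟨h4, ?_, h2.2.2.2.1⟩
      rw [h3, h2.2.2.1, neg_zero]
  have main := bb (F := F) (R1 := -X.D (sob m) e) (R2 := X.r (sob m) e e) hM.hfin hA
    (by positivity : 0 ≤ α * ε ^ 2) hε hL hψb (by rw [← hF]; exact hX.hF1)
    (mem_neg (Dat.eps2_D_mem1 hC hB hX e)) (Dat.eps2_r_mem1 hC hB hX e) hs
    (fun t ht => by
      rw [← hrho]
      exact (Hf t ⟨ht.1, ht.2.trans k2⟩).1)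
    (fun t g => X.F * (sob m).Γ (X.pt e) g - t • X.Y (sob m) e e g)
    (fun t => X.v2 (sob m) e t)
    (fun t ht => (Hf t ⟨ht.1, ht.2.trans k2⟩).2.1) act
    (fun t ht g hg hg1 hg2 => by
      have h := (Hf t ⟨ht.1, ht.2.trans k2⟩).2.2.2.2 g hg hg1 hg2
      refine ⟨h.1, ?_⟩
      rw [neg_add_eq_sub]
      exact h.2.1)
    (fun t ht g hg hg1 hg2 => by
      rw [← hrho]
      exact ((Hf t ⟨ht.1, ht.2.trans k2⟩).2.2.2.2 g hg hg1 hg2).2.2)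
    (fun t ht => by
      rw [← hrho]
      exact (hact1 t ht).1)
    (fun t ht => by
      rw [← hrho]
      exact (hact1 t ht).2)
    (hac.intervalIntegrable 0 ε)
  rw [← hrho] at main
  refine main.trans ?_
  unfold Dat.cp
  linarith

end Vale.Agent.P233
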