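import Vale.Agent.P233.AB.Eps1
import Vale.Agent.P233.AB.Eps2
import Vale.Agent.P233.AB.Dual
import Vale.Agent.P233.AB.DatL

open MeasureTheory Filter Topology
open scoped ENNReal NNReal

namespace Vale.Agent.P233

namespace EpsM

section rho

variable {M : Type*} [MeasurableSpace M] {m : Measure M} {C : Calc m} {K : ℝ} {θ : M →ₘ[m] ℝ}
  {η δ : ℝ} {X : Dat m}

/-- bounded Sobolev functions living where `θ = 1` are integrable -/
theorem loc_mem1 (hC : IsGamma C) (hθ : θ ∈ C.TestI) {u : M →ₘ[m] ℝ} (hu : u ∈ C.A)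
    (h : (1 - θ) * u = 0) : MemLp u 1 m := by
  have e := mul_eq_of_sub_one h
  rw [← e]
  exact mem_mul_22 (hC.memLp _ (hC.test_A hθ.1).1) (hC.memLp _ hu.1)

theorem rho_mem1 (hC : IsGamma C) (hB : C.BEi K) (hX : X.Ok C θ η δ) (v : ℝ × ℝ) :
    MemLp (X.rho C v) 1 m :=
  mem_add (mem_sub hX.hF1 (loc_mem1 hC hX.hθ (Dat.D_memA hC hB hX v) (Dat.loc_D hC hB hX v)))
    (mem_smul _ (loc_mem1 hC hX.hθ (Dat.r_memA hC hB hX v v) (Dat.loc_r hC hB hX v v)))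

theorem F_nonneg (hX : X.Ok C θ η δ) : 0 ≤ X.F :=
  le_trans (smul_nonneg' hX.hη.le hX.hθ0) hX.Fη

end rho

section inf

variable {M : Type*} [MetricSpace M] [MeasurableSpace M] [BorelSpace M] {m : Measure M}

theorem inf_bdd {ψ : M → ℝ} {c : ℝ → ℝ} {B : ℝ} (hψ : ∀ y, |ψ y| ≤ B) (hc0 : ∀ d, 0 ≤ c d)
    (z : M) : BddBelow (Set.range fun y => ψ y + c (dist z y)) := by
  refine ⟨-B, ?_⟩
  rintro _ ⟨y, rfl⟩
  have := (abs_le.1 (hψ y)).1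
  have := hc0 (dist z y)
  simp only
  linarith

theorem inf_meas {ψ : M → ℝ} {c : ℝ → ℝ} {B : ℝ} (hψ : ∀ y, |ψ y| ≤ B) (hc : Continuous c)
    (hc0 : ∀ d, 0 ≤ c d) : Measurable fun z => ⨅ y, (ψ y + c (dist z y)) := by
  refine UpperSemicontinuous.measurable (upperSemicontinuous_ciInf (fun z => inf_bdd hψ hc0 z)
    fun y => Continuous.upperSemicontinuous ?_)
  exact continuous_const.add (hc.comp (continuous_id.dist continuous_const))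

theorem inf_abs {ψ : M → ℝ} {c : ℝ → ℝ} {B : ℝ} (hψ : ∀ y, |ψ y| ≤ B) (hc0 : ∀ d, 0 ≤ c d)
    (hcz : c 0 = 0) (z : M) : |⨅ y, (ψ y + c (dist z y))| ≤ B := by
  have : Nonempty M := ⟨z⟩
  rw [abs_le]
  constructor
  · refine le_ciInf fun y => ?_
    have := (abs_le.1 (hψ y)).1
    have := hc0 (dist z y)
    linarith
  · refine (ciInf_le (inf_bdd hψ hc0 z) z).trans ?_
    rw [dist_self, hcz, add_zero]
    exact (abs_le.1 (hψ z)).2

theorem inf_int {ψ : M → ℝ} {c : ℝ → ℝ} {B : ℝ} (hψ : ∀ y, |ψ y| ≤ B) (hc : Continuous c)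
    (hc0 : ∀ d, 0 ≤ c d) (hcz : c 0 = 0) {F : M → ℝ} (hF : Integrable F m) :
    Integrable (fun z => (⨅ y, (ψ y + c (dist z y))) * F z) m :=
  hF.bdd_mul (inf_meas hψ hc hc0).aestronglyMeasurable
    (Eventually.of_forall fun z => by rw [Real.norm_eq_abs]; exact inf_abs hψ hc0 hcz z)

theorem lip_int {U : M → ℝ} {L : ℝ} (hU : ∀ x y, |U x - U y| ≤ L * dist x y)
    (hb : ∃ b, ∀ x, |U x| ≤ b) {F : M → ℝ} (hF : Integrable F m) :
    Integrable (fun z => U z * F z) m := by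
  obtain ⟨b, hb⟩ := hb
  have hc : Continuous U := (LipschitzWith.of_dist_le_mul (K := L.toNNReal) fun x y => by
    rw [Real.dist_eq]
    refine (hU x y).trans ?_
    exact mul_le_mul_of_nonneg_right (Real.le_coe_toNNReal L) dist_nonneg).continuous
  exact hF.bdd_mul hc.measurable.aestronglyMeasurable
    (Eventually.of_forall fun z => by rw [Real.norm_eq_abs]; exact hb z)

end inf

theorem cst_nonneg {κ : ℝ} {t : Fin 3 → ℝ} {i : Fin 3} {ε : ℝ} (hε : 0 < ε)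
    (h : bet κ t i * ε ^ 2 ≤ 1 / 2) (d : ℝ) : 0 ≤ cst κ t i ε d := by
  unfold cst
  have h1 : 0 ≤ 1 / 2 - bet κ t i * ε ^ 2 := by linarith
  positivity

theorem cst_zero (κ : ℝ) (t : Fin 3 → ℝ) (i : Fin 3) (ε : ℝ) : cst κ t i ε 0 = 0 := by
  unfold cst; simp

theorem cst_cont (κ : ℝ) (t : Fin 3 → ℝ) (i : Fin 3) (ε : ℝ) : Continuous (cst κ t i ε) := by
  unfold cst; fun_prop

theorem bet_sq {b ε s : ℝ} (hε : 0 < ε) (h1 : ε ≤ 1) (h2 : ε ≤ 1 / (2 * (s + 1))) (hs : |b| ≤ s) :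
    b * ε ^ 2 ≤ 1 / 2 := by
  have hs0 : 0 ≤ s := (abs_nonneg b).trans hs
  rw [le_div_iff₀ (by positivity)] at h2
  have h3 : b ≤ s := (le_abs_self b).trans hs
  have h4 : b * ε ^ 2 ≤ s * ε ^ 2 := mul_le_mul_of_nonneg_right h3 (by positivity)
  have h5 : ε ^ 2 ≤ ε := by nlinarith
  nlinarith

section main

variable {M : Type*} [MetricSpace M] [SecondCountableTopology M] [MeasurableSpace M]
  [BorelSpace M] {m : Measure M}

/-- the final computation for fixed `ε` and `ξ`, with everything integrated -/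
theorem fin_step {J0 J1 J2 F U1 V1 U2 V2 U3 V3 r0 r1 r2 : M → ℝ} {c ξ p1 p2 p3 q0 q1 q2 : ℝ}
    (hF : Integrable F m) (hF0 : ∀ᵐ x ∂m, 0 ≤ F x)
    (i0 : Integrable (fun x => J0 x * F x) m) (i1 : Integrable (fun x => J1 x * F x) m)
    (i2 : Integrable (fun x => J2 x * F x) m)
    (u1 : Integrable (fun x => U1 x * r0 x) m) (u2 : Integrable (fun x => U2 x * r0 x) m)
    (u3 : Integrable (fun x => U3 x * r1 x) m) (v1 : Integrable (fun x => V1 x * r1 x) m)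
    (v2 : Integrable (fun x => V2 x * r2 x) m) (v3 : Integrable (fun x => V3 x * r2 x) m)
    (hd : ∀ z, -c - ξ ≤ J0 z + J1 z + J2 z)
    (a1 : p1 ≤ (∫ x, V1 x * r1 x ∂m) - ∫ x, U1 x * r0 x ∂m)
    (a2 : p2 ≤ (∫ x, V2 x * r2 x ∂m) - ∫ x, U2 x * r0 x ∂m)
    (a3 : p3 ≤ (∫ x, V3 x * r2 x ∂m) - ∫ x, U3 x * r1 x ∂m)
    (w0 : ∫ x, J0 x * F x ∂m ≤ (∫ x, (U1 x + U2 x) / 3 * r0 x ∂m) + q0)
    (w1 : ∫ x, J1 x * F x ∂m ≤ (∫ x, (U3 x - V1 x) / 3 * r1 x ∂m) + q1)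
    (w2 : ∫ x, J2 x * F x ∂m ≤ (∫ x, -(V2 x + V3 x) / 3 * r2 x ∂m) + q2) :
    3⁻¹ * (p1 + p2 + p3) ≤ q0 + q1 + q2 + (c + ξ) * ∫ x, F x ∂m := by
  have e0 : ∫ x, (U1 x + U2 x) / 3 * r0 x ∂m =
      3⁻¹ * ((∫ x, U1 x * r0 x ∂m) + ∫ x, U2 x * r0 x ∂m) := by
    rw [← integral_add u1 u2, ← integral_const_mul]
    refine integral_congr_ae (Eventually.of_forall fun x => ?_)
    simp only
    ring
  have e1 : ∫ x, (U3 x - V1 x) / 3 * r1 x ∂m =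
      3⁻¹ * ((∫ x, U3 x * r1 x ∂m) - ∫ x, V1 x * r1 x ∂m) := by
    rw [← integral_sub u3 v1, ← integral_const_mul]
    refine integral_congr_ae (Eventually.of_forall fun x => ?_)
    simp only
    ring
  have e2 : ∫ x, -(V2 x + V3 x) / 3 * r2 x ∂m =
      -3⁻¹ * ((∫ x, V2 x * r2 x ∂m) + ∫ x, V3 x * r2 x ∂m) := by
    rw [← integral_add v2 v3, ← integral_const_mul]
    refine integral_congr_ae (Eventually.of_forall fun x => ?_)
    simp only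
    ring
  have hI : ∫ x, (-c - ξ) * F x ∂m ≤ ∫ x, (J0 x * F x + J1 x * F x + J2 x * F x) ∂m := by
    refine integral_mono_ae (hF.const_mul _) ((i0.add i1).add i2) ?_
    filter_upwards [hF0] with x hx
    have := mul_le_mul_of_nonneg_right (hd x) hx
    linarith
  have e3 : ∫ x, (J0 x * F x + J1 x * F x + J2 x * F x) ∂m =
      (∫ x, J0 x * F x ∂m) + (∫ x, J1 x * F x ∂m) + ∫ x, J2 x * F x ∂m := by
    have h := integral_add (i0.add i1) i2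
    have h' := integral_add i0 i1
    simp only [Pi.add_apply] at h
    rw [h, h']
  rw [integral_const_mul, e3] at hI
  rw [e0] at w0
  rw [e1] at w1
  rw [e2] at w2
  linarith

end main

end EpsM

variable {M : Type*} [MetricSpace M] [SecondCountableTopology M] [MeasurableSpace M]
  [BorelSpace M] {m : Measure M} [m.IsOpenPosMeasure]

open EpsM in
/-- The inequality between the actions at scale `ε`. -/
theorem eps_main {κ K N : ℝ} (hM : ABSpace m κ K N) (a b F θ k : M →ₘ[m] ℝ)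
    (hk : k ∈ (sob m).TestI) (η : ℝ) (hsupp : ∃ (x₀ : M) (R : ℝ), ∀ᵐ x ∂m, R < dist x x₀ → F x = 0)
    (t : Fin 3 → ℝ) (ht : ∀ i, 0 ≤ t i) :
    ∃ K₁ ≥ 0, ∀ δ, 0 < δ → δ ≤ 1 → ∀ X : Dat m, X.Ok (sob m) θ η δ → X.a = a → X.b = b →
      X.F = F → ∃ C₀ ≥ 0, ∃ ε₀ > 0, ∀ ε, 0 < ε → ε ≤ ε₀ →
      3⁻¹ * X.actS (sob m) k ε ≤
        X.cp (sob m) (dir 0) (bet κ t 0) (|κ| / 8) ε
          + X.cp (sob m) (dir 1) (bet κ t 1) (|κ| / 8) ε
          + X.cp (sob m) (dir 2) (bet κ t 2) (|κ| / 8) ε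
          + ε ^ 3 * (κ / 24 * HH t + |κ| / 8 * (t 0 ^ 2 + t 1 ^ 2 + t 2 ^ 2)) * I F
          + K₁ * δ * ε ^ 3 + C₀ * ε ^ 4 := by
  by_cases hab : a ∈ (sob m).TestI ∧ b ∈ (sob m).TestI
  swap
  · exact ⟨0, le_rfl, fun δ hδ hδ1 X hX ha hb hF =>
      absurd ⟨by rw [← ha]; exact hX.ha, by rw [← hb]; exact hX.hb⟩ hab⟩
  obtain ⟨haI, hbI⟩ := hab
  have hC := hM.hC
  have hB := hM.hB
  have hD := hC.toIsDir
  have gaa := hC.Γ_mem hB haI.1 haI.1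
  have gab := hC.Γ_mem hB haI.1 hbI.1
  have gbb := hC.Γ_mem hB hbI.1 hbI.1
  have hkA := hC.test_A hk.1
  obtain ⟨K1, hK1, H1⟩ := eps_pair hM a b F θ (k + (2 : ℝ)⁻¹ • (sob m).Γ a a)
    (hD.A_add hkA (hD.A_smul _ gaa)) η (dir 0) (dir 1 - dir 0)
  obtain ⟨K2, hK2, H2⟩ := eps_pair hM a b F θ ((sob m).Γ a a - k)
    (hD.A_sub gaa hkA) η (dir 0) (dir 2 - dir 0)
  obtain ⟨K3, hK3, H3⟩ := eps_pair hM a b F θ (k + (sob m).Γ a b + (sob m).Γ b b)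
    (hD.A_add (hD.A_add hkA gab) gbb) η (dir 1) (dir 2 - dir 1)
  obtain ⟨C1, hC1, Z1⟩ := eps_centre hM a b F θ η hsupp (dir 0)
  obtain ⟨C2, hC2, Z2⟩ := eps_centre hM a b F θ η hsupp (dir 1)
  obtain ⟨C3, hC3, Z3⟩ := eps_centre hM a b F θ η hsupp (dir 2)
  obtain ⟨r₀, hr₀, CL, hCL, hL⟩ := hM.lss
  refine ⟨(K1 + K2 + K3) / 3 + (C1 + C2 + C3), by positivity, fun δ hδ hδ1 X hX ha hb hF => ?_⟩
  -- the approximations
  have nP := hX.nP
  have nQ := hX.nQ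
  have nR := hX.nR
  rw [ha] at nP nQ
  rw [hb] at nQ nR
  have hPA := (hC.test_A hX.hP.1)
  have hQA := (hC.test_A hX.hQ.1)
  have hRA := (hC.test_A hX.hR.1)
  have hδ2 : (2 * δ) ^ 2 = 4 * δ ^ 2 := by ring
  have hδ3 : 0 ≤ δ ^ 2 := by positivity
  have n1 : (sob m).nrm2 (k + (2 : ℝ)⁻¹ • X.P - (k + (2 : ℝ)⁻¹ • (sob m).Γ a a)) ≤
      (2 * δ) ^ 2 := by
    have e : k + (2 : ℝ)⁻¹ • X.P - (k + (2 : ℝ)⁻¹ • (sob m).Γ a a) =
        (2 : ℝ)⁻¹ • (X.P - (sob m).Γ a a) := by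
      rw [smul_sub]; abel
    have hW := hD.sub_mem hPA.1 gaa.1
    rw [e]
    unfold Calc.nrm2 at nP ⊢
    rw [hC.smul_left _ _ hW _ (hC.smul_mem _ _ hW), hD.Γ_smul_right _ hW hW, I_smul, I_smul,
      smul_pow, I_smul]
    have h1 := I_sq_nonneg (X.P - (sob m).Γ a a)
    have h2 := hD.E_nonneg hW
    nlinarith
  have n2 : (sob m).nrm2 (X.P - k - ((sob m).Γ a a - k)) ≤ (2 * δ) ^ 2 := by
    have e : X.P - k - ((sob m).Γ a a - k) = X.P - (sob m).Γ a a := by abel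
    rw [e]
    linarith
  have n3 : (sob m).nrm2 (k + X.Q + X.R - (k + (sob m).Γ a b + (sob m).Γ b b)) ≤
      (2 * δ) ^ 2 := by
    have e : k + X.Q + X.R - (k + (sob m).Γ a b + (sob m).Γ b b) =
        (X.Q - (sob m).Γ a b) + (X.R - (sob m).Γ b b) := by abel
    rw [e]
    have := hD.nrm2_add_le (hD.sub_mem hQA.1 gab.1) (hD.sub_mem hRA.1 gbb.1)
    linarith
  obtain ⟨L1, hL1, e1, he1, P1⟩ := H1 δ hδ hδ1 X hX ha hb hF _
    (hC.testI_add hB hk (hC.testI_smul hB _ hX.hP)) n1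
  obtain ⟨L2, hL2, e2, he2, P2⟩ := H2 δ hδ hδ1 X hX ha hb hF _
    (by
      have := hC.testI_add hB hX.hP (hC.testI_smul hB (-1) hk)
      rwa [neg_one_smul, ← sub_eq_add_neg] at this) n2
  obtain ⟨L3, hL3, e3, he3, P3⟩ := H3 δ hδ hδ1 X hX ha hb hF _
    (hC.testI_add hB (hC.testI_add hB hk hX.hQ) hX.hR) n3
  obtain ⟨D1, hD1, e4, he4, Q4⟩ := dual_lss hr₀ hCL hL t (max L1 (max L2 L3))
    (hL1.trans (le_max_left _ _))
  have hα : 0 ≤ |κ| / 8 := by positivity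
  obtain ⟨c1, hc1, e5, he5, W1⟩ := Z1 δ hδ hδ1 X hX ha hb hF (bet κ t 0) (|κ| / 8) hα
  obtain ⟨c2, hc2, e6, he6, W2⟩ := Z2 δ hδ hδ1 X hX ha hb hF (bet κ t 1) (|κ| / 8) hα
  obtain ⟨c3, hc3, e7, he7, W3⟩ := Z3 δ hδ hδ1 X hX ha hb hF (bet κ t 2) (|κ| / 8) hα
  have hF1 : Integrable (fun x => F x) m := by
    rw [← hF]; exact memLp_one_iff_integrable.1 hX.hF1
  have hF0' : (0 : M →ₘ[m] ℝ) ≤ F := by rw [← hF]; exact F_nonneg hX
  have hF0 : ∀ᵐ x ∂m, 0 ≤ F x := by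
    have h := AEEqFun.coeFn_le.2 hF0'
    filter_upwards [h, AEEqFun.coeFn_zero (α := M) (μ := m) (β := ℝ)] with x h1 h2
    rwa [h2] at h1
  have hIF : 0 ≤ I F := I_nonneg hF0'
  set s := |bet κ t 0| + |bet κ t 1| + |bet κ t 2| with hs
  have hs0 : |bet κ t 0| ≤ s := by
    have := abs_nonneg (bet κ t 1); have := abs_nonneg (bet κ t 2); linarith
  have hs1 : |bet κ t 1| ≤ s := by
    have := abs_nonneg (bet κ t 0); have := abs_nonneg (bet κ t 2); linarith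
  have hs2 : |bet κ t 2| ≤ s := by
    have := abs_nonneg (bet κ t 0); have := abs_nonneg (bet κ t 1); linarith
  have hsn : 0 ≤ s := (abs_nonneg _).trans hs0
  refine ⟨c1 + c2 + c3 + D1 * I F, by positivity,
    min (min (min e1 e2) (min e3 e4)) (min (min e5 e6) (min e7 (min 1 (1 / (2 * (s + 1)))))),
    by positivity, fun ε hε hε0 => ?_⟩
  simp only [le_min_iff] at hε0
  obtain ⟨⟨⟨g1, g2⟩, g3, g4⟩, ⟨g5, g6⟩, g7, g8, g9⟩ := hε0
  have key : ∀ ξ > 0, 3⁻¹ * X.actS (sob m) k ε ≤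
        X.cp (sob m) (dir 0) (bet κ t 0) (|κ| / 8) ε
          + X.cp (sob m) (dir 1) (bet κ t 1) (|κ| / 8) ε
          + X.cp (sob m) (dir 2) (bet κ t 2) (|κ| / 8) ε
          + ε ^ 3 * (κ / 24 * HH t + |κ| / 8 * (t 0 ^ 2 + t 1 ^ 2 + t 2 ^ 2)) * I F
          + ((K1 + K2 + K3) / 3 + (C1 + C2 + C3)) * δ * ε ^ 3
          + (c1 + c2 + c3 + D1 * I F) * ε ^ 4 + ξ * (1 + I F) := by
    intro ξ hξ
    obtain ⟨U1, V1, lU1, lV1, bU1, bV1, d1, A1⟩ := P1 ε hε g1 ξ hξ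
    obtain ⟨U2, V2, lU2, lV2, bU2, bV2, d2, A2⟩ := P2 ε hε g2 ξ hξ
    obtain ⟨U3, V3, lU3, lV3, bU3, bV3, d3, A3⟩ := P3 ε hε g3 ξ hξ
    rw [add_sub_cancel] at A1 A2 A3
    have hLm : ∀ {f : M → ℝ} {L' : ℝ}, L' ≤ max L1 (max L2 L3) →
        (∀ x y, |f x - f y| ≤ L' * dist x y) →
        ∀ x y, |f x - f y| ≤ max L1 (max L2 L3) * dist x y := fun hle hf x y =>
      (hf x y).trans (mul_le_mul_of_nonneg_right hle dist_nonneg)
    have m1 : L1 ≤ max L1 (max L2 L3) := le_max_left _ _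
    have m2 : L2 ≤ max L1 (max L2 L3) := (le_max_left _ _).trans (le_max_right _ _)
    have m3 : L3 ≤ max L1 (max L2 L3) := (le_max_right _ _).trans (le_max_right _ _)
    have hd := Q4 ε hε g4 ξ hξ.le U1 V1 U2 V2 U3 V3 (by
      intro f hf
      simp only [Set.mem_insert_iff, Set.mem_singleton_iff] at hf
      rcases hf with rfl | rfl | rfl | rfl | rfl | rfl
      · exact ⟨hLm m1 lU1, bU1⟩
      · exact ⟨hLm m1 lV1, bV1⟩
      · exact ⟨hLm m2 lU2, bU2⟩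
      · exact ⟨hLm m2 lV2, bV2⟩
      · exact ⟨hLm m3 lU3, bU3⟩
      · exact ⟨hLm m3 lV3, bV3⟩) d1 d2 d3
    -- integrability
    have r0 : Integrable (fun x => X.rho (sob m) (ε • dir 0) x) m :=
      memLp_one_iff_integrable.1 (rho_mem1 hC hB hX _)
    have r1 : Integrable (fun x => X.rho (sob m) (ε • dir 1) x) m :=
      memLp_one_iff_integrable.1 (rho_mem1 hC hB hX _)
    have r2 : Integrable (fun x => X.rho (sob m) (ε • dir 2) x) m :=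
      memLp_one_iff_integrable.1 (rho_mem1 hC hB hX _)
    obtain ⟨b1, hb1⟩ := bU1
    obtain ⟨b1', hb1'⟩ := bV1
    obtain ⟨b2, hb2⟩ := bU2
    obtain ⟨b2', hb2'⟩ := bV2
    obtain ⟨b3, hb3⟩ := bU3
    obtain ⟨b3', hb3'⟩ := bV3
    have ψ0 : ∀ y, |(U1 y + U2 y) / 3| ≤ (b1 + b2) / 3 := fun y => by
      rw [abs_div, abs_of_pos (by norm_num : (0 : ℝ) < 3)]
      have := abs_add_le (U1 y) (U2 y)
      have := hb1 y; have := hb2 y
      linarith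
    have ψ1 : ∀ y, |(U3 y - V1 y) / 3| ≤ (b3 + b1') / 3 := fun y => by
      rw [abs_div, abs_of_pos (by norm_num : (0 : ℝ) < 3)]
      have := abs_sub (U3 y) (V1 y)
      have := hb3 y; have := hb1' y
      linarith
    have ψ2 : ∀ y, |-(V2 y + V3 y) / 3| ≤ (b2' + b3') / 3 := fun y => by
      rw [abs_div, abs_neg, abs_of_pos (by norm_num : (0 : ℝ) < 3)]
      have := abs_add_le (V2 y) (V3 y)
      have := hb2' y; have := hb3' y
      linarith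
    have l0 : ∃ L : ℝ, ∀ x y, |(U1 x + U2 x) / 3 - (U1 y + U2 y) / 3| ≤ L * dist x y :=
      ⟨(L1 + L2) / 3, fun x y => by
        have h1 := abs_le.1 (lU1 x y); have h2 := abs_le.1 (lU2 x y)
        rw [abs_le]; constructor <;> linarith⟩
    have l1 : ∃ L : ℝ, ∀ x y, |(U3 x - V1 x) / 3 - (U3 y - V1 y) / 3| ≤ L * dist x y :=
      ⟨(L3 + L1) / 3, fun x y => by
        have h1 := abs_le.1 (lU3 x y); have h2 := abs_le.1 (lV1 x y)
        rw [abs_le]; constructor <;> linarith⟩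
    have l2 : ∃ L : ℝ, ∀ x y, |-(V2 x + V3 x) / 3 - -(V2 y + V3 y) / 3| ≤ L * dist x y :=
      ⟨(L2 + L3) / 3, fun x y => by
        have h1 := abs_le.1 (lV2 x y); have h2 := abs_le.1 (lV3 x y)
        rw [abs_le]; constructor <;> linarith⟩
    have w0 := W1 ε hε g5 (fun y => (U1 y + U2 y) / 3) l0 ⟨_, ψ0⟩
    have w1 := W2 ε hε g6 (fun y => (U3 y - V1 y) / 3) l1 ⟨_, ψ1⟩
    have w2 := W3 ε hε g7 (fun y => -(V2 y + V3 y) / 3) l2 ⟨_, ψ2⟩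
    have i0 := inf_int ψ0 (cst_cont κ t 0 ε) (cst_nonneg hε (bet_sq hε g8 g9 hs0))
      (cst_zero κ t 0 ε) hF1
    have i1 := inf_int ψ1 (cst_cont κ t 1 ε) (cst_nonneg hε (bet_sq hε g8 g9 hs1))
      (cst_zero κ t 1 ε) hF1
    have i2 := inf_int ψ2 (cst_cont κ t 2 ε) (cst_nonneg hε (bet_sq hε g8 g9 hs2))
      (cst_zero κ t 2 ε) hF1
    have hfin := fin_step (m := m)
      (c := ε ^ 3 * (κ / 24 * HH t + |κ| / 8 * (t 0 ^ 2 + t 1 ^ 2 + t 2 ^ 2)) + D1 * ε ^ 5)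
      (ξ := ξ) hF1 hF0 i0 i1 i2
      (lip_int lU1 ⟨b1, hb1⟩ r0) (lip_int lU2 ⟨b2, hb2⟩ r0) (lip_int lU3 ⟨b3, hb3⟩ r1)
      (lip_int lV1 ⟨b1', hb1'⟩ r1) (lip_int lV2 ⟨b2', hb2'⟩ r2) (lip_int lV3 ⟨b3', hb3'⟩ r2)
      (fun z => by have := hd z; linarith) A1 A2 A3
      (q0 := X.cp (sob m) (dir 0) (bet κ t 0) (|κ| / 8) ε + C1 * δ * ε ^ 3 + c1 * ε ^ 4)
      (q1 := X.cp (sob m) (dir 1) (bet κ t 1) (|κ| / 8) ε + C2 * δ * ε ^ 3 + c2 * ε ^ 4)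
      (q2 := X.cp (sob m) (dir 2) (bet κ t 2) (|κ| / 8) ε + C3 * δ * ε ^ 3 + c3 * ε ^ 4)
      (by rw [← add_assoc, ← add_assoc]; exact w0) (by rw [← add_assoc, ← add_assoc]; exact w1)
      (by rw [← add_assoc, ← add_assoc]; exact w2)
    have hI : ∫ x, F x ∂m = I F := rfl
    rw [hI] at hfin
    have h5 : D1 * ε ^ 5 * I F ≤ D1 * I F * ε ^ 4 := by
      have h6 : 0 ≤ D1 * I F * ε ^ 4 := by positivity
      have h7 : D1 * ε ^ 5 * I F = D1 * I F * ε ^ 4 * ε := by ring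
      rw [h7]
      exact mul_le_of_le_one_right h6 g8
    unfold Dat.actS
    linarith
  by_contra hlt
  rw [not_le] at hlt
  have hpos : 0 < 1 + I F := by linarith
  set A := 3⁻¹ * X.actS (sob m) k ε
  set B := X.cp (sob m) (dir 0) (bet κ t 0) (|κ| / 8) ε
          + X.cp (sob m) (dir 1) (bet κ t 1) (|κ| / 8) ε
          + X.cp (sob m) (dir 2) (bet κ t 2) (|κ| / 8) ε
          + ε ^ 3 * (κ / 24 * HH t + |κ| / 8 * (t 0 ^ 2 + t 1 ^ 2 + t 2 ^ 2)) * I F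
          + ((K1 + K2 + K3) / 3 + (C1 + C2 + C3)) * δ * ε ^ 3
          + (c1 + c2 + c3 + D1 * I F) * ε ^ 4
  have h := key ((A - B) / 2 / (1 + I F)) (by
    have : 0 < A - B := by linarith
    positivity)
  rw [div_mul_cancel₀ _ hpos.ne'] at h
  linarith

end Vale.Agent.P233
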