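import Vale.Agent.P233.AB.Mas

open MeasureTheory Filter Topology
open scoped ENNReal NNReal

namespace Vale.Agent.P233

variable {M : Type*} [MeasurableSpace M] {m : Measure M}

/-- The output of the resolvent scheme for the viscous Hamilton-Jacobi equation
`∂_t u + Γ(u,u)/2 = σ Δu`: a discrete solution with `n` steps of size `τ`, with bounds that are
uniform in `σ` and `n` (`L`, `Λ`) and a bound `D` that may depend on `σ`. -/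
structure Calc.VHJ (C : Calc m) (σ τ L Λ D : ℝ) (n : ℕ) (u : ℕ → M →ₘ[m] ℝ) : Prop where
  test : ∀ k, u k ∈ C.Test
  grad : ∀ k ≤ n, ∀ᵐ x ∂m, C.Γ (u k) (u k) x ≤ L
  lap_le : ∀ k ≤ n, ∀ᵐ x ∂m, C.lap (u k) x ≤ Λ
  lap_abs : ∀ k ≤ n, ∀ᵐ x ∂m, |C.lap (u k) x| ≤ D
  step_le : ∀ k < n, ∀ᵐ x ∂m, u (k + 1) x - u k x
    ≤ τ * (σ * C.lap (u (k + 1)) x - C.Γ (u (k + 1)) (u (k + 1)) x / 2)
  step_ge : ∀ k < n, ∃ R : M →ₘ[m] ℝ, MemLp R 1 m ∧ I R ≤ D * τ ^ 2 ∧ ∀ᵐ x ∂m, 0 ≤ R x ∧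
    R x ≤ D * τ ^ 2 ∧ τ * (σ * C.lap (u (k + 1)) x - C.Γ (u (k + 1)) (u (k + 1)) x / 2) - R x
      ≤ u (k + 1) x - u k x

end Vale.Agent.P233
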