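import Vale.Agent.P233.AB.DatL
import Vale.Agent.P233.AB.VHJ

/-! Preparations for the dual potentials of one pair: expansions of the curve of densities. -/

open MeasureTheory Filter Topology
open scoped ENNReal NNReal

namespace Vale.Agent.P233

variable {M : Type*} [MeasurableSpace M] {m : Measure M} {C : Calc m}

theorem Calc.VHJ.mono {σ τ L Λ D L' Λ' : ℝ} {n : ℕ} {u : ℕ → M →ₘ[m] ℝ}
    (h : C.VHJ σ τ L Λ D n u) (hL : L ≤ L') (hΛ : Λ ≤ Λ') : C.VHJ σ τ L' Λ' D n u :=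
  ⟨h.test, fun k hk => (h.grad k hk).mono fun _ hx => hx.trans hL,
    fun k hk => (h.lap_le k hk).mono fun _ hx => hx.trans hΛ, h.lap_abs, h.step_le, h.step_ge⟩

namespace Dat

variable {X : Dat m} {θ : M →ₘ[m] ℝ} {η δ : ℝ}

theorem G'_smul_left (X : Dat m) (t : ℝ) (v w : ℝ × ℝ) : X.G' (t • v) w = t • X.G' v w := by
  simp only [G', Prod.smul_fst, Prod.smul_snd, smul_eq_mul]
  rw [show t * v.1 * w.1 = t * (v.1 * w.1) by ring,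
    show t * v.1 * w.2 + t * v.2 * w.1 = t * (v.1 * w.2 + v.2 * w.1) by ring,
    show t * v.2 * w.2 = t * (v.2 * w.2) by ring]
  simp only [mul_smul, smul_add]

section De
variable (hC : IsGamma C) {κ : ℝ} (hB : C.BEi κ) {f g a b : M →ₘ[m] ℝ}
include hC

theorem e_De_add_left (hf : f ∈ C.W) (hg : g ∈ C.W) (ha : a ∈ C.W) :
    C.De (f + g) a = C.De f a + C.De g a := by
  unfold Calc.De
  rw [hC.add_left f hf g hg a ha]
  ring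

theorem e_De_smul_left (t : ℝ) (hf : f ∈ C.W) (ha : a ∈ C.W) :
    C.De (t • f) a = t • C.De f a := by
  unfold Calc.De
  rw [hC.smul_left t f hf a ha]
  algebra

include hB

theorem e_De_add_right (hf : f ∈ C.W) (ha : a ∈ C.Test) (hb : b ∈ C.Test) :
    C.De f (a + b) = C.De f a + C.De f b := by
  unfold Calc.De
  rw [hC.toIsDir.Γ_add_right hf (hC.test_A ha).1 (hC.test_A hb).1, hC.lap_add hB ha hb]
  ring

theorem e_De_smul_right (t : ℝ) (hf : f ∈ C.W) (ha : a ∈ C.Test) :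
    C.De f (t • a) = t • C.De f a := by
  unfold Calc.De
  rw [hC.toIsDir.Γ_smul_right t hf (hC.test_A ha).1, hC.lap_smul hB t ha]
  algebra

theorem e_De_mem1 (hf : f ∈ C.TestI) (ha : a ∈ C.TestI) : MemLp (C.De f a) 1 m := by
  have h1 := (hC.test_A hf.1).1
  have h2 := (hC.test_A ha.1).1
  exact mem_add (hC.toIsDir.Γ_mem1 h1 h2) (mem_mul_22 (hC.memLp _ h1)
    (hC.test_isLap ha.1).2.1)

end De

section Ok

variable (hC : IsGamma C) {κ : ℝ} (hB : C.BEi κ) (hX : X.Ok C θ η δ)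
include hC hB hX

omit hC hB hX in
theorem e_r_comm (v w : ℝ × ℝ) : X.r C v w = X.r C w v := by
  rw [r_eq, r_eq, G'_comm]
  abel_nf

theorem e_r_add_left (v w u : ℝ × ℝ) : X.r C (v + w) u = X.r C v u + X.r C w u := by
  have W := fun {f : M →ₘ[m] ℝ} (hf : f ∈ C.TestI) => (hC.test_A hf.1).1
  have P := pt_memI hC hB hX
  have D := D'_memI hC hB hX
  have G := G'_memI hC hB hX
  rw [r_eq, r_eq, r_eq, D'_add, pt_add, G'_add,
    e_De_add_left hC (W (D v)) (W (D w)) (W (P u)),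
    e_De_add_right hC hB (W (D u)) (P v).1 (P w).1,
    e_De_add_right hC hB (W hX.hF) (G v u).1 (G w u).1]
  module

theorem e_r_smul_left (t : ℝ) (v u : ℝ × ℝ) : X.r C (t • v) u = t • X.r C v u := by
  have W := fun {f : M →ₘ[m] ℝ} (hf : f ∈ C.TestI) => (hC.test_A hf.1).1
  have P := pt_memI hC hB hX
  have D := D'_memI hC hB hX
  have G := G'_memI hC hB hX
  rw [r_eq, r_eq, D'_smul, pt_smul, G'_smul_left,
    e_De_smul_left hC t (W (D v)) (W (P u)),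
    e_De_smul_right hC hB t (W (D u)) (P v).1,
    e_De_smul_right hC hB t (W hX.hF) (G v u).1]
  module

theorem e_r_sub (p e : ℝ × ℝ) (t : ℝ) :
    X.r C (p + t • e) e - X.D C e = X.r C p e - X.D C e + t • X.r C e e := by
  rw [e_r_add_left hC hB hX, e_r_smul_left hC hB hX]
  abel

theorem e_rho (p e : ℝ × ℝ) (t : ℝ) :
    X.rho C (p + t • e) = X.rho C p + t • (X.r C p e - X.D C e) + (t ^ 2 / 2) • X.r C e e := by
  have h1 : X.r C (p + t • e) (p + t • e)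
      = X.r C p p + (2 * t) • X.r C p e + t ^ 2 • X.r C e e := by
    rw [e_r_add_left hC hB hX, e_r_smul_left hC hB hX, e_r_comm p, e_r_comm e,
      e_r_add_left hC hB hX, e_r_smul_left hC hB hX, e_r_add_left hC hB hX,
      e_r_smul_left hC hB hX, e_r_comm e p]
    module
  unfold rho
  rw [h1, D_add, D_smul]
  module

theorem e_D_mem1 (v : ℝ × ℝ) : MemLp (X.D C v) 1 m := by
  rw [D_eq hC hB hX]
  exact e_De_mem1 hC hB hX.hF (pt_memI hC hB hX v)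

theorem e_r_mem1 (v w : ℝ × ℝ) : MemLp (X.r C v w) 1 m := by
  rw [r_eq]
  exact mem_smul _ (mem_add (mem_add
    (e_De_mem1 hC hB (D'_memI hC hB hX v) (pt_memI hC hB hX w))
    (e_De_mem1 hC hB (D'_memI hC hB hX w) (pt_memI hC hB hX v)))
    (e_De_mem1 hC hB hX.hF (G'_memI hC hB hX v w)))

theorem e_rho_memA (p : ℝ × ℝ) : X.rho C p ∈ C.A :=
  hC.toIsDir.A_add (hC.toIsDir.A_sub (hC.test_A hX.hF.1) (D_memA hC hB hX p))
    (hC.toIsDir.A_smul _ (r_memA hC hB hX p p))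

theorem e_rho_mem1 (p : ℝ × ℝ) : MemLp (X.rho C p) 1 m :=
  mem_add (mem_sub hX.hF1 (e_D_mem1 hC hB hX p)) (mem_smul _ (e_r_mem1 hC hB hX p p))

omit hC hB hX in
theorem e_ph (e : ℝ × ℝ) (h : M →ₘ[m] ℝ) (ε t : ℝ) :
    X.ph e h ε t = X.pt e + ε • h - t • ((2 : ℝ)⁻¹ • X.G' e e) := by
  unfold ph
  rw [smul_smul, div_eq_mul_inv]

/-- the approximate `Γ(e,e)` is close to `Γ(e,e)` -/
theorem e_close (hδ : 0 ≤ δ) (e : ℝ × ℝ) :
    I (C.Γ ((2 : ℝ)⁻¹ • X.G' e e - (2 : ℝ)⁻¹ • C.Γ (X.pt e) (X.pt e))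
      ((2 : ℝ)⁻¹ • X.G' e e - (2 : ℝ)⁻¹ • C.Γ (X.pt e) (X.pt e)))
      ≤ (((|e.1| + |e.2|) ^ 2 + 1) * δ) ^ 2 := by
  have hD := hC.toIsDir
  have aW := (hC.test_A hX.ha.1).1
  have bW := (hC.test_A hX.hb.1).1
  have gaa := (hC.Γ_mem hB hX.ha.1 hX.ha.1).1
  have gab := (hC.Γ_mem hB hX.ha.1 hX.hb.1).1
  have gbb := (hC.Γ_mem hB hX.hb.1 hX.hb.1).1
  have s1 := hD.sub_mem (hC.test_A hX.hP.1).1 gaa
  have s2 := hD.sub_mem (hC.test_A hX.hQ.1).1 gab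
  have s3 := hD.sub_mem (hC.test_A hX.hR.1).1 gbb
  have hΓ : C.Γ (X.pt e) (X.pt e) = (e.1 * e.1) • C.Γ X.a X.a
      + (e.1 * e.2 + e.2 * e.1) • C.Γ X.a X.b + (e.2 * e.2) • C.Γ X.b X.b := by
    unfold pt
    have a1 := hC.smul_mem e.1 _ aW
    have b1 := hC.smul_mem e.2 _ bW
    rw [hC.add_left _ a1 _ b1 _ (hC.add_mem _ a1 _ b1), hD.Γ_add_right a1 a1 b1,
      hD.Γ_add_right b1 a1 b1, hC.smul_left _ _ aW _ a1, hC.smul_left _ _ aW _ b1,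
      hC.smul_left _ _ bW _ a1, hC.smul_left _ _ bW _ b1, hD.Γ_smul_right _ aW aW,
      hD.Γ_smul_right _ aW bW, hD.Γ_smul_right _ bW aW, hD.Γ_smul_right _ bW bW,
      hC.symm _ bW _ aW]
    module
  have hdiff : (2 : ℝ)⁻¹ • X.G' e e - (2 : ℝ)⁻¹ • C.Γ (X.pt e) (X.pt e)
      = ((2 : ℝ)⁻¹ * (e.1 * e.1)) • (X.P - C.Γ X.a X.a)
        + ((2 : ℝ)⁻¹ * (e.1 * e.2 + e.2 * e.1)) • (X.Q - C.Γ X.a X.b)
        + ((2 : ℝ)⁻¹ * (e.2 * e.2)) • (X.R - C.Γ X.b X.b) := by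
    rw [hΓ]
    unfold G'
    module
  have hs : ∀ {f : M →ₘ[m] ℝ}, f ∈ C.W → C.nrm2 f ≤ δ ^ 2 → √(I (C.Γ f f)) ≤ δ := by
    intro f hf hn
    exact Real.sqrt_le_iff.2 ⟨hδ, (hD.E_le_nrm2 f).trans hn⟩
  have hsm : ∀ (c : ℝ) {f : M →ₘ[m] ℝ}, f ∈ C.W → C.nrm2 f ≤ δ ^ 2 →
      √(I (C.Γ (c • f) (c • f))) ≤ |c| * δ := by
    intro c f hf hn
    rw [hD.E_smul c hf, Real.sqrt_mul (sq_nonneg c), Real.sqrt_sq_eq_abs]
    exact mul_le_mul_of_nonneg_left (hs hf hn) (abs_nonneg c)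
  have t1 := hsm ((2 : ℝ)⁻¹ * (e.1 * e.1)) s1 hX.nP
  have t2 := hsm ((2 : ℝ)⁻¹ * (e.1 * e.2 + e.2 * e.1)) s2 hX.nQ
  have t3 := hsm ((2 : ℝ)⁻¹ * (e.2 * e.2)) s3 hX.nR
  have m1 := hC.smul_mem ((2 : ℝ)⁻¹ * (e.1 * e.1)) _ s1
  have m2 := hC.smul_mem ((2 : ℝ)⁻¹ * (e.1 * e.2 + e.2 * e.1)) _ s2
  have m3 := hC.smul_mem ((2 : ℝ)⁻¹ * (e.2 * e.2)) _ s3
  have t4 := hD.sqrt_E_add_le m1 m2
  have t5 := hD.sqrt_E_add_le (hC.add_mem _ m1 _ m2) m3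
  rw [hdiff]
  have c1 : |(2 : ℝ)⁻¹ * (e.1 * e.1)| = |e.1| ^ 2 / 2 := by
    rw [abs_mul, abs_mul, abs_of_pos (by norm_num : (0 : ℝ) < 2⁻¹)]; ring
  have c2 : |(2 : ℝ)⁻¹ * (e.1 * e.2 + e.2 * e.1)| = |e.1| * |e.2| := by
    have : (2 : ℝ)⁻¹ * (e.1 * e.2 + e.2 * e.1) = e.1 * e.2 := by ring
    rw [this, abs_mul]
  have c3 : |(2 : ℝ)⁻¹ * (e.2 * e.2)| = |e.2| ^ 2 / 2 := by
    rw [abs_mul, abs_mul, abs_of_pos (by norm_num : (0 : ℝ) < 2⁻¹)]; ring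
  rw [c1] at t1
  rw [c2] at t2
  rw [c3] at t3
  have t6 : √(I (C.Γ (((2 : ℝ)⁻¹ * (e.1 * e.1)) • (X.P - C.Γ X.a X.a)
        + ((2 : ℝ)⁻¹ * (e.1 * e.2 + e.2 * e.1)) • (X.Q - C.Γ X.a X.b)
        + ((2 : ℝ)⁻¹ * (e.2 * e.2)) • (X.R - C.Γ X.b X.b))
        (((2 : ℝ)⁻¹ * (e.1 * e.1)) • (X.P - C.Γ X.a X.a)
        + ((2 : ℝ)⁻¹ * (e.1 * e.2 + e.2 * e.1)) • (X.Q - C.Γ X.a X.b)
        + ((2 : ℝ)⁻¹ * (e.2 * e.2)) • (X.R - C.Γ X.b X.b))))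
      ≤ ((|e.1| + |e.2|) ^ 2 + 1) * δ := by
    have h1 : 0 ≤ |e.1| * |e.2| := by positivity
    nlinarith [sq_nonneg (|e.1|), sq_nonneg (|e.2|)]
  exact (Real.sqrt_le_left (by positivity)).1 t6

end Ok

end Dat

end Vale.Agent.P233
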