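import Vale.Agent.P233.AB.HC4
import Vale.Agent.P233.AB.VHJ

/-! P233 AB, block 3: the resolvent scheme for the viscous Hamilton-Jacobi equation. -/

open MeasureTheory Filter Topology
open scoped ENNReal NNReal

namespace Vale.Agent.P233

variable {M : Type*} [MeasurableSpace M] {m : Measure M} {C : Calc m}

theorem hc_pow_le {K : ℝ} (hK : 0 ≤ K) {n k : ℕ} (hkn : k ≤ n) (h : K * n ≤ 1) :
    (1 + K) ^ k ≤ 1 + 2 * (K * n) := by
  have h1 : (1 + K) ^ k ≤ Real.exp (K * k) := by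
    have h2 := pow_le_pow_left₀ (by linarith : (0 : ℝ) ≤ 1 + K)
      (by linarith [Real.add_one_le_exp K] : 1 + K ≤ Real.exp K) k
    rwa [← Real.exp_nat_mul, mul_comm] at h2
  have hkn' : (k : ℝ) ≤ n := by exact_mod_cast hkn
  have h3 : K * k ≤ K * n := mul_le_mul_of_nonneg_left hkn' hK
  have h4 : 0 ≤ K * n := mul_nonneg hK (Nat.cast_nonneg n)
  have h5 := Real.abs_exp_sub_one_le (x := K * n) (by rwa [abs_of_nonneg h4])
  rw [abs_of_nonneg h4] at h5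
  have h6 := (le_abs_self _).trans h5
  have h7 := Real.exp_le_exp.2 h3
  linarith

theorem hc_log_ge {y : ℝ} (hy : |y| ≤ 1 / 2) : y - 2 * y ^ 2 ≤ Real.log (1 + y) := by
  have h1 := abs_le.1 hy
  have hp : 0 < 1 + y := by linarith
  have h2 : -(Real.log (1 + y)) = Real.log ((1 + y)⁻¹) := (Real.log_inv _).symm
  have h3 : Real.log ((1 + y)⁻¹) ≤ (1 + y)⁻¹ - 1 := Real.log_le_sub_one_of_pos (inv_pos.2 hp)
  have h4 : (1 + y)⁻¹ - 1 ≤ -(y - 2 * y ^ 2) := by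
    have h5 : (1 + y)⁻¹ - 1 = -y / (1 + y) := by field_simp; ring
    rw [h5, div_le_iff₀ hp]
    nlinarith [mul_nonneg (sq_nonneg y) (by linarith : (0 : ℝ) ≤ 1 + 2 * y)]
  linarith

/-- The value at a point: the exact form of one step. -/
theorem hc_pt3 {a b χ χ' l G lam : ℝ} (ha : 1 + χ = Real.exp a) (hb : 1 + χ' = Real.exp b)
    (h : χ' - χ = lam * ((1 + χ') * (l + G))) :
    Real.log (1 + -(lam * (l + G))) = a - b := by
  have h1 : 1 + -(lam * (l + G)) = Real.exp (a - b) := by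
    rw [Real.exp_sub, ← ha, ← hb]
    have hp : (1 + χ') ≠ 0 := by rw [hb]; exact (Real.exp_pos _).ne'
    rw [eq_div_iff hp]
    linear_combination h
  rw [h1, Real.log_exp]

namespace IsGamma

variable (hC : IsGamma C) {κ : ℝ} (hB : C.BEi κ) [SigmaFinite m]
include hC

omit [SigmaFinite m] in
theorem hc_smul {f : M →ₘ[m] ℝ} (hf : f ∈ C.Test) (c : ℝ) :
    c • f ∈ C.Test ∧ C.lap (c • f) = c • C.lap f ∧ C.Γ (c • f) (c • f) = (c * c) • C.Γ f f := by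
  have hD := hC.toIsDir
  have hA := hC.test_A hf
  refine ⟨hC.test_smul' c hf, hD.lap_eq (hD.isLap_smul c (hC.test_isLap hf)), ?_⟩
  rw [hD.smul_left _ _ hA.1 _ (hD.smul_mem _ _ hA.1), hD.Γ_smul_right _ hA.1 hA.1, smul_smul]

include hB

omit hB in
/-- The two inequalities of one step. -/
theorem hc_onestep {χ f χ' f' : M →ₘ[m] ℝ} {σ τ D₀ E₀ c : ℝ} (hσ : 0 < σ) (hτ : 0 < τ)
    (hg : Lg C χ f) (hg' : Lg C χ' f') (hlap' : C.lap χ' = (σ * τ)⁻¹ • (χ' - χ))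
    (hbd : ∀ᵐ x ∂m, |C.lap χ' x| ≤ D₀ * (1 + χ' x)) (hlow : ∀ᵐ x ∂m, c - 1 ≤ χ' x) (hc0 : 0 < c)
    (hE : I (C.lap χ' ^ 2) ≤ E₀) (hlD : σ * τ * D₀ ≤ 1 / 2)
    (hW : C.lap f' + C.Γ f' f' ∈ C.W) :
    (∀ᵐ x ∂m, -(2 * σ) * f' x - -(2 * σ) * f x ≤
      τ * (σ * (-(2 * σ) * C.lap f' x) - (-(2 * σ) * -(2 * σ) * C.Γ f' f' x) / 2)) ∧
    ∃ R : M →ₘ[m] ℝ, MemLp R 1 m ∧ I R ≤ (4 * σ ^ 3 * (c ^ 2)⁻¹ * E₀) * τ ^ 2 ∧
      ∀ᵐ x ∂m, 0 ≤ R x ∧ R x ≤ (4 * σ ^ 3 * D₀ ^ 2) * τ ^ 2 ∧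
        τ * (σ * (-(2 * σ) * C.lap f' x) - (-(2 * σ) * -(2 * σ) * C.Γ f' f' x) / 2) - R x ≤
          -(2 * σ) * f' x - -(2 * σ) * f x := by
  have hl : 0 < σ * τ := by positivity
  set lam := σ * τ with hlam
  set S := C.lap f' + C.Γ f' f' with hS
  have hbase : ∀ᵐ x ∂m, Real.log (1 + -(lam * S x)) = f x - f' x ∧ |S x| ≤ D₀ ∧
      S x = C.lap f' x + C.Γ f' f' x ∧ C.lap χ' x = (1 + χ' x) * S x := by
    filter_upwards [hg.exp_eq, hg'.exp_eq, mul_ae (1 + χ') S, hc_one_add χ',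
      add_ae (C.lap f') (C.Γ f' f'), smul_ae (χ' - χ) lam⁻¹, sub_ae χ' χ, hbd]
      with x a1 a2 a7 a8 a9 a10 a11 a12
    have hp : 0 < 1 + χ' x := by rw [a2]; exact Real.exp_pos _
    have hlx : C.lap χ' x = lam⁻¹ * (χ' x - χ x) := by rw [hlap', a10, a11]
    have hly : C.lap χ' x = (1 + χ' x) * S x := by rw [hg'.lap, a7, a8]
    have hrel : χ' x - χ x = lam * ((1 + χ' x) * (S x + 0)) := by
      rw [add_zero, ← hly, hlx]; field_simp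
    have h5 := hc_pt3 a1 a2 hrel
    rw [add_zero] at h5
    refine ⟨h5, ?_, a9, hly⟩
    rw [hly, abs_mul, abs_of_pos hp, mul_comm] at a12
    exact le_of_mul_le_mul_right a12 hp
  constructor
  · filter_upwards [hbase] with x a
    obtain ⟨a1, a2, a3, -⟩ := a
    have h6 : 0 < 1 + -(lam * S x) := by
      have h8 := mul_le_mul_of_nonneg_left ((le_abs_self _).trans a2) hl.le
      linarith
    have h7 := Real.log_le_sub_one_of_pos h6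
    rw [a1, a3] at h7
    have h8 := mul_le_mul_of_nonneg_left h7 (by positivity : (0 : ℝ) ≤ 2 * σ)
    have h9 : 2 * σ * (1 + -(lam * (C.lap f' x + C.Γ f' f' x)) - 1) =
      τ * (σ * (-(2 * σ) * C.lap f' x) - (-(2 * σ) * -(2 * σ) * C.Γ f' f' x) / 2) := by
      rw [hlam]; ring
    rw [h9] at h8
    linarith
  · have hS2 : MemLp S 2 m := hC.memLp _ hW
    refine ⟨(4 * σ * lam ^ 2) • S ^ 2, mem_smul _ (mem_sq hS2), ?_, ?_⟩
    · have h5 : I (S ^ 2) ≤ I ((c ^ 2)⁻¹ • C.lap χ' ^ 2) := by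
        refine I_mono (mem_sq hS2) (mem_smul _ (mem_sq (hC.memLp _
          (hC.test_lap_mem hg'.tχ)))) ?_
        rw [le_iff_ae]
        filter_upwards [sq_ae S, smul_ae (C.lap χ' ^ 2) (c ^ 2)⁻¹, sq_ae (C.lap χ'), hbase, hlow]
          with x a1 a2 a3 a4 a5
        rw [a1, a2, a3, a4.2.2.2]
        have h6 : c ≤ 1 + χ' x := by linarith
        have h7 : c ^ 2 ≤ (1 + χ' x) ^ 2 := pow_le_pow_left₀ hc0.le h6 2
        have h8 : (1 : ℝ) ≤ (c ^ 2)⁻¹ * (1 + χ' x) ^ 2 := by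
          have h9 := mul_le_mul_of_nonneg_left h7 (inv_nonneg.2 (sq_nonneg c))
          rwa [inv_mul_cancel₀ (pow_pos hc0 2).ne'] at h9
        have h10 := mul_le_mul_of_nonneg_right h8 (sq_nonneg (S x))
        calc S x ^ 2 = 1 * S x ^ 2 := (one_mul _).symm
          _ ≤ _ := h10
          _ = _ := by ring
      rw [I_smul] at h5 ⊢
      have h6 := mul_le_mul_of_nonneg_left hE (inv_nonneg.2 (sq_nonneg c))
      have h7 := mul_le_mul_of_nonneg_left (h5.trans h6)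
        (by positivity : (0 : ℝ) ≤ 4 * σ * lam ^ 2)
      refine h7.trans (le_of_eq ?_)
      rw [hlam]; ring
    · filter_upwards [hbase, smul_ae (S ^ 2) (4 * σ * lam ^ 2), sq_ae S] with x a a4 a5
      obtain ⟨a1, a2, a3, -⟩ := a
      have h12 : |-(lam * S x)| ≤ lam * D₀ := by
        rw [abs_neg, abs_mul, abs_of_pos hl]
        exact mul_le_mul_of_nonneg_left a2 hl.le
      have h6 := hc_log_ge (h12.trans hlD)
      rw [a1] at h6
      have h7 : S x ^ 2 ≤ D₀ ^ 2 := by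
        rw [← sq_abs]
        exact pow_le_pow_left₀ (abs_nonneg _) a2 2
      rw [a4, a5]
      refine ⟨by positivity, ?_, ?_⟩
      · have h8 := mul_le_mul_of_nonneg_left h7 (by positivity : (0 : ℝ) ≤ 4 * σ * lam ^ 2)
        refine h8.trans (le_of_eq ?_)
        rw [hlam]; ring
      · have h8 := mul_le_mul_of_nonneg_left h6 (by positivity : (0 : ℝ) ≤ 2 * σ)
        have h9 : 2 * σ * (-(lam * S x) - 2 * (-(lam * S x)) ^ 2) =
          τ * (σ * (-(2 * σ) * C.lap f' x) - (-(2 * σ) * -(2 * σ) * C.Γ f' f' x) / 2) -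
            4 * σ * lam ^ 2 * S x ^ 2 := by
          rw [a3, hlam]; ring
        rw [h9] at h8
        linarith

/-- **The resolvent scheme.** -/
theorem exists_vhj {φ₀ : M →ₘ[m] ℝ} (hφ : φ₀ ∈ C.Test) {L Λ : ℝ}
    (hL : ∀ᵐ x ∂m, C.Γ φ₀ φ₀ x ≤ L) (hΛ : ∀ᵐ x ∂m, |C.lap φ₀ x| ≤ Λ) {σ ε : ℝ} (hσ : 0 < σ)
    (hε : 0 < ε) (h8 : 8 * |κ| * σ * ε ≤ 1) :
    ∃ (D : ℝ) (N : ℕ), ∀ n : ℕ, N ≤ n → 0 < n → ∃ u : ℕ → M →ₘ[m] ℝ, u 0 = φ₀ ∧
      C.VHJ σ (ε / n) (4 * L) (Λ + 8 * |κ| * ε * L) D n u := by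
  have hD := hC.toIsDir
  have hφA := hC.test_A hφ
  by_cases hm : ∀ᵐ x ∂m, False
  · -- trivial measure
    have hall : ∀ P : M → Prop, ∀ᵐ x ∂m, P x := fun P => by
      filter_upwards [hm] with x hx
      exact hx.elim
    refine ⟨0, 0, fun n _ _ => ⟨fun _ => φ₀, rfl, fun _ => hφ, fun _ _ => hall _, fun _ _ => hall _,
      fun _ _ => hall _, fun _ _ => hall _, fun _ _ => ⟨0, mem_zero, ?_, hall _⟩⟩⟩
    rw [I_zero, zero_mul]
  have hfr : ∃ᶠ x in ae m, True := by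
    rw [Filter.Frequently]
    simpa using hm
  have hL0 : 0 ≤ L := by
    obtain ⟨x, -, hx1, hx2⟩ := (hfr.and_eventually
      ((nonneg_iff_ae.1 (hC.nonneg _ hφA.1)).and hL)).exists
    exact hx1.trans hx2
  have hΛ0 : 0 ≤ Λ := by
    obtain ⟨x, -, hx⟩ := (hfr.and_eventually hΛ).exists
    exact (abs_nonneg _).trans hx
  -- initial data
  obtain ⟨b0, hb0⟩ := mem_top_iff.1 hφA.2
  set s : ℝ := (2 * σ)⁻¹ with hs
  have hs0 : 0 < s := by positivity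
  have hsσ : 2 * σ * s = 1 := by rw [hs]; field_simp
  obtain ⟨t1, t2, t3⟩ := hC.hc_smul hφ (-s)
  obtain ⟨χ₀, hχ₀⟩ := hC.hc_exp t1 (hC.Γ_mem hB t1 t1).1
  set c : ℝ := Real.exp (-(s * max b0 0)) with hc
  have hc0 : 0 < c := Real.exp_pos _
  have hc1 : c ≤ 1 := by
    rw [hc, Real.exp_le_one_iff]
    exact neg_nonpos.2 (mul_nonneg hs0.le (le_max_right _ _))
  set A₀ : ℝ := s ^ 2 * L with hA₀
  have hA0 : 0 ≤ A₀ := by positivity
  set B₀ : ℝ := s * Λ with hB₀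
  have hB0 : 0 ≤ B₀ := by positivity
  set D₀ : ℝ := B₀ + A₀ with hD₀
  have hD0 : 0 ≤ D₀ := by positivity
  have hst0 : HSt C c A₀ B₀ D₀ χ₀ ((-s) • φ₀) := by
    have g1 : ∀ᵐ x ∂m, C.Γ ((-s) • φ₀) ((-s) • φ₀) x ≤ A₀ := by
      filter_upwards [hL, smul_ae (C.Γ φ₀ φ₀) (-s * -s)] with x a1 a2
      rw [t3, a2, hA₀]
      nlinarith [mul_le_mul_of_nonneg_left a1 (sq_nonneg s)]
    have g2 : ∀ᵐ x ∂m, |C.lap ((-s) • φ₀) x| ≤ B₀ := by
      filter_upwards [hΛ, smul_ae (C.lap φ₀) (-s)] with x a1 a2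
      rw [t2, a2, hB₀, abs_mul, abs_neg, abs_of_pos hs0]
      exact mul_le_mul_of_nonneg_left a1 hs0.le
    refine ⟨hχ₀, ?_, g1, ?_, ?_⟩
    · filter_upwards [hχ₀.exp_eq, hb0, smul_ae φ₀ (-s)] with x a1 a2 a3
      have h1 : c ≤ 1 + χ₀ x := by
        rw [a1, a3, hc]
        apply Real.exp_le_exp.2
        have h2 : φ₀ x ≤ max b0 0 := ((le_abs_self _).trans a2).trans (le_max_left _ _)
        nlinarith
      linarith
    · filter_upwards [g2] with x a1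
      exact (abs_le.1 a1).1
    · filter_upwards [g1, g2, mul_ae (1 + χ₀) (C.lap ((-s) • φ₀) + C.Γ ((-s) • φ₀) ((-s) • φ₀)),
        hc_one_add χ₀, add_ae (C.lap ((-s) • φ₀)) (C.Γ ((-s) • φ₀) ((-s) • φ₀)), hχ₀.exp_eq,
        nonneg_iff_ae.1 (hC.nonneg _ (hC.test_A t1).1)] with x a1 a2 a3 a4 a5 a6 a7
      have hp : 0 < 1 + χ₀ x := by rw [a6]; exact Real.exp_pos _
      rw [hχ₀.lap, a3, a4, a5, abs_mul, abs_of_pos hp, mul_comm]
      refine mul_le_mul_of_nonneg_right ?_ hp.le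
      refine (abs_add_le _ _).trans ?_
      rw [abs_of_nonneg a7]
      exact add_le_add a2 a1
  set E₀ : ℝ := I (C.lap χ₀ ^ 2) with hE₀
  have hE0 : 0 ≤ E₀ := I_sq_nonneg _
  refine ⟨2 * σ * (D₀ + 4 * A₀) + 4 * σ ^ 3 * (c ^ 2)⁻¹ * E₀ + 4 * σ ^ 3 * D₀ ^ 2,
    ⌈2 * σ * ε * D₀⌉₊, fun n hn hn0 => ?_⟩
  have hnr : (0 : ℝ) < n := by exact_mod_cast hn0
  set τ : ℝ := ε / n with hτ
  have hτ0 : 0 < τ := by positivity
  set lam : ℝ := σ * τ with hlam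
  have hl : 0 < lam := by positivity
  have hlD : lam * D₀ ≤ 1 / 2 := by
    have h1 : 2 * σ * ε * D₀ ≤ n := (Nat.le_ceil _).trans (by exact_mod_cast hn)
    have h2 : lam * D₀ = σ * ε * D₀ / n := by rw [hlam, hτ]; field_simp
    rw [h2, div_le_iff₀ hnr]
    linarith
  have hKn : 8 * (|κ| * lam) * n ≤ 1 := by
    have h1 : 8 * (|κ| * lam) * n = 8 * |κ| * σ * ε := by rw [hlam, hτ]; field_simp
    rw [h1]; exact h8
  have hK0 : 0 ≤ |κ| * lam := mul_nonneg (abs_nonneg κ) hl.le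
  have hn1 : (1 : ℝ) ≤ n := by exact_mod_cast hn0
  have hk : 8 * (|κ| * lam) ≤ 1 := by nlinarith
  have hK8 : 0 ≤ 8 * (|κ| * lam) := by positivity
  -- the sequence
  set χ : ℕ → M →ₘ[m] ℝ := fun k => (C.J lam)^[k] χ₀ with hχ
  have hχs : ∀ k, χ (k + 1) = C.J lam (χ k) := fun k => by
    simp only [hχ]
    rw [Function.iterate_succ_apply']
  have hp1 : ∀ k : ℕ, 1 ≤ (1 + 8 * (|κ| * lam)) ^ k := fun k => one_le_pow₀ (by linarith)
  have hind : ∀ k, ∃ f, HSt C c (A₀ * (1 + 8 * (|κ| * lam)) ^ k)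
      (B₀ + A₀ * ((1 + 8 * (|κ| * lam)) ^ k - 1)) D₀ (χ k) f := by
    intro k
    induction k with
    | zero =>
      refine ⟨(-s) • φ₀, ?_⟩
      simpa [hχ] using hst0
    | succ k ih =>
      obtain ⟨f, hf⟩ := ih
      have hBk : 0 ≤ B₀ + A₀ * ((1 + 8 * (|κ| * lam)) ^ k - 1) :=
        add_nonneg hB0 (mul_nonneg hA0 (by linarith [hp1 k]))
      obtain ⟨-, f', hf'⟩ := hC.hc_step hB hf hl hc0 hc1
        (mul_nonneg hA0 (by linarith [hp1 k])) hBk hD0 hlD hk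
      refine ⟨f', ?_⟩
      rw [hχs]
      have e1 : A₀ * (1 + 8 * (|κ| * lam)) ^ (k + 1) =
          A₀ * (1 + 8 * (|κ| * lam)) ^ k * (1 + 8 * (|κ| * lam)) := by ring
      have e2 : B₀ + A₀ * ((1 + 8 * (|κ| * lam)) ^ (k + 1) - 1) =
          B₀ + A₀ * ((1 + 8 * (|κ| * lam)) ^ k - 1) +
            8 * (|κ| * lam) * (A₀ * (1 + 8 * (|κ| * lam)) ^ k) := by ring
      rw [e1, e2]
      exact hf'
  choose f hf using hind
  have hlapχ : ∀ k, C.lap (χ (k + 1)) = lam⁻¹ • (χ (k + 1) - χ k) := by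
    intro k
    have h2 := hC.memLp _ (hC.test_A (hf k).lg.tχ).1
    rw [hχs]
    exact hD.lap_eq (hD.J_isLap hl h2)
  have hEk : ∀ k, I (C.lap (χ k) ^ 2) ≤ E₀ := by
    intro k
    induction k with
    | zero => exact le_rfl
    | succ k ih =>
      have h1 : C.lap (χ (k + 1)) = C.J lam (C.lap (χ k)) := by
        rw [hlapχ, hχs]
        exact (hD.hc_J_lap hl (hC.test_isLap (hf k).lg.tχ)).symm
      rw [h1]
      exact (hD.J_sq_le hl (hC.memLp _ (hC.test_lap_mem (hf k).lg.tχ))).trans ih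
  have hpn : ∀ k ≤ n, (1 + 8 * (|κ| * lam)) ^ k ≤ 1 + 2 * (8 * (|κ| * lam) * n) := fun k hk' =>
    hc_pow_le hK8 hk' hKn
  have hp4 : ∀ k ≤ n, (1 + 8 * (|κ| * lam)) ^ k ≤ 4 := fun k hk' => by
    linarith [hpn k hk']
  have hu := fun k => hC.hc_smul (hf k).lg.tf (-(2 * σ))
  have h4 : ∀ k ≤ n, ∀ᵐ x ∂m, C.Γ (f k) (f k) x ≤ 4 * A₀ := by
    intro k hk'
    filter_upwards [(hf k).gr] with x a1
    refine a1.trans ?_
    have := mul_le_mul_of_nonneg_left (hp4 k hk') hA0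
    linarith
  refine ⟨fun k => (-(2 * σ)) • f k, ?_, fun k => (hu k).1, fun k hk' => ?_, fun k hk' => ?_,
    fun k hk' => ?_, fun k hk' => ?_, fun k hk' => ?_⟩
  · -- initial value
    have h1 : f 0 = (-s) • φ₀ := by
      rw [eq_iff_ae]
      filter_upwards [(hf 0).lg.exp_eq, hχ₀.exp_eq] with x a1 a2
      apply Real.exp_injective
      rw [← a1, ← a2]
      simp [hχ]
    show (-(2 * σ)) • f 0 = φ₀
    rw [h1, smul_smul]
    have : -(2 * σ) * -s = 1 := by linarith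
    rw [this, one_smul]
  · show ∀ᵐ x ∂m, C.Γ ((-(2 * σ)) • f k) ((-(2 * σ)) • f k) x ≤ 4 * L
    filter_upwards [h4 k hk', smul_ae (C.Γ (f k) (f k)) (-(2 * σ) * -(2 * σ))] with x a1 a2
    rw [(hu k).2.2, a2]
    have h5 := mul_le_mul_of_nonneg_left a1 (sq_nonneg (2 * σ))
    have h6 : (2 * σ) ^ 2 * (4 * A₀) = 4 * L * (2 * σ * s) ^ 2 := by rw [hA₀]; ring
    rw [h6, hsσ] at h5
    linarith
  · show ∀ᵐ x ∂m, C.lap ((-(2 * σ)) • f k) x ≤ Λ + 8 * |κ| * ε * L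
    filter_upwards [(hf k).lp, smul_ae (C.lap (f k)) (-(2 * σ))] with x a1 a2
    rw [(hu k).2.1, a2]
    have h5 : A₀ * ((1 + 8 * (|κ| * lam)) ^ k - 1) ≤ A₀ * (2 * (8 * (|κ| * lam) * n)) :=
      mul_le_mul_of_nonneg_left (by linarith [hpn k hk']) hA0
    have h6 : -(2 * σ) * C.lap (f k) x ≤ 2 * σ * (B₀ + A₀ * (2 * (8 * (|κ| * lam) * n))) := by
      have h7 : -(C.lap (f k) x) ≤ B₀ + A₀ * (2 * (8 * (|κ| * lam) * n)) := by linarith
      have := mul_le_mul_of_nonneg_left h7 (by positivity : (0 : ℝ) ≤ 2 * σ)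
      linarith
    refine h6.trans (le_of_eq ?_)
    have h7 : 2 * σ * (B₀ + A₀ * (2 * (8 * (|κ| * lam) * n))) =
        (2 * σ * s) * Λ + (2 * σ * s) ^ 2 * (8 * |κ| * L) * (τ * n) := by
      rw [hB₀, hA₀, hlam]; ring
    rw [h7, hsσ, hτ, div_mul_cancel₀ _ hnr.ne']
    ring
  · show ∀ᵐ x ∂m, |C.lap ((-(2 * σ)) • f k) x| ≤ _
    filter_upwards [(hf k).bd, smul_ae (C.lap (f k)) (-(2 * σ)), h4 k hk', (hf k).lg.exp_eq,
      mul_ae (1 + χ k) (C.lap (f k) + C.Γ (f k) (f k)), hc_one_add (χ k),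
      add_ae (C.lap (f k)) (C.Γ (f k) (f k)),
      nonneg_iff_ae.1 (hC.nonneg _ (hC.test_A (hf k).lg.tf).1)] with x a1 a2 a3 a4 a5 a6 a7 a8
    have hp : 0 < 1 + χ k x := by rw [a4]; exact Real.exp_pos _
    rw [(hf k).lg.lap, a5, a6, a7, abs_mul, abs_of_pos hp, mul_comm] at a1
    have h5 : |C.lap (f k) x + C.Γ (f k) (f k) x| ≤ D₀ := le_of_mul_le_mul_right a1 hp
    have h6 : |C.lap (f k) x| ≤ D₀ + 4 * A₀ := by
      have h7 : C.lap (f k) x = (C.lap (f k) x + C.Γ (f k) (f k) x) - C.Γ (f k) (f k) x := by ring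
      rw [h7]
      refine (abs_sub _ _).trans ?_
      rw [abs_of_nonneg a8]
      linarith
    rw [(hu k).2.1, a2, abs_mul, abs_neg, abs_of_pos (by positivity : 0 < 2 * σ)]
    have h7 := mul_le_mul_of_nonneg_left h6 (by positivity : (0 : ℝ) ≤ 2 * σ)
    have h8 : 0 ≤ 4 * σ ^ 3 * (c ^ 2)⁻¹ * E₀ := by positivity
    have h9 : 0 ≤ 4 * σ ^ 3 * D₀ ^ 2 := by positivity
    linarith
  · -- upper inequality
    have hg := hf (k + 1)
    have hW : C.lap (f (k + 1)) + C.Γ (f (k + 1)) (f (k + 1)) ∈ C.W :=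
      hD.add_mem _ (hC.test_lap_mem hg.lg.tf) _ (hC.Γ_mem hB hg.lg.tf hg.lg.tf).1
    have h1 := (hC.hc_onestep hσ hτ0 (hf k).lg hg.lg (hlapχ k) hg.bd hg.low hc0 (hEk (k + 1))
      hlD hW).1
    show ∀ᵐ x ∂m, ((-(2 * σ)) • f (k + 1) : M →ₘ[m] ℝ) x - ((-(2 * σ)) • f k : M →ₘ[m] ℝ) x ≤
      τ * (σ * C.lap ((-(2 * σ)) • f (k + 1)) x
        - C.Γ ((-(2 * σ)) • f (k + 1)) ((-(2 * σ)) • f (k + 1)) x / 2)
    filter_upwards [h1, smul_ae (f (k + 1)) (-(2 * σ)),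
      smul_ae (f k) (-(2 * σ)), smul_ae (C.lap (f (k + 1))) (-(2 * σ)),
      smul_ae (C.Γ (f (k + 1)) (f (k + 1))) (-(2 * σ) * -(2 * σ))] with x a1 a3 a4 a5 a6
    rw [a3, a4, (hu (k + 1)).2.1, (hu (k + 1)).2.2, a5, a6]
    exact a1
  · -- lower inequality
    have hg := hf (k + 1)
    have hW : C.lap (f (k + 1)) + C.Γ (f (k + 1)) (f (k + 1)) ∈ C.W :=
      hD.add_mem _ (hC.test_lap_mem hg.lg.tf) _ (hC.Γ_mem hB hg.lg.tf hg.lg.tf).1
    obtain ⟨R, hR1, hR2, hR3⟩ := (hC.hc_onestep hσ hτ0 (hf k).lg hg.lg (hlapχ k) hg.bd hg.low hc0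
      (hEk (k + 1)) hlD hW).2
    have p1 : 0 ≤ 2 * σ * (D₀ + 4 * A₀) := by positivity
    have p2 : 0 ≤ 4 * σ ^ 3 * (c ^ 2)⁻¹ * E₀ := by positivity
    have p3 : 0 ≤ 4 * σ ^ 3 * D₀ ^ 2 := by positivity
    refine ⟨R, hR1, hR2.trans (mul_le_mul_of_nonneg_right (by linarith) (sq_nonneg τ)), ?_⟩
    show ∀ᵐ x ∂m, _ ∧ _ ∧ _ - _ ≤
        ((-(2 * σ)) • f (k + 1) : M →ₘ[m] ℝ) x - ((-(2 * σ)) • f k : M →ₘ[m] ℝ) x
    filter_upwards [hR3, smul_ae (f (k + 1)) (-(2 * σ)),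
      smul_ae (f k) (-(2 * σ)), smul_ae (C.lap (f (k + 1))) (-(2 * σ)),
      smul_ae (C.Γ (f (k + 1)) (f (k + 1))) (-(2 * σ) * -(2 * σ))] with x a1 a3 a4 a5 a6
    rw [a3, a4, (hu (k + 1)).2.1, (hu (k + 1)).2.2, a5, a6]
    exact ⟨a1.1, a1.2.1.trans (mul_le_mul_of_nonneg_right (by linarith) (sq_nonneg τ)), a1.2.2⟩

end IsGamma

end Vale.Agent.P233
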