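import Vale.Agent.P233.AB.CenI1
import Vale.Agent.P233.AB.Eps0

open MeasureTheory Filter Topology
open scoped ENNReal NNReal

namespace Vale.Agent.P233

variable {M : Type*} [MeasurableSpace M] {m : Measure M} {C : Calc m}

namespace Dat

variable {X : Dat m} {θ : M →ₘ[m] ℝ} {η δ : ℝ}

section Ok

variable (hC : IsGamma C) {κ : ℝ} (hB : C.BEi κ) (hX : X.Ok C θ η δ)
include hC hB hX

/-- the density of a pair, pointwise -/
theorem rhoP_ae (v e : ℝ × ℝ) (ε t : ℝ) :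
    ∀ᵐ x ∂m, X.rho C (ε • v + t • e) x = X.F x - ε * X.D C v x + ε ^ 2 / 2 * X.r C v v x
      + t * (ε * X.r C v e x - X.D C e x) + t ^ 2 / 2 * X.r C e e x := by
  rw [e_rho hC hB hX, e_r_smul_left hC hB hX]
  filter_upwards [rho_ae hC hB hX ε v,
    add_ae (X.rho C (ε • v) + t • (ε • X.r C v e - X.D C e)) ((t ^ 2 / 2) • X.r C e e),
    add_ae (X.rho C (ε • v)) (t • (ε • X.r C v e - X.D C e)),
    smul_ae (ε • X.r C v e - X.D C e) t, sub_ae (ε • X.r C v e) (X.D C e),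
    smul_ae (X.r C v e) ε, smul_ae (X.r C e e) (t ^ 2 / 2)]
    with x a1 a2 a3 a4 a5 a6 a7
  rw [a2, a3, a4, a5, a6, a7, a1]

/-- where `θ ≠ 1`, everything except `F` vanishes -/
theorem locP_ae (v e : ℝ × ℝ) : ∀ᵐ x ∂m, (θ x = 1 ∧ η ≤ X.F x) ∨
    (0 ≤ X.F x ∧ X.D C v x = 0 ∧ X.D C e x = 0 ∧ X.r C v v x = 0 ∧ X.r C v e x = 0 ∧
      X.r C e e x = 0) := by
  filter_upwards [eq_zero_of_loc (loc_D hC hB hX v), eq_zero_of_loc (loc_D hC hB hX e),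
    eq_zero_of_loc (loc_r hC hB hX v v), eq_zero_of_loc (loc_r hC hB hX v e),
    eq_zero_of_loc (loc_r hC hB hX e e), le_iff_ae.1 hX.Fη, smul_ae θ η,
    nonneg_iff_ae.1 hX.hθ0] with x a1 a2 a3 a4 a5 a6 a7 a8
  rw [a7] at a6
  have hη := hX.hη
  by_cases h : θ x = 1
  · left
    refine ⟨h, ?_⟩
    rw [h, mul_one] at a6
    exact a6
  · right
    exact ⟨(mul_nonneg hη.le a8).trans a6, a1.resolve_left h, a2.resolve_left h,
      a3.resolve_left h, a4.resolve_left h, a5.resolve_left h⟩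

/-- one bound for all functions -/
theorem boundP (v e : ℝ × ℝ) : ∃ B : ℝ, 0 ≤ B ∧ ∀ᵐ x ∂m, |X.D C v x| ≤ B ∧
    |X.D C e x| ≤ B ∧ |X.r C v v x| ≤ B ∧ |X.r C v e x| ≤ B ∧ |X.r C e e x| ≤ B := by
  obtain ⟨K1, h1⟩ := mem_top_iff.1 (D_memA hC hB hX v).2
  obtain ⟨K2, h2⟩ := mem_top_iff.1 (D_memA hC hB hX e).2
  obtain ⟨K3, h3⟩ := mem_top_iff.1 (r_memA hC hB hX v v).2
  obtain ⟨K4, h4⟩ := mem_top_iff.1 (r_memA hC hB hX v e).2
  obtain ⟨K5, h5⟩ := mem_top_iff.1 (r_memA hC hB hX e e).2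
  refine ⟨|K1| + |K2| + |K3| + |K4| + |K5|, by positivity, ?_⟩
  filter_upwards [h1, h2, h3, h4, h5] with x b1 b2 b3 b4 b5
  have p1 := abs_nonneg K1
  have p2 := abs_nonneg K2
  have p3 := abs_nonneg K3
  have p4 := abs_nonneg K4
  have p5 := abs_nonneg K5
  refine ⟨?_, ?_, ?_, ?_, ?_⟩
  · linarith [le_abs_self K1]
  · linarith [le_abs_self K2]
  · linarith [le_abs_self K3]
  · linarith [le_abs_self K4]
  · linarith [le_abs_self K5]

end Ok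

/-- the elementary bound -/
theorem _root_.Vale.Agent.P233.AB.rhoP_real {B a b c d f ε t : ℝ} (hB0 : 0 ≤ B) (hε0 : 0 ≤ ε)
    (hε1 : ε ≤ 1) (ht0 : 0 ≤ t) (htε : t ≤ ε) (ha : |a| ≤ B) (hb : |b| ≤ B) (hc : |c| ≤ B)
    (hd : |d| ≤ B) (hf : |f| ≤ B) :
    |-(ε * a) + ε ^ 2 / 2 * c + t * (ε * d - b) + t ^ 2 / 2 * f| ≤ ε * (4 * (B + 1)) := by
  have ht1 : t ≤ 1 := htε.trans hε1
  have h1 : |ε * a| ≤ ε * B := by
    rw [abs_mul, abs_of_nonneg hε0]; gcongr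
  have h2 : |ε ^ 2 / 2 * c| ≤ ε / 2 * B := by
    rw [abs_mul, abs_of_nonneg (by positivity)]
    have : ε ^ 2 / 2 ≤ ε / 2 := by nlinarith
    gcongr
  have h3 : |t * (ε * d - b)| ≤ ε * (2 * B) := by
    rw [abs_mul, abs_of_nonneg ht0]
    have h : |ε * d - b| ≤ 2 * B := by
      refine (abs_sub _ _).trans ?_
      rw [abs_mul, abs_of_nonneg hε0]
      have : ε * |d| ≤ 1 * B := by gcongr
      linarith
    gcongr
  have h4 : |t ^ 2 / 2 * f| ≤ ε / 2 * B := by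
    rw [abs_mul, abs_of_nonneg (by positivity)]
    have : t ^ 2 / 2 ≤ ε / 2 := by nlinarith
    gcongr
  rw [abs_le] at h1 h2 h3 h4 ⊢
  constructor
  · nlinarith [mul_nonneg hε0 hB0]
  · nlinarith [mul_nonneg hε0 hB0]

/-- positivity and upper bound of the density of a pair -/
theorem pairH_pos [SigmaFinite m] (hC : IsGamma C) {K : ℝ} (hB : C.BEi K) {θ : M →ₘ[m] ℝ}
    {η δ : ℝ} {X : Dat m} (hX : X.Ok C θ η δ) (v e : ℝ × ℝ) {K0 : ℝ}
    (hK0 : ∀ᵐ x ∂m, X.F x ≤ K0) :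
    ∃ ε₀ > (0 : ℝ), ∀ ε, 0 < ε → ε ≤ ε₀ → ∀ t ∈ Set.Icc 0 ε,
      0 ≤ X.rho C (ε • v + t • e) ∧ (∀ᵐ x ∂m, X.rho C (ε • v + t • e) x ≤ K0 + 1) := by
  obtain ⟨B, hB0, hb⟩ := boundP hC hB hX v e
  have hη := hX.hη
  refine ⟨min 1 (min (η / (4 * (B + 1))) (1 / (4 * (B + 1)))),
    lt_min one_pos (lt_min (by positivity) (by positivity)), ?_⟩
  intro ε hε0 hε t ht
  have hε1 : ε ≤ 1 := hε.trans (min_le_left _ _)
  have hε2 : ε ≤ η / (4 * (B + 1)) := hε.trans ((min_le_right _ _).trans (min_le_left _ _))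
  have hε3 : ε ≤ 1 / (4 * (B + 1)) := hε.trans ((min_le_right _ _).trans (min_le_right _ _))
  rw [le_div_iff₀ (by positivity)] at hε2 hε3
  rw [nonneg_iff_ae, ← eventually_and]
  filter_upwards [hb, locP_ae hC hB hX v e, rhoP_ae hC hB hX v e ε t, hK0] with x b1 b2 b3 b4
  obtain ⟨c1, c2, c3, c4, c5⟩ := b1
  have hr := AB.rhoP_real hB0 hε0.le hε1 ht.1 ht.2 c1 c2 c3 c4 c5
  rw [abs_le] at hr
  rw [b3]
  rcases b2 with ⟨hθ, hF⟩ | ⟨hF, z1, z2, z3, z4, z5⟩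
  · constructor
    · linarith [hr.1]
    · linarith [hr.2]
  · rw [z1, z2, z3, z4, z5]
    constructor
    · simpa using hF
    · simp only [mul_zero, sub_zero, add_zero]
      linarith

end Dat

end Vale.Agent.P233
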