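import Vale.Agent.P233.AB.PairHm
import Vale.Agent.P233.AB.PairHp

open MeasureTheory Filter Topology
open scoped ENNReal NNReal

namespace Vale.Agent.P233

variable {M : Type*} [MeasurableSpace M] {m : Measure M} {C : Calc m}

/-- The curve of densities of a pair: positivity, upper bound and mismatch between its flux and
`ρ ∇φ`, where the constants `CH` and `Kρ` do not depend on `δ` and on the approximations. -/
theorem Dat.pairH [SigmaFinite m] (hC : IsGamma C) {K : ℝ} (hB : C.BEi K)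
    (a b F θ g : M →ₘ[m] ℝ) (hg : g ∈ C.A) (η : ℝ) (v e : ℝ × ℝ) :
    ∃ CH ≥ 0, ∃ Kρ ≥ 0, ∀ δ, 0 < δ → δ ≤ 1 → ∀ X : Dat m, X.Ok C θ η δ → X.a = a → X.b = b →
      X.F = F → ∀ h ∈ C.TestI, C.nrm2 (h - g) ≤ (2 * δ) ^ 2 →
      ∃ ε₀ > 0, ∀ ε, 0 < ε → ε ≤ ε₀ → ∀ t ∈ Set.Icc 0 ε,
        0 ≤ X.rho C (ε • v + t • e) ∧ (∀ᵐ x ∂m, X.rho C (ε • v + t • e) x ≤ Kρ) ∧
        ∀ w ∈ C.A, MemLp (C.Γ w w) ∞ m →
          |I (w * (X.r C (ε • v + t • e) e - X.D C e))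
            - I (X.rho C (ε • v + t • e) * C.Γ (X.ph e h ε t) w)| ≤ CH * ε * √(I (C.Γ w w)) := by
  by_cases hex : ∃ (δ : ℝ) (X : Dat m), X.Ok C θ η δ ∧ X.a = a ∧ X.b = b ∧ X.F = F
  · obtain ⟨δ', X', hX', Xa', Xb', XF'⟩ := hex
    have ha : a ∈ C.TestI := by rw [← Xa']; exact hX'.ha
    have hb : b ∈ C.TestI := by rw [← Xb']; exact hX'.hb
    have hF : F ∈ C.TestI := by rw [← XF']; exact hX'.hF
    obtain ⟨K0, hK0⟩ := mem_top_iff.1 (hC.test_A hF.1).2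
    have hK1 : ∀ᵐ x ∂m, F x ≤ |K0| := by
      filter_upwards [hK0] with x hx
      exact (le_abs_self _).trans (hx.trans (le_abs_self _))
    obtain ⟨CH, hCH, H⟩ := pairH_mis hC hB a b F θ g ha hb hF hg η v e
    refine ⟨CH, hCH, |K0| + 1, by positivity, ?_⟩
    intro δ hδ hδ1 X hX Xa Xb XF h hh hn
    obtain ⟨ε₁, hε₁, H1⟩ := H δ hδ hδ1 X hX Xa Xb XF h hh hn
    obtain ⟨ε₂, hε₂, H2⟩ := pairH_pos hC hB hX v e (K0 := |K0|) (by rw [XF]; exact hK1)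
    refine ⟨min ε₁ ε₂, lt_min hε₁ hε₂, fun ε hε hle t ht => ?_⟩
    obtain ⟨p1, p2⟩ := H2 ε hε (hle.trans (min_le_right _ _)) t ht
    exact ⟨p1, p2, H1 ε hε (hle.trans (min_le_left _ _)) t ht⟩
  · refine ⟨0, le_rfl, 0, le_rfl, ?_⟩
    intro δ hδ hδ1 X hX Xa Xb XF
    exact absurd ⟨δ, X, hX, Xa, Xb, XF⟩ hex

end Vale.Agent.P233
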