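import Vale.Agent.P233.AB.PtMet
import Vale.Agent.P233.AB.VHJ

/-! Pointwise duality for the resolvent scheme. -/

open MeasureTheory Filter Topology
open scoped ENNReal NNReal

namespace Vale.Agent.P233

variable {M : Type*} [MetricSpace M] [MeasurableSpace M] [BorelSpace M]
  [SecondCountableTopology M] {m : Measure M}

/-- pointwise duality with explicit errors; `r` is the parameter of the mollification `J_r J_r` -/
theorem pt_duality [m.IsOpenPosMeasure] (hfin : ∀ (x : M) (r : ℝ), m (Metric.ball x r) < ∞)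
    (hq : ∀ f ∈ (sob m).W, ∀ g ∈ (sob m).W,
      ∫ x, (slope (f + g) ^ 2) x ∂m + ∫ x, (slope (f - g) ^ 2) x ∂m
        = 2 * ∫ x, (slope f ^ 2) x ∂m + 2 * ∫ x, (slope g ^ 2) x ∂m)
    (hs : ∀ f ∈ (sob m).W, slope f ≤ 1 → ∃ u : M → ℝ, LipschitzWith 1 u ∧ f =ᵐ[m] u)
    {κ : ℝ} (hB : (sob m).BEi κ)
    (hgeo : ∀ x y : M, ∀ s t : ℝ, 0 ≤ s → 0 ≤ t → s + t = dist x y →
      ∃ w, dist x w = s ∧ dist w y = t)
    {u : ℕ → M →ₘ[m] ℝ} {n : ℕ} (hn : 0 < n) {τ c L R r : ℝ} (hτ : 0 < τ) (hc : 0 ≤ c)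
    (hL0 : 0 < L) (hr : 0 < r) (hr4 : 4 * |κ| * r ≤ 1)
    (hT : ∀ k ≤ n, u k ∈ (sob m).Test)
    (hL : ∀ k ≤ n, ∀ᵐ x ∂m, (sob m).Γ (u k) (u k) x ≤ L)
    (hR0 : ∀ᵐ x ∂m, |(sob m).lap (u 0) x| ≤ R) (hRn : ∀ᵐ x ∂m, |(sob m).lap (u n) x| ≤ R)
    (hstep : ∀ k < n, ∀ᵐ x ∂m, u (k + 1) x - u k x
      ≤ τ * (c - (sob m).Γ (u (k + 1)) (u (k + 1)) x / 2))
    {U V : M → ℝ} (hU : Continuous U) (hV : Continuous V) (hU0 : u 0 =ᵐ[m] U)
    (hVn : u n =ᵐ[m] V) (x y : M) :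
    V y - U x ≤ dist x y ^ 2 / (2 * (n * τ)) + n * τ * (c + 6 * r * |κ| * L)
      + 3 / 2 * τ * dist x y * (L * Real.sqrt (2 * r⁻¹)) + 4 * r * R := by
  have hC : IsGamma (sob m) := isGamma_sob hfin hq hs
  have hD := hC.toIsDir
  have hri : 0 < r⁻¹ := inv_pos.2 hr
  have hn' : (0 : ℝ) < n := by exact_mod_cast hn
  set l : ℝ := L * Real.sqrt (2 * r⁻¹) with hl
  have hl0 : 0 < l := by positivity
  have hlsq : l ^ 2 = 2 * r⁻¹ * L ^ 2 := by
    rw [hl, mul_pow, Real.sq_sqrt (by positivity)]; ring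
  have huW : ∀ k ≤ n, u k ∈ (sob m).W := fun k hk => (hC.test_A (hT k hk)).1
  have hu2 : ∀ k ≤ n, MemLp (u k) 2 m := fun k hk => hC.memLp _ (huW k hk)
  have hΓW : ∀ k ≤ n, (sob m).Γ (u k) (u k) ∈ (sob m).W := fun k hk => (hC.Γ_mem hB (hT k hk)
    (hT k hk)).1
  have hΓ2 : ∀ k ≤ n, MemLp ((sob m).Γ (u k) (u k)) 2 m := fun k hk => hC.memLp _ (hΓW k hk)
  have hΓ0 : ∀ k ≤ n, 0 ≤ (sob m).Γ (u k) (u k) := fun k hk => hC.nonneg _ (huW k hk)
  have hΓb : ∀ k ≤ n, ∀ᵐ x ∂m, |(sob m).Γ (u k) (u k) x| ≤ L := fun k hk => by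
    filter_upwards [hL k hk, nonneg_iff_ae.1 (hΓ0 k hk)] with x a1 a2
    rwa [abs_of_nonneg a2]
  -- the mollified functions
  have hJW : ∀ k ≤ n, (sob m).J r ((sob m).J r (u k)) ∈ (sob m).W := fun k hk =>
    hD.J_mem hr (hD.J_mem2 hr (hu2 k hk))
  have hgW : ∀ k ≤ n, (sob m).J r ((sob m).J r ((sob m).Γ (u k) (u k))) ∈ (sob m).W :=
    fun k hk => hD.J_mem hr (hD.J_mem2 hr (hΓ2 k hk))
  have hex1 : ∀ k, ∃ W : M → ℝ, k ≤ n → (∀ x y, |W x - W y| ≤ 2 * Real.sqrt L * dist x y) ∧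
      (sob m).J r ((sob m).J r (u k)) =ᵐ[m] W := by
    intro k
    by_cases hk : k ≤ n
    · have h1 := hC.J_Γ_bdd hB hr hr4 (huW k hk) hL0.le (hL k hk)
      have h2 := hC.J_Γ_bdd hB hr hr4 (hD.J_mem hr (hu2 k hk)) (by positivity) h1
      have hG : 0 < 2 * Real.sqrt L := by positivity
      obtain ⟨W, h3, h4⟩ := exists_lip_rep hs (hJW k hk) hG (by
        filter_upwards [h2] with x hx
        rw [mul_pow, Real.sq_sqrt hL0.le]
        linarith)
      exact ⟨W, fun _ => ⟨h3, h4⟩⟩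
    · exact ⟨0, fun h => absurd h hk⟩
  have hex2 : ∀ k, ∃ g : M → ℝ, k ≤ n → (∀ x y, |g x - g y| ≤ l * dist x y) ∧
      (sob m).J r ((sob m).J r ((sob m).Γ (u k) (u k))) =ᵐ[m] g := by
    intro k
    by_cases hk : k ≤ n
    · obtain ⟨g, h3, h4⟩ := exists_lip_rep hs (hgW k hk) hl0 (by
        filter_upwards [hC.J2_Γ_bdd hB hr hr4 (hΓ2 k hk) (hΓb k hk)] with x hx
        rw [hlsq]; exact hx)
      exact ⟨g, fun _ => ⟨h3, h4⟩⟩
    · exact ⟨0, fun h => absurd h hk⟩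
  choose W hW using hex1
  choose g hg using hex2
  have hWc : ∀ k ≤ n, Continuous (W k) := fun k hk =>
    (lipschitz_of_abs_sub_le (by positivity) (hW k hk).1).continuous
  have hgc : ∀ k ≤ n, Continuous (g k) := fun k hk =>
    (lipschitz_of_abs_sub_le hl0.le (hg k hk).1).continuous
  -- pointwise properties
  have hg0 : ∀ k ≤ n, ∀ x, 0 ≤ g k x := by
    intro k hk
    refine le_of_ae_cont (m := m) continuous_const (hgc k hk) ?_
    filter_upwards [(hg k hk).2, nonneg_iff_ae.1 (hD.J_nonneg hr (hD.J_mem2 hr (hΓ2 k hk))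
      (hD.J_nonneg hr (hΓ2 k hk) (hΓ0 k hk)))] with x a1 a2
    rwa [a1] at a2
  have hst : ∀ k < n, ∀ x, W (k + 1) x - W k x + τ / 2 * g (k + 1) x ≤ τ * c := by
    intro k hk
    have hk1 : k + 1 ≤ n := hk
    refine le_of_ae_cont (m := m) (((hWc _ hk1).sub (hWc _ hk.le)).add
      (continuous_const.mul (hgc _ hk1))) continuous_const ?_
    have h1 := hD.J2_step hr (hu2 _ hk1) (hu2 _ hk.le) (hΓ2 _ hk1) (t := τ / 2) (c := τ * c)
      (by positivity) (by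
        filter_upwards [hstep k hk] with x hx
        linarith)
    filter_upwards [h1, (hW _ hk1).2, (hW _ hk.le).2, (hg _ hk1).2] with x a1 a2 a3 a4
    rwa [a2, a3, a4] at a1
  have hinc : ∀ k ≤ n, ∀ z w, W k w - W k z ≤ dist z w ^ 2 / (2 * τ) +
      τ / 2 * (g k z + 3 * dist z w * l + 12 * r * |κ| * L) := by
    intro k hk z w
    have hc1 : 0 ≤ 12 * r * |κ| * L := by positivity
    refine increment_le hfin hs (hJW k hk) ⟨_, lipschitz_of_abs_sub_le (by positivity)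
      (hW k hk).1⟩ (hW k hk).2 hl0.le (hg k hk).1 (fun x => add_nonneg (hg0 k hk x) hc1) ?_ hτ z w
    filter_upwards [hC.J2_Γ_le hB hr hr4 (huW k hk) hL0.le (hL k hk), (hg k hk).2] with x a1 a2
    rwa [a2] at a1
  -- the chain
  have hchain := chain_bound hgeo hn (V := W) (E := (dist x y / n) ^ 2 / (2 * τ) +
    τ / 2 * (3 * (dist x y / n) * l + 12 * r * |κ| * L) + τ * c) x y (by
      intro k hk z w hzw
      have h1 := hinc (k + 1) hk z w
      have h2 := hst k hk z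
      rw [hzw] at h1
      linarith)
  have h0 : |W 0 x - U x| ≤ 2 * r * R := by
    have h1 := hD.J2_sub_self_bdd hr (hC.test_isLap (hT 0 (Nat.zero_le n))) hR0
    refine le_of_ae_cont (m := m) (u := fun x => |W 0 x - U x|) (v := fun _ => 2 * r * R)
      ((hWc 0 (Nat.zero_le n)).sub hU).abs continuous_const ?_ x
    filter_upwards [h1, (hW 0 (Nat.zero_le n)).2, hU0] with z a1 a2 a3
    rwa [a2, a3] at a1
  have hN : |W n y - V y| ≤ 2 * r * R := by
    have h1 := hD.J2_sub_self_bdd hr (hC.test_isLap (hT n le_rfl)) hRn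
    refine le_of_ae_cont (m := m) (u := fun x => |W n x - V x|) (v := fun _ => 2 * r * R)
      ((hWc n le_rfl).sub hV).abs continuous_const ?_ y
    filter_upwards [h1, (hW n le_rfl).2, hVn] with z a1 a2 a3
    rwa [a2, a3] at a1
  have e : (n : ℝ) * ((dist x y / n) ^ 2 / (2 * τ) +
      τ / 2 * (3 * (dist x y / n) * l + 12 * r * |κ| * L) + τ * c) =
      dist x y ^ 2 / (2 * (n * τ)) + n * τ * (c + 6 * r * |κ| * L) + 3 / 2 * τ * dist x y * l := by
    field_simp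
    ring
  rw [e] at hchain
  have h2 := abs_le.1 h0
  have h3 := abs_le.1 hN
  linarith [h2.1, h2.2, h3.1, h3.2]

/-- POINTWISE DUALITY for the resolvent scheme of the viscous Hamilton-Jacobi equation -/
theorem pt_vhj [m.IsOpenPosMeasure] (hfin : ∀ (x : M) (r : ℝ), m (Metric.ball x r) < ∞)
    (hq : ∀ f ∈ (sob m).W, ∀ g ∈ (sob m).W,
      ∫ x, (slope (f + g) ^ 2) x ∂m + ∫ x, (slope (f - g) ^ 2) x ∂m
        = 2 * ∫ x, (slope f ^ 2) x ∂m + 2 * ∫ x, (slope g ^ 2) x ∂m)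
    (hs : ∀ f ∈ (sob m).W, slope f ≤ 1 → ∃ u : M → ℝ, LipschitzWith 1 u ∧ f =ᵐ[m] u)
    {κ : ℝ} (hB : (sob m).BEi κ)
    (hgeo : ∀ x y : M, ∀ s t : ℝ, 0 ≤ s → 0 ≤ t → s + t = dist x y →
      ∃ w, dist x w = s ∧ dist w y = t)
    {σ ε L Λ D ξ : ℝ} (hσ : 0 ≤ σ) (hε : 0 < ε) (hL : 0 ≤ L) (hΛ : 0 ≤ Λ) (hξ : 0 < ξ) :
    ∃ n₀ : ℕ, ∀ n ≥ n₀, ∀ u : ℕ → M →ₘ[m] ℝ, (sob m).VHJ σ (ε / n) L Λ D n u →
      ∀ U V : M → ℝ, Continuous U → Continuous V → u 0 =ᵐ[m] U → u n =ᵐ[m] V →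
        ∀ x y, V y - U x ≤ dist x y ^ 2 / (2 * ε) + Λ * σ * ε + ξ := by
  have hC : IsGamma (sob m) := isGamma_sob hfin hq hs
  set L' : ℝ := L + 1 with hL'
  have hL'0 : 0 < L' := by linarith
  set A : ℝ := ε * (6 * |κ| * L') + 4 * |D| with hA
  have hA0 : 0 ≤ A := by positivity
  set r : ℝ := min (1 / (4 * |κ| + 1)) (ξ / (2 * (A + 1))) with hr
  have hr0 : 0 < r := lt_min (by positivity) (by positivity)
  have hr1 : 4 * |κ| * r ≤ 1 := by
    calc 4 * |κ| * r ≤ (4 * |κ| + 1) * (1 / (4 * |κ| + 1)) := by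
          refine mul_le_mul (by linarith) (min_le_left _ _) hr0.le (by positivity)
      _ = 1 := by field_simp
  have hr2 : r * A ≤ ξ / 2 := by
    calc r * A ≤ ξ / (2 * (A + 1)) * (A + 1) := by
          refine mul_le_mul (min_le_right _ _) (by linarith) hA0 (by positivity)
      _ = ξ / 2 := by field_simp
  set l : ℝ := L' * Real.sqrt (2 * r⁻¹) with hl
  have hl0 : 0 ≤ l := by positivity
  set Bc : ℝ := 3 / 2 * ε * (2 * ε * Real.sqrt L') * l with hBc
  have hBc0 : 0 ≤ Bc := by positivity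
  obtain ⟨n₀, hn₀⟩ := exists_nat_ge (Bc / (ξ / 2))
  refine ⟨n₀ + 1, fun n hn u hu U V hU hV hU0 hVn x y => ?_⟩
  have hn1 : 0 < n := by omega
  have hn' : (0 : ℝ) < n := by exact_mod_cast hn1
  have hnn : (n₀ : ℝ) ≤ n := by exact_mod_cast (by omega : n₀ ≤ n)
  have hτ : 0 < ε / n := by positivity
  have hnτ : (n : ℝ) * (ε / n) = ε := by field_simp
  have hstep : ∀ k < n, ∀ᵐ x ∂m, u (k + 1) x - u k x
      ≤ ε / n * (Λ * σ - (sob m).Γ (u (k + 1)) (u (k + 1)) x / 2) := by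
    intro k hk
    filter_upwards [hu.step_le k hk, hu.lap_le (k + 1) hk] with z a1 a2
    refine a1.trans (mul_le_mul_of_nonneg_left ?_ hτ.le)
    have := mul_le_mul_of_nonneg_left a2 hσ
    linarith
  have hΓL : ∀ k ≤ n, ∀ᵐ x ∂m, (sob m).Γ (u k) (u k) x ≤ L' := fun k hk => by
    filter_upwards [hu.grad k hk] with z a1
    linarith
  have hlapD : ∀ k ≤ n, ∀ᵐ x ∂m, |(sob m).lap (u k) x| ≤ |D| := fun k hk => by
    filter_upwards [hu.lap_abs k hk] with z a1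
    exact a1.trans (le_abs_self D)
  have hΛσ : 0 ≤ Λ * σ := mul_nonneg hΛ hσ
  rcases le_or_gt (dist x y) (2 * ε * Real.sqrt L') with hd | hd
  · have h1 := pt_duality hfin hq hs hB hgeo hn1 hτ hΛσ hL'0 hr0 hr1
      (fun k _ => hu.test k) hΓL (hlapD 0 (Nat.zero_le n)) (hlapD n le_rfl) hstep hU hV hU0 hVn x y
    rw [hnτ] at h1
    have h2 : 3 / 2 * (ε / n) * dist x y * (L' * Real.sqrt (2 * r⁻¹)) ≤ ξ / 2 := by
      calc 3 / 2 * (ε / n) * dist x y * (L' * Real.sqrt (2 * r⁻¹))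
          ≤ 3 / 2 * (ε / n) * (2 * ε * Real.sqrt L') * l := by
            rw [← hl]
            gcongr
        _ = Bc / n := by rw [hBc]; ring
        _ ≤ ξ / 2 := by
            rw [div_le_iff₀ hn']
            rw [div_le_iff₀ (by positivity)] at hn₀
            nlinarith
    have h3 : ε * (Λ * σ + 6 * r * |κ| * L') + 4 * r * |D| = Λ * σ * ε + r * A := by
      rw [hA]; ring
    linarith
  · -- far points
    have hmono : ∀ k ≤ n, ∀ᵐ z ∂m, u k z - u 0 z ≤ k * (ε / n * (Λ * σ)) := by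
      intro k
      induction k with
      | zero =>
        intro _
        filter_upwards with z
        simp
      | succ k ih =>
        intro hk
        filter_upwards [ih (by omega), hstep k hk,
          nonneg_iff_ae.1 (hC.nonneg _ (hC.test_A (hu.test (k + 1))).1)] with z a1 a2 a3
        push_cast
        have : ε / n * (Λ * σ - (sob m).Γ (u (k + 1)) (u (k + 1)) z / 2) ≤ ε / n * (Λ * σ) :=
          mul_le_mul_of_nonneg_left (by linarith) hτ.le
        linarith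
    have h1 : V y - U y ≤ Λ * σ * ε := by
      refine le_of_ae_cont (m := m) (u := fun z => V z - U z) (v := fun _ => Λ * σ * ε)
        (hV.sub hU) continuous_const ?_ y
      filter_upwards [hmono n le_rfl, hU0, hVn] with z a1 a2 a3
      rw [a2, a3] at a1
      have e : (n : ℝ) * (ε / n * (Λ * σ)) = Λ * σ * ε := by field_simp
      rwa [e] at a1
    have hsL : 0 < Real.sqrt L' := Real.sqrt_pos.2 hL'0
    obtain ⟨W, hW1, hW2⟩ := exists_lip_rep hs (hC.test_A (hu.test 0)).1 hsL (by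
      filter_upwards [hΓL 0 (Nat.zero_le n)] with z a1
      rwa [Real.sq_sqrt hL'0.le])
    have hWU : W = U := (Continuous.ae_eq_iff_eq m (lipschitz_of_abs_sub_le hsL.le
      hW1).continuous hU).1 (hW2.symm.trans hU0)
    have h2 := (le_abs_self _).trans (hW1 y x)
    rw [hWU, dist_comm y x] at h2
    have h3 : Real.sqrt L' * dist x y ≤ dist x y ^ 2 / (2 * ε) := by
      rw [le_div_iff₀ (by positivity)]
      have h4 : 0 ≤ dist x y := dist_nonneg
      nlinarith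
    linarith

end Vale.Agent.P233
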