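import Vale.Agent.P233.AB.Space
import Vale.Agent.P233.AB.PairH
import Vale.Agent.P233.AB.Pt
import Vale.Agent.P233.AB.HC5
import Vale.Agent.P233.AB.Eps0
import Vale.Agent.P233.AB.Ac6

open MeasureTheory Filter Topology
open scoped ENNReal NNReal

namespace Vale.Agent.P233

variable {M : Type*} [MetricSpace M] [SecondCountableTopology M] [MeasurableSpace M]
  [BorelSpace M] {m : Measure M} [m.IsOpenPosMeasure]

/-- One pair at scale `ε`: existence of dual potentials `U`, `V` with an almost optimal value.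
`L` and `K₁` do not depend on `δ` and the approximations; `h` ranges over test functions close
to `g`, with gradient and Laplacian bounds `Λ`. -/
theorem eps_pair {κ K N : ℝ} (hM : ABSpace m κ K N) (a b F θ g : M →ₘ[m] ℝ) (hg : g ∈ (sob m).A)
    (η : ℝ) (v e : ℝ × ℝ) :
    ∃ K₁ ≥ 0, ∀ δ, 0 < δ → δ ≤ 1 → ∀ X : Dat m, X.Ok (sob m) θ η δ → X.a = a → X.b = b →
      X.F = F → ∀ h ∈ (sob m).TestI, (sob m).nrm2 (h - g) ≤ (2 * δ) ^ 2 →
      ∃ L ≥ 0, ∃ ε₀ > 0, ∀ ε, 0 < ε → ε ≤ ε₀ → ∀ ξ > 0, ∃ U V : M → ℝ,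
        (∀ x y, |U x - U y| ≤ L * dist x y) ∧ (∀ x y, |V x - V y| ≤ L * dist x y) ∧
        (∃ b, ∀ x, |U x| ≤ b) ∧ (∃ b, ∀ x, |V x| ≤ b) ∧
        (∀ x y, V y - U x ≤ dist x y ^ 2 / (2 * ε) + ξ) ∧
        X.actP (sob m) v e h ε - K₁ * δ * ε ^ 3 - ξ
          ≤ (∫ x, V x * X.rho (sob m) (ε • (v + e)) x ∂m)
            - ∫ x, U x * X.rho (sob m) (ε • v) x ∂m := by
  have hC : IsGamma (sob m) := hM.hC
  have hB : (sob m).BEi K := hM.hB
  haveI : SigmaFinite m := sigmaFinite_of_ball hM.hfin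
  obtain ⟨CH, hCH, Kρ, hKρ, hpair⟩ := Dat.pairH hC hB a b F θ g hg η v e
  obtain ⟨c, hc⟩ : ∃ c : ℝ, c = (|e.1| + |e.2|) ^ 2 + 1 := ⟨_, rfl⟩
  have hc0 : 0 < c := by rw [hc]; positivity
  refine ⟨10 * CH * c + 100 * Kρ * c ^ 2, by positivity,
    fun δ hδ hδ1 X hX hXa hXb hXF h hh hhg => ?_⟩
  obtain ⟨ε₁, hε₁, hp⟩ := hpair δ hδ hδ1 X hX hXa hXb hXF h hh hhg
  have peI := Dat.pt_memI hC hB hX e
  have GI : (2 : ℝ)⁻¹ • X.G' e e ∈ (sob m).TestI :=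
    hC.testI_smul hB _ (Dat.G'_memI hC hB hX e e)
  obtain ⟨Kb, hKb0, hKb⟩ := hC.pot_bounds hB peI hh GI
  have hcl := Dat.e_close hC hB hX hδ.le e
  rw [← hc] at hcl
  obtain ⟨ε₂, hε₂, hac⟩ := hC.ac_lower hB peI hh GI (δ := c * δ) (L := 4 * Kb)
    (Λ := Kb + 8 * |K| * Kb) (CH := CH) (Kρ := Kρ) (by positivity) hcl (by positivity)
    (by positivity) hCH hKρ
  refine ⟨2 * √Kb + 1, by positivity, min (min ε₁ ε₂) 1, by positivity,
    fun ε hε hεle ξ hξ => ?_⟩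
  have hε1 : ε ≤ ε₁ := hεle.trans ((min_le_left _ _).trans (min_le_left _ _))
  have hε2 : ε ≤ ε₂ := hεle.trans ((min_le_left _ _).trans (min_le_right _ _))
  have hε3 : ε ≤ 1 := hεle.trans (min_le_right _ _)
  obtain ⟨σ₀, hσ₀, hσ⟩ := hac ε hε hε2 (X.rho (sob m) (ε • v))
    (X.r (sob m) (ε • v) e - X.D (sob m) e) (X.r (sob m) e e)
    (Dat.e_rho_memA hC hB hX _)
    (hC.toIsDir.A_sub (Dat.r_memA hC hB hX _ _) (Dat.D_memA hC hB hX _))
    (Dat.r_memA hC hB hX _ _)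
    (by
      intro t ht
      have h1 := hp ε hε hε1 t ht
      rw [Dat.e_rho hC hB hX, Dat.e_r_sub hC hB hX, Dat.e_ph] at h1
      exact h1) ξ hξ
  -- the viscosity
  obtain ⟨Λ, hΛ⟩ : ∃ Λ : ℝ, Λ = Kb + 8 * |K| * Kb := ⟨_, rfl⟩
  have hΛ0 : 0 ≤ Λ := by rw [hΛ]; positivity
  obtain ⟨σ, hσd⟩ : ∃ σ : ℝ, σ = min σ₀ (min (1 / (8 * |K| + 1)) (ξ / (2 * (Λ + 1)))) := ⟨_, rfl⟩
  have hσ0 : 0 < σ := by rw [hσd]; positivity
  have hσ1 : σ ≤ σ₀ := by rw [hσd]; exact min_le_left _ _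
  have hσ2 : σ ≤ 1 / (8 * |K| + 1) := by
    rw [hσd]; exact (min_le_right _ _).trans (min_le_left _ _)
  have hσ3 : σ ≤ ξ / (2 * (Λ + 1)) := by
    rw [hσd]; exact (min_le_right _ _).trans (min_le_right _ _)
  have h8 : 8 * |K| * σ * ε ≤ 1 := by
    have h9 : 8 * |K| * σ ≤ 1 := by
      calc 8 * |K| * σ ≤ (8 * |K| + 1) * (1 / (8 * |K| + 1)) := by
            refine mul_le_mul (by linarith) hσ2 hσ0.le (by positivity)
        _ = 1 := by field_simp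
    calc 8 * |K| * σ * ε ≤ 1 * 1 := mul_le_mul h9 hε3 hε.le zero_le_one
      _ = 1 := one_mul 1
  have hΛσ : Λ * σ * ε ≤ ξ / 2 := by
    have h9 : Λ * σ ≤ ξ / 2 := by
      calc Λ * σ ≤ (Λ + 1) * (ξ / (2 * (Λ + 1))) := by
            refine mul_le_mul (by linarith) hσ3 hσ0.le (by positivity)
        _ = ξ / 2 := by field_simp
    calc Λ * σ * ε ≤ ξ / 2 * 1 := mul_le_mul h9 hε3 hε.le (by positivity)
      _ = ξ / 2 := mul_one _
  -- the scheme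
  have hKb' := hKb ε 0 le_rfl hε.le hε3
  simp only [zero_smul, sub_zero] at hKb'
  have hφT : X.pt e + ε • h ∈ (sob m).Test :=
    hC.test_add' peI.1 (hC.test_smul' ε hh.1)
  obtain ⟨D, N₀, hex⟩ := hC.exists_vhj hB hφT hKb'.2.1 hKb'.1 hσ0 hε h8
  obtain ⟨n₁, hn₁⟩ := hσ σ hσ0 hσ1 D
  obtain ⟨n₂, hn₂⟩ := pt_vhj (D := D) hM.hfin hM.hq hM.hSL hB hM.geo hσ0.le hε
    (show (0 : ℝ) ≤ 4 * Kb by positivity) hΛ0 (half_pos hξ)
  obtain ⟨n, hn⟩ : ∃ n : ℕ, n = max (max N₀ n₁) (max n₂ 1) := ⟨_, rfl⟩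
  have hnN : N₀ ≤ n := by omega
  have hn1 : n₁ ≤ n := by omega
  have hn2 : n₂ ≤ n := by omega
  have hn0 : 0 < n := by omega
  obtain ⟨u, hu0, huV⟩ := hex n hnN hn0
  have huV' : (sob m).VHJ σ (ε / n) (4 * Kb) Λ D n u := by
    refine huV.mono le_rfl ?_
    rw [hΛ]
    have : 8 * |K| * ε * Kb ≤ 8 * |K| * 1 * Kb := by gcongr
    linarith
  have hG0 : 0 < 2 * √Kb + 1 := by positivity
  have hG2 : 4 * Kb ≤ (2 * √Kb + 1) ^ 2 := by
    nlinarith [Real.sq_sqrt hKb0, Real.sqrt_nonneg Kb]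
  have hrep : ∀ k ≤ n, ∃ U : M → ℝ, (∀ x y, |U x - U y| ≤ (2 * √Kb + 1) * dist x y) ∧
      (∃ b, ∀ x, |U x| ≤ b) ∧ u k =ᵐ[m] U := by
    intro k hk
    have hA := hC.test_A (huV'.test k)
    obtain ⟨U, hU1, hU2⟩ := exists_lip_rep hM.hSL hA.1 hG0 (by
      filter_upwards [huV'.grad k hk] with x hx
      exact hx.trans hG2)
    obtain ⟨B, hBk⟩ := mem_top_iff.1 hA.2
    refine ⟨U, hU1, ⟨B, ?_⟩, hU2⟩
    refine le_of_ae_cont (m := m) (u := fun x => |U x|) (v := fun _ => B)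
      (lipschitz_of_abs_sub_le hG0.le hU1).continuous.abs continuous_const ?_
    filter_upwards [hBk, hU2] with x a1 a2
    rwa [a2] at a1
  obtain ⟨U, hU1, hU2, hU3⟩ := hrep 0 (Nat.zero_le n)
  obtain ⟨V, hV1, hV2, hV3⟩ := hrep n le_rfl
  refine ⟨U, V, hU1, hV1, hU2, hV2, fun x y => ?_, ?_⟩
  · have h1 := hn₂ n hn2 u huV' U V (lipschitz_of_abs_sub_le hG0.le hU1).continuous
      (lipschitz_of_abs_sub_le hG0.le hV1).continuous hU3 hV3 x y
    linarith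
  · have h1 := hn₁ n hn1 hn0 u (by rw [← hΛ]; exact huV') hu0
    have e1 : ∫ x, V x * X.rho (sob m) (ε • (v + e)) x ∂m
        = I (u n * (X.rho (sob m) (ε • v) + ε • (X.r (sob m) (ε • v) e - X.D (sob m) e)
          + (ε ^ 2 / 2) • X.r (sob m) e e)) := by
      rw [← Dat.e_rho hC hB hX, ← smul_add]
      unfold I
      refine integral_congr_ae ?_
      filter_upwards [hV3, mul_ae (u n) (X.rho (sob m) (ε • (v + e)))] with x a1 a2
      rw [a2, a1]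
    have e2 : ∫ x, U x * X.rho (sob m) (ε • v) x ∂m = I (u 0 * X.rho (sob m) (ε • v)) := by
      unfold I
      refine integral_congr_ae ?_
      filter_upwards [hU3, mul_ae (u 0) (X.rho (sob m) (ε • v))] with x a1 a2
      rw [a2, a1]
    have e3 : X.actP (sob m) v e h ε = ∫ t in (0:ℝ)..ε,
        (I ((X.pt e + ε • h - t • ((2 : ℝ)⁻¹ • X.G' e e))
            * (X.r (sob m) (ε • v) e - X.D (sob m) e + t • X.r (sob m) e e))
          - 2⁻¹ * I ((X.rho (sob m) (ε • v) + t • (X.r (sob m) (ε • v) e - X.D (sob m) e)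
            + (t^2/2) • X.r (sob m) e e) *
            (sob m).Γ (X.pt e + ε • h - t • ((2 : ℝ)⁻¹ • X.G' e e))
              (X.pt e + ε • h - t • ((2 : ℝ)⁻¹ • X.G' e e)))) := by
      unfold Dat.actP
      refine intervalIntegral.integral_congr fun t _ => ?_
      simp only [Dat.e_ph]
      rw [Dat.e_rho hC hB hX, Dat.e_r_sub hC hB hX]
    rw [e1, e2, e3]
    refine le_trans ?_ h1
    have h2 : (10 * CH * (c * δ) + 100 * Kρ * (c * δ) ^ 2) * ε ^ 3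
        ≤ (10 * CH * c + 100 * Kρ * c ^ 2) * δ * ε ^ 3 := by
      refine mul_le_mul_of_nonneg_right ?_ (by positivity)
      have h3 : 0 ≤ Kρ * c ^ 2 * (δ * (1 - δ)) := by
        have : 0 ≤ δ * (1 - δ) := mul_nonneg hδ.le (by linarith)
        positivity
      nlinarith
    linarith

end Vale.Agent.P233
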