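import Vale.Agent.P233.AB.Ext4

set_option linter.all false

open MeasureTheory Filter Topology
open scoped ENNReal NNReal

namespace Vale.Agent.P233

variable {M : Type*} [MeasurableSpace M] {m : Measure M} {C : Calc m}

/-- convergence of test functions, without the a.e. part -/
structure Calc.Cw (C : Calc m) (u : ℕ → M →ₘ[m] ℝ) (a : M →ₘ[m] ℝ) : Prop where
  test : ∀ n, u n ∈ C.Test
  lim : a ∈ C.Test
  W : Tendsto (fun n => C.nrm2 (u n - a)) atTop (𝓝 0)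
  lap : Tendsto (fun n => I ((C.lap (u n) - C.lap a) ^ 2)) atTop (𝓝 0)
  bd : ∃ L : ℝ, ∀ n, ∀ᵐ x ∂m, C.Γ (u n) (u n) x ≤ L

namespace Calc

variable {u v F : ℕ → M →ₘ[m] ℝ} {a b f : M →ₘ[m] ℝ}

theorem Cw.sub (h : C.Cw u a) {ns : ℕ → ℕ} (hns : StrictMono ns) :
    C.Cw (fun k => u (ns k)) a :=
  ⟨fun n => h.test _, h.lim, h.W.comp hns.tendsto_atTop, h.lap.comp hns.tendsto_atTop,
    let ⟨L, hL⟩ := h.bd; ⟨L, fun n => hL _⟩⟩

end Calc

namespace IsGamma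

variable (hC : IsGamma C) {κ : ℝ} (hB : C.BEi κ)
variable {a b f k : M →ₘ[m] ℝ} {u v F : ℕ → M →ₘ[m] ℝ}

include hC hB

theorem Cv_Cw (h : C.Cv u a) : C.Cw u a := ⟨h.test, h.lim, h.W, h.lap, hC.Cv_bd hB h⟩

/-- the bound for the differences -/
theorem Cw_bd_sub (h : C.Cw u a) : ∃ K : ℝ, ∀ n, ∀ᵐ x ∂m, C.Γ (u n - a) (u n - a) x ≤ K := by
  have hD := hC.toIsDir
  obtain ⟨K, hK⟩ := h.bd
  obtain ⟨L, hL⟩ := mem_top_iff.1 (hC.test_Γ_top h.lim)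
  refine ⟨2 * K + 2 * L, fun n => ?_⟩
  have uW := (hC.test_A (h.test n)).1
  have aW := (hC.test_A h.lim).1
  have e : C.Γ (u n - a) (u n - a) = C.Γ (u n) (u n) - (2 : ℝ) • C.Γ (u n) a + C.Γ a a := by
    rw [hD.Γ_sub_left uW aW (hD.sub_mem uW aW), hD.Γ_sub_right uW uW aW,
      hD.Γ_sub_right aW uW aW, hC.symm _ aW _ uW]
    algebra
  rw [e]
  filter_upwards [hK n, hL, add_ae (C.Γ (u n) (u n) - (2 : ℝ) • C.Γ (u n) a) (C.Γ a a),
    sub_ae (C.Γ (u n) (u n)) ((2 : ℝ) • C.Γ (u n) a), smul_ae (C.Γ (u n) a) (2 : ℝ),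
    hD.Γ_cs_ae uW aW, hD.Γ_nonneg_ae uW, hD.Γ_nonneg_ae aW] with x b1 b2 b3 b4 b5 b6 b7 b8
  rw [b3, b4, b5]
  have b9 := (le_abs_self _).trans b2
  have b10 : -((C.Γ (u n) (u n) x + C.Γ a a x) / 2) ≤ C.Γ (u n) a x := by
    nlinarith [sq_nonneg (C.Γ (u n) (u n) x - C.Γ a a x),
      sq_nonneg (C.Γ (u n) a x + (C.Γ (u n) (u n) x + C.Γ a a x) / 2)]
  linarith

/-- along a common subsequence the gradients converge a.e. -/
theorem exists_common (h1 : C.Cw u a) (h2 : C.Cw v b) (h3 : C.Cw F f)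
    (hFb : ∃ B : ℝ, ∀ n, ∀ᵐ x ∂m, |F n x| ≤ B) :
    ∃ ns : ℕ → ℕ, StrictMono ns ∧ C.Cv (fun k => u (ns k)) a ∧ C.Cv (fun k => v (ns k)) b ∧
      C.Cv (fun k => F (ns k)) f ∧ Tb (fun k => F (ns k)) f := by
  have hD := hC.toIsDir
  have hu := fun n => hD.sub_mem (hC.test_A (h1.test n)).1 (hC.test_A h1.lim).1
  have hv := fun n => hD.sub_mem (hC.test_A (h2.test n)).1 (hC.test_A h2.lim).1
  have hF := fun n => hD.sub_mem (hC.test_A (h3.test n)).1 (hC.test_A h3.lim).1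
  have l1 := hD.tendsto_E_of_nrm2 (fun n => (hC.test_A (h1.test n)).1) (hC.test_A h1.lim).1 h1.W
  have l2 := hD.tendsto_E_of_nrm2 (fun n => (hC.test_A (h2.test n)).1) (hC.test_A h2.lim).1 h2.W
  have l3 := hD.tendsto_E_of_nrm2 (fun n => (hC.test_A (h3.test n)).1) (hC.test_A h3.lim).1 h3.W
  have l4 := hD.tendsto_I_sq_of_nrm2 (fun n => (hC.test_A (h3.test n)).1) (hC.test_A h3.lim).1 h3.W
  have n1 := fun n => hC.mem1 _ (hu n)
  have n2 := fun n => hC.mem1 _ (hv n)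
  have n3 := fun n => hC.mem1 _ (hF n)
  have n4 := fun n => mem_sq (hC.memLp _ (hF n))
  have p1 := fun n => hC.nonneg _ (hu n)
  have p2 := fun n => hC.nonneg _ (hv n)
  have p3 := fun n => hC.nonneg _ (hF n)
  obtain ⟨ns, hns, hae⟩ := exists_subseq_of_I (g := fun n => C.Γ (u n - a) (u n - a)
      + C.Γ (v n - b) (v n - b) + C.Γ (F n - f) (F n - f) + (F n - f) ^ 2)
    (fun n => mem_add (mem_add (mem_add (n1 n) (n2 n)) (n3 n)) (n4 n))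
    (fun n => add_nonneg (add_nonneg (add_nonneg (p1 n) (p2 n)) (p3 n)) (sq_nonneg' _)) (by
      have e : ∀ n, I (C.Γ (u n - a) (u n - a) + C.Γ (v n - b) (v n - b)
          + C.Γ (F n - f) (F n - f) + (F n - f) ^ 2) = I (C.Γ (u n - a) (u n - a))
          + I (C.Γ (v n - b) (v n - b)) + I (C.Γ (F n - f) (F n - f)) + I ((F n - f) ^ 2) := by
        intro n
        rw [I_add (mem_add (mem_add (n1 n) (n2 n)) (n3 n)) (n4 n),
          I_add (mem_add (n1 n) (n2 n)) (n3 n), I_add (n1 n) (n2 n)]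
      simp only [e]
      simpa using ((l1.add l2).add l3).add l4)
  have hall : ∀ᵐ x ∂m, ∀ n, 0 ≤ C.Γ (u n - a) (u n - a) x ∧ 0 ≤ C.Γ (v n - b) (v n - b) x ∧
      0 ≤ C.Γ (F n - f) (F n - f) x ∧ (C.Γ (u n - a) (u n - a) + C.Γ (v n - b) (v n - b)
          + C.Γ (F n - f) (F n - f) + (F n - f) ^ 2 : M →ₘ[m] ℝ) x = C.Γ (u n - a) (u n - a) x
          + C.Γ (v n - b) (v n - b) x + C.Γ (F n - f) (F n - f) x + (F n x - f x) ^ 2 := by
    rw [ae_all_iff]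
    intro n
    filter_upwards [hD.Γ_nonneg_ae (hu n), hD.Γ_nonneg_ae (hv n), hD.Γ_nonneg_ae (hF n),
      add_ae (C.Γ (u n - a) (u n - a) + C.Γ (v n - b) (v n - b) + C.Γ (F n - f) (F n - f))
        ((F n - f) ^ 2), add_ae (C.Γ (u n - a) (u n - a) + C.Γ (v n - b) (v n - b))
        (C.Γ (F n - f) (F n - f)), add_ae (C.Γ (u n - a) (u n - a)) (C.Γ (v n - b) (v n - b)),
      sq_ae (F n - f), sub_ae (F n) f] with x b1 b2 b3 b4 b5 b6 b7 b8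
    refine ⟨b1, b2, b3, ?_⟩
    rw [b4, b5, b6, b7, b8]
  have mk : ∀ {w : ℕ → M →ₘ[m] ℝ} {c : M →ₘ[m] ℝ}, C.Cw w c →
      (∀ᵐ x ∂m, Tendsto (fun k => C.Γ (w (ns k) - c) (w (ns k) - c) x) atTop (𝓝 0)) →
      C.Cv (fun k => w (ns k)) c := by
    intro w c h hx
    have h' := h.sub hns
    exact ⟨h'.test, h'.lim, h'.W, h'.lap, hC.Cw_bd_sub hB h', hx⟩
  refine ⟨ns, hns, mk h1 ?_, mk h2 ?_, mk h3 ?_, ⟨hFb.imp fun B hB n => hB _, ?_⟩⟩
  · filter_upwards [hae, hall] with x b1 b2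
    refine squeeze_zero (fun k => (b2 _).1) (fun k => ?_) b1
    obtain ⟨c1, c2, c3, c4⟩ := b2 (ns k)
    rw [c4]
    nlinarith [sq_nonneg (F (ns k) x - f x)]
  · filter_upwards [hae, hall] with x b1 b2
    refine squeeze_zero (fun k => (b2 _).2.1) (fun k => ?_) b1
    obtain ⟨c1, c2, c3, c4⟩ := b2 (ns k)
    rw [c4]
    nlinarith [sq_nonneg (F (ns k) x - f x)]
  · filter_upwards [hae, hall] with x b1 b2
    refine squeeze_zero (fun k => (b2 _).2.2.1) (fun k => ?_) b1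
    obtain ⟨c1, c2, c3, c4⟩ := b2 (ns k)
    rw [c4]
    nlinarith [sq_nonneg (F (ns k) x - f x)]
  · filter_upwards [hae, hall] with x b1 b2
    have h5 : Tendsto (fun k => (F (ns k) x - f x) ^ 2) atTop (𝓝 0) := by
      refine squeeze_zero (fun k => sq_nonneg _) (fun k => ?_) b1
      obtain ⟨c1, c2, c3, c4⟩ := b2 (ns k)
      rw [c4]
      linarith
    have h6 := (Real.continuous_sqrt.tendsto 0).comp h5
    simp only [Function.comp_def, Real.sqrt_zero, Real.sqrt_sq_eq_abs] at h6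
    have h7 := (tendsto_zero_iff_abs_tendsto_zero _).2 h6
    simpa using h7.add_const (f x)

/-- approximation by test functions with bounded Laplacian -/
theorem Cw_J [SigmaFinite m] (ha : a ∈ C.Test) : ∃ u : ℕ → M →ₘ[m] ℝ, C.Cw u a ∧
    (∀ n, u n ∈ C.TestI) ∧ (∃ B : ℝ, ∀ n, ∀ᵐ x ∂m, |u n x| ≤ B) ∧ (0 ≤ a → ∀ n, 0 ≤ u n) := by
  have hD := hC.toIsDir
  have aA := hC.test_A ha
  have a2 := hC.memLp _ aA.1
  obtain ⟨B, hBa⟩ := mem_top_iff.1 aA.2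
  obtain ⟨L, hL⟩ := mem_top_iff.1 (hC.test_Γ_top ha)
  obtain ⟨N, hN⟩ := exists_nat_ge (4 * |κ|)
  have hl : ∀ n : ℕ, (0 : ℝ) < (((n + N : ℕ) : ℝ) + 1)⁻¹ := fun n => by positivity
  have hl2 : ∀ n : ℕ, 1 / 2 ≤ 1 + 2 * (((n + N : ℕ) : ℝ) + 1)⁻¹ * κ := by
    intro n
    have h1 : (((n + N : ℕ) : ℝ) + 1)⁻¹ * |κ| ≤ 1 / 4 := by
      rw [inv_mul_le_iff₀ (by positivity)]
      push_cast
      have : (0 : ℝ) ≤ n := Nat.cast_nonneg n
      linarith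
    have h2 : -|κ| ≤ κ := neg_abs_le κ
    nlinarith [hl n]
  have hl3 : ∀ n : ℕ, 0 < 1 + 2 * (((n + N : ℕ) : ℝ) + 1)⁻¹ * κ := fun n => by linarith [hl2 n]
  have hTI := fun n => hC.testI_J hB (hl n) (hl3 n) aA (hC.test_Γ_top ha)
  refine ⟨fun n => C.J (((n + N : ℕ) : ℝ) + 1)⁻¹ a, ⟨fun n => (hTI n).1, ha, ?_, ?_, ?_⟩, hTI,
    ⟨B, fun n => hD.J_bdd (hl n) a2 hBa⟩, fun h0 n => hD.J_nonneg (hl n) a2 h0⟩
  · exact (tendsto_add_atTop_iff_nat N).2 (hD.J_tendsto_W aA.1)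
  · have h1 := (tendsto_add_atTop_iff_nat N).2 (hD.J_tendsto_L2 (hC.test_isLap ha).2.1)
    refine h1.congr fun n => ?_
    rw [hC.lap_J hB (hl n) ha]
  · refine ⟨2 * |L|, fun n => ?_⟩
    filter_upwards [hC.J_grad_le hB (hl n) (hl3 n) aA (abs_nonneg L) (by
      filter_upwards [hL] with x hx; exact hx.trans (le_abs_self L))] with x hx
    refine hx.trans ?_
    rw [div_le_iff₀ (hl3 n)]
    nlinarith [hl2 n, abs_nonneg L]

end IsGamma

end Vale.Agent.P233
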