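import Vale.Agent.P233.AB.ExtD
import Vale.Agent.P233.AB.Ext5

set_option linter.all false

open MeasureTheory Filter Topology
open scoped ENNReal NNReal InnerProductSpace

namespace Vale.Agent.P233

variable {M : Type*} [MeasurableSpace M] {m : Measure M} {C : Calc m}
variable {E : Type*} [NormedAddCommGroup E] [InnerProductSpace ℝ E]
variable {Gr : (M →ₘ[m] ℝ) → M → E} {U : (M →ₘ[m] ℝ) → (M →ₘ[m] ℝ) → M → E}

/-- positivity of the curvature functional passes to limits of test functions -/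
theorem IsGamma.rkI_lim [SigmaFinite m] (hC : IsGamma C) {κ : ℝ} (hB : C.BEi κ)
    (hG : IsGrad C Gr) (hU : IsHU C Gr U) {κ' : ℝ} {u v F : ℕ → M →ₘ[m] ℝ} {a b f : M →ₘ[m] ℝ}
    (h1 : C.Cw u a) (h2 : C.Cw v b) (h3 : C.Cw F f)
    (hFb : ∃ B : ℝ, ∀ n, ∀ᵐ x ∂m, |F n x| ≤ B)
    (h : ∀ n, 0 ≤ I (C.rkI (UUof m U) κ' (u n) (v n) (v n) (u n) (F n))) :
    0 ≤ I (C.rkI (UUof m U) κ' a b b a f) := by
  obtain ⟨ns, -, c1, c2, c3, c4⟩ := hC.exists_common hB h1 h2 h3 hFb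
  exact ge_of_tendsto (hC.Cv_rkI hB hG hU c3 c4 c1 c2) (Eventually.of_forall fun n => h (ns n))

end Vale.Agent.P233
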