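import Vale.Agent.P233.AB.HessU

open MeasureTheory Filter Topology
open scoped ENNReal NNReal InnerProductSpace

namespace Vale.Agent.P233

variable {M : Type*} [MeasurableSpace M] {m : Measure M} {C : Calc m}
variable {E : Type*} [NormedAddCommGroup E] [InnerProductSpace ℝ E] {Gr : (M →ₘ[m] ℝ) → M → E}

/-- `U b a` is the vector field `∇_{∇a} ∇b` -/
structure IsHU (C : Calc m) (Gr : (M →ₘ[m] ℝ) → M → E)
    (U : (M →ₘ[m] ℝ) → (M →ₘ[m] ℝ) → M → E) : Prop where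
  mem : ∀ b ∈ C.Test, ∀ a ∈ C.Test, MemLp (U b a) 2 m
  inner : ∀ b ∈ C.Test, ∀ a ∈ C.Test, ∀ c ∈ C.Test, ∀ᵐ x ∂m, ⟪U b a x, Gr c x⟫_ℝ = C.hess b a c x
  dense : ∀ b ∈ C.Test, ∀ a ∈ C.Test, ∀ ε > 0, ∃ Z, C.IsTestV Z ∧
    eLpNorm (fun x => U b a x - fvec Gr Z x) 2 m < ε

open Classical in
/-- the class of the function `⟪u,v⟫` -/
noncomputable def ipE (m : Measure M) (u v : M → E) : M →ₘ[m] ℝ :=
  if h : AEStronglyMeasurable (fun x => ⟪u x, v x⟫_ℝ) m then AEEqFun.mk _ h else 0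

theorem ipE_ae {u v : M → E} (hu : AEStronglyMeasurable u m) (hv : AEStronglyMeasurable v m) :
    ∀ᵐ x ∂m, ipE m u v x = ⟪u x, v x⟫_ℝ := by
  have h : AEStronglyMeasurable (fun x => ⟪u x, v x⟫_ℝ) m := hu.inner hv
  unfold ipE
  rw [dif_pos h]
  exact AEEqFun.coeFn_mk _ _

theorem ipE_mem {u v : M → E} (hu : MemLp u 2 m) (hv : MemLp v 2 m) :
    MemLp (ipE m u v) 1 m := by
  have h1 : Integrable (fun x => ⟪u x, v x⟫_ℝ) m := by
    refine (L2.integrable_inner (𝕜 := ℝ) hu.toLp hv.toLp).congr ?_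
    filter_upwards [hu.coeFn_toLp, hv.coeFn_toLp] with x a1 a2
    rw [a1, a2]
  refine (memLp_one_iff_integrable.2 h1).ae_eq ?_
  filter_upwards [ipE_ae hu.1 hv.1] with x hx
  rw [hx]

theorem I_ipE {u v : M → E} (hu : AEStronglyMeasurable u m) (hv : AEStronglyMeasurable v m) :
    I (ipE m u v) = ∫ x, ⟪u x, v x⟫_ℝ ∂m :=
  integral_congr_ae (ipE_ae hu hv)

/-- the functions `⟨∇_{∇a} ∇b, ∇_{∇a'} ∇b'⟩` -/
noncomputable def UUof (m : Measure M) (U : (M →ₘ[m] ℝ) → (M →ₘ[m] ℝ) → M → E) : UUT m :=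
  fun b a b' a' => ipE m (U b a) (U b' a')

theorem IsGamma.exists_HU [SigmaFinite m] [CompleteSpace E] (hC : IsGamma C) {κ : ℝ}
    (hB : C.BEi κ) (hG : IsGrad C Gr) :
    ∃ U : (M →ₘ[m] ℝ) → (M →ₘ[m] ℝ) → M → E, IsHU C Gr U := by
  classical
  have h : ∀ b a, ∃ u : M → E, b ∈ C.Test → a ∈ C.Test → MemLp u 2 m ∧
      (∀ c ∈ C.Test, ∀ᵐ x ∂m, ⟪u x, Gr c x⟫_ℝ = C.hess b a c x) ∧
      ∀ ε > 0, ∃ Z, C.IsTestV Z ∧ eLpNorm (fun x => u x - fvec Gr Z x) 2 m < ε := by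
    intro b a
    by_cases hb : b ∈ C.Test
    · by_cases ha : a ∈ C.Test
      · obtain ⟨u, hu⟩ := hC.exists_U hB hG hb ha
        exact ⟨u, fun _ _ => hu⟩
      · exact ⟨0, fun _ h => absurd h ha⟩
    · exact ⟨0, fun h _ => absurd h hb⟩
  choose U hU using h
  exact ⟨U, fun b hb a ha => (hU b a hb ha).1, fun b hb a ha => (hU b a hb ha).2.1,
    fun b hb a ha => (hU b a hb ha).2.2⟩

end Vale.Agent.P233
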