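import Vale.Agent.P233.AB.Tens2

open MeasureTheory Filter Topology
open scoped ENNReal NNReal

namespace Vale.Agent.P233

variable {M : Type*} [MeasurableSpace M] {m : Measure M} {C : Calc m}

/-- `R(∇a,∇b,∇b',∇a')(φ) - κ ∫ φ (⟨a,a'⟩⟨b,b'⟩ - ⟨a,b⟩⟨a',b'⟩)` -/
noncomputable def Calc.rkI (C : Calc m) (UU : UUT m) (κ : ℝ) (a b b' a' φ : M →ₘ[m] ℝ) :
    M →ₘ[m] ℝ :=
  C.rrI UU a b b' a' φ - κ • (φ * (C.Γ a a' * C.Γ b b' - C.Γ a b * C.Γ a' b'))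

namespace IsGamma

variable (hC : IsGamma C) {κ κ' : ℝ} (hB : C.BEi κ)
variable {f g h φ ψ a b c d a' φ' b' : M →ₘ[m] ℝ} (t : ℝ)

include hC

theorem Γ_linl (hf : f ∈ C.W) (hg : g ∈ C.W) (hh : h ∈ C.W) :
    C.Γ (f + t • g) h = C.Γ f h + t • C.Γ g h := by
  rw [hC.add_left _ hf _ (hC.smul_mem _ _ hg) _ hh, hC.smul_left _ _ hg _ hh]

theorem Γ_linr (hf : f ∈ C.W) (hg : g ∈ C.W) (hh : h ∈ C.W) :
    C.Γ h (f + t • g) = C.Γ h f + t • C.Γ h g := by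
  rw [hC.Γ_add_right hh hf (hC.smul_mem _ _ hg), hC.Γ_smul_right _ hh hg]

theorem De_linTφ (hφ : φ ∈ C.W) (hφ' : φ' ∈ C.W) (ha : a ∈ C.Test) :
    C.De (φ + t • φ') a = C.De φ a + t • C.De φ' a := by
  unfold Calc.De
  rw [hC.Γ_linl t hφ hφ' (hC.tW ha)]
  algebra

include hB

theorem isLin_test : IsLin C.Test :=
  ⟨hC.test_zero hB, fun _ hf _ hg => hC.test_add hB hf hg, fun c _ hf => hC.test_smul hB c hf⟩

theorem isMod_test : IsMod C.Test C.Test :=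
  ⟨hC.test_zero hB, fun _ hf _ hg => hC.test_add hB hf hg, fun c _ hf => hC.test_smul hB c hf,
    fun _ hf _ hg => hC.test_mul hB hf hg, hC.test_zero hB, fun c _ hf => hC.test_smul hB c hf,
    fun _ hf => (hC.test_A hf).2⟩

theorem lap_lin (ha : a ∈ C.Test) (ha' : a' ∈ C.Test) :
    C.lap (a + t • a') = C.lap a + t • C.lap a' := by
  rw [hC.lap_add hB ha (hC.test_smul hB t ha'), hC.lap_smul hB t ha']

theorem De_linT (hφ : φ ∈ C.W) (ha : a ∈ C.Test) (ha' : a' ∈ C.Test) :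
    C.De φ (a + t • a') = C.De φ a + t • C.De φ a' := by
  unfold Calc.De
  rw [hC.Γ_linr t (hC.tW ha) (hC.tW ha') hφ, hC.lap_lin hB t ha ha']
  algebra

theorem hess_lin1 (ha : a ∈ C.Test) (ha' : a' ∈ C.Test) (hb : b ∈ C.Test) (hc : c ∈ C.Test) :
    C.hess (a + t • a') b c = C.hess a b c + t • C.hess a' b c := by
  have aW := hC.tW ha
  have a'W := hC.tW ha'
  have bW := hC.tW hb
  have cW := hC.tW hc
  have h1 := (hC.Γ_mem hB ha hc).1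
  have h2 := (hC.Γ_mem hB ha' hc).1
  have h3 := (hC.Γ_mem hB ha hb).1
  have h4 := (hC.Γ_mem hB ha' hb).1
  have h5 := (hC.Γ_mem hB hb hc).1
  unfold Calc.hess
  rw [hC.Γ_linl t aW a'W cW, hC.Γ_linl t aW a'W bW, hC.Γ_linl t aW a'W h5,
    hC.Γ_linr t h1 h2 bW, hC.Γ_linr t h3 h4 cW]
  algebra

theorem hess_lin2 (ha : a ∈ C.Test) (ha' : a' ∈ C.Test) (hb : b ∈ C.Test) (hc : c ∈ C.Test) :
    C.hess b (a + t • a') c = C.hess b a c + t • C.hess b a' c := by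
  have aW := hC.tW ha
  have a'W := hC.tW ha'
  have bW := hC.tW hb
  have cW := hC.tW hc
  have h1 := (hC.Γ_mem hB hb hc).1
  have h2 := (hC.Γ_mem hB hb ha).1
  have h3 := (hC.Γ_mem hB hb ha').1
  have h4 := (hC.Γ_mem hB ha hc).1
  have h5 := (hC.Γ_mem hB ha' hc).1
  unfold Calc.hess
  rw [hC.Γ_linl t aW a'W h1, hC.Γ_linr t aW a'W bW, hC.Γ_linl t aW a'W cW,
    hC.Γ_linr t h2 h3 cW, hC.Γ_linr t h4 h5 bW]
  algebra

theorem hess_symm (ha : a ∈ C.Test) (hb : b ∈ C.Test) (hc : c ∈ C.Test) :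
    C.hess a b c = C.hess a c b := by
  unfold Calc.hess
  rw [hC.symm _ (hC.tW hb) _ (hC.tW hc)]
  algebra

theorem hess_lin3 (ha : a ∈ C.Test) (ha' : a' ∈ C.Test) (hb : b ∈ C.Test) (hc : c ∈ C.Test) :
    C.hess b c (a + t • a') = C.hess b c a + t • C.hess b c a' := by
  have hs := hC.test_add hB ha (hC.test_smul hB t ha')
  rw [hC.hess_symm hB hb hc hs, hC.hess_lin2 hB t ha ha' hb hc, hC.hess_symm hB hb ha hc,
    hC.hess_symm hB hb ha' hc]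

variable {UU : UUT m} (hU : C.IsUU UU)
include hU

theorem rkI_lin1 (ha : a ∈ C.Test) (ha' : a' ∈ C.Test) (hb : b ∈ C.Test) (hc : c ∈ C.Test)
    (hd : d ∈ C.Test) (hφ : φ ∈ C.W) :
    C.rkI UU κ' (a + t • a') b c d φ = C.rkI UU κ' a b c d φ + t • C.rkI UU κ' a' b c d φ := by
  have aW := hC.tW ha
  have a'W := hC.tW ha'
  unfold Calc.rkI Calc.rrI
  rw [hC.De_linT hB t hφ ha ha', hC.hess_lin2 hB t ha ha' hc hd, hU.lin2 _ ha _ ha' _ hd _ hc _ hb,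
    hU.lin4 _ ha _ ha' _ hd _ hb _ hc, hU.lin2 _ ha _ ha' _ hb _ hc _ hd,
    hU.lin1 _ ha _ ha' _ hb _ hc _ hd, hC.Γ_linl t aW a'W (hC.tW hd),
    hC.Γ_linl t aW a'W (hC.tW hb)]
  algebra

theorem rkI_lin2 (ha : a ∈ C.Test) (ha' : a' ∈ C.Test) (hb : b ∈ C.Test) (hc : c ∈ C.Test)
    (hd : d ∈ C.Test) (hφ : φ ∈ C.W) :
    C.rkI UU κ' b (a + t • a') c d φ = C.rkI UU κ' b a c d φ + t • C.rkI UU κ' b a' c d φ := by
  have aW := hC.tW ha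
  have a'W := hC.tW ha'
  unfold Calc.rkI Calc.rrI
  rw [hC.De_linT hB t hφ ha ha', hC.hess_lin2 hB t ha ha' hc hd, hU.lin4 _ ha _ ha' _ hd _ hb _ hc,
    hU.lin2 _ ha _ ha' _ hd _ hc _ hb, hU.lin1 _ ha _ ha' _ hb _ hc _ hd,
    hU.lin2 _ ha _ ha' _ hb _ hc _ hd, hC.Γ_linl t aW a'W (hC.tW hc),
    hC.Γ_linr t aW a'W (hC.tW hb)]
  algebra

theorem rkI_lin3 (ha : a ∈ C.Test) (ha' : a' ∈ C.Test) (hb : b ∈ C.Test) (hc : c ∈ C.Test)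
    (hd : d ∈ C.Test) (hφ : φ ∈ C.W) :
    C.rkI UU κ' b c (a + t • a') d φ = C.rkI UU κ' b c a d φ + t • C.rkI UU κ' b c a' d φ := by
  have aW := hC.tW ha
  have a'W := hC.tW ha'
  unfold Calc.rkI Calc.rrI
  rw [hC.hess_lin1 hB t ha ha' hc hd, hC.hess_lin1 hB t ha ha' hb hd,
    hU.lin3 _ ha _ ha' _ hd _ hb _ hc, hU.lin3 _ ha _ ha' _ hd _ hc _ hb,
    hU.lin3 _ ha _ ha' _ hc _ hb _ hd, hU.lin3 _ ha _ ha' _ hb _ hc _ hd,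
    hC.Γ_linr t aW a'W (hC.tW hc), hC.Γ_linr t aW a'W (hC.tW hd)]
  algebra

theorem rkI_lin4 (ha : a ∈ C.Test) (ha' : a' ∈ C.Test) (hb : b ∈ C.Test) (hc : c ∈ C.Test)
    (hd : d ∈ C.Test) :
    C.rkI UU κ' b c d (a + t • a') φ = C.rkI UU κ' b c d a φ + t • C.rkI UU κ' b c d a' φ := by
  have aW := hC.tW ha
  have a'W := hC.tW ha'
  unfold Calc.rkI Calc.rrI
  rw [hC.hess_lin3 hB t ha ha' hd hc, hC.hess_lin3 hB t ha ha' hd hb,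
    hU.lin1 _ ha _ ha' _ hb _ hd _ hc, hU.lin1 _ ha _ ha' _ hc _ hd _ hb,
    hU.lin4 _ ha _ ha' _ hc _ hb _ hd, hU.lin4 _ ha _ ha' _ hb _ hc _ hd,
    hC.Γ_linr t aW a'W (hC.tW hb), hC.Γ_linl t aW a'W (hC.tW hd)]
  algebra

omit hU hB in
theorem rkI_linφ (ha : a ∈ C.Test) (hb : b ∈ C.Test) (hφ : φ ∈ C.W) (hφ' : φ' ∈ C.W) :
    C.rkI UU κ' a b c d (φ + t • φ') = C.rkI UU κ' a b c d φ + t • C.rkI UU κ' a b c d φ' := by
  unfold Calc.rkI Calc.rrI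
  rw [hC.De_linTφ t hφ hφ' ha, hC.De_linTφ t hφ hφ' hb]
  algebra

theorem rkI_mem (ha : a ∈ C.Test) (hb : b ∈ C.Test) (hc : c ∈ C.Test)
    (hd : d ∈ C.Test) (hφ : φ ∈ C.A) : MemLp (C.rkI UU κ' a b c d φ) 1 m := by
  unfold Calc.rkI
  refine mem_sub (hC.rrI_mem hB ha hb hc hd hφ hU.mem) (mem_smul _ (mem_mul_top hφ.2 ?_))
  exact mem_sub (mem_mul_top (hC.Γ_mem hB ha hd).2 (hC.Γ_mem1 (hC.tW hb) (hC.tW hc)))
    (mem_mul_top (hC.Γ_mem hB ha hb).2 (hC.Γ_mem1 (hC.tW hd) (hC.tW hc)))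

/-- from gradients to fields -/
theorem fields_of_gradients
    (hpos : ∀ a ∈ C.Test, ∀ b ∈ C.Test, ∀ φ ∈ C.Test, 0 ≤ φ → 0 ≤ I (C.rkI UU κ' a b b a φ))
    {ι ι' : Type*} [Fintype ι] [Fintype ι'] {d x : ι → M →ₘ[m] ℝ} {e y : ι' → M →ₘ[m] ℝ}
    (hd : ∀ i, d i ∈ C.Test) (he : ∀ i, e i ∈ C.Test) (hx : ∀ i, x i ∈ C.Test)
    (hy : ∀ i, y i ∈ C.Test) (hφ : φ ∈ C.Test) (hφ0 : 0 ≤ φ) :
    0 ≤ ∑ j, ∑ l, ∑ i, ∑ k,
      I (C.rkI UU κ' (d i) (e j) (e l) (d k) (φ * (y j * y l) * (x i * x k))) := by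
  have hT := hC.isMod_test hB
  have lin : ∀ {P Q R : M →ₘ[m] ℝ} {t : ℝ}, MemLp Q 1 m → MemLp R 1 m → P = Q + t • R →
      I P = I Q + t * I R := by
    intro P Q R t hQ hR h
    rw [h, I_add hQ (mem_smul _ hR), I_smul]
  have tA : ∀ {f : M →ₘ[m] ℝ}, f ∈ C.Test → f ∈ C.A := fun hf => hC.test_A hf
  refine biquad hT (hC.isLin_test hB) (fun a b c d φ => I (C.rkI UU κ' a b c d φ))
    ?_ ?_ ?_ ?_ ?_ hpos hd he (fun i => hT.AP_of_A (hx i)) (fun i => hT.AP_of_A (hy i)) hφ hφ0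
  · intro a ha a' ha' b hb c hc d hd φ hφ t
    exact lin (hC.rkI_mem hB hU ha hb hc hd (tA hφ)) (hC.rkI_mem hB hU ha' hb hc hd (tA hφ))
      (hC.rkI_lin1 hB t hU ha ha' hb hc hd (hC.tW hφ))
  · intro a ha a' ha' b hb c hc d hd φ hφ t
    exact lin (hC.rkI_mem hB hU hb ha hc hd (tA hφ)) (hC.rkI_mem hB hU hb ha' hc hd (tA hφ))
      (hC.rkI_lin2 hB t hU ha ha' hb hc hd (hC.tW hφ))
  · intro a ha a' ha' b hb c hc d hd φ hφ t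
    exact lin (hC.rkI_mem hB hU hb hc ha hd (tA hφ)) (hC.rkI_mem hB hU hb hc ha' hd (tA hφ))
      (hC.rkI_lin3 hB t hU ha ha' hb hc hd (hC.tW hφ))
  · intro a ha a' ha' b hb c hc d hd φ hφ t
    exact lin (hC.rkI_mem hB hU hb hc hd ha (tA hφ)) (hC.rkI_mem hB hU hb hc hd ha' (tA hφ))
      (hC.rkI_lin4 hB t hU ha ha' hb hc hd)
  · intro φ hφ φ' hφ' a ha b hb c hc d hd t
    exact lin (hC.rkI_mem hB hU ha hb hc hd (tA hφ)) (hC.rkI_mem hB hU ha hb hc hd (tA hφ'))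
      (hC.rkI_linφ t ha hb (hC.tW hφ) (hC.tW hφ'))

end IsGamma

end Vale.Agent.P233
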