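import Vale.Agent.P233.AB.Cut
import Vale.Agent.P233.AB.Ext5
import Vale.Agent.P233.AB.HU
import Vale.Agent.P233.AB.ExtE
import Vale.Agent.P233.AB.Tens3
import Vale.Agent.P233.Metric2

set_option linter.all false

open MeasureTheory Filter Topology
open scoped ENNReal NNReal

namespace Vale.Agent.P233

variable {M : Type*} [MetricSpace M] [SecondCountableTopology M] [MeasurableSpace M]
  [BorelSpace M] {m : Measure M}

/-- cut-off sequences with bounded support -/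
theorem cut_seq (hfin : ∀ (x : M) (r : ℝ), m (Metric.ball x r) < ∞) (hC : IsGamma (sob m))
    {K N : ℝ} (hN : 0 < N) (hB : (sob m).BE K N) (x₀ : M) :
    ∃ (χ θ : ℕ → M →ₘ[m] ℝ) (Λ : ℝ), (∀ k, χ k ∈ (sob m).TestI) ∧ (∀ k, θ k ∈ (sob m).TestI) ∧
      (∀ k, 0 ≤ χ k) ∧ (∀ k, ∀ᵐ x ∂m, |χ k x| ≤ 1) ∧ (∀ k, θ k * χ k = χ k) ∧
      (∀ k, ∃ (x₀ : M) (R : ℝ), ∀ᵐ x ∂m, R < dist x x₀ → θ k x = 0) ∧
      (∀ᵐ x ∂m, Tendsto (fun k => χ k x) atTop (𝓝 1)) ∧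
      (∀ k, ∀ᵐ x ∂m, |(sob m).lap (χ k) x| ≤ Λ) ∧
      (∀ᵐ x ∂m, Tendsto (fun k => (sob m).lap (χ k) x) atTop (𝓝 0)) ∧
      (∀ k, ∀ᵐ x ∂m, |(sob m).Γ (χ k) (χ k) x| ≤ Λ * ((k : ℝ) + 1)⁻¹) := by
  have hD := hC.toIsDir
  obtain ⟨Cc, hcut⟩ := exists_cutI hfin hC hN hB x₀
  have h1 : ∀ k : ℕ, (1 : ℝ) ≤ (k : ℝ) + 1 := fun k => by
    have : (0 : ℝ) ≤ k := Nat.cast_nonneg k
    linarith
  choose χ c1 c2 c3 c4 c5 c6 c7 using fun k : ℕ => hcut ((k : ℝ) + 1) (h1 k)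
  choose R' hR' using c5
  choose θ t1 t2 t3 t4 t5 t6 t7 using fun k : ℕ => hcut (max (R' k) 1) (le_max_right _ _)
  have hpos : ∀ k : ℕ, (0 : ℝ) < (k : ℝ) + 1 := fun k => by positivity
  refine ⟨χ, θ, |Cc|, c1, t1, c2, fun k => ?_, fun k => ?_, fun k => ?_, ?_, fun k => ?_, ?_,
    fun k => ?_⟩
  · filter_upwards [nonneg_iff_ae.1 (c2 k), le_iff_ae.1 (c3 k), one_ae (M := M) (m := m)]
      with x b1 b2 b3
    rw [abs_of_nonneg b1]
    rwa [b3] at b2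
  · rw [eq_iff_ae]
    filter_upwards [mul_ae (θ k) (χ k), hR' k, t4 k] with x b1 b2 b3
    rw [b1]
    rcases lt_or_ge (R' k) (dist x x₀) with h | h
    · rw [b2 h, mul_zero]
    · rw [b3 (h.trans (le_max_left _ _)), one_mul]
  · obtain ⟨R'', hR''⟩ := t5 k
    exact ⟨x₀, R'', hR''⟩
  · filter_upwards [ae_all_iff.2 c4] with x b1
    obtain ⟨n, hn⟩ := exists_nat_ge (dist x x₀)
    refine tendsto_const_nhds.congr' ?_
    filter_upwards [eventually_ge_atTop n] with k hk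
    refine (b1 k ?_).symm
    have : (n : ℝ) ≤ k := by exact_mod_cast hk
    linarith
  · filter_upwards [c7 k] with x b1
    refine b1.trans ?_
    rw [div_le_iff₀ (hpos k)]
    have := h1 k
    nlinarith [le_abs_self Cc, abs_nonneg Cc]
  · filter_upwards [ae_all_iff.2 c7] with x b1
    refine squeeze_zero_norm (a := fun k : ℕ => Cc * ((k : ℝ) + 1)⁻¹) (fun k => ?_)
      (by simpa using tendsto_inv_succ.const_mul Cc)
    rw [Real.norm_eq_abs, ← div_eq_mul_inv]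
    exact b1 k
  · filter_upwards [c6 k, hD.Γ_nonneg_ae (hC.test_A (c1 k).1).1] with x b1 b2
    rw [abs_of_nonneg b2]
    refine b1.trans ?_
    rw [← div_eq_mul_inv, div_le_div_iff₀ (by have := hpos k; positivity) (hpos k)]
    have h2 := h1 k
    have h3 : Cc * ((k : ℝ) + 1) ≤ |Cc| * ((k : ℝ) + 1) :=
      mul_le_mul_of_nonneg_right (le_abs_self _) (hpos k).le
    have h4 : |Cc| * ((k : ℝ) + 1) ≤ |Cc| * ((k : ℝ) + 1) ^ 2 :=
      mul_le_mul_of_nonneg_left (by nlinarith) (abs_nonneg _)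
    linarith

variable {E : Type*} [NormedAddCommGroup E] [InnerProductSpace ℝ E] {Gr : (M →ₘ[m] ℝ) → M → E}

/-- from nice functions to all test functions -/
theorem ext_all (hfin : ∀ (x : M) (r : ℝ), m (Metric.ball x r) < ∞) (hC : IsGamma (sob m))
    {K N : ℝ} (hN : 0 < N) (hBN : (sob m).BE K N) (hG : IsGrad (sob m) Gr) [CompleteSpace E]
    {U : (M →ₘ[m] ℝ) → (M →ₘ[m] ℝ) → M → E} (hU : IsHU (sob m) Gr U) {κ : ℝ}
    (H : ∀ a b f χ : M →ₘ[m] ℝ, a ∈ (sob m).TestI → b ∈ (sob m).TestI → f ∈ (sob m).TestI →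
      0 ≤ f → χ ∈ (sob m).TestI → χ * a = a → χ * b = b → χ * f = f →
      (∃ (x₀ : M) (R : ℝ), ∀ᵐ x ∂m, R < dist x x₀ → χ x = 0) →
      0 ≤ I ((sob m).rkI (UUof m U) κ a b b a f)) :
    ∀ a ∈ (sob m).Test, ∀ b ∈ (sob m).Test, ∀ f ∈ (sob m).Test, 0 ≤ f →
      0 ≤ I ((sob m).rkI (UUof m U) κ a b b a f) := by
  rcases isEmpty_or_nonempty M with hM | ⟨⟨x₀⟩⟩
  · intro a _ b _ f _ _
    unfold I
    rw [integral_of_isEmpty]
  have hB : (sob m).BEi K := hC.bei hN hBN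
  haveI : SigmaFinite m := by
    refine ⟨⟨⟨fun n => Metric.ball x₀ n, fun n => trivial, fun n => hfin _ _, ?_⟩⟩⟩
    exact Metric.iUnion_ball_nat x₀
  have hD := hC.toIsDir
  obtain ⟨χ, θ, Λ, cT, tT, c0, cb, tc, tsupp, clim, clap, clap0, cΓ⟩ := cut_seq hfin hC hN hBN x₀
  -- step A: bounded Laplacian
  have stepA : ∀ a ∈ (sob m).TestI, ∀ b ∈ (sob m).TestI, ∀ f ∈ (sob m).TestI, 0 ≤ f →
      0 ≤ I ((sob m).rkI (UUof m U) κ a b b a f) := by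
    intro a ha b hb f hf hf0
    have key := fun {g : M →ₘ[m] ℝ} (hg : g ∈ (sob m).Test) =>
      hC.Cv_Cw hB (hC.Cv_cut hB cT cb clim clap clap0 cΓ hg)
    obtain ⟨B, hBf⟩ := mem_top_iff.1 (hC.test_A hf.1).2
    refine hC.rkI_lim hB hG hU (key ha.1) (key hb.1) (key hf.1) ⟨|B|, fun n => ?_⟩ fun n => ?_
    · filter_upwards [mul_ae (χ n) f, cb n, hBf] with x b1 b2 b3
      rw [b1, abs_mul]
      calc |χ n x| * |f x| ≤ 1 * |B| :=
            mul_le_mul b2 (b3.trans (le_abs_self _)) (abs_nonneg _) zero_le_one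
        _ = |B| := one_mul _
    · refine H _ _ _ (θ n) (hC.testI_mul hB (cT n) ha) (hC.testI_mul hB (cT n) hb)
        (hC.testI_mul hB (cT n) hf) (mul_nonneg (c0 n) hf0) (tT n) ?_ ?_ ?_ (tsupp n)
      · rw [← mul_assoc, tc]
      · rw [← mul_assoc, tc]
      · rw [← mul_assoc, tc]
  -- step B: all test functions
  intro a ha b hb f hf hf0
  obtain ⟨u, u1, u2, -, -⟩ := hC.Cw_J hB ha
  obtain ⟨v, v1, v2, -, -⟩ := hC.Cw_J hB hb
  obtain ⟨F, F1, F2, F3, F4⟩ := hC.Cw_J hB hf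
  exact hC.rkI_lim hB hG hU u1 v1 F1 F3 fun n => stepA _ (u2 n) _ (v2 n) _ (F2 n) (F4 hf0 n)

end Vale.Agent.P233
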