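import Vale.Agent.P233.AB.HA2

set_option linter.all false

open MeasureTheory Filter Topology
open scoped ENNReal NNReal

namespace Vale.Agent.P233

variable {M : Type*} [MeasurableSpace M] {m : Measure M} {C : Calc m}

namespace IsGamma

variable (hC : IsGamma C) {κ : ℝ} (hB : C.BEi κ)
variable {a b f g h φ ψ v w χ : M →ₘ[m] ℝ}

include hC hB

theorem QT_cons2 {n : ℕ} (hb : b ∈ C.Test) {F H s : Fin n → M →ₘ[m] ℝ}
    (hF : ∀ i, F i ∈ C.Test) (hH : ∀ i, H i ∈ C.Test) (hw : w ∈ C.Test) (hv : v ∈ C.Test) (t : ℝ) :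
    C.QT κ b (Fin.cons w F : Fin (n + 1) → M →ₘ[m] ℝ) (Fin.cons v H) (Fin.cons (t • χ) s)
      = C.QT κ b F H s + 2 * t * I (χ * C.KK b w v)
        + 4 * t * ∑ i, I (χ * (s i * C.MM w v (F i) (H i)))
        + 2 * t ^ 2 * I (χ * (χ * C.MM w v w v)) := by
  unfold Calc.QT
  simp only [Fin.sum_univ_succ, Fin.cons_zero, Fin.cons_succ]
  have e1 : I (t • χ * C.KK b w v) = t * I (χ * C.KK b w v) := by
    rw [← I_smul]; congr 1; algebra
  have e2 : I (t • χ * t • χ * C.MM w v w v) = t ^ 2 * I (χ * (χ * C.MM w v w v)) := by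
    rw [← I_smul]; congr 1; algebra
  have e3 : ∀ i, I (t • χ * s i * C.MM w v (F i) (H i)) = t * I (χ * (s i * C.MM w v (F i) (H i))) := by
    intro i
    rw [← I_smul]; congr 1; algebra
  have e4 : ∀ i, I (s i * t • χ * C.MM (F i) (H i) w v) = t * I (χ * (s i * C.MM w v (F i) (H i))) := by
    intro i
    rw [← I_smul]; congr 1
    have : C.MM (F i) (H i) w v = C.MM w v (F i) (H i) := by
      unfold Calc.MM
      rw [hC.symm _ (hC.test_A hw).1 _ (hC.test_A (hF i)).1,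
        hC.symm _ (hC.test_A hv).1 _ (hC.test_A (hH i)).1,
        hC.symm _ (hC.test_A hw).1 _ (hC.test_A (hH i)).1,
        hC.symm _ (hC.test_A hv).1 _ (hC.test_A (hF i)).1]
      ring
    rw [this]
    algebra
  rw [e1, e2]
  simp only [e3, e4, Finset.sum_add_distrib, ← Finset.mul_sum]
  ring

/-- basic Cauchy-Schwarz inequality for the Hessian, relative to a lower bound `q` of the
functional `QT` -/
theorem kk_cs [SigmaFinite m] {n : ℕ} (hb : b ∈ C.Test) {F H s : Fin n → M →ₘ[m] ℝ}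
    (hF : ∀ i, F i ∈ C.Test) (hH : ∀ i, H i ∈ C.Test) (hs : ∀ i, MemLp (s i) ∞ m)
    (hs2 : ∀ i, MemLp (s i) 2 m) {q : ℝ}
    (hq : ∀ (F' H' s' : Fin (n + 1) → M →ₘ[m] ℝ), (∀ i, F' i ∈ C.Test) → (∀ i, H' i ∈ C.Test) →
      (∀ i, MemLp (s' i) ∞ m) → (∀ i, MemLp (s' i) 2 m) → q ≤ C.QT κ b F' H' s')
    (hw : w ∈ C.Test) (hv : v ∈ C.Test) :
    (I (C.KK b w v) + 2 * ∑ i, I (s i * C.MM w v (F i) (H i))) ^ 2 ≤
      (C.QT κ b F H s - q) * (2 * I (C.MM w v w v)) := by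
  obtain ⟨χ, Λ, hT, h0, hb1, hconv, -⟩ := hC.exists_cut hB
  have hconv' : ∀ᵐ x ∂m, Tendsto (fun k => χ k x) atTop (𝓝 ((1 : M →ₘ[m] ℝ) x)) := by
    filter_upwards [hconv, one_ae (M := M) (m := m)] with x b1 b2
    rw [b2]; exact b1
  have wA := hC.test_A hw
  have vA := hC.test_A hv
  have bA := hC.test_A hb
  have nKK : MemLp (C.KK b w v) 1 m := by
    unfold Calc.KK Calc.hess
    exact mem_smul _ (mem_smul _ (mem_sub (mem_add (hC.Γ_mem1 wA.1 (hC.Γ_mem hB hb hv).1)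
      (hC.Γ_mem1 vA.1 (hC.Γ_mem hB hb hw).1)) (hC.Γ_mem1 bA.1 (hC.Γ_mem hB hw hv).1)))
  have key : ∀ (t : ℝ) (k : ℕ), 0 ≤ (C.QT κ b F H s - q) + 2 * t * I (χ k * C.KK b w v)
        + 4 * t * ∑ i, I (χ k * (s i * C.MM w v (F i) (H i)))
        + 2 * t ^ 2 * I (χ k * (χ k * C.MM w v w v)) := by
    intro t k
    have kA := hC.test_A (hT k)
    have h1 := hq (Fin.cons w F : Fin (n + 1) → M →ₘ[m] ℝ) (Fin.cons v H)
        (Fin.cons (t • χ k) s) (by
        intro i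
        refine Fin.cases ?_ (fun j => ?_) i
        · simpa using hw
        · simpa using hF j) (by
        intro i
        refine Fin.cases ?_ (fun j => ?_) i
        · simpa using hv
        · simpa using hH j) (by
        intro i
        refine Fin.cases ?_ (fun j => ?_) i
        · rw [Fin.cons_zero]; exact mem_smul _ kA.2
        · rw [Fin.cons_succ]; exact hs j) (by
        intro i
        refine Fin.cases ?_ (fun j => ?_) i
        · rw [Fin.cons_zero]; exact mem_smul _ (hC.memLp _ kA.1)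
        · rw [Fin.cons_succ]; exact hs2 j)
    rw [hC.QT_cons2 hB hb hF hH hw hv t] at h1
    linarith
  have key2 : ∀ t : ℝ, 0 ≤ (C.QT κ b F H s - q) + 2 * t * (I (C.KK b w v)
      + 2 * ∑ i, I (s i * C.MM w v (F i) (H i))) + t ^ 2 * (2 * I (C.MM w v w v)) := by
    intro t
    have t1 : Tendsto (fun k => I (χ k * C.KK b w v)) atTop (𝓝 (I (C.KK b w v))) := by
      have := I_tendsto_of_bdd hb1 hconv' nKK
      rwa [one_mul] at this
    have t2 : ∀ i, Tendsto (fun k => I (χ k * (s i * C.MM w v (F i) (H i)))) atTop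
        (𝓝 (I (s i * C.MM w v (F i) (H i)))) := by
      intro i
      have := I_tendsto_of_bdd hb1 hconv' (mem_mul_top (hs i) (hC.MM_mem1 hB hw hv (hF i) (hH i)))
      rwa [one_mul] at this
    have t3 : Tendsto (fun k => I (χ k * (χ k * C.MM w v w v))) atTop (𝓝 (I (C.MM w v w v))) := by
      have h1 : ∀ k, ∀ᵐ x ∂m, |(χ k * χ k) x| ≤ 1 := by
        intro k
        filter_upwards [mul_ae (χ k) (χ k), hb1 k] with x b1 b2
        rw [b1, abs_mul]
        nlinarith [abs_nonneg (χ k x)]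
      have h2 : ∀ᵐ x ∂m, Tendsto (fun k => (χ k * χ k) x) atTop (𝓝 ((1 : M →ₘ[m] ℝ) x)) := by
        have h3 : ∀ᵐ x ∂m, ∀ k, (χ k * χ k) x = χ k x * χ k x := by
          rw [ae_all_iff]; exact fun k => mul_ae _ _
        filter_upwards [h3, hconv, one_ae (M := M) (m := m)] with x b1 b2 b3
        rw [b3]
        simp only [b1]
        simpa using b2.mul b2
      have := I_tendsto_of_bdd h1 h2 (hC.MM_mem1 hB hw hv hw hv)
      rw [one_mul] at this
      refine this.congr fun k => ?_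
      rw [mul_assoc]
    have hlim := (((tendsto_const_nhds (x := C.QT κ b F H s - q)).add (t1.const_mul (2 * t))).add
      ((tendsto_finset_sum Finset.univ fun i _ => t2 i).const_mul (4 * t))).add
      (t3.const_mul (2 * t ^ 2))
    have h1 := ge_of_tendsto hlim (Eventually.of_forall (key t))
    have e : (C.QT κ b F H s - q) + 2 * t * (I (C.KK b w v)
      + 2 * ∑ i, I (s i * C.MM w v (F i) (H i))) + t ^ 2 * (2 * I (C.MM w v w v))
      = (C.QT κ b F H s - q) + 2 * t * I (C.KK b w v) + 4 * t * ∑ i, I (s i * C.MM w v (F i) (H i))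
        + 2 * t ^ 2 * I (C.MM w v w v) := by ring
    rw [e]; exact h1
  exact disc_of_forall key2

theorem MM_le (hw : w ∈ C.Test) (hv : v ∈ C.Test) :
    I (C.MM w v w v) ≤ 2 * I (C.Γ w w * C.Γ v v) := by
  have hD := hC.toIsDir
  have wA := hC.test_A hw
  have vA := hC.test_A hv
  have n1 : MemLp (C.Γ w w * C.Γ v v) 1 m := mem_mul_top (hC.test_Γ_top hw) (hC.mem1 _ vA.1)
  rw [← I_smul]
  refine I_mono (hC.MM_mem1 hB hw hv hw hv) (mem_smul _ n1) ?_
  rw [le_iff_ae]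
  unfold Calc.MM
  rw [hC.symm _ vA.1 _ wA.1]
  filter_upwards [add_ae (C.Γ w w * C.Γ v v) (C.Γ w v * C.Γ w v), mul_ae (C.Γ w w) (C.Γ v v),
    mul_ae (C.Γ w v) (C.Γ w v), smul_ae (C.Γ w w * C.Γ v v) (2 : ℝ), hD.Γ_cs_ae wA.1 vA.1]
    with x b1 b2 b3 b4 b5
  rw [b1, b4, b2, b3]
  nlinarith

/-- the Bochner constant `∫ (Δb)² - κ ∫ Γ(b,b)` -/
theorem h2_nonneg [SigmaFinite m] (hb : b ∈ C.Test) :
    0 ≤ I (C.lap b ^ 2) - κ * I (C.Γ b b) := by
  have := hC.tensor_ineq_one hB hb (n := 0) (F := Fin.elim0) (H := Fin.elim0) (s := Fin.elim0)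
    (fun i => i.elim0) (fun i => i.elim0) (fun i => i.elim0) (fun i => i.elim0)
  simpa using this

/-- the Hessian is bounded in `L²` by the Laplacian -/
theorem kk_le [SigmaFinite m] (hb : b ∈ C.Test) (hw : w ∈ C.Test) (hv : v ∈ C.Test) :
    |I (C.KK b w v)| ≤
      2 * √(I (C.lap b ^ 2) - κ * I (C.Γ b b)) * √(I (C.Γ w w * C.Γ v v)) := by
  have h1 := hC.kk_cs hB hb (n := 0) (F := Fin.elim0) (H := Fin.elim0) (s := Fin.elim0)
    (fun i => i.elim0) (fun i => i.elim0) (fun i => i.elim0) (fun i => i.elim0) (q := 0)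
    (fun F' H' s' h1 h2 h3 h4 => hC.tensor_ineq_one hB hb h1 h2 h3 h4) hw hv
  have e : C.QT κ b (Fin.elim0 : Fin 0 → M →ₘ[m] ℝ) Fin.elim0 Fin.elim0
      = I (C.lap b ^ 2) - κ * I (C.Γ b b) := by
    unfold Calc.QT; simp
  rw [e] at h1
  simp only [Finset.univ_eq_empty, Finset.sum_empty, mul_zero, add_zero, sub_zero] at h1
  have h2 := hC.h2_nonneg hB hb
  have h3 := hC.MM_le hB hw hv
  have h4 : 0 ≤ I (C.Γ w w * C.Γ v v) := I_nonneg (mul_nonneg (hC.nonneg _ (hC.test_A hw).1)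
    (hC.nonneg _ (hC.test_A hv).1))
  refine abs_le_of_sq_le_sq ?_ (by positivity)
  rw [mul_pow, mul_pow, Real.sq_sqrt h2, Real.sq_sqrt h4]
  refine h1.trans ?_
  nlinarith

/-- bilinear version of `hess_approx` -/
theorem hess_approx2 [SigmaFinite m] (hb : b ∈ C.Test) {δ : ℝ} (hδ : 0 < δ) :
    ∃ Λ ≥ 0, ∀ w ∈ C.Test, ∀ v ∈ C.Test, |I (C.KK b w v)| ≤
      Λ * (√(I (C.Γ w w)) * √(I (C.Γ v v))) + δ * √(I (C.Γ w w * C.Γ v v)) := by
  classical
  have hD := hC.toIsDir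
  set S : Set ℝ := {q | ∃ (n : ℕ) (F H s : Fin n → M →ₘ[m] ℝ), (∀ i, F i ∈ C.Test) ∧
    (∀ i, H i ∈ C.Test) ∧ (∀ i, MemLp (s i) ∞ m) ∧ (∀ i, MemLp (s i) 2 m) ∧
    q = C.QT κ b F H s} with hS
  have hne : S.Nonempty := ⟨_, 0, Fin.elim0, Fin.elim0, Fin.elim0, fun i => i.elim0,
    fun i => i.elim0, fun i => i.elim0, fun i => i.elim0, rfl⟩
  have hbd : BddBelow S := by
    refine ⟨0, ?_⟩
    rintro q ⟨n, F, H, s, h1, h2, h3, h4, rfl⟩
    exact hC.tensor_ineq_one hB hb h1 h2 h3 h4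
  obtain ⟨q, hq, hq2⟩ := exists_lt_of_csInf_lt hne
    (show sInf S < sInf S + (δ / 2) ^ 2 by linarith [pow_pos (half_pos hδ) 2])
  obtain ⟨n, F, H, s, hF, hH, hs, hs2, rfl⟩ := hq
  choose A hA using fun i => mem_top_iff.1 (hs i)
  choose B1 hB1 using fun i => mem_top_iff.1 (hC.test_Γ_top (hF i))
  choose B2 hB2 using fun i => mem_top_iff.1 (hC.test_Γ_top (hH i))
  refine ⟨2 * ∑ i, |A i| * (2 * (√|B1 i| * √|B2 i|)), by positivity, fun w hw v hv => ?_⟩
  have wA := hC.test_A hw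
  have vA := hC.test_A hv
  have h1 := hC.kk_cs hB hb hF hH hs hs2 (q := sInf S)
    (fun F' H' s' h1 h2 h3 h4 => csInf_le hbd ⟨n + 1, F', H', s', h1, h2, h3, h4, rfl⟩) hw hv
  have h3 := hC.MM_le hB hw hv
  have h4 : 0 ≤ I (C.Γ w w * C.Γ v v) := I_nonneg (mul_nonneg (hC.nonneg _ wA.1)
    (hC.nonneg _ vA.1))
  have h5 : |I (C.KK b w v) + 2 * ∑ i, I (s i * C.MM w v (F i) (H i))|
      ≤ δ * √(I (C.Γ w w * C.Γ v v)) := by
    refine abs_le_of_sq_le_sq ?_ (by positivity)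
    rw [mul_pow, Real.sq_sqrt h4]
    refine h1.trans ?_
    have h6 : C.QT κ b F H s - sInf S ≤ (δ / 2) ^ 2 := by linarith
    have h7 : (0 : ℝ) ≤ I (C.MM w v w v) := by
      refine I_nonneg ?_
      unfold Calc.MM
      rw [hC.symm _ vA.1 _ wA.1]
      have := mul_nonneg (hC.nonneg _ wA.1) (hC.nonneg _ vA.1)
      have h8 : 0 ≤ C.Γ w v * C.Γ w v := by rw [← sq]; exact sq_nonneg' _
      exact add_nonneg this h8
    calc (C.QT κ b F H s - sInf S) * (2 * I (C.MM w v w v))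
        ≤ (δ / 2) ^ 2 * (2 * I (C.MM w v w v)) := by
          exact mul_le_mul_of_nonneg_right h6 (by positivity)
      _ ≤ (δ / 2) ^ 2 * (2 * (2 * I (C.Γ w w * C.Γ v v))) := by
          refine mul_le_mul_of_nonneg_left ?_ (by positivity)
          linarith
      _ = δ ^ 2 * I (C.Γ w w * C.Γ v v) := by ring
  have h8 : ∀ i, |I (s i * C.MM w v (F i) (H i))| ≤
      |A i| * (2 * (√|B1 i| * √|B2 i|)) * (√(I (C.Γ w w)) * √(I (C.Γ v v))) := by
    intro i
    have FA := hC.test_A (hF i)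
    have HA := hC.test_A (hH i)
    have k1 : ∀ᵐ x ∂m, |(s i * C.MM w v (F i) (H i) : M →ₘ[m] ℝ) x| ≤
        |A i| * (2 * (√|B1 i| * √|B2 i|)) * (√(C.Γ w w x) * √(C.Γ v v x)) := by
      unfold Calc.MM
      filter_upwards [mul_ae (s i) (C.Γ (F i) w * C.Γ (H i) v + C.Γ (F i) v * C.Γ (H i) w),
        add_ae (C.Γ (F i) w * C.Γ (H i) v) (C.Γ (F i) v * C.Γ (H i) w),
        mul_ae (C.Γ (F i) w) (C.Γ (H i) v), mul_ae (C.Γ (F i) v) (C.Γ (H i) w),
        hA i, hB1 i, hB2 i, hD.Γ_cs_ae FA.1 wA.1, hD.Γ_cs_ae FA.1 vA.1, hD.Γ_cs_ae HA.1 wA.1,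
        hD.Γ_cs_ae HA.1 vA.1, hD.Γ_nonneg_ae wA.1, hD.Γ_nonneg_ae vA.1, hD.Γ_nonneg_ae FA.1,
        hD.Γ_nonneg_ae HA.1] with x b1 b2 b3 b4 b5 b6 b7 c1 c2 c3 c4 c5 c6 c7 c8
      have d1 : ∀ {p q r B : ℝ}, p ^ 2 ≤ q * r → 0 ≤ q → |q| ≤ B → 0 ≤ r → |p| ≤ √|B| * √r := by
        intro p q r B e1 e0 e2 e3
        refine abs_le_of_sq_le_sq ?_ (by positivity)
        rw [mul_pow, Real.sq_sqrt (abs_nonneg _), Real.sq_sqrt e3]
        refine e1.trans (mul_le_mul_of_nonneg_right ?_ e3)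
        exact (le_abs_self _).trans (e2.trans (le_abs_self _))
      have f1 := d1 c1 c7 b6 c5
      have f2 := d1 c2 c7 b6 c6
      have f3 := d1 c3 c8 b7 c5
      have f4 := d1 c4 c8 b7 c6
      rw [b1, b2, b3, b4, abs_mul]
      have g1 : |C.Γ (F i) w x * C.Γ (H i) v x + C.Γ (F i) v x * C.Γ (H i) w x| ≤
          2 * (√|B1 i| * √|B2 i|) * (√(C.Γ w w x) * √(C.Γ v v x)) := by
        refine (abs_add_le _ _).trans ?_
        rw [abs_mul, abs_mul]
        have g2 := mul_le_mul f1 f4 (abs_nonneg _) (by positivity)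
        have g3 := mul_le_mul f2 f3 (abs_nonneg _) (by positivity)
        calc _ ≤ _ := add_le_add g2 g3
          _ = _ := by ring
      rw [mul_assoc |A i|]
      refine mul_le_mul (b5.trans (le_abs_self _)) g1 (abs_nonneg _) (abs_nonneg _)
    -- integrate
    have hw2 : MemLp (fun x => √(C.Γ w w x)) 2 m := by
      rw [memLp_two_iff_integrable_sq
        (Real.continuous_sqrt.comp_aestronglyMeasurable (C.Γ w w).aestronglyMeasurable)]
      refine (int_of_mem (hC.mem1 _ wA.1)).congr ?_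
      filter_upwards [hD.Γ_nonneg_ae wA.1] with x hx
      rw [Real.sq_sqrt hx]
    have hv2 : MemLp (fun x => √(C.Γ v v x)) 2 m := by
      rw [memLp_two_iff_integrable_sq
        (Real.continuous_sqrt.comp_aestronglyMeasurable (C.Γ v v).aestronglyMeasurable)]
      refine (int_of_mem (hC.mem1 _ vA.1)).congr ?_
      filter_upwards [hD.Γ_nonneg_ae vA.1] with x hx
      rw [Real.sq_sqrt hx]
    have k2 : ∫ x, √(C.Γ w w x) * √(C.Γ v v x) ∂m ≤ √(I (C.Γ w w)) * √(I (C.Γ v v)) := by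
      have := integral_mul_le_Lp_mul_Lq_of_nonneg (μ := m) (p := 2) (q := 2)
        (f := fun x => √(C.Γ w w x)) (g := fun x => √(C.Γ v v x))
        (by norm_num [Real.holderConjugate_iff]) (Eventually.of_forall fun x => Real.sqrt_nonneg _)
        (Eventually.of_forall fun x => Real.sqrt_nonneg _) (by simpa using hw2) (by simpa using hv2)
      refine this.trans (le_of_eq ?_)
      unfold I
      rw [Real.sqrt_eq_rpow, Real.sqrt_eq_rpow]
      congr 2
      · refine integral_congr_ae ?_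
        filter_upwards [hD.Γ_nonneg_ae wA.1] with x hx
        rw [Real.rpow_two, Real.sq_sqrt hx]
      · refine integral_congr_ae ?_
        filter_upwards [hD.Γ_nonneg_ae vA.1] with x hx
        rw [Real.rpow_two, Real.sq_sqrt hx]
    have k3 : Integrable (fun x => √(C.Γ w w x) * √(C.Γ v v x)) m := hw2.integrable_mul hv2
    calc |I (s i * C.MM w v (F i) (H i))|
        ≤ ∫ x, |(s i * C.MM w v (F i) (H i) : M →ₘ[m] ℝ) x| ∂m := abs_integral_le_integral_abs
      _ ≤ ∫ x, |A i| * (2 * (√|B1 i| * √|B2 i|)) * (√(C.Γ w w x) * √(C.Γ v v x)) ∂m := by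
          refine integral_mono_ae ?_ (k3.const_mul _) k1
          exact (int_of_mem (mem_mul_top (hs i) (hC.MM_mem1 hB hw hv (hF i) (hH i)))).abs
      _ ≤ _ := by
          rw [integral_const_mul]
          exact mul_le_mul_of_nonneg_left k2 (by positivity)
  have h9 : |∑ i, I (s i * C.MM w v (F i) (H i))| ≤
      (∑ i, |A i| * (2 * (√|B1 i| * √|B2 i|))) * (√(I (C.Γ w w)) * √(I (C.Γ v v))) := by
    refine (Finset.abs_sum_le_sum_abs _ _).trans ?_
    rw [Finset.sum_mul]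
    exact Finset.sum_le_sum fun i _ => h8 i
  have h10 := abs_le.1 h5
  have h11 := abs_le.1 h9
  rw [abs_le]
  constructor <;> linarith [h10.1, h10.2, h11.1, h11.2]

end IsGamma

end Vale.Agent.P233
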