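import Vale.Agent.P233.AB.Ext1
import Vale.Agent.P233.AB.Core

set_option linter.all false

open MeasureTheory Filter Topology
open scoped ENNReal NNReal

namespace Vale.Agent.P233

variable {M : Type*} [MeasurableSpace M] {m : Measure M} {C : Calc m}

/-! ### modes of convergence -/

/-- convergence in `L²` -/
structure T2 (X : ℕ → M →ₘ[m] ℝ) (x : M →ₘ[m] ℝ) : Prop where
  mem : ∀ n, MemLp (X n) 2 m
  mem' : MemLp x 2 m
  lim : Tendsto (fun n => I ((X n - x) ^ 2)) atTop (𝓝 0)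

/-- bounded convergence a.e. -/
structure Tb (X : ℕ → M →ₘ[m] ℝ) (x : M →ₘ[m] ℝ) : Prop where
  bd : ∃ K : ℝ, ∀ n, ∀ᵐ y ∂m, |X n y| ≤ K
  lim : ∀ᵐ y ∂m, Tendsto (fun n => X n y) atTop (𝓝 (x y))

/-- convergence in the Sobolev norm -/
structure Calc.TW (C : Calc m) (X : ℕ → M →ₘ[m] ℝ) (x : M →ₘ[m] ℝ) : Prop where
  mem : ∀ n, X n ∈ C.W
  mem' : x ∈ C.W
  lim : Tendsto (fun n => C.nrm2 (X n - x)) atTop (𝓝 0)

/-- convergence of test functions -/
structure Calc.Cv (C : Calc m) (u : ℕ → M →ₘ[m] ℝ) (a : M →ₘ[m] ℝ) : Prop where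
  test : ∀ n, u n ∈ C.Test
  lim : a ∈ C.Test
  W : Tendsto (fun n => C.nrm2 (u n - a)) atTop (𝓝 0)
  lap : Tendsto (fun n => I ((C.lap (u n) - C.lap a) ^ 2)) atTop (𝓝 0)
  bd : ∃ K : ℝ, ∀ n, ∀ᵐ x ∂m, C.Γ (u n - a) (u n - a) x ≤ K
  ae : ∀ᵐ x ∂m, Tendsto (fun n => C.Γ (u n - a) (u n - a) x) atTop (𝓝 0)

section basic

variable {X Y : ℕ → M →ₘ[m] ℝ} {x y : M →ₘ[m] ℝ}

theorem Tb.mem (h : Tb X x) (n : ℕ) : MemLp (X n) ∞ m := by
  obtain ⟨K, hK⟩ := h.bd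
  exact mem_top_iff.2 ⟨K, hK n⟩

theorem Tb.bd' (h : Tb X x) {K : ℝ} (hK : ∀ n, ∀ᵐ y ∂m, |X n y| ≤ K) : ∀ᵐ y ∂m, |x y| ≤ K := by
  filter_upwards [h.lim, ae_all_iff.2 hK] with y h1 h2
  exact le_of_tendsto' h1.abs h2

theorem Tb.mem' (h : Tb X x) : MemLp x ∞ m := by
  obtain ⟨K, hK⟩ := h.bd
  exact mem_top_iff.2 ⟨K, h.bd' hK⟩

theorem Tb.const (hx : MemLp x ∞ m) : Tb (fun _ => x) x := by
  obtain ⟨K, hK⟩ := mem_top_iff.1 hx
  exact ⟨⟨K, fun _ => hK⟩, by filter_upwards with y; exact tendsto_const_nhds⟩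

theorem T2.const (hx : MemLp x 2 m) : T2 (fun _ => x) x := by
  refine ⟨fun _ => hx, hx, ?_⟩
  have : (x - x) ^ 2 = 0 := by ring
  simp only [this, I_zero]
  exact tendsto_const_nhds

theorem T2.add (h1 : T2 X x) (h2 : T2 Y y) : T2 (fun n => X n + Y n) (x + y) := by
  refine ⟨fun n => mem_add (h1.mem n) (h2.mem n), mem_add h1.mem' h2.mem', ?_⟩
  refine squeeze_zero (fun n => I_sq_nonneg _) (fun n => ?_)
    (by simpa using (h1.lim.const_mul 2).add (h2.lim.const_mul 2))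
  have := I_sq_add_le (mem_sub (h1.mem n) h1.mem') (mem_sub (h2.mem n) h2.mem')
  have e : X n - x + (Y n - y) = X n + Y n - (x + y) := by ring
  rwa [e] at this

theorem T2.smul (c : ℝ) (h1 : T2 X x) : T2 (fun n => c • X n) (c • x) := by
  refine ⟨fun n => mem_smul _ (h1.mem n), mem_smul _ h1.mem', ?_⟩
  have e : ∀ n, I ((c • X n - c • x) ^ 2) = c ^ 2 * I ((X n - x) ^ 2) := by
    intro n; rw [← I_smul]; congr 1; algebra
  simp only [e]
  simpa using h1.lim.const_mul (c ^ 2)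

theorem T2.neg (h1 : T2 X x) : T2 (fun n => -X n) (-x) := by
  have := h1.smul (-1)
  simpa using this

theorem T2.sub (h1 : T2 X x) (h2 : T2 Y y) : T2 (fun n => X n - Y n) (x - y) := by
  simpa [sub_eq_add_neg] using h1.add h2.neg

/-- the integral of a product -/
theorem T2.mul_lim (h1 : T2 X x) (h2 : T2 Y y) :
    Tendsto (fun n => I (X n * Y n)) atTop (𝓝 (I (x * y))) := by
  rw [tendsto_iff_dist_tendsto_zero]
  have l1 := (Real.continuous_sqrt.tendsto 0).comp h1.lim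
  have l2 := (Real.continuous_sqrt.tendsto 0).comp h2.lim
  simp only [Real.sqrt_zero, Function.comp_def] at l1 l2
  have hlim : Tendsto (fun n => √(I ((X n - x) ^ 2)) * √(I ((Y n - y) ^ 2))
      + √(I ((X n - x) ^ 2)) * √(I (y ^ 2)) + √(I (x ^ 2)) * √(I ((Y n - y) ^ 2))) atTop (𝓝 0) := by
    have := ((l1.mul l2).add (l1.mul_const (√(I (y ^ 2))))).add (l2.const_mul (√(I (x ^ 2))))
    simpa using this
  refine squeeze_zero (fun n => dist_nonneg) (fun n => ?_) hlim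
  have a1 := mem_sub (h1.mem n) h1.mem'
  have a2 := mem_sub (h2.mem n) h2.mem'
  have e : X n * Y n = (X n - x) * (Y n - y) + (X n - x) * y + x * (Y n - y) + x * y := by ring
  rw [Real.dist_eq, e, I_add (mem_add (mem_add (mem_mul_22 a1 a2) (mem_mul_22 a1 h2.mem'))
    (mem_mul_22 h1.mem' a2)) (mem_mul_22 h1.mem' h2.mem'),
    I_add (mem_add (mem_mul_22 a1 a2) (mem_mul_22 a1 h2.mem')) (mem_mul_22 h1.mem' a2),
    I_add (mem_mul_22 a1 a2) (mem_mul_22 a1 h2.mem'), add_sub_cancel_right]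
  refine (abs_add_le _ _).trans (add_le_add ((abs_add_le _ _).trans (add_le_add ?_ ?_)) ?_)
  · exact I_abs_le a1 a2
  · exact I_abs_le a1 h2.mem'
  · exact I_abs_le h1.mem' a2

/-- bounded multipliers -/
theorem Tb.mul (h1 : Tb X x) (h2 : T2 Y y) : T2 (fun n => X n * Y n) (x * y) := by
  refine ⟨fun n => mem_mul_top (h1.mem n) (h2.mem n), mem_mul_top h1.mem' h2.mem', ?_⟩
  obtain ⟨K, hK⟩ := h1.bd
  have hx := h1.bd' hK
  have l1 : Tendsto (fun n => I ((X n - x) ^ 2 * y ^ 2)) atTop (𝓝 0) := by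
    have := I_tendsto_of_bdd (u := fun n => (X n - x) ^ 2) (v := 0) (G := y ^ 2) (K := (2 * |K|) ^ 2)
      (fun n => ?_) ?_ (mem_sq h2.mem')
    · rwa [zero_mul, I_zero] at this
    · filter_upwards [sq_ae (X n - x), sub_ae (X n) x, hK n, hx] with z b1 b2 b3 b4
      rw [b1, b2, abs_of_nonneg (sq_nonneg _)]
      have : |X n z - x z| ≤ 2 * |K| := (abs_sub _ _).trans (by linarith [le_abs_self K])
      exact sq_le_sq' (by linarith [neg_abs_le (X n z - x z)]) ((le_abs_self _).trans this)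
    · filter_upwards [ae_all_iff.2 fun n => sq_ae (X n - x), ae_all_iff.2 fun n => sub_ae (X n) x,
        h1.lim, zero_ae (M := M) (m := m)] with z b1 b2 b3 b4
      rw [b4]
      simp only [b1, b2]
      have := (b3.sub_const (x z)).pow 2
      simpa using this
  refine squeeze_zero (fun n => I_sq_nonneg _) (fun n => ?_)
    (by simpa using (h2.lim.const_mul (2 * |K| ^ 2)).add (l1.const_mul 2))
  have a2 := mem_sub (h2.mem n) h2.mem'
  have m1 : MemLp (X n * (Y n - y) : M →ₘ[m] ℝ) 2 m := mem_mul_top (h1.mem n) a2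
  have m2 : MemLp ((X n - x) * y : M →ₘ[m] ℝ) 2 m :=
    mem_mul_top (mem_sub (h1.mem n) h1.mem') h2.mem'
  have h3 := I_sq_add_le m1 m2
  have e1 : X n * (Y n - y) + (X n - x) * y = X n * Y n - x * y := by ring
  have e2 : ((X n - x) * y) ^ 2 = (X n - x) ^ 2 * y ^ 2 := by ring
  rw [e1, e2] at h3
  have h4 : I ((X n * (Y n - y)) ^ 2) ≤ |K| ^ 2 * I ((Y n - y) ^ 2) := by
    rw [← I_smul]
    refine I_mono (mem_sq m1) (mem_smul _ (mem_sq a2)) ?_
    rw [le_iff_ae]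
    filter_upwards [sq_ae (X n * (Y n - y)), mul_ae (X n) (Y n - y), sq_ae (Y n - y),
      smul_ae ((Y n - y) ^ 2) (|K| ^ 2), hK n] with z b1 b2 b3 b4 b5
    rw [b1, b2, b4, b3, mul_pow]
    refine mul_le_mul_of_nonneg_right ?_ (sq_nonneg _)
    exact sq_le_sq' (by linarith [neg_abs_le (X n z), le_abs_self K])
      ((le_abs_self _).trans (b5.trans (le_abs_self _)))
  nlinarith

theorem Tb.mul_Tb (h1 : Tb X x) (h2 : Tb Y y) : Tb (fun n => X n * Y n) (x * y) := by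
  obtain ⟨K, hK⟩ := h1.bd
  obtain ⟨L, hL⟩ := h2.bd
  refine ⟨⟨|K| * |L|, fun n => ?_⟩, ?_⟩
  · filter_upwards [mul_ae (X n) (Y n), hK n, hL n] with z b1 b2 b3
    rw [b1, abs_mul]
    exact mul_le_mul (b2.trans (le_abs_self _)) (b3.trans (le_abs_self _)) (abs_nonneg _)
      (abs_nonneg _)
  · filter_upwards [ae_all_iff.2 fun n => mul_ae (X n) (Y n), mul_ae x y, h1.lim, h2.lim]
      with z b1 b2 b3 b4
    rw [b2]
    simp only [b1]
    exact b3.mul b4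

end basic

namespace IsDir

variable (hC : IsDir C)
include hC
variable {X Y : ℕ → M →ₘ[m] ℝ} {x y : M →ₘ[m] ℝ}

theorem TW_const (hx : x ∈ C.W) : C.TW (fun _ => x) x := by
  refine ⟨fun _ => hx, hx, ?_⟩
  have : x - x = 0 := by ring
  simp only [this]
  have e : C.nrm2 (0 : M →ₘ[m] ℝ) = 0 := by
    unfold Calc.nrm2
    rw [hC.Γ_zero_left hC.zero_mem]
    have : (0 : M →ₘ[m] ℝ) ^ 2 = 0 := by ring
    rw [this, I_zero, add_zero]
  rw [e]
  exact tendsto_const_nhds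

theorem TW_T2 (h : C.TW X x) : T2 X x :=
  ⟨fun n => hC.memLp _ (h.mem n), hC.memLp _ h.mem', hC.tendsto_I_sq_of_nrm2 h.mem h.mem' h.lim⟩

theorem TW_E (h : C.TW X x) : Tendsto (fun n => I (C.Γ (X n - x) (X n - x))) atTop (𝓝 0) :=
  hC.tendsto_E_of_nrm2 h.mem h.mem' h.lim

/-- convergence of `∫ f Γ(X,Y)` -/
theorem TW_Γ {f : ℕ → M →ₘ[m] ℝ} {f' : M →ₘ[m] ℝ} (hf : Tb f f') (h1 : C.TW X x)
    (h2 : C.TW Y y) : Tendsto (fun n => I (f n * C.Γ (X n) (Y n))) atTop (𝓝 (I (f' * C.Γ x y))) := by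
  obtain ⟨K, hK⟩ := hf.bd
  have l0 : Tendsto (fun n => I (f n * C.Γ x y)) atTop (𝓝 (I (f' * C.Γ x y))) :=
    I_tendsto_of_bdd hK hf.lim (hC.Γ_mem1 h1.mem' h2.mem')
  have bound : ∀ (n : ℕ) {p q : M →ₘ[m] ℝ}, p ∈ C.W → q ∈ C.W →
      |I (f n * C.Γ p q)| ≤ |K| * (√(I (C.Γ p p)) * √(I (C.Γ q q))) := by
    intro n p q hp hq
    refine le_trans ?_ (mul_le_mul_of_nonneg_left (hC.int_abs_Γ_le hp hq) (abs_nonneg K))
    unfold I
    refine abs_integral_le_integral_abs.trans ?_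
    rw [← integral_const_mul]
    refine integral_mono_ae (int_of_mem (mem_mul_top (hf.mem n) (hC.Γ_mem1 hp hq))).abs
      ((int_of_mem (hC.Γ_mem1 hp hq)).abs.const_mul _) ?_
    filter_upwards [mul_ae (f n) (C.Γ p q), hK n] with z b1 b2
    simp only [b1, abs_mul]
    exact mul_le_mul_of_nonneg_right (b2.trans (le_abs_self _)) (abs_nonneg _)
  have l1 := (Real.continuous_sqrt.tendsto 0).comp (hC.TW_E h1)
  have l2 := (Real.continuous_sqrt.tendsto 0).comp (hC.TW_E h2)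
  simp only [Real.sqrt_zero, Function.comp_def] at l1 l2
  have hlim : Tendsto (fun n => |K| * (√(I (C.Γ (X n - x) (X n - x))) * √(I (C.Γ (Y n - y) (Y n - y))))
      + |K| * (√(I (C.Γ (X n - x) (X n - x))) * √(I (C.Γ y y)))
      + |K| * (√(I (C.Γ x x)) * √(I (C.Γ (Y n - y) (Y n - y))))) atTop (𝓝 0) := by
    have := (((l1.mul l2).const_mul |K|).add ((l1.mul_const (√(I (C.Γ y y)))).const_mul |K|)).add
      ((l2.const_mul (√(I (C.Γ x x)))).const_mul |K|)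
    simpa using this
  have l3 : Tendsto (fun n => I (f n * C.Γ (X n) (Y n)) - I (f n * C.Γ x y)) atTop (𝓝 0) := by
    refine squeeze_zero_norm (fun n => ?_) hlim
    have p1 := hC.sub_mem (h1.mem n) h1.mem'
    have p2 := hC.sub_mem (h2.mem n) h2.mem'
    have e : f n * C.Γ (X n) (Y n) = f n * C.Γ (X n - x) (Y n - y) + f n * C.Γ (X n - x) y
        + f n * C.Γ x (Y n - y) + f n * C.Γ x y := by
      rw [hC.Γ_sub_left (h1.mem n) h1.mem' p2, hC.Γ_sub_left (h1.mem n) h1.mem' h2.mem',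
        hC.Γ_sub_right (h1.mem n) (h2.mem n) h2.mem', hC.Γ_sub_right h1.mem' (h2.mem n) h2.mem']
      ring
    have q : ∀ {p q : M →ₘ[m] ℝ}, p ∈ C.W → q ∈ C.W → MemLp (f n * C.Γ p q) 1 m := fun hp hq =>
      mem_mul_top (hf.mem n) (hC.Γ_mem1 hp hq)
    rw [e, I_add (mem_add (mem_add (q p1 p2) (q p1 h2.mem')) (q h1.mem' p2)) (q h1.mem' h2.mem'),
      I_add (mem_add (q p1 p2) (q p1 h2.mem')) (q h1.mem' p2), I_add (q p1 p2) (q p1 h2.mem'),
      add_sub_cancel_right, Real.norm_eq_abs]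
    exact (abs_add_le _ _).trans (add_le_add ((abs_add_le _ _).trans
      (add_le_add (bound n p1 p2) (bound n p1 h2.mem'))) (bound n h1.mem' p2))
  have := l3.add l0
  simpa using this

end IsDir

namespace IsGamma

variable (hC : IsGamma C) {κ : ℝ} (hB : C.BEi κ)
variable {a b f g h φ ψ v w χ : M →ₘ[m] ℝ}

include hC hB

/-- the energy by duality with test functions -/
theorem E_dual [SigmaFinite m] {G : M →ₘ[m] ℝ} (hG : G ∈ C.W) {B : ℝ} (hB0 : 0 ≤ B)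
    (h : ∀ v ∈ C.Test, |I (C.Γ v G)| ≤ B * √(I (C.Γ v v))) : I (C.Γ G G) ≤ B ^ 2 := by
  have hD := hC.toIsDir
  choose v hv1 hv2 using fun n : ℕ => hC.test_dense hB hG
    (show (0 : ℝ) < ((n : ℝ) + 1)⁻¹ by positivity)
  have hvW := fun n => (hC.test_A (hv1 n)).1
  have hT : C.TW v G := by
    refine ⟨hvW, hG, squeeze_zero (fun n => hD.nrm2_nonneg (hD.sub_mem (hvW n) hG))
      (fun n => (hv2 n).le) tendsto_inv_succ⟩
  have l1 : Tendsto (fun n => I (C.Γ (v n) G)) atTop (𝓝 (I (C.Γ G G))) := by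
    have := hD.TW_Γ (Tb.const (x := (1 : M →ₘ[m] ℝ)) mem_top_one) hT (hD.TW_const hG)
    simpa using this
  have l2 : Tendsto (fun n => I (C.Γ (v n) (v n))) atTop (𝓝 (I (C.Γ G G))) := by
    have := hD.TW_Γ (Tb.const (x := (1 : M →ₘ[m] ℝ)) mem_top_one) hT hT
    simpa using this
  have l3 := ((Real.continuous_sqrt.tendsto _).comp l2).const_mul B
  have h1 : |I (C.Γ G G)| ≤ B * √(I (C.Γ G G)) := le_of_tendsto_of_tendsto' l1.abs l3
    fun n => h _ (hv1 n)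
  have h0 := hD.E_nonneg hG
  rw [abs_of_nonneg h0] at h1
  have h2 : √(I (C.Γ G G)) ≤ B := by
    by_contra hcon
    push Not at hcon
    have h3 := Real.mul_self_sqrt h0
    have h4 : 0 < √(I (C.Γ G G)) := lt_of_le_of_lt hB0 hcon
    nlinarith
  calc I (C.Γ G G) = √(I (C.Γ G G)) ^ 2 := (Real.sq_sqrt h0).symm
    _ ≤ B ^ 2 := pow_le_pow_left₀ (Real.sqrt_nonneg _) h2 2

theorem two_Γ (ha : a ∈ C.Test) (hw : w ∈ C.Test) (hv : v ∈ C.Test) :
    2 * I (C.Γ v (C.Γ a w)) = I (C.KK a w v) + I (C.KK w a v) := by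
  have aA := hC.test_A ha
  have wA := hC.test_A hw
  have vA := hC.test_A hv
  have n1 := hC.Γ_mem1 wA.1 (hC.Γ_mem hB ha hv).1
  have n2 := hC.Γ_mem1 vA.1 (hC.Γ_mem hB ha hw).1
  have n3 := hC.Γ_mem1 aA.1 (hC.Γ_mem hB hw hv).1
  have e1 : C.KK a w v = C.Γ w (C.Γ a v) + C.Γ v (C.Γ a w) - C.Γ a (C.Γ w v) := by
    unfold Calc.KK Calc.hess; algebra
  have e2 : C.KK w a v = C.Γ a (C.Γ w v) + C.Γ v (C.Γ a w) - C.Γ w (C.Γ a v) := by
    unfold Calc.KK Calc.hess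
    rw [hC.symm _ wA.1 _ aA.1]
    algebra
  rw [e1, e2, I_sub (mem_add n1 n2) n3, I_add n1 n2, I_sub (mem_add n3 n2) n1, I_add n3 n2]
  ring

/-- an `L^∞` bound for one factor -/
theorem sqrt_mul_le {K : ℝ} (hw : w ∈ C.Test) (hv : v ∈ C.Test)
    (hK : ∀ᵐ x ∂m, C.Γ w w x ≤ K) : √(I (C.Γ w w * C.Γ v v)) ≤ √|K| * √(I (C.Γ v v)) := by
  have hD := hC.toIsDir
  have wA := hC.test_A hw
  have vA := hC.test_A hv
  rw [← Real.sqrt_mul (abs_nonneg _)]
  refine Real.sqrt_le_sqrt ?_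
  rw [← I_smul]
  refine I_mono (mem_mul_top (hC.test_Γ_top hw) (hC.mem1 _ vA.1)) (mem_smul _ (hC.mem1 _ vA.1)) ?_
  rw [le_iff_ae]
  filter_upwards [mul_ae (C.Γ w w) (C.Γ v v), smul_ae (C.Γ v v) |K|, hK, hD.Γ_nonneg_ae vA.1]
    with x b1 b2 b3 b4
  rw [b1, b2]
  exact mul_le_mul_of_nonneg_right (b3.trans (le_abs_self _)) b4

/-- the energy of `Γ(w,w')` -/
theorem EΓ_le [SigmaFinite m] {w' : M →ₘ[m] ℝ} {K K' : ℝ} (hw : w ∈ C.Test) (hw' : w' ∈ C.Test)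
    (hK : ∀ᵐ x ∂m, C.Γ w w x ≤ K) (hK' : ∀ᵐ x ∂m, C.Γ w' w' x ≤ K') :
    I (C.Γ (C.Γ w w') (C.Γ w w')) ≤
      (√(I (C.lap w ^ 2) - κ * I (C.Γ w w)) * √|K'|
        + √(I (C.lap w' ^ 2) - κ * I (C.Γ w' w')) * √|K|) ^ 2 := by
  refine hC.E_dual hB (hC.Γ_mem hB hw hw').1 (by positivity) fun v hv => ?_
  have h1 := hC.two_Γ hB hw hw' hv
  have h2 := hC.kk_le hB hw hw' hv
  have h3 := hC.kk_le hB hw' hw hv
  have h4 := hC.sqrt_mul_le hB hw hv hK
  have h5 := hC.sqrt_mul_le hB hw' hv hK'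
  have h6 := mul_le_mul_of_nonneg_left h5
    (show 0 ≤ 2 * √(I (C.lap w ^ 2) - κ * I (C.Γ w w)) by positivity)
  have h7 := mul_le_mul_of_nonneg_left h4
    (show 0 ≤ 2 * √(I (C.lap w' ^ 2) - κ * I (C.Γ w' w')) by positivity)
  have h8 : |2 * I (C.Γ v (C.Γ w w'))| ≤ |I (C.KK w w' v)| + |I (C.KK w' w v)| := by
    rw [h1]; exact abs_add_le _ _
  rw [abs_mul, abs_two] at h8
  nlinarith

end IsGamma

end Vale.Agent.P233
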