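import Vale.Agent.P233.AB.Ext2

set_option linter.all false

open MeasureTheory Filter Topology
open scoped ENNReal NNReal

namespace Vale.Agent.P233

variable {M : Type*} [MeasurableSpace M] {m : Measure M} {C : Calc m}

namespace IsGamma

variable (hC : IsGamma C) {κ : ℝ} (hB : C.BEi κ)
variable {a b f k : M →ₘ[m] ℝ} {u v F : ℕ → M →ₘ[m] ℝ}

include hC

theorem Cv_const (ha : a ∈ C.Test) : C.Cv (fun _ => a) a := by
  have hD := hC.toIsDir
  have aA := hC.test_A ha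
  have h1 := hD.TW_const aA.1
  have e0 : a - a = 0 := by ring
  have e1 : C.lap a - C.lap a = 0 := by ring
  refine ⟨fun _ => ha, ha, h1.lim, ?_, ⟨0, fun n => ?_⟩, ?_⟩
  · rw [e1]
    have : (0 : M →ₘ[m] ℝ) ^ 2 = 0 := by ring
    rw [this, I_zero]
    exact tendsto_const_nhds
  · rw [e0, hD.Γ_zero_left hD.zero_mem]
    filter_upwards [zero_ae (M := M) (m := m)] with x hx
    rw [hx]
  · rw [e0, hD.Γ_zero_left hD.zero_mem]
    filter_upwards [zero_ae (M := M) (m := m)] with x hx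
    rw [hx]
    exact tendsto_const_nhds

theorem Cv_TW (h : C.Cv u a) : C.TW u a :=
  ⟨fun n => (hC.test_A (h.test n)).1, (hC.test_A h.lim).1, h.W⟩

include hB

theorem Cv_sub_test (h : C.Cv u a) (n : ℕ) : u n - a ∈ C.Test := by
  have := hC.test_add hB (h.test n) (hC.test_smul hB (-1) h.lim)
  have e : u n + (-1 : ℝ) • a = u n - a := by
    rw [neg_one_smul, sub_eq_add_neg]
  rwa [e] at this

theorem Cv_lap_sub (h : C.Cv u a) (n : ℕ) : C.lap (u n - a) = C.lap (u n) - C.lap a := by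
  have e : u n - a = u n + (-1 : ℝ) • a := by rw [neg_one_smul, sub_eq_add_neg]
  rw [e, hC.lap_add hB (h.test n) (hC.test_smul hB (-1) h.lim), hC.lap_smul hB _ h.lim,
    neg_one_smul, sub_eq_add_neg]

/-- the Bochner constant tends to `0` -/
theorem Cv_h2 (h : C.Cv u a) : Tendsto (fun n =>
    √(I (C.lap (u n - a) ^ 2) - κ * I (C.Γ (u n - a) (u n - a)))) atTop (𝓝 0) := by
  have hD := hC.toIsDir
  simp only [hC.Cv_lap_sub hB h]
  have h1 := h.lap.sub ((hD.TW_E (hC.Cv_TW h)).const_mul κ)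
  simp only [mul_zero, sub_zero] at h1
  have := (Real.continuous_sqrt.tendsto 0).comp h1
  simpa [Function.comp_def] using this

/-- `Γ(u,u) → Γ(a,a)` is bounded -/
theorem Cv_bd (h : C.Cv u a) : ∃ K : ℝ, ∀ n, ∀ᵐ x ∂m, C.Γ (u n) (u n) x ≤ K := by
  have hD := hC.toIsDir
  obtain ⟨K, hK⟩ := h.bd
  obtain ⟨L, hL⟩ := mem_top_iff.1 (hC.test_Γ_top h.lim)
  refine ⟨2 * K + 2 * L, fun n => ?_⟩
  have uW := (hC.test_A (h.test n)).1
  have aW := (hC.test_A h.lim).1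
  have wW := hD.sub_mem uW aW
  have e := hD.Γ_expand (1 : ℝ) wW aW
  rw [one_smul, mul_one, one_pow, one_smul, sub_add_cancel] at e
  rw [e]
  filter_upwards [hK n, hL, add_ae (C.Γ (u n - a) (u n - a) + (2 : ℝ) • C.Γ (u n - a) a) (C.Γ a a),
    add_ae (C.Γ (u n - a) (u n - a)) ((2 : ℝ) • C.Γ (u n - a) a), smul_ae (C.Γ (u n - a) a) (2 : ℝ),
    hD.Γ_cs_ae wW aW, hD.Γ_nonneg_ae wW, hD.Γ_nonneg_ae aW] with x b1 b2 b3 b4 b5 b6 b7 b8
  rw [b3, b4, b5]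
  have b9 := (le_abs_self _).trans b2
  have b10 : C.Γ (u n - a) a x ≤ (C.Γ (u n - a) (u n - a) x + C.Γ a a x) / 2 := by
    nlinarith [sq_nonneg (C.Γ (u n - a) (u n - a) x - C.Γ a a x),
      sq_nonneg (C.Γ (u n - a) a x - (C.Γ (u n - a) (u n - a) x + C.Γ a a x) / 2)]
  linarith

/-- one of the factors tends to `0` -/
theorem Cv_Γ_zero [SigmaFinite m] (h : C.Cv u a) (hb : b ∈ C.Test) :
    Tendsto (fun n => I (C.Γ (C.Γ b (u n - a)) (C.Γ b (u n - a)))) atTop (𝓝 0) := by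
  have hD := hC.toIsDir
  have bA := hC.test_A hb
  obtain ⟨K, hK⟩ := h.bd
  obtain ⟨L, hL⟩ := mem_top_iff.1 (hC.test_Γ_top hb)
  have hw := hC.Cv_sub_test hB h
  have hwA := fun n => hC.test_A (hw n)
  have lE := (Real.continuous_sqrt.tendsto 0).comp (hD.TW_E (hC.Cv_TW h))
  simp only [Real.sqrt_zero, Function.comp_def] at lE
  have lh := hC.Cv_h2 hB h
  rw [Metric.tendsto_atTop']
  intro ε hε
  set δ : ℝ := √ε / (√|K| + 1) with hδ
  have hδ0 : 0 < δ := by positivity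
  obtain ⟨Λ, hΛ0, hΛ⟩ := hC.hess_approx2 hB hb hδ0
  -- the bound
  have key : ∀ n, I (C.Γ (C.Γ b (u n - a)) (C.Γ b (u n - a))) ≤
      ((Λ * √(I (C.Γ (u n - a) (u n - a))) + δ * √|K|
        + 2 * √(I (C.lap (u n - a) ^ 2) - κ * I (C.Γ (u n - a) (u n - a))) * √|L|) / 2) ^ 2 := by
    intro n
    refine hC.E_dual hB (hC.Γ_mem hB hb (hw n)).1 (by positivity) fun v hv => ?_
    have h1 := hC.two_Γ hB hb (hw n) hv
    have h2 := hΛ _ (hw n) v hv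
    have h3 := hC.kk_le hB (hw n) hb hv
    have h4 := hC.sqrt_mul_le hB (hw n) hv (hK n)
    have h5 := hC.sqrt_mul_le hB hb hv (by filter_upwards [hL] with x hx; exact (le_abs_self _).trans hx)
    have h6 := mul_le_mul_of_nonneg_left h5
      (show 0 ≤ 2 * √(I (C.lap (u n - a) ^ 2) - κ * I (C.Γ (u n - a) (u n - a))) by positivity)
    have h7 := mul_le_mul_of_nonneg_left h4 hδ0.le
    have h8 : |2 * I (C.Γ v (C.Γ b (u n - a)))| ≤ |I (C.KK b (u n - a) v)| + |I (C.KK (u n - a) b v)| := by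
      rw [h1]; exact abs_add_le _ _
    rw [abs_mul, abs_two] at h8
    nlinarith
  have hlim : Tendsto (fun n => (Λ * √(I (C.Γ (u n - a) (u n - a))) + δ * √|K|
        + 2 * √(I (C.lap (u n - a) ^ 2) - κ * I (C.Γ (u n - a) (u n - a))) * √|L|) / 2) atTop
        (𝓝 ((Λ * 0 + δ * √|K| + 2 * 0 * √|L|) / 2)) :=
    (((lE.const_mul Λ).add_const _).add ((lh.const_mul 2).mul_const _)).div_const 2
  have hlt : (Λ * 0 + δ * √|K| + 2 * 0 * √|L|) / 2 < √ε := by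
    have h1 : δ * √|K| < √ε := by
      rw [hδ, div_mul_eq_mul_div, div_lt_iff₀ (by positivity)]
      have : 0 < √ε := Real.sqrt_pos.2 hε
      nlinarith [Real.sqrt_nonneg |K|]
    have : 0 < √ε := Real.sqrt_pos.2 hε
    linarith
  obtain ⟨N, hN⟩ := eventually_atTop.1 (hlim.eventually (gt_mem_nhds hlt))
  refine ⟨N, fun n hn => ?_⟩
  have h1 := hN n hn.le
  have h0 := hD.E_nonneg (hC.Γ_mem hB hb (hw n)).1
  rw [Real.dist_eq, sub_zero, abs_of_nonneg h0]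
  refine (key n).trans_lt ?_
  have h2 : 0 ≤ (Λ * √(I (C.Γ (u n - a) (u n - a))) + δ * √|K|
        + 2 * √(I (C.lap (u n - a) ^ 2) - κ * I (C.Γ (u n - a) (u n - a))) * √|L|) / 2 := by
    positivity
  calc _ < √ε ^ 2 := pow_lt_pow_left₀ h1 h2 two_ne_zero
    _ = ε := Real.sq_sqrt hε.le

/-- an `L^∞` bound for one factor -/
theorem I_Γsq_le {K : ℝ} {w : M →ₘ[m] ℝ} (ha : a ∈ C.Test) (hw : w ∈ C.W)
    (hK : ∀ᵐ x ∂m, C.Γ a a x ≤ K) : I (C.Γ a w ^ 2) ≤ |K| * I (C.Γ w w) := by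
  have hD := hC.toIsDir
  have aA := hC.test_A ha
  rw [← I_smul]
  refine I_mono (mem_sq (hD.Γ_mem2 aA.1 (hC.test_Γ_top ha) hw)) (mem_smul _ (hC.mem1 _ hw)) ?_
  rw [le_iff_ae]
  filter_upwards [sq_ae (C.Γ a w), smul_ae (C.Γ w w) |K|, hK, hD.Γ_nonneg_ae hw,
    hD.Γ_cs_ae aA.1 hw] with x b1 b2 b3 b4 b5
  rw [b1, b2]
  exact b5.trans (mul_le_mul_of_nonneg_right (b3.trans (le_abs_self _)) b4)

/-- `Γ(u_n,v_n) → Γ(a,b)` in the Sobolev norm -/
theorem Cv_Γ [SigmaFinite m] (h1 : C.Cv u a) (h2 : C.Cv v b) :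
    C.TW (fun n => C.Γ (u n) (v n)) (C.Γ a b) := by
  have hD := hC.toIsDir
  have aA := hC.test_A h1.lim
  have bA := hC.test_A h2.lim
  have hu := hC.Cv_sub_test hB h1
  have hv := hC.Cv_sub_test hB h2
  have uA := fun n => hC.test_A (h1.test n)
  have vA := fun n => hC.test_A (h2.test n)
  have huW := fun n => (hC.test_A (hu n)).1
  have hvW := fun n => (hC.test_A (hv n)).1
  obtain ⟨K, hK⟩ := h1.bd
  obtain ⟨L, hL⟩ := h2.bd
  obtain ⟨Ka, hKa'⟩ := mem_top_iff.1 (hC.test_Γ_top h1.lim)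
  obtain ⟨Kb, hKb'⟩ := mem_top_iff.1 (hC.test_Γ_top h2.lim)
  have hKa : ∀ᵐ x ∂m, C.Γ a a x ≤ Ka := by
    filter_upwards [hKa'] with x hx; exact (le_abs_self _).trans hx
  have hKb : ∀ᵐ x ∂m, C.Γ b b x ≤ Kb := by
    filter_upwards [hKb'] with x hx; exact (le_abs_self _).trans hx
  have e : ∀ n, C.Γ (u n) (v n) - C.Γ a b = (C.Γ (u n - a) (v n - b) + C.Γ a (v n - b))
      + C.Γ b (u n - a) := by
    intro n
    rw [hC.symm _ bA.1 _ (huW n), hC.Γ_sub_left (uA n).1 aA.1 (hvW n),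
      hC.Γ_sub_left (uA n).1 aA.1 bA.1,
      hC.Γ_sub_right (uA n).1 (vA n).1 bA.1, hC.Γ_sub_right aA.1 (vA n).1 bA.1]
    ring
  refine ⟨fun n => (hC.Γ_mem hB (h1.test n) (h2.test n)).1, (hC.Γ_mem hB h1.lim h2.lim).1, ?_⟩
  simp only [e]
  have m1 := fun n => (hC.Γ_mem hB (hu n) (hv n)).1
  have m2 := fun n => (hC.Γ_mem hB h1.lim (hv n)).1
  have m3 := fun n => (hC.Γ_mem hB h2.lim (hu n)).1
  have E1 := hD.TW_E (hC.Cv_TW h1)
  have E2 := hD.TW_E (hC.Cv_TW h2)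
  -- first term
  have l1 : Tendsto (fun n => C.nrm2 (C.Γ (u n - a) (v n - b))) atTop (𝓝 0) := by
    have t1 : Tendsto (fun n => |K| * I (C.Γ (v n - b) (v n - b))) atTop (𝓝 0) := by
      simpa using E2.const_mul |K|
    have t2 : Tendsto (fun n => (√(I (C.lap (u n - a) ^ 2) - κ * I (C.Γ (u n - a) (u n - a))) * √|L|
        + √(I (C.lap (v n - b) ^ 2) - κ * I (C.Γ (v n - b) (v n - b))) * √|K|) ^ 2) atTop (𝓝 0) := by
      have := (((hC.Cv_h2 hB h1).mul_const √|L|).add ((hC.Cv_h2 hB h2).mul_const √|K|)).pow 2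
      simpa using this
    refine squeeze_zero (fun n => hD.nrm2_nonneg (m1 n)) (fun n => ?_) (by simpa using t1.add t2)
    exact add_le_add (hC.I_Γsq_le hB (hu n) (hvW n) (hK n))
      (hC.EΓ_le hB (hu n) (hv n) (hK n) (hL n))
  have l2 : Tendsto (fun n => C.nrm2 (C.Γ a (v n - b))) atTop (𝓝 0) := by
    have t1 : Tendsto (fun n => |Ka| * I (C.Γ (v n - b) (v n - b))) atTop (𝓝 0) := by
      simpa using E2.const_mul |Ka|
    refine squeeze_zero (fun n => hD.nrm2_nonneg (m2 n)) (fun n => ?_)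
      (by simpa using t1.add (hC.Cv_Γ_zero hB h2 h1.lim))
    exact add_le_add (hC.I_Γsq_le hB h1.lim (hvW n) hKa) le_rfl
  have l3 : Tendsto (fun n => C.nrm2 (C.Γ b (u n - a))) atTop (𝓝 0) := by
    have t1 : Tendsto (fun n => |Kb| * I (C.Γ (u n - a) (u n - a))) atTop (𝓝 0) := by
      simpa using E1.const_mul |Kb|
    refine squeeze_zero (fun n => hD.nrm2_nonneg (m3 n)) (fun n => ?_)
      (by simpa using t1.add (hC.Cv_Γ_zero hB h1 h2.lim))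
    exact add_le_add (hC.I_Γsq_le hB h2.lim (huW n) hKb) le_rfl
  refine squeeze_zero (fun n => hD.nrm2_nonneg (hD.add_mem _ (hD.add_mem _ (m1 n) _ (m2 n)) _ (m3 n)))
    (fun n => ?_) (by simpa using (((l1.const_mul 2).add (l2.const_mul 2)).const_mul 2).add (l3.const_mul 2))
  have q1 := hD.nrm2_add_le (hD.add_mem _ (m1 n) _ (m2 n)) (m3 n)
  have q2 := hD.nrm2_add_le (m1 n) (m2 n)
  linarith

/-- `Γ(u_n,G_n) → Γ(a,G)` in `L²` -/
theorem Cv_Γ2 [SigmaFinite m] {G : ℕ → M →ₘ[m] ℝ} {G' : M →ₘ[m] ℝ} (h1 : C.Cv u a)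
    (h2 : C.TW G G') : T2 (fun n => C.Γ (u n) (G n)) (C.Γ a G') := by
  have hD := hC.toIsDir
  have aA := hC.test_A h1.lim
  have uA := fun n => hC.test_A (h1.test n)
  have hu := hC.Cv_sub_test hB h1
  have huW := fun n => (hC.test_A (hu n)).1
  obtain ⟨K, hK⟩ := hC.Cv_bd hB h1
  obtain ⟨L, hL⟩ := h1.bd
  have dW := fun n => hD.sub_mem (h2.mem n) h2.mem'
  have n1 := fun n => hD.Γ_mem2 (uA n).1 (hC.test_Γ_top (h1.test n)) (dW n)
  have n2 := fun n => hD.Γ_mem2 (huW n) (hC.test_Γ_top (hu n)) h2.mem'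
  refine ⟨fun n => hD.Γ_mem2 (uA n).1 (hC.test_Γ_top (h1.test n)) (h2.mem n),
    hD.Γ_mem2 aA.1 (hC.test_Γ_top h1.lim) h2.mem', ?_⟩
  have t1 : Tendsto (fun n => |K| * I (C.Γ (G n - G') (G n - G'))) atTop (𝓝 0) := by
    simpa using (hD.TW_E h2).const_mul |K|
  have t2 : Tendsto (fun n => I (C.Γ (u n - a) (u n - a) * C.Γ G' G')) atTop (𝓝 0) := by
    have := I_tendsto_of_bdd (u := fun n => C.Γ (u n - a) (u n - a)) (v := 0) (G := C.Γ G' G')
      (K := L) (fun n => ?_) ?_ (hC.mem1 _ h2.mem')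
    · rwa [zero_mul, I_zero] at this
    · filter_upwards [hL n, hD.Γ_nonneg_ae (huW n)] with x b1 b2
      rwa [abs_of_nonneg b2]
    · filter_upwards [h1.ae, zero_ae (M := M) (m := m)] with x b1 b2
      rw [b2]; exact b1
  refine squeeze_zero (fun n => I_sq_nonneg _) (fun n => ?_)
    (by simpa using (t1.const_mul 2).add (t2.const_mul 2))
  have e : C.Γ (u n) (G n) - C.Γ a G' = C.Γ (u n) (G n - G') + C.Γ (u n - a) G' := by
    rw [hC.Γ_sub_right (uA n).1 (h2.mem n) h2.mem', hC.Γ_sub_left (uA n).1 aA.1 h2.mem']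
    ring
  rw [e]
  have q1 := I_sq_add_le (n1 n) (n2 n)
  have q2 := hC.I_Γsq_le hB (h1.test n) (dW n) (hK n)
  have q3 : I (C.Γ (u n - a) G' ^ 2) ≤ I (C.Γ (u n - a) (u n - a) * C.Γ G' G') := by
    refine I_mono (mem_sq (n2 n)) (mem_mul_top (hC.test_Γ_top (hu n)) (hC.mem1 _ h2.mem')) ?_
    rw [le_iff_ae]
    filter_upwards [sq_ae (C.Γ (u n - a) G'), mul_ae (C.Γ (u n - a) (u n - a)) (C.Γ G' G'),
      hD.Γ_cs_ae (huW n) h2.mem'] with x b1 b2 b3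
    rw [b1, b2]; exact b3
  linarith

/-- `Γ(u_n,v_n)` converges boundedly along the sequence -/
theorem Cv_Γb [SigmaFinite m] (h1 : C.Cv u a) (h2 : C.Cv v b) :
    Tb (fun n => C.Γ (u n) (v n)) (C.Γ a b) := by
  have hD := hC.toIsDir
  have aA := hC.test_A h1.lim
  have bA := hC.test_A h2.lim
  have uA := fun n => hC.test_A (h1.test n)
  have vA := fun n => hC.test_A (h2.test n)
  have hu := fun n => (hC.test_A (hC.Cv_sub_test hB h1 n)).1
  have hv := fun n => (hC.test_A (hC.Cv_sub_test hB h2 n)).1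
  obtain ⟨K, hK⟩ := hC.Cv_bd hB h1
  obtain ⟨L, hL⟩ := hC.Cv_bd hB h2
  refine ⟨⟨√|K| * √|L|, fun n => ?_⟩, ?_⟩
  · filter_upwards [hK n, hL n, hD.Γ_cs_ae (uA n).1 (vA n).1, hD.Γ_nonneg_ae (uA n).1,
      hD.Γ_nonneg_ae (vA n).1] with x b1 b2 b3 b4 b5
    refine abs_le_of_sq_le_sq ?_ (by positivity)
    rw [mul_pow, Real.sq_sqrt (abs_nonneg _), Real.sq_sqrt (abs_nonneg _)]
    exact b3.trans (mul_le_mul (b1.trans (le_abs_self _)) (b2.trans (le_abs_self _)) b5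
      (abs_nonneg _))
  · have e : ∀ n, C.Γ (u n) (v n) = C.Γ (u n - a) (v n - b) + C.Γ a (v n - b)
        + C.Γ b (u n - a) + C.Γ a b := by
      intro n
      rw [hC.symm _ bA.1 _ (hu n), hC.Γ_sub_left (uA n).1 aA.1 (hv n),
        hC.Γ_sub_left (uA n).1 aA.1 bA.1,
        hC.Γ_sub_right (uA n).1 (vA n).1 bA.1, hC.Γ_sub_right aA.1 (vA n).1 bA.1]
      ring
    have ea : ∀ᵐ x ∂m, ∀ n, C.Γ (u n) (v n) x = C.Γ (u n - a) (v n - b) x + C.Γ a (v n - b) x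
        + C.Γ b (u n - a) x + C.Γ a b x := by
      rw [ae_all_iff]
      intro n
      rw [e n]
      filter_upwards [add_ae (C.Γ (u n - a) (v n - b) + C.Γ a (v n - b) + C.Γ b (u n - a)) (C.Γ a b),
        add_ae (C.Γ (u n - a) (v n - b) + C.Γ a (v n - b)) (C.Γ b (u n - a)),
        add_ae (C.Γ (u n - a) (v n - b)) (C.Γ a (v n - b))] with x b1 b2 b3
      rw [b1, b2, b3]
    filter_upwards [ea, h1.ae, h2.ae, ae_all_iff.2 fun n => hD.Γ_cs_ae (hu n) (hv n),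
      ae_all_iff.2 fun n => hD.Γ_cs_ae aA.1 (hv n), ae_all_iff.2 fun n => hD.Γ_cs_ae bA.1 (hu n)]
      with x b0 b1 b2 b3 b4 b5
    simp only [b0]
    have sq0 : ∀ {p q : ℕ → ℝ}, (∀ n, p n ^ 2 ≤ q n) → Tendsto q atTop (𝓝 0) →
        Tendsto p atTop (𝓝 0) := by
      intro p q h3 h4
      have h5 : Tendsto (fun n => p n ^ 2) atTop (𝓝 0) :=
        squeeze_zero (fun n => sq_nonneg _) h3 h4
      have h6 := (Real.continuous_sqrt.tendsto 0).comp h5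
      simp only [Function.comp_def, Real.sqrt_zero, Real.sqrt_sq_eq_abs] at h6
      exact (tendsto_zero_iff_abs_tendsto_zero _).2 h6
    have t1 := sq0 b3 (by simpa using b1.mul b2)
    have t2 := sq0 b4 (by simpa using b2.const_mul (C.Γ a a x))
    have t3 := sq0 b5 (by simpa using b1.const_mul (C.Γ b b x))
    simpa using ((t1.add t2).add t3).add_const (C.Γ a b x)

omit hB in
theorem Cv_lap2 (h : C.Cv u a) : T2 (fun n => C.lap (u n)) (C.lap a) :=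
  ⟨fun n => (hC.test_isLap (h.test n)).2.1, (hC.test_isLap h.lim).2.1, h.lap⟩

/-- `div (f ∇a)` converges in `L²` -/
theorem Cv_De [SigmaFinite m] (hF : C.Cv F f) (hFb : Tb F f) (h : C.Cv u a) :
    T2 (fun n => C.De (F n) (u n)) (C.De f a) :=
  (hC.Cv_Γ2 hB hF (hC.Cv_TW h)).add (hFb.mul (hC.Cv_lap2 h))

theorem Cv_HW [SigmaFinite m] {G : ℕ → M →ₘ[m] ℝ} {G' : M →ₘ[m] ℝ} (hF : C.Cv F f) (hFb : Tb F f)
    (h1 : C.Cv u a) (h2 : C.Cv v b) (h3 : C.TW G G') :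
    Tendsto (fun n => C.HW (v n) (u n) (G n) (F n)) atTop (𝓝 (C.HW b a G' f)) := by
  have hD := hC.toIsDir
  have t1 := (hC.Cv_Γ2 hB h2 h3).mul_lim (hC.Cv_De hB hF hFb h1)
  have t2 := hD.TW_Γ hFb h3 (hC.Cv_Γ hB h2 h1)
  have t3 := (hC.Cv_Γ2 hB h1 h3).mul_lim (hC.Cv_De hB hF hFb h2)
  exact ((t1.neg.add t2).add t3).const_mul _

theorem Cv_hess [SigmaFinite m] {p q r : ℕ → M →ₘ[m] ℝ} {p' q' r' : M →ₘ[m] ℝ} (h1 : C.Cv p p')
    (h2 : C.Cv q q') (h3 : C.Cv r r') :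
    T2 (fun n => C.hess (p n) (q n) (r n)) (C.hess p' q' r') :=
  (((hC.Cv_Γ2 hB h2 (hC.Cv_Γ hB h1 h3)).add (hC.Cv_Γ2 hB h3 (hC.Cv_Γ hB h1 h2))).sub
    (hC.Cv_Γ2 hB h1 (hC.Cv_Γ hB h2 h3))).smul _

theorem Cv_S0 [SigmaFinite m] (hF : C.Cv F f) (hFb : Tb F f) (h1 : C.Cv u a) (h2 : C.Cv v b) :
    Tendsto (fun n => C.S0 (u n) (v n) (F n)) atTop (𝓝 (C.S0 a b f)) := by
  have hD := hC.toIsDir
  have t1 := (hC.Cv_De hB hF hFb h1).mul_lim (hC.Cv_hess hB h2 h1 h2)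
  have t2 := (hC.Cv_De hB hF hFb h2).mul_lim (hC.Cv_hess hB h2 h1 h1)
  have t3 := hC.Cv_HW hB hF hFb h1 h2 (hC.Cv_Γ hB h1 h2)
  have t4 := hD.TW_Γ hFb (hC.Cv_Γ hB h1 h1) (hC.Cv_Γ hB h2 h2)
  exact ((t1.neg.add t2).add (t3.const_mul 2)).sub (t4.const_mul _)

omit hC hB in
/-- sums -/
theorem Cv_add (hC : IsGamma C) (hB : C.BEi κ) (h1 : C.Cv u a) (h2 : C.Cv v b) :
    C.Cv (fun n => u n + v n) (a + b) := by
  have hD := hC.toIsDir
  have hu := fun n => (hC.test_A (hC.Cv_sub_test hB h1 n)).1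
  have hv := fun n => (hC.test_A (hC.Cv_sub_test hB h2 n)).1
  have e : ∀ n, u n + v n - (a + b) = (u n - a) + (v n - b) := fun n => by ring
  obtain ⟨K, hK⟩ := h1.bd
  obtain ⟨L, hL⟩ := h2.bd
  have key : ∀ n, ∀ᵐ x ∂m, C.Γ (u n - a + (v n - b)) (u n - a + (v n - b)) x ≤
      2 * C.Γ (u n - a) (u n - a) x + 2 * C.Γ (v n - b) (v n - b) x := by
    intro n
    have e := hD.Γ_expand (1 : ℝ) (hu n) (hv n)
    rw [one_smul, mul_one, one_pow, one_smul] at e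
    rw [e]
    filter_upwards [add_ae (C.Γ (u n - a) (u n - a) + (2 : ℝ) • C.Γ (u n - a) (v n - b))
      (C.Γ (v n - b) (v n - b)), add_ae (C.Γ (u n - a) (u n - a)) ((2 : ℝ) • C.Γ (u n - a) (v n - b)),
      smul_ae (C.Γ (u n - a) (v n - b)) (2 : ℝ), hD.Γ_cs_ae (hu n) (hv n), hD.Γ_nonneg_ae (hu n),
      hD.Γ_nonneg_ae (hv n)] with x b3 b4 b5 b6 b7 b8
    rw [b3, b4, b5]
    have b10 : C.Γ (u n - a) (v n - b) x ≤
        (C.Γ (u n - a) (u n - a) x + C.Γ (v n - b) (v n - b) x) / 2 := by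
      nlinarith [sq_nonneg (C.Γ (u n - a) (u n - a) x - C.Γ (v n - b) (v n - b) x),
        sq_nonneg (C.Γ (u n - a) (v n - b) x
          - (C.Γ (u n - a) (u n - a) x + C.Γ (v n - b) (v n - b) x) / 2)]
    linarith
  refine ⟨fun n => hC.test_add hB (h1.test n) (h2.test n), hC.test_add hB h1.lim h2.lim,
    ?_, ?_, ⟨2 * K + 2 * L, fun n => ?_⟩, ?_⟩
  · simp only [e]
    refine squeeze_zero (fun n => hD.nrm2_nonneg (hD.add_mem _ (hu n) _ (hv n)))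
      (fun n => hD.nrm2_add_le (hu n) (hv n)) (by simpa using (h1.W.const_mul 2).add (h2.W.const_mul 2))
  · have := ((hC.Cv_lap2 h1).add (hC.Cv_lap2 h2)).lim
    refine this.congr fun n => ?_
    rw [hC.lap_add hB (h1.test n) (h2.test n), hC.lap_add hB h1.lim h2.lim]
  · rw [e n]
    filter_upwards [key n, hK n, hL n] with x b1 b2 b3
    linarith
  · simp only [e]
    filter_upwards [ae_all_iff.2 key, h1.ae, h2.ae,
      ae_all_iff.2 fun n => hD.Γ_nonneg_ae (hD.add_mem _ (hu n) _ (hv n))] with x b1 b2 b3 b4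
    exact squeeze_zero b4 b1 (by simpa using (b2.const_mul 2).add (b3.const_mul 2))

/-- **The core inequality passes to limits.** -/
theorem Cv_core [SigmaFinite m] {κ' K : ℝ} (hF : C.Cv F f) (hFb : Tb F f)
    (hF1 : ∀ n, MemLp (F n) 1 m) (hf1 : MemLp f 1 m)
    (hFI : Tendsto (fun n => I (F n)) atTop (𝓝 (I f)))
    (h1 : C.Cv u a) (h2 : C.Cv v b) (hcore : ∀ n, C.CoreAt κ' K (u n) (v n) (F n)) :
    C.CoreAt κ' K a b f := by
  intro k hk t₁ t₂ t₃ ht₁ ht₂ ht₃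
  have hD := hC.toIsDir
  have kA := hC.test_A hk
  have hkT := hD.TW_const kA.1
  have h12 := hC.Cv_add hB h1 h2
  -- products of gradients
  have prod : ∀ {p q r s : ℕ → M →ₘ[m] ℝ} {p' q' r' s' : M →ₘ[m] ℝ}, C.Cv p p' → C.Cv q q' →
      C.Cv r r' → C.Cv s s' → Tendsto (fun n => I (F n * (C.Γ (p n) (q n) * C.Γ (r n) (s n))))
        atTop (𝓝 (I (f * (C.Γ p' q' * C.Γ r' s')))) := by
    intro p q r s p' q' r' s' c1 c2 c3 c4
    have := (hFb.mul (hD.TW_T2 (hC.Cv_Γ hB c1 c2))).mul_lim (hD.TW_T2 (hC.Cv_Γ hB c3 c4))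
    simpa only [mul_assoc] using this
  have nprod : ∀ {p q r s g : M →ₘ[m] ℝ}, p ∈ C.Test → q ∈ C.Test → r ∈ C.Test → s ∈ C.Test →
      MemLp g ∞ m → MemLp (g * (C.Γ p q * C.Γ r s)) 1 m := by
    intro p q r s g c1 c2 c3 c4 c5
    exact mem_mul_top c5 (mem_mul_top (hC.Γ_mem hB c1 c2).2
      (hC.Γ_mem1 (hC.test_A c3).1 (hC.test_A c4).1))
  -- the left hand side
  have L : Tendsto (fun n => κ' * I (F n * (C.Γ (u n) (u n) * C.Γ (v n) (v n)
      - C.Γ (u n) (v n) ^ 2))) atTop (𝓝 (κ' * I (f * (C.Γ a a * C.Γ b b - C.Γ a b ^ 2)))) := by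
    have e : ∀ {g p q : M →ₘ[m] ℝ}, MemLp g ∞ m → p ∈ C.Test → q ∈ C.Test →
        I (g * (C.Γ p p * C.Γ q q - C.Γ p q ^ 2)) =
          I (g * (C.Γ p p * C.Γ q q)) - I (g * (C.Γ p q * C.Γ p q)) := by
      intro g p q c1 c2 c3
      rw [← I_sub (nprod c2 c2 c3 c3 c1) (nprod c2 c3 c2 c3 c1)]
      congr 1; ring
    rw [e hFb.mem' h1.lim h2.lim]
    simp only [fun n => e (hFb.mem n) (h1.test n) (h2.test n)]
    exact ((prod h1 h1 h2 h2).sub (prod h1 h2 h1 h2)).const_mul _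
  -- the K terms
  have KT : ∀ (t : ℝ) {p : ℕ → M →ₘ[m] ℝ} {p' : M →ₘ[m] ℝ}, C.Cv p p' →
      Tendsto (fun n => I (F n * (C.Γ (p n) (p n) - t • 1) ^ 2)) atTop
        (𝓝 (I (f * (C.Γ p' p' - t • 1) ^ 2))) := by
    intro t p p' c
    have e : ∀ {g q : M →ₘ[m] ℝ}, MemLp g ∞ m → MemLp g 1 m → q ∈ C.Test →
        I (g * (C.Γ q q - t • 1) ^ 2) =
          I (g * (C.Γ q q * C.Γ q q)) - (2 * t) * I (g * C.Γ q q) + t ^ 2 * I g := by
      intro g q c1 c2 c3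
      have n1 := nprod c3 c3 c3 c3 c1
      have n2 : MemLp (g * C.Γ q q) 1 m := mem_mul_top c1 (hC.mem1 _ (hC.test_A c3).1)
      rw [← I_smul, ← I_smul, ← I_sub n1 (mem_smul _ n2), ← I_add (mem_sub n1 (mem_smul _ n2))
        (mem_smul _ c2)]
      congr 1; algebra
    rw [e hFb.mem' hf1 c.lim]
    simp only [fun n => e (hFb.mem n) (hF1 n) (c.test n)]
    have t2 := hD.TW_Γ hFb (hC.Cv_TW c) (hC.Cv_TW c)
    exact ((prod c c c c).sub (t2.const_mul _)).add (hFI.const_mul _)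
  have R : Tendsto (fun n => C.S0 (u n) (v n) (F n) + 6 * C.HW (v n) (u n) k (F n)
        + 3 * I (F n * C.Γ k k)
        + K * (I (F n * (C.Γ (u n) (u n) - t₁ • 1) ^ 2) + I (F n * (C.Γ (v n) (v n) - t₂ • 1) ^ 2)
          + I (F n * (C.Γ (u n + v n) (u n + v n) - t₃ • 1) ^ 2))) atTop
      (𝓝 (C.S0 a b f + 6 * C.HW b a k f + 3 * I (f * C.Γ k k)
        + K * (I (f * (C.Γ a a - t₁ • 1) ^ 2) + I (f * (C.Γ b b - t₂ • 1) ^ 2)
          + I (f * (C.Γ (a + b) (a + b) - t₃ • 1) ^ 2)))) :=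
    (((hC.Cv_S0 hB hF hFb h1 h2).add ((hC.Cv_HW hB hF hFb h1 h2 hkT).const_mul 6)).add
      ((hD.TW_Γ hFb hkT hkT).const_mul 3)).add
      ((((KT t₁ h1).add (KT t₂ h2)).add (KT t₃ h12)).const_mul K)
  exact le_of_tendsto_of_tendsto' L R fun n => hcore n k hk t₁ t₂ t₃ ht₁ ht₂ ht₃

end IsGamma

end Vale.Agent.P233
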