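import Vale.Agent.P233.AB.Ext3
import Vale.Agent.P233.AB.TI

set_option linter.all false

open MeasureTheory Filter Topology
open scoped ENNReal NNReal

namespace Vale.Agent.P233

variable {M : Type*} [MeasurableSpace M] {m : Measure M} {C : Calc m}

/-- `θ` is a cut-off function for `a` -/
structure Calc.Cut (C : Calc m) (θ a : M →ₘ[m] ℝ) : Prop where
  testI : θ ∈ C.TestI
  nonneg : 0 ≤ θ
  le_one : θ ≤ 1
  mem1 : MemLp θ 1 m
  mul : θ * a = a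
  mulΓ : ∀ g ∈ C.W, θ * C.Γ a g = C.Γ a g
  mulL : θ * C.lap a = C.lap a

/-- a subsequence converging a.e. to `0` -/
theorem exists_subseq_of_I {g : ℕ → M →ₘ[m] ℝ} (hg : ∀ n, MemLp (g n) 1 m) (h0 : ∀ n, 0 ≤ g n)
    (h : Tendsto (fun n => I (g n)) atTop (𝓝 0)) :
    ∃ ns : ℕ → ℕ, StrictMono ns ∧ ∀ᵐ x ∂m, Tendsto (fun n => g (ns n) x) atTop (𝓝 0) := by
  have h1 : Tendsto (fun n => eLpNorm ((⇑(g n) : M → ℝ) - fun _ => (0 : ℝ)) 1 m) atTop (𝓝 0) := by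
    have e : ∀ n, eLpNorm ((⇑(g n) : M → ℝ) - fun _ => (0 : ℝ)) 1 m = ENNReal.ofReal (I (g n)) := by
      intro n
      have : ((⇑(g n) : M → ℝ) - fun _ => (0 : ℝ)) = ⇑(g n) := by funext x; simp
      rw [this, eLpNorm_one_eq_lintegral_enorm]
      unfold I
      rw [ofReal_integral_eq_lintegral_ofReal (int_of_mem (hg n)) (nonneg_iff_ae.1 (h0 n))]
      refine lintegral_congr_ae ?_
      filter_upwards [nonneg_iff_ae.1 (h0 n)] with x hx
      rw [Real.enorm_eq_ofReal hx]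
    simp only [e]
    have := ENNReal.tendsto_ofReal h
    simpa using this
  exact (tendstoInMeasure_of_tendsto_eLpNorm (by norm_num) (fun n => (hg n).1)
    aestronglyMeasurable_const h1).exists_seq_tendsto_ae

/-- two smooth steps -/
theorem exists_steps : ∃ (h t : ℝ → ℝ), ContDiff ℝ 3 h ∧ ContDiff ℝ 3 t ∧ h 0 = 0 ∧ t 0 = 0 ∧
    h 1 = 1 ∧ (∀ x, 0 ≤ h x ∧ h x ≤ 1) ∧ (∀ x, 0 ≤ t x ∧ t x ≤ 1) ∧ (∀ x, t x ≤ 36 * x ^ 2) ∧
    (∀ x, t x * h x = h x) ∧ (∀ x, t x * deriv h x = deriv h x) ∧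
    (∀ x, t x * deriv (deriv h) x = deriv (deriv h) x) := by
  set h : ℝ → ℝ := fun x => Real.smoothTransition (3 * x - 1) with hh
  set t : ℝ → ℝ := fun x => Real.smoothTransition (6 * x - 1) with ht
  have hC : ContDiff ℝ 3 h := Real.smoothTransition.contDiff.comp (by fun_prop)
  have tC : ContDiff ℝ 3 t := Real.smoothTransition.contDiff.comp (by fun_prop)
  have h0 : ∀ x, x ≤ 1 / 3 → h x = 0 := fun x hx =>
    Real.smoothTransition.zero_of_nonpos (by linarith)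
  have t1 : ∀ x, 1 / 3 ≤ x → t x = 1 := fun x hx =>
    Real.smoothTransition.one_of_one_le (by linarith)
  have ev : ∀ x, x < 1 / 3 → h =ᶠ[𝓝 x] fun _ => 0 := by
    intro x hx
    filter_upwards [gt_mem_nhds hx] with y hy
    exact h0 y (le_of_lt hy)
  have d1 : ∀ x, x < 1 / 3 → deriv h x = 0 := by
    intro x hx
    rw [(ev x hx).deriv_eq]; simp
  have d2 : ∀ x, x < 1 / 3 → deriv (deriv h) x = 0 := by
    intro x hx
    have : deriv h =ᶠ[𝓝 x] fun _ => 0 := by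
      filter_upwards [gt_mem_nhds hx] with y hy
      exact d1 y hy
    rw [this.deriv_eq]; simp
  refine ⟨h, t, hC, tC, h0 0 (by norm_num), Real.smoothTransition.zero_of_nonpos (by norm_num),
    Real.smoothTransition.one_of_one_le (by norm_num),
    fun x => ⟨Real.smoothTransition.nonneg _, Real.smoothTransition.le_one _⟩,
    fun x => ⟨Real.smoothTransition.nonneg _, Real.smoothTransition.le_one _⟩, ?_, ?_, ?_, ?_⟩
  · intro x
    rcases le_or_gt x (1 / 6) with hx | hx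
    · have : t x = 0 := Real.smoothTransition.zero_of_nonpos (by linarith)
      rw [this]; positivity
    · have : t x ≤ 1 := Real.smoothTransition.le_one _
      nlinarith
  · intro x
    rcases lt_or_ge x (1 / 3) with hx | hx
    · rw [h0 x hx.le, mul_zero]
    · rw [t1 x hx, one_mul]
  · intro x
    rcases lt_or_ge x (1 / 3) with hx | hx
    · rw [d1 x hx, mul_zero]
    · rw [t1 x hx, one_mul]
  · intro x
    rcases lt_or_ge x (1 / 3) with hx | hx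
    · rw [d2 x hx, mul_zero]
    · rw [t1 x hx, one_mul]

namespace IsGamma

variable (hC : IsGamma C) {κ : ℝ} (hB : C.BEi κ)
variable {a b f k : M →ₘ[m] ℝ} {u v F : ℕ → M →ₘ[m] ℝ}

include hC hB

/-- good cut-off functions with compact support -/
theorem exists_cut2 [SigmaFinite m] : ∃ (χ θ : ℕ → M →ₘ[m] ℝ) (Λ : ℝ), (∀ k, C.Cut (θ k) (χ k)) ∧
    (∀ k, χ k ∈ C.TestI) ∧ (∀ k, 0 ≤ χ k) ∧ (∀ k, ∀ᵐ x ∂m, |χ k x| ≤ 1) ∧
    (∀ᵐ x ∂m, Tendsto (fun k => χ k x) atTop (𝓝 1)) ∧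
    (∀ k, ∀ᵐ x ∂m, |C.lap (χ k) x| ≤ Λ) ∧
    (∀ᵐ x ∂m, Tendsto (fun k => C.lap (χ k) x) atTop (𝓝 0)) ∧
    (∀ k, ∀ᵐ x ∂m, |C.Γ (χ k) (χ k) x| ≤ Λ * ((k : ℝ) + 1)⁻¹) := by
  have hD := hC.toIsDir
  obtain ⟨χ, Λ, hT, h0, hb, hlim, hlap, hlap0, hΓ⟩ := hC.exists_cut hB
  obtain ⟨h, t, hh, ht, hh0, ht0, hh1, hhb, htb, htq, e1, e2, e3⟩ := exists_steps
  have hTI : ∀ k, χ k ∈ C.TestI := fun k => ⟨hT k, mem_top_iff.2 ⟨Λ, hlap k⟩⟩
  choose g g1 g2 g3 g4 using fun k => hC.testI_comp hB (hTI k) h hh hh0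
  choose θ θ1 θ2 θ3 θ4 using fun k => hC.testI_comp hB (hTI k) t ht ht0
  have hh1' : ContDiff ℝ 2 (deriv h) := (contDiff_succ_iff_deriv (n := 2)).1 (by
    norm_num; exact hh) |>.2.2
  have hh2' : ContDiff ℝ 1 (deriv (deriv h)) := (contDiff_succ_iff_deriv (n := 1)).1 (by
    norm_num; exact hh1') |>.2.2
  obtain ⟨B1, hB1⟩ := (isCompact_Icc (a := (-1 : ℝ)) (b := 1)).exists_bound_of_continuousOn
    hh1'.continuous.continuousOn
  obtain ⟨B2, hB2⟩ := (isCompact_Icc (a := (-1 : ℝ)) (b := 1)).exists_bound_of_continuousOn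
    hh2'.continuous.continuousOn
  have hB10 : 0 ≤ B1 := (norm_nonneg _).trans (hB1 0 (by norm_num))
  have hB20 : 0 ≤ B2 := (norm_nonneg _).trans (hB2 0 (by norm_num))
  have hΛ0 : ∀ᵐ x ∂m, 0 ≤ Λ := by
    filter_upwards [hlap 0] with x hx
    exact (abs_nonneg _).trans hx
  have hgΓ : ∀ k, ∀ᵐ x ∂m, |C.Γ (g k) (g k) x| ≤ B1 ^ 2 * (Λ * ((k : ℝ) + 1)⁻¹) := by
    intro k
    have gW := (hC.test_A (g1 k).1).1
    have cW := (hC.test_A (hT k)).1
    have hs : C.Γ (χ k) (g k) = C.Γ (g k) (χ k) := hC.symm _ cW _ gW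
    filter_upwards [g3 k _ gW, g3 k _ cW, hb k, hΓ k] with x b1 b2 b3 b4
    rw [b1, hs, b2]
    have b5 := hB1 _ (abs_le.1 b3)
    rw [Real.norm_eq_abs] at b5
    have e : deriv h (χ k x) * (deriv h (χ k x) * C.Γ (χ k) (χ k) x)
        = deriv h (χ k x) ^ 2 * C.Γ (χ k) (χ k) x := by ring
    rw [e, abs_mul, abs_pow]
    exact mul_le_mul (pow_le_pow_left₀ (abs_nonneg _) b5 2) b4 (abs_nonneg _) (by positivity)
  refine ⟨g, θ, max (B1 * Λ + B2 * Λ) (B1 ^ 2 * Λ), fun k => ?_, g1, fun k => ?_, fun k => ?_, ?_,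
    fun k => ?_, ?_, fun k => ?_⟩
  · refine ⟨θ1 k, ?_, ?_, ?_, ?_, fun q hq => ?_, ?_⟩
    · rw [nonneg_iff_ae]
      filter_upwards [θ2 k] with x hx
      rw [hx]; exact (htb _).1
    · rw [le_iff_ae]
      filter_upwards [θ2 k, one_ae (M := M) (m := m)] with x hx h1
      rw [hx, h1]; exact (htb _).2
    · refine mem_of_le (mem_smul (36 : ℝ) (mem_sq (hC.memLp _ (hC.test_A (hT k)).1))) ?_
      filter_upwards [θ2 k, smul_ae (χ k ^ 2) (36 : ℝ), sq_ae (χ k)] with x b1 b2 b3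
      rw [b1, b2, b3, abs_of_nonneg (htb _).1]
      exact (htq _).trans (le_abs_self _)
    · rw [eq_iff_ae]
      filter_upwards [mul_ae (θ k) (g k), θ2 k, g2 k] with x b1 b2 b3
      rw [b1, b2, b3, e1]
    · rw [eq_iff_ae]
      filter_upwards [mul_ae (θ k) (C.Γ (g k) q), θ2 k, g3 k q hq] with x b1 b2 b3
      rw [b1, b2, b3, ← mul_assoc, e2]
    · rw [eq_iff_ae]
      filter_upwards [mul_ae (θ k) (C.lap (g k)), θ2 k, g4 k] with x b1 b2 b3
      rw [b1, b2, b3, mul_add, ← mul_assoc, ← mul_assoc, e2, e3]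
  · rw [nonneg_iff_ae]
    filter_upwards [g2 k] with x hx
    rw [hx]; exact (hhb _).1
  · filter_upwards [g2 k] with x hx
    rw [hx, abs_of_nonneg (hhb _).1]; exact (hhb _).2
  · filter_upwards [ae_all_iff.2 g2, hlim] with x b1 b2
    simp only [b1]
    have := (hh.continuous.tendsto 1).comp b2
    rwa [hh1] at this
  · filter_upwards [g4 k, hlap k, hΓ k, hb k, hΛ0] with x b1 b2 b3 b4 b5
    rw [b1]
    have c1 := hB1 _ (abs_le.1 b4)
    have c2 := hB2 _ (abs_le.1 b4)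
    rw [Real.norm_eq_abs] at c1 c2
    refine (abs_add_le _ _).trans (le_trans ?_ (le_max_left _ _))
    rw [abs_mul, abs_mul]
    refine add_le_add (mul_le_mul c1 b2 (abs_nonneg _) hB10)
      (mul_le_mul c2 (b3.trans ?_) (abs_nonneg _) hB20)
    have h1 : ((k : ℝ) + 1)⁻¹ ≤ 1 := inv_le_one_of_one_le₀ (by
      have : (0 : ℝ) ≤ k := Nat.cast_nonneg k
      linarith)
    nlinarith
  · filter_upwards [ae_all_iff.2 g4, hlim, hlap0, ae_all_iff.2 hΓ] with x b1 b2 b3 b4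
    simp only [b1]
    have c1 := ((hh1'.continuous.tendsto 1).comp b2).mul b3
    have c3 : Tendsto (fun k => C.Γ (χ k) (χ k) x) atTop (𝓝 0) :=
      squeeze_zero_norm (a := fun n : ℕ => Λ * ((n : ℝ) + 1)⁻¹) (fun n => by
        rw [Real.norm_eq_abs]; exact b4 n) (by simpa using tendsto_inv_succ.const_mul Λ)
    have c2 := ((hh2'.continuous.tendsto 1).comp b2).mul c3
    simpa using c1.add c2
  · filter_upwards [hgΓ k] with x b1
    refine b1.trans ?_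
    rw [← mul_assoc]
    exact mul_le_mul_of_nonneg_right (le_max_right _ _) (by positivity)

theorem cut_mul {θ χ : M →ₘ[m] ℝ} (h : C.Cut θ χ) (hχ : χ ∈ C.TestI) (ha : a ∈ C.Test) :
    C.Cut θ (χ * a) := by
  refine ⟨h.testI, h.nonneg, h.le_one, h.mem1, ?_, fun g hg => ?_, ?_⟩
  · rw [← mul_assoc, h.mul]
  · rw [hC.Γ_mul_left (hC.test_A hχ.1) (hC.test_A ha) hg]
    have e := h.mulΓ g hg
    have e2 := h.mul
    calc θ * (χ * C.Γ a g + a * C.Γ χ g) = (θ * χ) * C.Γ a g + a * (θ * C.Γ χ g) := by ring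
      _ = _ := by rw [e, e2]
  · rw [hC.lap_mul hB hχ.1 ha]
    have e := h.mulΓ a (hC.test_A ha).1
    have e2 := h.mul
    have e3 := h.mulL
    calc θ * (χ * C.lap a + a * C.lap χ + (2 : ℝ) • C.Γ χ a)
        = (θ * χ) * C.lap a + a * (θ * C.lap χ) + (2 : ℝ) • (θ * C.Γ χ a) := by algebra
      _ = _ := by rw [e, e2, e3]

/-- the cut-off sequence of a test function converges -/
theorem Cv_cut [SigmaFinite m] {χ : ℕ → M →ₘ[m] ℝ} {Λ : ℝ} (hT : ∀ k, χ k ∈ C.TestI)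
    (hb : ∀ k, ∀ᵐ x ∂m, |χ k x| ≤ 1)
    (hlim : ∀ᵐ x ∂m, Tendsto (fun k => χ k x) atTop (𝓝 1))
    (hlap : ∀ k, ∀ᵐ x ∂m, |C.lap (χ k) x| ≤ Λ)
    (hlap0 : ∀ᵐ x ∂m, Tendsto (fun k => C.lap (χ k) x) atTop (𝓝 0))
    (hΓ : ∀ k, ∀ᵐ x ∂m, |C.Γ (χ k) (χ k) x| ≤ Λ * ((k : ℝ) + 1)⁻¹) (ha : a ∈ C.Test) :
    C.Cv (fun k => χ k * a) a := by
  have hD := hC.toIsDir
  have aA := hC.test_A ha
  obtain ⟨A, hA⟩ := mem_top_iff.1 aA.2
  obtain ⟨L, hL⟩ := mem_top_iff.1 (hC.test_Γ_top ha)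
  have a2 := hC.memLp _ aA.1
  have cA := fun k => hC.test_A (hT k).1
  have hT' := fun k => hC.test_mul hB (hT k).1 ha
  have TA := fun k => hC.test_A (hT' k)
  have hbT : Tb χ (1 : M →ₘ[m] ℝ) := ⟨⟨1, hb⟩, by
    filter_upwards [hlim, one_ae (M := M) (m := m)] with x h1 h2
    rw [h2]; exact h1⟩
  have hlT : Tb (fun k => C.lap (χ k)) (0 : M →ₘ[m] ℝ) := ⟨⟨Λ, hlap⟩, by
    filter_upwards [hlap0, zero_ae (M := M) (m := m)] with x h1 h2
    rw [h2]; exact h1⟩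
  have hΛ0 : ∀ᵐ x ∂m, 0 ≤ Λ := by
    filter_upwards [hlap 0] with x hx
    exact (abs_nonneg _).trans hx
  -- pointwise control of the gradient of the difference
  have key : ∀ k, ∀ᵐ x ∂m, C.Γ (χ k * a - a) (χ k * a - a) x ≤
      2 * ((χ k x - 1) ^ 2 * C.Γ a a x) + 2 * (a x ^ 2 * C.Γ (χ k) (χ k) x) := by
    intro k
    have cW := (cA k).1
    have n1 := (TA k).1
    have e : C.Γ (χ k * a - a) (χ k * a - a) = (χ k - 1) ^ 2 * C.Γ a a
        + (2 : ℝ) • ((χ k - 1) * a * C.Γ (χ k) a) + a ^ 2 * C.Γ (χ k) (χ k) := by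
      have e1 : ∀ g ∈ C.W, C.Γ (χ k * a - a) g = (χ k - 1) * C.Γ a g + a * C.Γ (χ k) g := by
        intro g hg
        rw [hC.Γ_sub_left n1 aA.1 hg, hC.Γ_mul_left (cA k) aA hg]
        ring
      have n2 := hD.sub_mem n1 aA.1
      rw [e1 _ n2, hC.symm _ aA.1 _ n2, hC.symm _ cW _ n2, e1 _ aA.1, e1 _ cW, hC.symm _ aA.1 _ cW]
      algebra
    rw [e]
    filter_upwards [add_ae ((χ k - 1) ^ 2 * C.Γ a a + (2 : ℝ) • ((χ k - 1) * a * C.Γ (χ k) a))
      (a ^ 2 * C.Γ (χ k) (χ k)), add_ae ((χ k - 1) ^ 2 * C.Γ a a)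
      ((2 : ℝ) • ((χ k - 1) * a * C.Γ (χ k) a)), mul_ae ((χ k - 1) ^ 2) (C.Γ a a),
      sq_ae (χ k - 1), sub_ae (χ k) 1, smul_ae ((χ k - 1) * a * C.Γ (χ k) a) (2 : ℝ),
      mul_ae ((χ k - 1) * a) (C.Γ (χ k) a), mul_ae (χ k - 1) a, mul_ae (a ^ 2) (C.Γ (χ k) (χ k)),
      sq_ae a, one_ae (M := M) (m := m), hD.Γ_cs_ae cW aA.1, hD.Γ_nonneg_ae cW,
      hD.Γ_nonneg_ae aA.1] with x b1 b2 b3 b4 b5 b6 b7 b8 b9 b10 b11 b12 b13 b14
    rw [b1, b2, b3, b4, b5, b6, b7, b8, b9, b10, b5, b11]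
    -- 2 p q Γ(χ,a) ≤ p² Γ(a,a) + q² Γ(χ,χ)
    have h1 : (2 * ((χ k x - 1) * a x * C.Γ (χ k) a x)) ^ 2 ≤
        ((χ k x - 1) ^ 2 * C.Γ a a x + a x ^ 2 * C.Γ (χ k) (χ k) x) ^ 2 := by
      have h2 : (2 * ((χ k x - 1) * a x * C.Γ (χ k) a x)) ^ 2 =
          4 * ((χ k x - 1) ^ 2 * a x ^ 2 * C.Γ (χ k) a x ^ 2) := by ring
      have h3 : (χ k x - 1) ^ 2 * a x ^ 2 * C.Γ (χ k) a x ^ 2 ≤
          (χ k x - 1) ^ 2 * a x ^ 2 * (C.Γ (χ k) (χ k) x * C.Γ a a x) :=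
        mul_le_mul_of_nonneg_left b12 (by positivity)
      rw [h2]
      nlinarith [sq_nonneg ((χ k x - 1) ^ 2 * C.Γ a a x - a x ^ 2 * C.Γ (χ k) (χ k) x)]
    have h4 : 0 ≤ (χ k x - 1) ^ 2 * C.Γ a a x + a x ^ 2 * C.Γ (χ k) (χ k) x := by positivity
    have h5 := abs_le_of_sq_le_sq h1 h4
    have h6 := (le_abs_self _).trans h5
    linarith
  refine ⟨hT', ha, ?_, ?_, ?_, ?_⟩
  · -- convergence in W
    have l1 := (hbT.mul (T2.const a2)).lim
    rw [one_mul] at l1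
    have hg : ∀ k, MemLp ((χ k - 1) ^ 2 * C.Γ a a : M →ₘ[m] ℝ) 1 m ∧
        MemLp (a ^ 2 * C.Γ (χ k) (χ k) : M →ₘ[m] ℝ) 1 m := by
      intro k
      refine ⟨mem_mul_top ?_ (hC.mem1 _ aA.1), mem_mul_top ?_ (hC.mem1 _ (cA k).1)⟩
      · rw [sq]; exact mem_mul_top (mem_sub (cA k).2 mem_top_one) (mem_sub (cA k).2 mem_top_one)
      · rw [sq]; exact mem_mul_top aA.2 aA.2
    have l2 : Tendsto (fun k => I ((χ k - 1) ^ 2 * C.Γ a a)) atTop (𝓝 0) := by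
      have := I_tendsto_of_bdd (u := fun k => (χ k - 1) ^ 2) (v := 0) (G := C.Γ a a) (K := 4)
        (fun k => ?_) ?_ (hC.mem1 _ aA.1)
      · rwa [zero_mul, I_zero] at this
      · filter_upwards [sq_ae (χ k - 1), sub_ae (χ k) 1, one_ae (M := M) (m := m), hb k]
          with x b1 b2 b3 b4
        rw [b1, b2, b3, abs_of_nonneg (sq_nonneg _)]
        have := abs_le.1 b4
        nlinarith
      · filter_upwards [ae_all_iff.2 fun k => sq_ae (χ k - 1), ae_all_iff.2 fun k => sub_ae (χ k) 1,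
          one_ae (M := M) (m := m), hlim, zero_ae (M := M) (m := m)] with x b1 b2 b3 b4 b5
        rw [b5]
        simp only [b1, b2, b3]
        simpa using (b4.sub_const 1).pow 2
    have l3 : Tendsto (fun k : ℕ => I (a ^ 2 * C.Γ (χ k) (χ k))) atTop (𝓝 0) := by
      have c1 : Tendsto (fun k : ℕ => (Λ * ((k : ℝ) + 1)⁻¹) * I (a ^ 2)) atTop (𝓝 0) := by
        simpa using (tendsto_inv_succ.const_mul Λ).mul_const (I (a ^ 2))
      refine squeeze_zero (fun k => I_nonneg (mul_nonneg (sq_nonneg' _) (hC.nonneg _ (cA k).1)))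
        (fun k => ?_) c1
      rw [← I_smul]
      refine I_mono (hg k).2 (mem_smul _ (mem_sq a2)) ?_
      rw [le_iff_ae]
      filter_upwards [mul_ae (a ^ 2) (C.Γ (χ k) (χ k)), smul_ae (a ^ 2) (Λ * ((k : ℝ) + 1)⁻¹),
        sq_ae a, hΓ k] with x b1 b2 b3 b4
      rw [b1, b2, b3, mul_comm]
      exact mul_le_mul_of_nonneg_right ((le_abs_self _).trans b4) (sq_nonneg _)
    have l4 : Tendsto (fun k => I (C.Γ (χ k * a - a) (χ k * a - a))) atTop (𝓝 0) := by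
      refine squeeze_zero (fun k => hD.E_nonneg (hD.sub_mem (TA k).1 aA.1)) (fun k => ?_)
        (by simpa using (l2.const_mul 2).add (l3.const_mul 2))
      rw [← I_smul, ← I_smul, ← I_add (mem_smul _ (hg k).1) (mem_smul _ (hg k).2)]
      refine I_mono (hC.mem1 _ (hD.sub_mem (TA k).1 aA.1))
        (mem_add (mem_smul _ (hg k).1) (mem_smul _ (hg k).2)) ?_
      rw [le_iff_ae]
      filter_upwards [key k, add_ae ((2 : ℝ) • ((χ k - 1) ^ 2 * C.Γ a a))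
        ((2 : ℝ) • (a ^ 2 * C.Γ (χ k) (χ k))), smul_ae ((χ k - 1) ^ 2 * C.Γ a a) (2 : ℝ),
        smul_ae (a ^ 2 * C.Γ (χ k) (χ k)) (2 : ℝ), mul_ae ((χ k - 1) ^ 2) (C.Γ a a),
        mul_ae (a ^ 2) (C.Γ (χ k) (χ k)), sq_ae (χ k - 1), sub_ae (χ k) 1, sq_ae a,
        one_ae (M := M) (m := m)] with x b0 b1 b2 b3 b4 b5 b6 b7 b8 b9
      rw [b1, b2, b3, b4, b5, b6, b7, b8, b9]
      exact b0
    have := l1.add l4
    simpa [Calc.nrm2] using this
  · -- Laplacian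
    have e : ∀ k, C.lap (χ k * a) = χ k * C.lap a + C.lap (χ k) * a + (2 : ℝ) • C.Γ (χ k) a := by
      intro k
      rw [hC.lap_mul hB (hT k).1 ha]
      ring
    have t1 := hbT.mul (T2.const (hC.test_isLap ha).2.1)
    have t2 := hlT.mul (T2.const a2)
    have t3 : T2 (fun k => C.Γ (χ k) a) 0 := by
      refine ⟨fun k => hD.Γ_mem2 (cA k).1 (hC.test_Γ_top (hT k).1) aA.1, mem_zero, ?_⟩
      have c1 : Tendsto (fun k : ℕ => |Λ * ((k : ℝ) + 1)⁻¹| * I (C.Γ a a)) atTop (𝓝 0) := by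
        have := ((tendsto_inv_succ.const_mul Λ).abs).mul_const (I (C.Γ a a))
        simpa using this
      refine squeeze_zero (fun n => I_sq_nonneg _) (fun n => ?_) c1
      rw [sub_zero]
      exact hC.I_Γsq_le hB (hT n).1 aA.1 (by
        filter_upwards [hΓ n] with x hx; exact (le_abs_self _).trans hx)
    have := ((t1.add t2).add (t3.smul 2)).lim
    simp only [one_mul, zero_mul, smul_zero, add_zero] at this
    simp only [e]
    exact this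
  · obtain ⟨A', hA'⟩ : ∃ A' : ℝ, A' = A := ⟨_, rfl⟩
    refine ⟨8 * |L| + 2 * (A ^ 2 * Λ), fun k => ?_⟩
    filter_upwards [key k, hb k, hL, hA, hΓ k, hΛ0] with x b1 b2 b3 b4 b5 b6
    refine b1.trans ?_
    have c1 : (χ k x - 1) ^ 2 ≤ 4 := by
      have := abs_le.1 b2
      nlinarith
    have c2 : a x ^ 2 ≤ A ^ 2 := sq_le_sq' (by linarith [neg_abs_le (a x)])
      ((le_abs_self _).trans b4)
    have c3 : C.Γ (χ k) (χ k) x ≤ Λ := by
      refine ((le_abs_self _).trans b5).trans ?_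
      have h1 : ((k : ℝ) + 1)⁻¹ ≤ 1 := inv_le_one_of_one_le₀ (by
        have : (0 : ℝ) ≤ k := Nat.cast_nonneg k
        linarith)
      nlinarith
    have c4 : C.Γ a a x ≤ |L| := (le_abs_self _).trans (b3.trans (le_abs_self _))
    have c5 : (χ k x - 1) ^ 2 * C.Γ a a x ≤ 4 * |L| := by
      calc _ ≤ (χ k x - 1) ^ 2 * |L| := mul_le_mul_of_nonneg_left c4 (sq_nonneg _)
        _ ≤ _ := mul_le_mul_of_nonneg_right c1 (abs_nonneg _)
    have c6 : a x ^ 2 * C.Γ (χ k) (χ k) x ≤ A ^ 2 * Λ := by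
      calc _ ≤ a x ^ 2 * Λ := mul_le_mul_of_nonneg_left c3 (sq_nonneg _)
        _ ≤ _ := mul_le_mul_of_nonneg_right c2 b6
    linarith
  · filter_upwards [ae_all_iff.2 key, hlim, ae_all_iff.2 hΓ,
      ae_all_iff.2 fun k => hD.Γ_nonneg_ae (hD.sub_mem (TA k).1 aA.1)] with x b1 b2 b3 b4
    have c3 : Tendsto (fun k => C.Γ (χ k) (χ k) x) atTop (𝓝 0) :=
      squeeze_zero_norm (a := fun n : ℕ => Λ * ((n : ℝ) + 1)⁻¹) (fun n => by
        rw [Real.norm_eq_abs]; exact b3 n) (by simpa using tendsto_inv_succ.const_mul Λ)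
    have c1 := ((b2.sub_const 1).pow 2).mul_const (C.Γ a a x)
    have c2 := c3.const_mul (a x ^ 2)
    exact squeeze_zero b4 b1 (by simpa using (c1.const_mul 2).add (c2.const_mul 2))

end IsGamma

end Vale.Agent.P233
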