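import Vale.Agent.P233.AB.HU
import Vale.Agent.P233.AB.Ext3

set_option linter.all false

open MeasureTheory Filter Topology
open scoped ENNReal NNReal InnerProductSpace

namespace Vale.Agent.P233

variable {M : Type*} [MeasurableSpace M] {m : Measure M} {C : Calc m}
variable {E : Type*} [NormedAddCommGroup E] [InnerProductSpace ℝ E]

/-! ### convergence of vector fields -/

/-- convergence in `L²(M;E)` -/
structure TE (m : Measure M) (w : ℕ → M → E) (w0 : M → E) : Prop where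
  mem : ∀ n, MemLp (w n) 2 m
  mem' : MemLp w0 2 m
  lim : Tendsto (fun n => ∫ x, ‖w n x - w0 x‖ ^ 2 ∂m) atTop (𝓝 0)

section basic

variable {u v w0 v0 : M → E} {w w' : ℕ → M → E}

omit [InnerProductSpace ℝ E] in
theorem n2_int (hu : MemLp u 2 m) : Integrable (fun x => ‖u x‖ ^ 2) m :=
  (memLp_two_iff_integrable_sq_norm hu.1).1 hu

omit [InnerProductSpace ℝ E] in
theorem n2_nonneg (u : M → E) : 0 ≤ ∫ x, ‖u x‖ ^ 2 ∂m := integral_nonneg fun x => by positivity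

theorem n2_eq (hu : MemLp u 2 m) : ∫ x, ‖u x‖ ^ 2 ∂m = (eLpNorm u 2 m).toReal ^ 2 := by
  rw [← Lp.norm_toLp u hu, ← real_inner_self_eq_norm_sq, L2.inner_def]
  refine integral_congr_ae ?_
  filter_upwards [hu.coeFn_toLp] with x hx
  rw [hx, real_inner_self_eq_norm_sq]

omit [InnerProductSpace ℝ E] in
theorem n2_add_le (hu : MemLp u 2 m) (hv : MemLp v 2 m) :
    ∫ x, ‖u x + v x‖ ^ 2 ∂m ≤ 2 * ∫ x, ‖u x‖ ^ 2 ∂m + 2 * ∫ x, ‖v x‖ ^ 2 ∂m := by
  rw [← integral_const_mul, ← integral_const_mul,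
    ← integral_add ((n2_int hu).const_mul _) ((n2_int hv).const_mul _)]
  refine integral_mono_ae (n2_int (hu.add hv)) (((n2_int hu).const_mul _).add
    ((n2_int hv).const_mul _)) ?_
  filter_upwards with x
  have h1 := norm_add_le (u x) (v x)
  have h2 : ‖u x + v x‖ ^ 2 ≤ (‖u x‖ + ‖v x‖) ^ 2 := by gcongr
  nlinarith [sq_nonneg (‖u x‖ - ‖v x‖)]

theorem int_inner2 (hu : MemLp u 2 m) (hv : MemLp v 2 m) :
    Integrable (fun x => ⟪u x, v x⟫_ℝ) m := by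
  refine (L2.integrable_inner (𝕜 := ℝ) hu.toLp hv.toLp).congr ?_
  filter_upwards [hu.coeFn_toLp, hv.coeFn_toLp] with x a1 a2
  rw [a1, a2]

theorem cs_E (hu : MemLp u 2 m) (hv : MemLp v 2 m) :
    |∫ x, ⟪u x, v x⟫_ℝ ∂m| ≤ √(∫ x, ‖u x‖ ^ 2 ∂m) * √(∫ x, ‖v x‖ ^ 2 ∂m) := by
  have e1 : ∫ x, ⟪u x, v x⟫_ℝ ∂m = ⟪hu.toLp, hv.toLp⟫_ℝ := by
    rw [L2.inner_def]
    refine integral_congr_ae ?_
    filter_upwards [hu.coeFn_toLp, hv.coeFn_toLp] with x a1 a2
    rw [a1, a2]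
  rw [e1, n2_eq hu, n2_eq hv, Real.sqrt_sq ENNReal.toReal_nonneg,
    Real.sqrt_sq ENNReal.toReal_nonneg, ← Lp.norm_toLp u hu, ← Lp.norm_toLp v hv]
  exact abs_real_inner_le_norm _ _

omit [InnerProductSpace ℝ E] in
theorem TE.const (hu : MemLp u 2 m) : TE m (fun _ => u) u :=
  ⟨fun _ => hu, hu, by simp⟩

omit [InnerProductSpace ℝ E] in
theorem TE.add (h1 : TE m w w0) (h2 : TE m w' v0) :
    TE m (fun n x => w n x + w' n x) (fun x => w0 x + v0 x) := by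
  refine ⟨fun n => (h1.mem n).add (h2.mem n), h1.mem'.add h2.mem', ?_⟩
  refine squeeze_zero (fun n => n2_nonneg _) (fun n => ?_)
    (by simpa using (h1.lim.const_mul 2).add (h2.lim.const_mul 2))
  have h3 := n2_add_le ((h1.mem n).sub h1.mem') ((h2.mem n).sub h2.mem')
  refine le_trans (le_of_eq ?_) h3
  refine integral_congr_ae ?_
  filter_upwards with x
  simp only [Pi.sub_apply]
  congr 2
  abel

theorem TE.smul (c : ℝ) (h1 : TE m w w0) : TE m (fun n x => c • w n x) (fun x => c • w0 x) := by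
  refine ⟨fun n => (h1.mem n).const_smul c, h1.mem'.const_smul c, ?_⟩
  have h2 := h1.lim.const_mul (c ^ 2)
  rw [mul_zero] at h2
  refine h2.congr fun n => ?_
  rw [← integral_const_mul]
  refine integral_congr_ae ?_
  filter_upwards with x
  rw [← smul_sub, norm_smul, mul_pow, Real.norm_eq_abs, sq_abs]

theorem TE.sub (h1 : TE m w w0) (h2 : TE m w' v0) :
    TE m (fun n x => w n x - w' n x) (fun x => w0 x - v0 x) := by
  have := h1.add (h2.smul (-1))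
  simpa [sub_eq_add_neg] using this

theorem TE.inner_lim (h1 : TE m w w0) (h2 : TE m w' v0) :
    Tendsto (fun n => ∫ x, ⟪w n x, w' n x⟫_ℝ ∂m) atTop (𝓝 (∫ x, ⟪w0 x, v0 x⟫_ℝ ∂m)) := by
  rw [tendsto_iff_dist_tendsto_zero]
  have l1 := (Real.continuous_sqrt.tendsto 0).comp h1.lim
  have l2 := (Real.continuous_sqrt.tendsto 0).comp h2.lim
  simp only [Real.sqrt_zero, Function.comp_def] at l1 l2
  have hlim : Tendsto (fun n => √(∫ x, ‖w n x - w0 x‖ ^ 2 ∂m) * √(∫ x, ‖w' n x - v0 x‖ ^ 2 ∂m)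
      + √(∫ x, ‖w n x - w0 x‖ ^ 2 ∂m) * √(∫ x, ‖v0 x‖ ^ 2 ∂m)
      + √(∫ x, ‖w0 x‖ ^ 2 ∂m) * √(∫ x, ‖w' n x - v0 x‖ ^ 2 ∂m)) atTop (𝓝 0) := by
    have := ((l1.mul l2).add (l1.mul_const (√(∫ x, ‖v0 x‖ ^ 2 ∂m)))).add
      (l2.const_mul (√(∫ x, ‖w0 x‖ ^ 2 ∂m)))
    simpa using this
  refine squeeze_zero (fun n => dist_nonneg) (fun n => ?_) hlim
  have a1 := (h1.mem n).sub h1.mem'
  have a2 := (h2.mem n).sub h2.mem'
  have i1 := int_inner2 a1 a2
  have i2 := int_inner2 a1 h2.mem'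
  have i3 := int_inner2 h1.mem' a2
  have i4 := int_inner2 h1.mem' h2.mem'
  have e : ∫ x, ⟪w n x, w' n x⟫_ℝ ∂m = ∫ x, ⟪(w n - w0) x, (w' n - v0) x⟫_ℝ ∂m
      + ∫ x, ⟪(w n - w0) x, v0 x⟫_ℝ ∂m + ∫ x, ⟪w0 x, (w' n - v0) x⟫_ℝ ∂m
      + ∫ x, ⟪w0 x, v0 x⟫_ℝ ∂m := by
    have i12 : Integrable (fun x => ⟪(w n - w0) x, (w' n - v0) x⟫_ℝ + ⟪(w n - w0) x, v0 x⟫_ℝ) m :=
      i1.add i2
    have i123 : Integrable (fun x => ⟪(w n - w0) x, (w' n - v0) x⟫_ℝ + ⟪(w n - w0) x, v0 x⟫_ℝ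
      + ⟪w0 x, (w' n - v0) x⟫_ℝ) m := i12.add i3
    rw [← integral_add i1 i2, ← integral_add i12 i3, ← integral_add i123 i4]
    refine integral_congr_ae ?_
    filter_upwards with x
    simp only [Pi.sub_apply, Pi.add_apply, inner_sub_left, inner_sub_right]
    ring
  rw [Real.dist_eq, e, add_sub_cancel_right]
  refine (abs_add_le _ _).trans (add_le_add ((abs_add_le _ _).trans (add_le_add ?_ ?_)) ?_)
  · exact cs_E a1 a2
  · exact cs_E a1 h2.mem'
  · exact cs_E h1.mem' a2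

/-- bounded multipliers -/
theorem TE.mul {F : ℕ → M →ₘ[m] ℝ} {f : M →ₘ[m] ℝ} (hF : Tb F f) (h1 : TE m w w0) :
    TE m (fun n x => F n x • w n x) (fun x => f x • w0 x) := by
  have mm : ∀ {G : M →ₘ[m] ℝ} {z : M → E}, MemLp G ∞ m → MemLp z 2 m →
      MemLp (fun x => G x • z x) 2 m := fun hG hz => hz.smul (p := ∞) (r := 2) hG
  refine ⟨fun n => mm (hF.mem n) (h1.mem n), mm hF.mem' h1.mem', ?_⟩
  obtain ⟨K, hK⟩ := hF.bd
  have hf := hF.bd' hK
  have l1 : Tendsto (fun n => ∫ x, ‖(F n x - f x) • w0 x‖ ^ 2 ∂m) atTop (𝓝 0) := by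
    have := tendsto_integral_of_dominated_convergence (μ := m)
      (F := fun n x => ‖(F n x - f x) • w0 x‖ ^ 2) (f := fun _ => (0 : ℝ))
      (fun x => (2 * |K|) ^ 2 * ‖w0 x‖ ^ 2) (fun n => ?_) ((n2_int h1.mem').const_mul _)
      (fun n => ?_) ?_
    · simpa using this
    · exact ((((F n).aestronglyMeasurable.sub f.aestronglyMeasurable).smul h1.mem'.1).norm.pow 2)
    · filter_upwards [hK n, hf] with x a1 a2
      rw [Real.norm_eq_abs, abs_of_nonneg (by positivity), norm_smul, mul_pow, Real.norm_eq_abs,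
        sq_abs]
      have a3 : |F n x - f x| ≤ 2 * |K| := by
        have a4 := abs_sub (F n x) (f x)
        have a5 := le_abs_self K
        linarith
      have a6 : (F n x - f x) ^ 2 ≤ (2 * |K|) ^ 2 := by
        rw [← sq_abs (F n x - f x)]
        gcongr
      gcongr
    · filter_upwards [hF.lim] with x a1
      have a2 : Tendsto (fun n => ‖(F n x - f x) • w0 x‖ ^ 2) atTop
          (𝓝 (‖(f x - f x) • w0 x‖ ^ 2)) :=
        (((a1.sub_const (f x)).smul_const (w0 x)).norm).pow 2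
      simpa using a2
  have l2 := (h1.lim.const_mul (K ^ 2))
  rw [mul_zero] at l2
  refine squeeze_zero (fun n => n2_nonneg _) (fun n => ?_)
    (by simpa using (l2.const_mul 2).add (l1.const_mul 2))
  have a1 := (h1.mem n).sub h1.mem'
  have a2 := mm (hF.mem n) a1
  have a3 : MemLp (fun x => (F n x - f x) • w0 x) 2 m := by
    have := (mm (hF.mem n) h1.mem').sub (mm hF.mem' h1.mem')
    refine this.ae_eq ?_
    filter_upwards with x
    simp only [Pi.sub_apply, sub_smul]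
  have h3 := n2_add_le a2 a3
  have h4 : ∫ x, ‖F n x • (w n - w0) x‖ ^ 2 ∂m ≤ K ^ 2 * ∫ x, ‖w n x - w0 x‖ ^ 2 ∂m := by
    rw [← integral_const_mul]
    refine integral_mono_ae (n2_int a2) ((n2_int a1).const_mul _) ?_
    filter_upwards [hK n] with x b1
    rw [norm_smul, mul_pow, Real.norm_eq_abs]
    have b2 : |F n x| ^ 2 ≤ K ^ 2 := by
      rw [← sq_abs K]
      have := b1.trans (le_abs_self K)
      gcongr
    exact mul_le_mul_of_nonneg_right b2 (by positivity)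
  have h5 : ∫ x, ‖F n x • w n x - f x • w0 x‖ ^ 2 ∂m =
      ∫ x, ‖F n x • (w n - w0) x + (F n x - f x) • w0 x‖ ^ 2 ∂m := by
    refine integral_congr_ae ?_
    filter_upwards with x
    congr 2
    simp only [Pi.sub_apply, smul_sub, sub_smul]
    abel
  rw [h5]
  linarith

theorem TE.ip {F : ℕ → M →ₘ[m] ℝ} {f : M →ₘ[m] ℝ} (hF : Tb F f) (h1 : TE m w w0)
    (h2 : TE m w' v0) :
    Tendsto (fun n => I (F n * ipE m (w n) (w' n))) atTop (𝓝 (I (f * ipE m w0 v0))) := by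
  have e : ∀ {G : M →ₘ[m] ℝ} {y z : M → E}, MemLp y 2 m → MemLp z 2 m →
      I (G * ipE m y z) = ∫ x, ⟪G x • y x, z x⟫_ℝ ∂m := by
    intro G y z hy hz
    refine integral_congr_ae ?_
    filter_upwards [mul_ae G (ipE m y z), ipE_ae hy.1 hz.1] with x a1 a2
    rw [a1, a2, real_inner_smul_left]
  rw [e h1.mem' h2.mem']
  refine ((h1.mul hF).inner_lim h2).congr fun n => ?_
  rw [e (h1.mem n) (h2.mem n)]

end basic

/-! ### the closure of the test fields -/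

section inF

variable {Gr : (M →ₘ[m] ℝ) → M → E}

/-- the closure of the test fields -/
def InF (C : Calc m) (Gr : (M →ₘ[m] ℝ) → M → E) (w : M → E) : Prop :=
  ∃ Z : ℕ → List ((M →ₘ[m] ℝ) × (M →ₘ[m] ℝ)), (∀ n, C.IsTestV (Z n)) ∧
    TE m (fun n => fvec Gr (Z n)) w

variable (hC : IsGamma C) (hG : IsGrad C Gr)
include hC hG

theorem IsGamma.fvec_mem {Z : List ((M →ₘ[m] ℝ) × (M →ₘ[m] ℝ))} (hZ : C.IsTestV Z) :
    MemLp (fvec Gr Z) 2 m := by
  induction Z with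
  | nil => rw [IsGrad.fvec_nil]; exact MemLp.zero
  | cons p Z ih =>
    have h1 : fvec Gr (p :: Z) = (fun x => p.1 x • Gr p.2 x) + fvec Gr Z := by
      funext x; rw [IsGrad.fvec_cons]; rfl
    rw [h1]
    exact (hG.smul_mem2 (hC.test_A (hZ p List.mem_cons_self).1).2
      (hC.tW (hZ p List.mem_cons_self).2)).add (ih fun q hq => hZ q (List.mem_cons_of_mem _ hq))

omit hG in
theorem IsGamma.fvec_smul {κ : ℝ} (hB : C.BEi κ) (t : ℝ)
    {Z : List ((M →ₘ[m] ℝ) × (M →ₘ[m] ℝ))} (hZ : C.IsTestV Z) :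
    ∃ Z', C.IsTestV Z' ∧ ∀ᵐ x ∂m, fvec Gr Z' x = t • fvec Gr Z x := by
  refine ⟨Z.map fun p => (t • p.1, p.2), ?_, ?_⟩
  · intro q hq
    rw [List.mem_map] at hq
    obtain ⟨p, hp, rfl⟩ := hq
    exact ⟨hC.test_smul hB _ (hZ p hp).1, (hZ p hp).2⟩
  · clear hZ
    induction Z with
    | nil => filter_upwards with x; simp [fvec]
    | cons p Z ih =>
      filter_upwards [ih, smul_ae p.1 t] with x h1 h2
      rw [List.map_cons, IsGrad.fvec_cons, IsGrad.fvec_cons, h1, h2, smul_add, smul_smul]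

theorem IsGamma.inF_of_dense {w : M → E} (hw : MemLp w 2 m)
    (h : ∀ ε > 0, ∃ Z, C.IsTestV Z ∧ eLpNorm (fun x => w x - fvec Gr Z x) 2 m < ε) :
    InF C Gr w := by
  choose Z hZ1 hZ2 using fun n : ℕ => h (ENNReal.ofReal (((n : ℝ) + 1)⁻¹)) (by positivity)
  refine ⟨Z, hZ1, fun n => hC.fvec_mem hG (hZ1 n), hw, ?_⟩
  have h3 : ∀ n, ∫ x, ‖fvec Gr (Z n) x - w x‖ ^ 2 ∂m ≤ (((n : ℝ) + 1)⁻¹) ^ 2 := by
    intro n
    have h4 := hw.sub (hC.fvec_mem hG (hZ1 n))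
    have h5 : ∫ x, ‖fvec Gr (Z n) x - w x‖ ^ 2 ∂m = ∫ x, ‖(w - fvec Gr (Z n)) x‖ ^ 2 ∂m := by
      refine integral_congr_ae ?_
      filter_upwards with x
      rw [Pi.sub_apply, norm_sub_rev]
    rw [h5, n2_eq h4]
    have h6 : (eLpNorm (w - fvec Gr (Z n)) 2 m).toReal ≤ ((n : ℝ) + 1)⁻¹ := by
      refine ENNReal.toReal_le_of_le_ofReal (by positivity) ?_
      exact (hZ2 n).le
    gcongr
  refine squeeze_zero (fun n => n2_nonneg _) h3 ?_
  simpa using tendsto_inv_succ.pow 2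

theorem InF.closed {w : ℕ → M → E} {w0 : M → E} (hw : ∀ n, InF C Gr (w n)) (h : TE m w w0) :
    InF C Gr w0 := by
  have h1 : ∀ n, ∃ Z, C.IsTestV Z ∧ ∫ x, ‖fvec Gr Z x - w n x‖ ^ 2 ∂m < ((n : ℝ) + 1)⁻¹ := by
    intro n
    obtain ⟨Z, hZ1, hZ2⟩ := hw n
    obtain ⟨k, hk⟩ := (hZ2.lim.eventually (gt_mem_nhds (show (0 : ℝ) < ((n : ℝ) + 1)⁻¹ by
      positivity))).exists
    exact ⟨Z k, hZ1 k, hk⟩
  choose Z hZ1 hZ2 using h1
  refine ⟨Z, hZ1, fun n => hC.fvec_mem hG (hZ1 n), h.mem', ?_⟩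
  refine squeeze_zero (fun n => n2_nonneg _) (fun n => ?_)
    (by simpa using (tendsto_inv_succ.const_mul 2).add (h.lim.const_mul 2))
  have h3 := n2_add_le ((hC.fvec_mem hG (hZ1 n)).sub (h.mem n)) ((h.mem n).sub h.mem')
  have h4 : ∫ x, ‖fvec Gr (Z n) x - w0 x‖ ^ 2 ∂m =
      ∫ x, ‖(fvec Gr (Z n) - w n) x + (w n - w0) x‖ ^ 2 ∂m := by
    refine integral_congr_ae ?_
    filter_upwards with x
    simp only [Pi.sub_apply]
    congr 2
    abel
  rw [h4]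
  have h5 := (hZ2 n).le
  simp only [Pi.sub_apply] at h3 ⊢
  linarith

omit hC hG in
theorem InF.congr {w w' : M → E} (h : InF C Gr w) (he : w =ᵐ[m] w') : InF C Gr w' := by
  obtain ⟨Z, hZ1, hZ2⟩ := h
  refine ⟨Z, hZ1, hZ2.mem, hZ2.mem'.ae_eq he, hZ2.lim.congr fun n => ?_⟩
  refine integral_congr_ae ?_
  filter_upwards [he] with x hx
  rw [hx]

omit hC hG in
theorem InF.add {w w' : M → E} (h : InF C Gr w) (h' : InF C Gr w') :
    InF C Gr (fun x => w x + w' x) := by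
  obtain ⟨Z, hZ1, hZ2⟩ := h
  obtain ⟨Z', hZ1', hZ2'⟩ := h'
  refine ⟨fun n => Z n ++ Z' n, fun n p hp => ?_, ?_⟩
  · rcases List.mem_append.1 hp with hp | hp
    · exact hZ1 n p hp
    · exact hZ1' n p hp
  · have h1 := hZ2.add hZ2'
    have h2 : (fun n => fvec Gr (Z n ++ Z' n)) = fun n x => fvec Gr (Z n) x + fvec Gr (Z' n) x := by
      funext n x; exact IsGrad.fvec_append _ _ _
    rw [h2]; exact h1

theorem InF.smul {κ : ℝ} (hB : C.BEi κ) (t : ℝ) {w : M → E} (h : InF C Gr w) :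
    InF C Gr (fun x => t • w x) := by
  obtain ⟨Z, hZ1, hZ2⟩ := h
  choose Z' hZ' hZ'2 using fun n => hC.fvec_smul (Gr := Gr) hB t (hZ1 n)
  refine ⟨Z', hZ', fun n => hC.fvec_mem hG (hZ' n), hZ2.mem'.const_smul t, ?_⟩
  refine (hZ2.smul t).lim.congr fun n => ?_
  refine integral_congr_ae ?_
  filter_upwards [hZ'2 n] with x hx
  rw [hx]

theorem InF.eq_zero {w : M → E} (h : InF C Gr w)
    (h0 : ∀ c ∈ C.Test, ∀ᵐ x ∂m, ⟪w x, Gr c x⟫_ℝ = 0) : ∀ᵐ x ∂m, w x = 0 := by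
  obtain ⟨Z, hZ1, hZ2⟩ := h
  have h1 : ∀ Z, C.IsTestV Z → ∀ᵐ x ∂m, ⟪w x, fvec Gr Z x⟫_ℝ = 0 := by
    intro Z hZ
    induction Z with
    | nil => filter_upwards with x; simp [fvec]
    | cons p Z ih =>
      filter_upwards [ih fun q hq => hZ q (List.mem_cons_of_mem _ hq),
        h0 p.2 (hZ p List.mem_cons_self).2] with x a1 a2
      rw [IsGrad.fvec_cons, inner_add_right, real_inner_smul_right, a1, a2]
      simp
  have h2 := (TE.const hZ2.mem').inner_lim hZ2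
  have h3 : ∀ n, ∫ x, ⟪w x, fvec Gr (Z n) x⟫_ℝ ∂m = 0 := by
    intro n
    rw [integral_congr_ae (h1 (Z n) (hZ1 n))]
    simp
  simp only [h3] at h2
  have h4 := tendsto_nhds_unique h2 tendsto_const_nhds
  have h5 : ∫ x, ‖w x‖ ^ 2 ∂m = 0 := by
    rw [← h4]
    refine integral_congr_ae ?_
    filter_upwards with x
    rw [real_inner_self_eq_norm_sq]
  have h6 := (integral_eq_zero_iff_of_nonneg (fun x => by positivity) (n2_int hZ2.mem')).1 h5
  filter_upwards [h6] with x hx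
  simpa using hx

theorem IsGamma.inF_Gr_test [SigmaFinite m] {κ : ℝ} (hB : C.BEi κ) {h : M →ₘ[m] ℝ}
    (hh : h ∈ C.Test) : InF C Gr (Gr h) := by
  obtain ⟨χ, Λ, hT, h0, hb1, hconv, -⟩ := hC.exists_cut hB
  refine ⟨fun k => [(χ k, h)], fun k p hp => ?_, ?_⟩
  · rw [List.mem_singleton] at hp
    subst hp
    exact ⟨hT k, hh⟩
  · have hb : Tb χ (1 : M →ₘ[m] ℝ) := ⟨⟨1, hb1⟩, by
      filter_upwards [hconv, one_ae (M := M) (m := m)] with x a1 a2
      rw [a2]; exact a1⟩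
    have h1 := (TE.const (hG.mem h (hC.tW hh))).mul hb
    refine ⟨fun k => ?_, hG.mem h (hC.tW hh), h1.lim.congr fun k => ?_⟩
    · exact hC.fvec_mem hG fun p hp => by
        rw [List.mem_singleton] at hp
        subst hp
        exact ⟨hT k, hh⟩
    · refine integral_congr_ae ?_
      filter_upwards [one_ae (M := M) (m := m)] with x a1
      rw [a1, one_smul]
      simp [fvec]

/-- gradients of Sobolev functions are limits of test fields -/
theorem IsGamma.inF_Gr [SigmaFinite m] {κ : ℝ} (hB : C.BEi κ) {g : M →ₘ[m] ℝ} (hg : g ∈ C.W) :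
    InF C Gr (Gr g) := by
  choose v hv1 hv2 using fun n : ℕ => hC.test_dense hB hg
    (show (0 : ℝ) < ((n : ℝ) + 1)⁻¹ by positivity)
  have hvW := fun n => hC.tW (hv1 n)
  refine InF.closed hC hG (fun n => hC.inF_Gr_test hG hB (hv1 n)) ⟨fun n => hG.mem _ (hvW n),
    hG.mem g hg, ?_⟩
  refine squeeze_zero (fun n => n2_nonneg _) (fun n => ?_) tendsto_inv_succ
  have h1 := hC.sub_mem (hvW n) hg
  have h2 : ∫ x, ‖Gr (v n) x - Gr g x‖ ^ 2 ∂m = I (C.Γ (v n - g) (v n - g)) := by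
    rw [← hG.int_norm_sq h1]
    refine integral_congr_ae ?_
    filter_upwards [hG.sub hC.toIsDir (hvW n) hg] with x hx
    rw [hx]
  rw [h2]
  exact (hC.toIsDir.E_le_nrm2 _).trans (hv2 n).le

end inF

end Vale.Agent.P233
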