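import Vale.Agent.P233.AB.ExtC

set_option linter.all false

open MeasureTheory Filter Topology
open scoped ENNReal NNReal InnerProductSpace

namespace Vale.Agent.P233

variable {M : Type*} [MeasurableSpace M] {m : Measure M} {C : Calc m}
variable {E : Type*} [NormedAddCommGroup E] [InnerProductSpace ℝ E]
variable {Gr : (M →ₘ[m] ℝ) → M → E} {U : (M →ₘ[m] ℝ) → (M →ₘ[m] ℝ) → M → E}

theorem sum_I {ι : Type*} (s : Finset ι) {f : ι → M →ₘ[m] ℝ} (hf : ∀ i, MemLp (f i) 1 m) :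
    ∑ i ∈ s, I (f i) = ∫ x, ∑ i ∈ s, f i x ∂m := by
  unfold I
  rw [integral_finset_sum s fun i _ => int_of_mem (hf i)]

namespace IsGamma

variable (hC : IsGamma C) {κ : ℝ} (hB : C.BEi κ) (hG : IsGrad C Gr) (hU : IsHU C Gr U)
variable {a a' b b' c : M →ₘ[m] ℝ}
include hC hB hG hU

/-- the tensor inequality for fields -/
theorem tens_vec [SigmaFinite m] (hb : b ∈ C.Test) (ha : a ∈ C.Test) {K : ℝ}
    (hK : ∀ᵐ x ∂m, C.Γ a a x ≤ K) {n : ℕ} {c d : Fin n → M →ₘ[m] ℝ} (hc : ∀ i, c i ∈ C.Test)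
    (hd : ∀ i, d i ∈ C.Test) :
    0 ≤ (I (C.lap b ^ 2) - κ * I (C.Γ b b))
      + 4 * ∫ x, ⟪U b a x, ∑ i, c i x • Gr (d i) x⟫_ℝ ∂m
      + 4 * |K| * ∫ x, ‖∑ i, c i x • Gr (d i) x‖ ^ 2 ∂m := by
  have hcT := fun i => (hC.test_A (hc i)).2
  have hc2 := fun i => hC.memLp _ (hC.tW (hc i))
  have aW := hC.tW ha
  have h1 := hC.tensor_ineq_one hB hb (F := fun _ => a) (H := d) (s := c) (fun _ => ha) hd hcT hc2
  have hV : MemLp (fun x => ∑ i, c i x • Gr (d i) x) 2 m := by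
    refine memLp_finset_sum _ fun i _ => ?_
    exact hG.smul_mem2 (hcT i) (hC.tW (hd i))
  have e1 : ∑ i, I (c i * C.KK b a (d i)) = 2 * ∫ x, ⟪U b a x, ∑ i, c i x • Gr (d i) x⟫_ℝ ∂m := by
    rw [sum_I _ fun i => mem_mul_22 (hc2 i) (hC.KK_mem2 hB ha (hd i) hb), ← integral_const_mul]
    refine integral_congr_ae ?_
    have g1 : ∀ᵐ x ∂m, ∀ i, (c i * C.KK b a (d i)) x = 2 * (c i x * ⟪U b a x, Gr (d i) x⟫_ℝ) := by
      rw [ae_all_iff]
      intro i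
      unfold Calc.KK
      filter_upwards [mul_ae (c i) ((2 : ℝ) • C.hess b a (d i)), smul_ae (C.hess b a (d i)) 2,
        hU.inner b hb a ha (d i) (hd i)] with x a1 a2 a3
      rw [a1, a2, a3]; ring
    filter_upwards [g1] with x a1
    rw [inner_sum, Finset.mul_sum]
    refine Finset.sum_congr rfl fun i _ => ?_
    rw [a1, real_inner_smul_right]
  have hmem : ∀ i j, MemLp (c i * c j * C.MM a (d i) a (d j) : M →ₘ[m] ℝ) 1 m := fun i j =>
    mem_mul_top (mem_mul_top (hcT i) (hcT j)) (hC.MM_mem1 hB ha (hd i) ha (hd j))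
  have e2 : ∑ i, ∑ j, I (c i * c j * C.MM a (d i) a (d j)) ≤
      2 * |K| * ∫ x, ‖∑ i, c i x • Gr (d i) x‖ ^ 2 ∂m := by
    have g0 : ∀ i, ∑ j, I (c i * c j * C.MM a (d i) a (d j)) =
        I (∑ j, c i * c j * C.MM a (d i) a (d j)) := fun i => (I_fsum _ fun j _ => hmem i j).1.symm
    simp only [g0]
    rw [sum_I _ fun i => (I_fsum _ fun j _ => hmem i j).2, ← integral_const_mul]
    have g1 : ∀ᵐ x ∂m, ∀ i j, (c i * c j * C.MM a (d i) a (d j)) x =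
        (c i x * c j x) * (⟪Gr a x, Gr a x⟫_ℝ * ⟪Gr (d j) x, Gr (d i) x⟫_ℝ
          + ⟪Gr a x, Gr (d i) x⟫_ℝ * ⟪Gr (d j) x, Gr a x⟫_ℝ) := by
      rw [ae_all_iff]; intro i; rw [ae_all_iff]; intro j
      unfold Calc.MM
      filter_upwards [mul_ae (c i * c j) (C.Γ a a * C.Γ (d j) (d i) + C.Γ a (d i) * C.Γ (d j) a),
        mul_ae (c i) (c j), add_ae (C.Γ a a * C.Γ (d j) (d i)) (C.Γ a (d i) * C.Γ (d j) a),
        mul_ae (C.Γ a a) (C.Γ (d j) (d i)), mul_ae (C.Γ a (d i)) (C.Γ (d j) a),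
        hG.inner a aW a aW, hG.inner _ (hC.tW (hd j)) _ (hC.tW (hd i)),
        hG.inner a aW _ (hC.tW (hd i)), hG.inner _ (hC.tW (hd j)) a aW]
        with x b1 b2 b3 b4 b5 b6 b7 b8 b9
      rw [b1, b2, b3, b4, b5, b6, b7, b8, b9]
    have g2 : ∀ᵐ x ∂m, ∀ i, (∑ j, c i * c j * C.MM a (d i) a (d j) : M →ₘ[m] ℝ) x =
        ∑ j, (c i * c j * C.MM a (d i) a (d j)) x := by
      rw [ae_all_iff]; intro i; exact fsum_ae _ _
    refine integral_mono_ae ?_ ((n2_int hV).const_mul _) ?_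
    · exact integrable_finset_sum _ fun i _ => int_of_mem (I_fsum _ fun j _ => hmem i j).2
    filter_upwards [g1, g2, hK, hG.inner a aW a aW] with x b1 b2 b3 b4
    simp only [b2, b1]
    set V := ∑ i, c i x • Gr (d i) x with hVd
    have d1 : ∑ i, ∑ j, (c i x * c j x) * (⟪Gr a x, Gr a x⟫_ℝ * ⟪Gr (d j) x, Gr (d i) x⟫_ℝ
          + ⟪Gr a x, Gr (d i) x⟫_ℝ * ⟪Gr (d j) x, Gr a x⟫_ℝ)
        = ⟪Gr a x, Gr a x⟫_ℝ * ⟪V, V⟫_ℝ + ⟪Gr a x, V⟫_ℝ * ⟪V, Gr a x⟫_ℝ := by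
      rw [hVd]
      simp only [sum_inner, inner_sum, real_inner_smul_left, real_inner_smul_right,
        Finset.mul_sum, Finset.sum_mul]
      rw [Finset.sum_comm, ← Finset.sum_add_distrib]
      refine Finset.sum_congr rfl fun p hp => ?_
      rw [← Finset.sum_add_distrib]
      refine Finset.sum_congr rfl fun q hq => ?_
      rw [real_inner_comm (Gr (d q) x) (Gr (d p) x)]
      ring
    rw [d1]
    have d2 : ⟪Gr a x, V⟫_ℝ * ⟪V, Gr a x⟫_ℝ ≤ ⟪Gr a x, Gr a x⟫_ℝ * ⟪V, V⟫_ℝ := by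
      have q1 := real_inner_mul_inner_self_le (Gr a x) V
      rw [real_inner_comm V (Gr a x)] at q1 ⊢
      exact q1
    have d3 : ⟪Gr a x, Gr a x⟫_ℝ ≤ |K| := by rw [b4]; exact b3.trans (le_abs_self _)
    have d4 : ⟪Gr a x, Gr a x⟫_ℝ * ⟪V, V⟫_ℝ ≤ |K| * ‖V‖ ^ 2 := by
      rw [real_inner_self_eq_norm_sq V]
      exact mul_le_mul_of_nonneg_right d3 (by positivity)
    linarith
  rw [e1] at h1
  linarith

/-- the norm of `∇_{∇a} ∇b` -/
theorem U_norm_le [SigmaFinite m] (hb : b ∈ C.Test) (ha : a ∈ C.Test) {K : ℝ}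
    (hK : ∀ᵐ x ∂m, C.Γ a a x ≤ K) :
    ∫ x, ‖U b a x‖ ^ 2 ∂m ≤ |K| * (I (C.lap b ^ 2) - κ * I (C.Γ b b)) := by
  obtain ⟨Z, hZ1, hZ2⟩ := hC.inF_of_dense hG (hU.mem b hb a ha) (hU.dense b hb a ha)
  set N := ∫ x, ‖U b a x‖ ^ 2 ∂m with hN
  set h2 := I (C.lap b ^ 2) - κ * I (C.Γ b b) with hh2
  have e0 : ∀ (Z : List ((M →ₘ[m] ℝ) × (M →ₘ[m] ℝ))) (x : M),
      fvec Gr Z x = ∑ i : Fin Z.length, (Z.get i).1 x • Gr (Z.get i).2 x := by
    intro Z x
    unfold fvec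
    exact (Fin.sum_univ_fun_getElem Z (fun p => p.1 x • Gr p.2 x)).symm
  have key : ∀ t : ℝ, 0 ≤ h2 + 2 * t * (2 * N) + t ^ 2 * (4 * |K| * N) := by
    intro t
    have h3 : ∀ k, 0 ≤ h2 + 4 * (t * ∫ x, ⟪U b a x, fvec Gr (Z k) x⟫_ℝ ∂m)
        + 4 * |K| * (t ^ 2 * ∫ x, ‖fvec Gr (Z k) x‖ ^ 2 ∂m) := by
      intro k
      have h4 := hC.tens_vec hB hG hU hb ha hK (n := (Z k).length)
        (c := fun i => t • ((Z k).get i).1) (d := fun i => ((Z k).get i).2)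
        (fun i => hC.test_smul hB t (hZ1 k _ (List.get_mem _ _)).1)
        (fun i => (hZ1 k _ (List.get_mem _ _)).2)
      have h5 : ∀ᵐ x ∂m, ∑ i, (t • ((Z k).get i).1 : M →ₘ[m] ℝ) x • Gr ((Z k).get i).2 x =
          t • fvec Gr (Z k) x := by
        have h6 : ∀ᵐ x ∂m, ∀ i, (t • ((Z k).get i).1 : M →ₘ[m] ℝ) x = t * ((Z k).get i).1 x := by
          rw [ae_all_iff]; intro i; exact smul_ae _ _
        filter_upwards [h6] with x hx
        rw [e0, Finset.smul_sum]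
        refine Finset.sum_congr rfl fun i _ => ?_
        rw [hx, smul_smul]
      have h7 : ∫ x, ⟪U b a x, ∑ i, (t • ((Z k).get i).1 : M →ₘ[m] ℝ) x • Gr ((Z k).get i).2 x⟫_ℝ ∂m
          = t * ∫ x, ⟪U b a x, fvec Gr (Z k) x⟫_ℝ ∂m := by
        rw [← integral_const_mul]
        refine integral_congr_ae ?_
        filter_upwards [h5] with x hx
        rw [hx, real_inner_smul_right]
      have h8 : ∫ x, ‖∑ i, (t • ((Z k).get i).1 : M →ₘ[m] ℝ) x • Gr ((Z k).get i).2 x‖ ^ 2 ∂m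
          = t ^ 2 * ∫ x, ‖fvec Gr (Z k) x‖ ^ 2 ∂m := by
        rw [← integral_const_mul]
        refine integral_congr_ae ?_
        filter_upwards [h5] with x hx
        rw [hx, norm_smul, mul_pow, Real.norm_eq_abs, sq_abs]
      rw [h7, h8] at h4
      exact h4
    have l1 : Tendsto (fun k => ∫ x, ⟪U b a x, fvec Gr (Z k) x⟫_ℝ ∂m) atTop (𝓝 N) := by
      have := (TE.const hZ2.mem').inner_lim hZ2
      simp only [real_inner_self_eq_norm_sq] at this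
      exact this
    have l2 : Tendsto (fun k => ∫ x, ‖fvec Gr (Z k) x‖ ^ 2 ∂m) atTop (𝓝 N) := by
      have := hZ2.inner_lim hZ2
      simp only [real_inner_self_eq_norm_sq] at this
      exact this
    have l3 := (((l1.const_mul t).const_mul 4).const_add h2).add
      ((l2.const_mul (t ^ 2)).const_mul (4 * |K|))
    have := ge_of_tendsto l3 (Eventually.of_forall h3)
    linarith
  have h9 := disc_of_forall key
  have hN0 : 0 ≤ N := n2_nonneg _
  rcases hN0.eq_or_lt with h0 | h0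
  · rw [← h0]
    have h10 : 0 ≤ h2 := hC.h2_nonneg hB hb
    positivity
  · nlinarith

theorem U_inF [SigmaFinite m] (hb : b ∈ C.Test) (ha : a ∈ C.Test) : InF C Gr (U b a) :=
  hC.inF_of_dense hG (hU.mem b hb a ha) (hU.dense b hb a ha)

theorem U_lin1 [SigmaFinite m] (t : ℝ) (hb : b ∈ C.Test) (hb' : b' ∈ C.Test) (ha : a ∈ C.Test) :
    ∀ᵐ x ∂m, U (b + t • b') a x = U b a x + t • U b' a x := by
  have hs := hC.test_add hB hb (hC.test_smul hB t hb')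
  have h1 := InF.eq_zero hC hG ((hC.U_inF hB hG hU hs ha).add ((((hC.U_inF hB hG hU hb ha).add
    (InF.smul hC hG hB t (hC.U_inF hB hG hU hb' ha)))).smul hC hG hB (-1))) (fun c hc => by
      have h2 := hU.inner _ hs a ha c hc
      rw [hC.hess_lin1 hB t hb hb' ha hc] at h2
      filter_upwards [h2, hU.inner b hb a ha c hc, hU.inner b' hb' a ha c hc,
        add_ae (C.hess b a c) (t • C.hess b' a c), smul_ae (C.hess b' a c) t] with x a1 a2 a3 a4 a5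
      rw [inner_add_left, a1, real_inner_smul_left, inner_add_left, real_inner_smul_left, a2, a3,
        a4, a5]
      ring)
  filter_upwards [h1] with x hx
  rw [neg_one_smul, ← sub_eq_add_neg, sub_eq_zero] at hx
  exact hx

theorem U_lin2 [SigmaFinite m] (t : ℝ) (hb : b ∈ C.Test) (ha : a ∈ C.Test) (ha' : a' ∈ C.Test) :
    ∀ᵐ x ∂m, U b (a + t • a') x = U b a x + t • U b a' x := by
  have hs := hC.test_add hB ha (hC.test_smul hB t ha')
  have h1 := InF.eq_zero hC hG ((hC.U_inF hB hG hU hb hs).add ((((hC.U_inF hB hG hU hb ha).add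
    (InF.smul hC hG hB t (hC.U_inF hB hG hU hb ha')))).smul hC hG hB (-1))) (fun c hc => by
      have h2 := hU.inner b hb _ hs c hc
      rw [hC.hess_lin2 hB t ha ha' hb hc] at h2
      filter_upwards [h2, hU.inner b hb a ha c hc, hU.inner b hb a' ha' c hc,
        add_ae (C.hess b a c) (t • C.hess b a' c), smul_ae (C.hess b a' c) t] with x a1 a2 a3 a4 a5
      rw [inner_add_left, a1, real_inner_smul_left, inner_add_left, real_inner_smul_left, a2, a3,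
        a4, a5]
      ring)
  filter_upwards [h1] with x hx
  rw [neg_one_smul, ← sub_eq_add_neg, sub_eq_zero] at hx
  exact hx

/-- `∇⟨∇b,∇a⟩ = ∇_{∇a}∇b + ∇_{∇b}∇a` -/
theorem U_Gr [SigmaFinite m] (hb : b ∈ C.Test) (ha : a ∈ C.Test) :
    ∀ᵐ x ∂m, Gr (C.Γ b a) x = U b a x + U a b x := by
  have hg := (hC.Γ_mem hB hb ha).1
  have h1 := InF.eq_zero hC hG ((hC.inF_Gr hG hB hg).add (((hC.U_inF hB hG hU hb ha).add
    (hC.U_inF hB hG hU ha hb)).smul hC hG hB (-1))) (fun c hc => by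
      have h2 := hG.inner _ hg c (hC.tW hc)
      have h3 : C.Γ (C.Γ b a) c = C.hess b a c + C.hess a b c := by
        have n1 := (hC.Γ_mem hB hb hc).1
        have n2 := (hC.Γ_mem hB ha hc).1
        unfold Calc.hess
        rw [hC.symm _ hg _ (hC.tW hc), hC.symm _ (hC.tW ha) _ (hC.tW hb)]
        algebra
      rw [h3] at h2
      filter_upwards [h2, hU.inner b hb a ha c hc, hU.inner a ha b hb c hc,
        add_ae (C.hess b a c) (C.hess a b c)] with x a1 a2 a3 a4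
      rw [inner_add_left, a1, real_inner_smul_left, inner_add_left, a2, a3, a4]
      ring)
  filter_upwards [h1] with x hx
  rw [neg_one_smul, ← sub_eq_add_neg, sub_eq_zero] at hx
  exact hx

variable {u v F : ℕ → M →ₘ[m] ℝ} {f φ : M →ₘ[m] ℝ}

/-- `∇_{∇a}∇b` depends continuously on `a`, `b` -/
theorem Cv_U [SigmaFinite m] (h1 : C.Cv v b) (h2 : C.Cv u a) :
    TE m (fun n => U (v n) (u n)) (U b a) := by
  have hv := hC.Cv_sub_test hB h1
  have hu := hC.Cv_sub_test hB h2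
  obtain ⟨K, hK⟩ := hC.Cv_bd hB h2
  obtain ⟨L, hL'⟩ := mem_top_iff.1 (hC.test_Γ_top h1.lim)
  have hL : ∀ᵐ x ∂m, C.Γ b b x ≤ L := by
    filter_upwards [hL'] with x hx
    exact (le_abs_self _).trans hx
  have sq0 : ∀ {w : ℕ → M →ₘ[m] ℝ}, (∀ n, w n ∈ C.Test) → Tendsto (fun n =>
      √(I (C.lap (w n) ^ 2) - κ * I (C.Γ (w n) (w n)))) atTop (𝓝 0) → Tendsto (fun n =>
      I (C.lap (w n) ^ 2) - κ * I (C.Γ (w n) (w n))) atTop (𝓝 0) := by
    intro w hw h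
    have h3 := h.pow 2
    rw [zero_pow two_ne_zero] at h3
    refine h3.congr fun n => ?_
    rw [Real.sq_sqrt (hC.h2_nonneg hB (hw n))]
  have l1 := (sq0 hv (hC.Cv_h2 hB h1)).const_mul |K|
  have l2 := (sq0 hu (hC.Cv_h2 hB h2)).const_mul |L|
  have l3 := hC.Cv_Γ_zero hB h2 h1.lim
  rw [mul_zero] at l1 l2
  -- the first part
  have t1 : Tendsto (fun n => ∫ x, ‖U (v n - b) (u n) x‖ ^ 2 ∂m) atTop (𝓝 0) :=
    squeeze_zero (fun n => n2_nonneg _) (fun n => hC.U_norm_le hB hG hU (hv n) (h2.test n) (hK n)) l1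
  -- the second part
  have t2 : Tendsto (fun n => ∫ x, ‖U b (u n - a) x‖ ^ 2 ∂m) atTop (𝓝 0) := by
    refine squeeze_zero (fun n => n2_nonneg _) (fun n => ?_)
      (by simpa using (l3.const_mul 2).add (l2.const_mul 2))
    have hg := (hC.Γ_mem hB h1.lim (hu n)).1
    have h3 := n2_add_le (hG.mem _ hg) ((hU.mem _ (hu n) _ h1.lim).neg)
    have h4 : ∫ x, ‖U b (u n - a) x‖ ^ 2 ∂m =
        ∫ x, ‖Gr (C.Γ b (u n - a)) x + (-U (u n - a) b) x‖ ^ 2 ∂m := by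
      refine integral_congr_ae ?_
      filter_upwards [hC.U_Gr hB hG hU h1.lim (hu n)] with x hx
      rw [hx, Pi.neg_apply]
      congr 2
      abel
    have h5 : ∫ x, ‖(-U (u n - a) b) x‖ ^ 2 ∂m = ∫ x, ‖U (u n - a) b x‖ ^ 2 ∂m := by
      simp only [Pi.neg_apply, norm_neg]
    have h6 := hC.U_norm_le hB hG hU (hu n) h1.lim hL
    rw [h4]
    rw [h5, hG.int_norm_sq hg] at h3
    linarith
  refine ⟨fun n => hU.mem _ (h1.test n) _ (h2.test n), hU.mem _ h1.lim _ h2.lim, ?_⟩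
  refine squeeze_zero (fun n => n2_nonneg _) (fun n => ?_)
    (by simpa using (t1.const_mul 2).add (t2.const_mul 2))
  have h3 := n2_add_le (hU.mem _ (hv n) _ (h2.test n)) (hU.mem _ h1.lim _ (hu n))
  refine le_trans (le_of_eq ?_) h3
  refine integral_congr_ae ?_
  have e1 : b + (1 : ℝ) • (v n - b) = v n := by rw [one_smul]; abel
  have e2 : a + (1 : ℝ) • (u n - a) = u n := by rw [one_smul]; abel
  have h4 := hC.U_lin1 hB hG hU 1 h1.lim (hv n) (h2.test n)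
  have h5 := hC.U_lin2 hB hG hU 1 h1.lim h2.lim (hu n)
  rw [e1] at h4
  rw [e2] at h5
  filter_upwards [h4, h5] with x a1 a2
  simp only [a1, a2, one_smul]
  congr 2
  abel

omit hG in
theorem I_rkI [SigmaFinite m] (κ' : ℝ) (ha : a ∈ C.Test) (hb : b ∈ C.Test) (hφ : φ ∈ C.A) :
    I (C.rkI (UUof m U) κ' a b b a φ) =
      -I (C.De φ a * C.hess b b a) + I (C.De φ b * C.hess b a a)
      + (-I (φ * ipE m (U a a) (U b b)) + 2 * I (φ * ipE m (U a b) (U b a))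
        - I (φ * ipE m (U b a) (U b a)))
      - κ' * (I (φ * C.Γ a a * C.Γ b b) - I (φ * C.Γ a b * C.Γ a b)) := by
  have m1 := mem_mul_22 (hC.mem_De hφ ha) (hC.hess_mem2 hB hb hb ha)
  have m2 := mem_mul_22 (hC.mem_De hφ hb) (hC.hess_mem2 hB hb ha ha)
  have mU : ∀ {p q r s : M →ₘ[m] ℝ}, p ∈ C.Test → q ∈ C.Test → r ∈ C.Test → s ∈ C.Test →
      MemLp (φ * ipE m (U p q) (U r s) : M →ₘ[m] ℝ) 1 m := fun hp hq hr hs =>
    mem_mul_top hφ.2 (ipE_mem (hU.mem _ hp _ hq) (hU.mem _ hr _ hs))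
  have mΓ : ∀ {p q r s : M →ₘ[m] ℝ}, p ∈ C.Test → q ∈ C.Test → r ∈ C.Test → s ∈ C.Test →
      MemLp (φ * C.Γ p q * C.Γ r s : M →ₘ[m] ℝ) 1 m := fun hp hq hr hs =>
    mem_mul_top (mem_mul_top hφ.2 (hC.Γ_mem hB hp hq).2) (hC.Γ_mem1 (hC.tW hr) (hC.tW hs))
  have e : C.rkI (UUof m U) κ' a b b a φ =
      (-(C.De φ a * C.hess b b a) + C.De φ b * C.hess b a a)
      + ((-(φ * ipE m (U a a) (U b b)) + (2 : ℝ) • (φ * ipE m (U a b) (U b a)))
        - φ * ipE m (U b a) (U b a))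
      - κ' • (φ * C.Γ a a * C.Γ b b - φ * C.Γ a b * C.Γ a b) := by
    unfold Calc.rkI Calc.rrI UUof
    algebra
  have n1 := mem_neg m1
  have n2 := mem_neg (mU ha ha hb hb)
  have n3 := mem_smul (2 : ℝ) (mU ha hb hb ha)
  have n4 := mU hb ha hb ha
  have n5 := mΓ ha ha hb hb
  have n6 := mΓ ha hb ha hb
  rw [e, I_sub (mem_add (mem_add n1 m2) (mem_sub (mem_add n2 n3) n4)) (mem_smul _ (mem_sub n5 n6)),
    I_add (mem_add n1 m2) (mem_sub (mem_add n2 n3) n4), I_add n1 m2, I_sub (mem_add n2 n3) n4,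
    I_add n2 n3, I_smul, I_smul, I_sub n5 n6, I_neg, I_neg]

/-- **Continuity of the curvature functional.** -/
theorem Cv_rkI [SigmaFinite m] {κ' : ℝ} (hF : C.Cv F f) (hFb : Tb F f) (h1 : C.Cv u a)
    (h2 : C.Cv v b) :
    Tendsto (fun n => I (C.rkI (UUof m U) κ' (u n) (v n) (v n) (u n) (F n))) atTop
      (𝓝 (I (C.rkI (UUof m U) κ' a b b a f))) := by
  have hD := hC.toIsDir
  have t1 := (hC.Cv_De hB hF hFb h1).mul_lim (hC.Cv_hess hB h2 h2 h1)
  have t2 := (hC.Cv_De hB hF hFb h2).mul_lim (hC.Cv_hess hB h2 h1 h1)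
  have t3 := TE.ip hFb (hC.Cv_U hB hG hU h1 h1) (hC.Cv_U hB hG hU h2 h2)
  have t4 := TE.ip hFb (hC.Cv_U hB hG hU h1 h2) (hC.Cv_U hB hG hU h2 h1)
  have t5 := TE.ip hFb (hC.Cv_U hB hG hU h2 h1) (hC.Cv_U hB hG hU h2 h1)
  have t6 := (hFb.mul (hD.TW_T2 (hC.Cv_Γ hB h1 h1))).mul_lim (hD.TW_T2 (hC.Cv_Γ hB h2 h2))
  have t7 := (hFb.mul (hD.TW_T2 (hC.Cv_Γ hB h1 h2))).mul_lim (hD.TW_T2 (hC.Cv_Γ hB h1 h2))
  rw [hC.I_rkI hB hU κ' h1.lim h2.lim (hC.test_A hF.lim)]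
  refine (((t1.neg.add t2).add ((t3.neg.add (t4.const_mul 2)).sub t5)).sub
    ((t6.sub t7).const_mul κ')).congr fun n => ?_
  rw [hC.I_rkI hB hU κ' (h1.test n) (h2.test n) (hC.test_A (hF.test n))]

end IsGamma

end Vale.Agent.P233
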