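import Vale.Agent.P233.AB.UU

open MeasureTheory Filter Topology
open scoped ENNReal NNReal InnerProductSpace

namespace Vale.Agent.P233

variable {M : Type*} [MeasurableSpace M] {m : Measure M} {C : Calc m}
variable {E : Type*} [NormedAddCommGroup E] [InnerProductSpace ℝ E] {Gr : (M →ₘ[m] ℝ) → M → E}
variable {U : (M →ₘ[m] ℝ) → (M →ₘ[m] ℝ) → M → E}

theorem exists_pos_ofReal_lt {ε : ℝ≥0∞} (hε : 0 < ε) : ∃ δ : ℝ, 0 < δ ∧ ENNReal.ofReal δ < ε := by
  by_cases h : ε = ∞
  · exact ⟨1, one_pos, by rw [h]; exact ENNReal.ofReal_lt_top⟩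
  · refine ⟨ε.toReal / 2, half_pos (ENNReal.toReal_pos hε.ne' h), ?_⟩
    rw [ENNReal.ofReal_lt_iff_lt_toReal (by positivity) h]
    exact half_lt_self (ENNReal.toReal_pos hε.ne' h)

theorem eLpNorm_lt_of_int {u : M → E} (hu : MemLp u 2 m) {δ : ℝ} (hδ : 0 < δ)
    (h : ∫ x, ‖u x‖ ^ 2 ∂m < δ ^ 2) : eLpNorm u 2 m < ENNReal.ofReal δ := by
  rw [← eLpNorm_sq_eq hu] at h
  have h1 := lt_of_pow_lt_pow_left₀ 2 hδ.le h
  rwa [ENNReal.lt_ofReal_iff_toReal_lt hu.2.ne]

variable (hC : IsGamma C) {κ : ℝ} (hB : C.BEi κ) (hG : IsGrad C Gr) (hU : IsHU C Gr U)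
variable {f g h φ ψ a b c d a' b' : M →ₘ[m] ℝ}

include hC hB hG in
/-- gradients of Sobolev functions are in the closure of the test fields -/
theorem incl_grad [SigmaFinite m] (hh : h ∈ C.W) : InClo C Gr (Gr h) := by
  refine ⟨hG.mem h hh, fun ε hε => ?_⟩
  obtain ⟨δ, hδ, hδε⟩ := exists_pos_ofReal_lt hε
  obtain ⟨g, hg, hgh⟩ := hC.test_dense hB hh (ε := (δ / 2) ^ 2) (by positivity)
  obtain ⟨χ, Λ, hT, -, hb1, hconv, -⟩ := hC.exists_cut hB
  have gW := hC.tW hg
  have hgm : MemLp (fun x => Gr g x - Gr h x) 2 m := (hG.mem g gW).sub (hG.mem h hh)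
  have e1 : ∫ x, ‖Gr g x - Gr h x‖ ^ 2 ∂m < (δ / 2) ^ 2 := by
    have e2 : ∫ x, ‖Gr g x - Gr h x‖ ^ 2 ∂m = I (C.Γ (g - h) (g - h)) := by
      rw [← hG.int_norm_sq (hC.sub_mem gW hh)]
      refine integral_congr_ae ?_
      filter_upwards [hG.sub hC.toIsDir gW hh] with x hx
      rw [hx]
    rw [e2]
    have h3 := hC.E_le_nrm2 (g - h)
    exact lt_of_le_of_lt h3 hgh
  have n1 := eLpNorm_lt_of_int hgm (by positivity) e1
  -- cut off
  have hk : Tendsto (fun k => I ((χ k - 1) ^ 2 * C.Γ g g)) atTop (𝓝 0) := by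
    have h1 : Tendsto (fun k => I ((χ k - 1) ^ 2 * C.Γ g g)) atTop
        (𝓝 (I (0 * C.Γ g g))) := by
      refine I_tendsto_of_bdd (K := 4) (fun k => ?_) ?_ (hC.mem1 g gW)
      · filter_upwards [hb1 k, sq_ae (χ k - 1), sub_ae (χ k) 1, one_ae (M := M) (m := m)]
          with x a1 a2 a3 a4
        rw [a2, a3, a4, abs_of_nonneg (sq_nonneg _)]
        rw [abs_le] at a1
        nlinarith [a1.1, a1.2]
      · have : ∀ᵐ x ∂m, ∀ k, ((χ k - 1) ^ 2 : M →ₘ[m] ℝ) x = (χ k x - 1) ^ 2 := by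
          rw [ae_all_iff]; intro k
          filter_upwards [sq_ae (χ k - 1), sub_ae (χ k) 1, one_ae (M := M) (m := m)]
            with x a2 a3 a4
          rw [a2, a3, a4]
        filter_upwards [hconv, this, zero_ae (M := M) (m := m)] with x a1 a2 a3
        rw [a3]
        simp only [a2]
        have := (a1.sub_const 1).pow 2
        simpa using this
    rwa [zero_mul, I_zero] at h1
  obtain ⟨k, hk2⟩ := (hk.eventually (gt_mem_nhds (show (0 : ℝ) < (δ / 2) ^ 2 by positivity))).exists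
  have hcm : MemLp (fun x => χ k x • Gr g x) 2 m :=
    hG.smul_mem2 (hC.test_A (hT k)).2 gW
  have hdm : MemLp (fun x => χ k x • Gr g x - Gr g x) 2 m := hcm.sub (hG.mem g gW)
  have n2 := eLpNorm_lt_of_int hdm (δ := δ / 2) (by positivity) (by
    refine lt_of_eq_of_lt (integral_congr_ae ?_) hk2
    filter_upwards [mul_ae ((χ k - 1) ^ 2) (C.Γ g g), sq_ae (χ k - 1), sub_ae (χ k) 1,
      one_ae (M := M) (m := m), hG.norm_sq gW] with x a1 a2 a3 a4 a5
    rw [a1, a2, a3, a4, ← a5]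
    have : χ k x • Gr g x - Gr g x = (χ k x - 1) • Gr g x := by rw [sub_smul, one_smul]
    rw [this, norm_smul, mul_pow, Real.norm_eq_abs, sq_abs])
  refine ⟨[(χ k, g)], ?_, ?_⟩
  · intro p hp
    rw [List.mem_singleton] at hp
    rw [hp]; exact ⟨hT k, hg⟩
  · have e3 : (fun x => Gr h x - fvec Gr [(χ k, g)] x)
        = fun x => -((χ k x • Gr g x - Gr g x) + (Gr g x - Gr h x)) := by
      funext x
      rw [IsGrad.fvec_cons, IsGrad.fvec_nil]
      simp only [Pi.zero_apply, add_zero]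
      abel
    rw [e3]
    have e4 : eLpNorm (fun x => -((χ k x • Gr g x - Gr g x) + (Gr g x - Gr h x))) 2 m
        = eLpNorm ((fun x => χ k x • Gr g x - Gr g x) + fun x => Gr g x - Gr h x) 2 m := by
      rw [← eLpNorm_neg]; congr 1; funext x; simp
    rw [e4]
    refine lt_of_le_of_lt (eLpNorm_add_le hdm.1 hgm.1 (by norm_num)) (lt_trans
      (ENNReal.add_lt_add n2 n1) ?_)
    rw [← ENNReal.ofReal_add (by positivity) (by positivity), add_halves]
    exact hδε

namespace IsHU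
include hU

theorem incl (hb : b ∈ C.Test) (ha : a ∈ C.Test) : InClo C Gr (U b a) :=
  ⟨hU.mem b hb a ha, hU.dense b hb a ha⟩

include hC hB hG

theorem lin_b (t : ℝ) (hb : b ∈ C.Test) (hb' : b' ∈ C.Test) (ha : a ∈ C.Test) :
    ∀ᵐ x ∂m, U (b + t • b') a x = U b a x + t • U b' a x := by
  have hs := hC.test_add hB hb (hC.test_smul hB t hb')
  have i1 := (hU.incl hs ha).add hG hC (((hU.incl hb ha).add hG hC
    ((hU.incl hb' ha).smul hB hG hC t)).smul hB hG hC (-1))
  have h0 := i1.eq_zero hG hC fun c hc => by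
    filter_upwards [hU.inner _ hs _ ha _ hc, hU.inner _ hb _ ha _ hc, hU.inner _ hb' _ ha _ hc,
      eq_iff_ae.1 (hC.hess_lin1 hB t hb hb' ha hc), add_ae (C.hess b a c) (t • C.hess b' a c),
      smul_ae (C.hess b' a c) t] with x a1 a2 a3 a4 a5 a6
    rw [inner_add_left, real_inner_smul_left, inner_add_left, real_inner_smul_left, a1, a2, a3, a4,
      a5, a6]
    ring
  filter_upwards [h0] with x hx
  rw [neg_one_smul, ← sub_eq_add_neg, sub_eq_zero] at hx
  exact hx

theorem lin_a (t : ℝ) (ha : a ∈ C.Test) (ha' : a' ∈ C.Test) (hb : b ∈ C.Test) :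
    ∀ᵐ x ∂m, U b (a + t • a') x = U b a x + t • U b a' x := by
  have hs := hC.test_add hB ha (hC.test_smul hB t ha')
  have i1 := (hU.incl hb hs).add hG hC (((hU.incl hb ha).add hG hC
    ((hU.incl hb ha').smul hB hG hC t)).smul hB hG hC (-1))
  have h0 := i1.eq_zero hG hC fun c hc => by
    filter_upwards [hU.inner _ hb _ hs _ hc, hU.inner _ hb _ ha _ hc, hU.inner _ hb _ ha' _ hc,
      eq_iff_ae.1 (hC.hess_lin2 hB t ha ha' hb hc), add_ae (C.hess b a c) (t • C.hess b a' c),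
      smul_ae (C.hess b a' c) t] with x a1 a2 a3 a4 a5 a6
    rw [inner_add_left, real_inner_smul_left, inner_add_left, real_inner_smul_left, a1, a2, a3, a4,
      a5, a6]
    ring
  filter_upwards [h0] with x hx
  rw [neg_one_smul, ← sub_eq_add_neg, sub_eq_zero] at hx
  exact hx

theorem sym [SigmaFinite m] (ha : a ∈ C.Test) (hb : b ∈ C.Test) :
    ∀ᵐ x ∂m, U a b x + U b a x = Gr (C.Γ a b) x := by
  have hg := (hC.Γ_mem hB ha hb).1
  have i1 := ((hU.incl ha hb).add hG hC (hU.incl hb ha)).add hG hC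
    ((incl_grad hC hB hG hg).smul hB hG hC (-1))
  have h0 := i1.eq_zero hG hC fun c hc => by
    have e : C.hess a b c + C.hess b a c = C.Γ c (C.Γ a b) := by
      unfold Calc.hess
      rw [hC.symm _ (hC.tW hb) _ (hC.tW ha)]
      algebra
    filter_upwards [hU.inner _ ha _ hb _ hc, hU.inner _ hb _ ha _ hc, hG.inner _ hg _ (hC.tW hc),
      eq_iff_ae.1 e, add_ae (C.hess a b c) (C.hess b a c),
      eq_iff_ae.1 (hC.symm _ (hC.tW hc) _ hg)] with x a1 a2 a3 a4 a5 a6
    rw [inner_add_left, real_inner_smul_left, inner_add_left, a1, a2, a3, ← a6, ← a4, a5]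
    ring
  filter_upwards [h0] with x hx
  rw [neg_one_smul, ← sub_eq_add_neg, sub_eq_zero] at hx
  exact hx

/-- `UUof m U` is a good family -/
theorem isUU : C.IsUU (UUof m U) := by
  have hm : ∀ {b a : M →ₘ[m] ℝ}, b ∈ C.Test → a ∈ C.Test → AEStronglyMeasurable (U b a) m :=
    fun hb ha => (hU.mem _ hb _ ha).1
  refine ⟨fun a ha b hb c hc d hd => ipE_mem (hU.mem _ ha _ hb) (hU.mem _ hc _ hd),
    ?_, ?_, ?_, ?_⟩
  · intro a ha a' ha' b hb c hc d hd t
    have hs := hC.test_add hB ha (hC.test_smul hB t ha')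
    rw [eq_iff_ae]
    filter_upwards [ipE_ae (hm hs hb) (hm hc hd), ipE_ae (hm ha hb) (hm hc hd),
      ipE_ae (hm ha' hb) (hm hc hd), hU.lin_b hC hB hG t ha ha' hb,
      add_ae (UUof m U a b c d) (t • UUof m U a' b c d), smul_ae (UUof m U a' b c d) t]
      with x a1 a2 a3 a4 a5 a6
    rw [a5, a6]
    unfold UUof
    rw [a1, a2, a3, a4, inner_add_left, real_inner_smul_left]
  · intro a ha a' ha' b hb c hc d hd t
    have hs := hC.test_add hB ha (hC.test_smul hB t ha')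
    rw [eq_iff_ae]
    filter_upwards [ipE_ae (hm hb hs) (hm hc hd), ipE_ae (hm hb ha) (hm hc hd),
      ipE_ae (hm hb ha') (hm hc hd), hU.lin_a hC hB hG t ha ha' hb,
      add_ae (UUof m U b a c d) (t • UUof m U b a' c d), smul_ae (UUof m U b a' c d) t]
      with x a1 a2 a3 a4 a5 a6
    rw [a5, a6]
    unfold UUof
    rw [a1, a2, a3, a4, inner_add_left, real_inner_smul_left]
  · intro a ha a' ha' b hb c hc d hd t
    have hs := hC.test_add hB ha (hC.test_smul hB t ha')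
    rw [eq_iff_ae]
    filter_upwards [ipE_ae (hm hb hc) (hm hs hd), ipE_ae (hm hb hc) (hm ha hd),
      ipE_ae (hm hb hc) (hm ha' hd), hU.lin_b hC hB hG t ha ha' hd,
      add_ae (UUof m U b c a d) (t • UUof m U b c a' d), smul_ae (UUof m U b c a' d) t]
      with x a1 a2 a3 a4 a5 a6
    rw [a5, a6]
    unfold UUof
    rw [a1, a2, a3, a4, inner_add_right, real_inner_smul_right]
  · intro a ha a' ha' b hb c hc d hd t
    have hs := hC.test_add hB ha (hC.test_smul hB t ha')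
    rw [eq_iff_ae]
    filter_upwards [ipE_ae (hm hb hc) (hm hd hs), ipE_ae (hm hb hc) (hm hd ha),
      ipE_ae (hm hb hc) (hm hd ha'), hU.lin_a hC hB hG t ha ha' hd,
      add_ae (UUof m U b c d a) (t • UUof m U b c d a'), smul_ae (UUof m U b c d a') t]
      with x a1 a2 a3 a4 a5 a6
    rw [a5, a6]
    unfold UUof
    rw [a1, a2, a3, a4, inner_add_right, real_inner_smul_right]

end IsHU

end Vale.Agent.P233
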