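import Vale.Agent.P233.AB.GlueE
import Vale.Agent.P233.AB.UU2

open MeasureTheory Filter Topology
open scoped ENNReal NNReal InnerProductSpace

namespace Vale.Agent.P233

variable {M : Type*} [MeasurableSpace M] {m : Measure M} {C : Calc m}
variable {E : Type*} [NormedAddCommGroup E] [InnerProductSpace ℝ E] {Gr : (M →ₘ[m] ℝ) → M → E}
variable {U : (M →ₘ[m] ℝ) → (M →ₘ[m] ℝ) → M → E}

theorem fin_big {p q : ℕ} {G : Fin p → Fin p → Fin q → Fin q → M →ₘ[m] ℝ}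
    (hGm : ∀ j l i k, MemLp (G j l i k) 1 m) :
    I (∑ j, ∑ l, ∑ i, ∑ k, G j l i k) = ∑ j, ∑ l, ∑ i, ∑ k, I (G j l i k) := by
  have m1 : ∀ j l i, MemLp (∑ k, G j l i k : M →ₘ[m] ℝ) 1 m := fun j l i =>
    (I_fsum _ fun k _ => hGm j l i k).2
  have m2 : ∀ j l, MemLp (∑ i, ∑ k, G j l i k : M →ₘ[m] ℝ) 1 m := fun j l =>
    (I_fsum _ fun i _ => m1 j l i).2
  have m3 : ∀ j, MemLp (∑ l, ∑ i, ∑ k, G j l i k : M →ₘ[m] ℝ) 1 m := fun j =>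
    (I_fsum _ fun l _ => m2 j l).2
  rw [(I_fsum _ fun j _ => m3 j).1]
  refine Finset.sum_congr rfl fun j _ => ?_
  rw [(I_fsum _ fun l _ => m2 j l).1]
  refine Finset.sum_congr rfl fun l _ => ?_
  rw [(I_fsum _ fun i _ => m1 j l i).1]
  refine Finset.sum_congr rfl fun i _ => ?_
  rw [(I_fsum _ fun k _ => hGm j l i k).1]

theorem fin_e1 {α : Type*} {β : Type*} [AddCommMonoid β] (X Y : List α)
    (F : α → α → α → α → β) :
    (X.map fun p => (Y.map fun q => (Y.map fun r => (X.map fun s => F p q r s).sum).sum).sum).sum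
      = ∑ j : Fin Y.length, ∑ l : Fin Y.length, ∑ i : Fin X.length, ∑ k : Fin X.length,
        F (X[i.1]) (Y[j.1]) (Y[l.1]) (X[k.1]) := by
  have hs : ∀ (Z : List α) (g : α → β), (Z.map g).sum = ∑ i : Fin Z.length, g (Z[i.1]) :=
    fun Z g => (Fin.sum_univ_fun_getElem Z g).symm
  simp only [hs]
  rw [Finset.sum_comm]
  refine Finset.sum_congr rfl fun j _ => ?_
  rw [Finset.sum_comm]

theorem fin_ip (C : Calc m) (Z Z' : List ((M →ₘ[m] ℝ) × (M →ₘ[m] ℝ))) : C.ip Z Z'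
    = ∑ i : Fin Z.length, ∑ j : Fin Z'.length, (Z[i.1]).1 * (Z'[j.1]).1
      * C.Γ (Z[i.1]).2 (Z'[j.1]).2 := by
  unfold Calc.ip
  rw [← Fin.sum_univ_fun_getElem Z]
  refine Finset.sum_congr rfl fun i _ => ?_
  rw [← Fin.sum_univ_fun_getElem Z']

/-- The `κ` integrand of a quadruple. -/
noncomputable def finW (C : Calc m) (f : M →ₘ[m] ℝ) (p q r s : (M →ₘ[m] ℝ) × (M →ₘ[m] ℝ)) :
    M →ₘ[m] ℝ :=
  f * (q.1 * r.1) * (p.1 * s.1) * (C.Γ p.2 s.2 * C.Γ q.2 r.2 - C.Γ p.2 q.2 * C.Γ s.2 r.2)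

theorem fin_e2 (C : Calc m) (f : M →ₘ[m] ℝ) (X Y : List ((M →ₘ[m] ℝ) × (M →ₘ[m] ℝ))) :
    f * (C.ip X X * C.ip Y Y - C.ip X Y ^ 2)
      = ∑ j : Fin Y.length, ∑ l : Fin Y.length, ∑ i : Fin X.length, ∑ k : Fin X.length,
        finW C f (X[i.1]) (Y[j.1]) (Y[l.1]) (X[k.1]) := by
  rw [fin_ip C X X, fin_ip C Y Y, fin_ip C X Y]
  have h3 : ∀ (j l : Fin Y.length) (i k : Fin X.length),
      finW C f (X[i.1]) (Y[j.1]) (Y[l.1]) (X[k.1])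
      = f * (((X[i.1]).1 * (X[k.1]).1 * C.Γ (X[i.1]).2 (X[k.1]).2)
          * ((Y[j.1]).1 * (Y[l.1]).1 * C.Γ (Y[j.1]).2 (Y[l.1]).2))
        - f * (((X[i.1]).1 * (Y[j.1]).1 * C.Γ (X[i.1]).2 (Y[j.1]).2)
          * ((X[k.1]).1 * (Y[l.1]).1 * C.Γ (X[k.1]).2 (Y[l.1]).2)) := by
    intro j l i k
    unfold finW
    ring
  simp only [h3, Finset.sum_sub_distrib, ← Finset.mul_sum, ← Finset.sum_mul]
  rw [mul_sub]
  congr 1
  congr 1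
  rw [sq]
  congr 1 <;> exact Finset.sum_comm

theorem fin_term [SigmaFinite m] (hC : IsGamma C) {κ κ' : ℝ} (hB : C.BEi κ) {UU : UUT m}
    (hUU : C.IsUU UU) {f : M →ₘ[m] ℝ} (hf : f ∈ C.Test)
    {p q r s : (M →ₘ[m] ℝ) × (M →ₘ[m] ℝ)} (hp : p.1 ∈ C.Test ∧ p.2 ∈ C.Test)
    (hq : q.1 ∈ C.Test ∧ q.2 ∈ C.Test) (hr : r.1 ∈ C.Test ∧ r.2 ∈ C.Test)
    (hs : s.1 ∈ C.Test ∧ s.2 ∈ C.Test) :
    MemLp (finW C f p q r s) 1 m ∧ MemLp (C.omI UU f p q r s) 1 m ∧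
      I (C.rkI UU κ' p.2 q.2 r.2 s.2 (f * (q.1 * r.1) * (p.1 * s.1)))
        = I (C.omI UU f p q r s) - κ' * I (finW C f p q r s) := by
  have hφA : f * (q.1 * r.1) * (p.1 * s.1) ∈ C.A :=
    hC.mul_mem_A (hC.mul_mem_A (hC.test_A hf) (hC.mul_mem_A (hC.test_A hq.1) (hC.test_A hr.1)))
      (hC.mul_mem_A (hC.test_A hp.1) (hC.test_A hs.1))
  have hWm : MemLp (finW C f p q r s) 1 m := by
    refine mem_mul_top hφA.2 (mem_sub ?_ ?_)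
    · exact mem_mul_top (hC.Γ_mem hB hp.2 hs.2).2 (hC.Γ_mem1 (hC.tW hq.2) (hC.tW hr.2))
    · exact mem_mul_top (hC.Γ_mem hB hp.2 hq.2).2 (hC.Γ_mem1 (hC.tW hs.2) (hC.tW hr.2))
  obtain ⟨h1, h2⟩ := hC.I_omI hB (UU := UU) hf hp.1 hq.1 hr.1 hs.1 hp.2 hq.2 hr.2 hs.2 hUU.mem
  refine ⟨hWm, h1, ?_⟩
  have h3 : f * s.1 * p.1 * q.1 * r.1 = f * (q.1 * r.1) * (p.1 * s.1) := by ring
  rw [h3] at h2
  have h4 : I (C.omI UU f p q r s)
      = I (C.rrI UU p.2 q.2 r.2 s.2 (f * (q.1 * r.1) * (p.1 * s.1))) := h2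
  rw [h4]
  unfold finW at hWm ⊢
  unfold Calc.rkI
  rw [I_sub (hC.rrI_mem hB hp.2 hq.2 hr.2 hs.2 hφA hUU.mem) (mem_smul _ hWm), I_smul]

/-- The abstract final step: from gradients to the curvature functional of test fields. -/
theorem fin_abs {H : Type*} [NormedAddCommGroup H] [InnerProductSpace ℝ H] [CompleteSpace H]
    [SigmaFinite m] (hC : IsGamma C) {κ κ' : ℝ} (hB : C.BEi κ) (hG : IsGrad C Gr)
    (hU : IsHU C Gr U) {ι : List ((M →ₘ[m] ℝ) × (M →ₘ[m] ℝ)) → H} (hι : C.IsL2TM ι)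
    (hpos : ∀ a ∈ C.Test, ∀ b ∈ C.Test, ∀ f ∈ C.Test, 0 ≤ f →
      0 ≤ I (C.rkI (UUof m U) κ' a b b a f))
    {X Y : List ((M →ₘ[m] ℝ) × (M →ₘ[m] ℝ))}
    (hX : C.IsTestV X) (hY : C.IsTestV Y) :
    (∃ V, C.IsCov ι X Y V) ∧ (∃ V, C.IsCovT ι X Y V) ∧
      ∀ f ∈ C.Test, 0 ≤ f → κ' * I (f * (C.ip X X * C.ip Y Y - C.ip X Y ^ 2))
        ≤ C.curv ι X Y Y X f := by
  obtain ⟨g1, g2, g3⟩ := glue hC hB hG hU hι hX hY
  refine ⟨g1, g2, fun f hf hf0 => ?_⟩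
  rw [g3 f hf, fin_e1, fin_e2]
  have hUU := hU.isUU hC hB hG
  have hX' : ∀ i : Fin X.length, (X[i.1]).1 ∈ C.Test ∧ (X[i.1]).2 ∈ C.Test :=
    fun i => hX _ (List.getElem_mem _)
  have hY' : ∀ i : Fin Y.length, (Y[i.1]).1 ∈ C.Test ∧ (Y[i.1]).2 ∈ C.Test :=
    fun i => hY _ (List.getElem_mem _)
  have key := hC.fields_of_gradients hB hUU (κ' := κ') hpos
    (d := fun i : Fin X.length => (X[i.1]).2) (x := fun i : Fin X.length => (X[i.1]).1)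
    (e := fun i : Fin Y.length => (Y[i.1]).2) (y := fun i : Fin Y.length => (Y[i.1]).1)
    (fun i => (hX' i).2) (fun i => (hY' i).2) (fun i => (hX' i).1) (fun i => (hY' i).1) hf hf0
  have ht := fun (j l : Fin Y.length) (i k : Fin X.length) =>
    fin_term hC hB (κ' := κ') hUU hf (hX' i) (hY' j) (hY' l) (hX' k)
  rw [fin_big fun j l i k => (ht j l i k).1, fin_big fun j l i k => (ht j l i k).2.1]
  have h5 : ∀ (j l : Fin Y.length) (i k : Fin X.length),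
      I (C.rkI (UUof m U) κ' (X[i.1]).2 (Y[j.1]).2 (Y[l.1]).2 (X[k.1]).2
        (f * ((Y[j.1]).1 * (Y[l.1]).1) * ((X[i.1]).1 * (X[k.1]).1)))
      = I (C.omI (UUof m U) f (X[i.1]) (Y[j.1]) (Y[l.1]) (X[k.1]))
        - κ' * I (finW C f (X[i.1]) (Y[j.1]) (Y[l.1]) (X[k.1])) :=
    fun j l i k => (ht j l i k).2.2
  simp only [h5, Finset.sum_sub_distrib, ← Finset.mul_sum] at key
  linarith

end Vale.Agent.P233
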