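import Vale.Agent.P233.AB.Loc2

open MeasureTheory Filter Topology
open scoped ENNReal NNReal InnerProductSpace

namespace Vale.Agent.P233

variable {M : Type*} [MeasurableSpace M] {m : Measure M} {C : Calc m}
variable {E : Type*} [NormedAddCommGroup E] [InnerProductSpace ℝ E] {Gr : (M →ₘ[m] ℝ) → M → E}
variable {U : (M →ₘ[m] ℝ) → (M →ₘ[m] ℝ) → M → E}
variable {S T : Set (M →ₘ[m] ℝ)}
variable (hC : IsGamma C) {κ κ' K : ℝ} (hB : C.BEi κ) (hG : IsGrad C Gr) (hU : IsHU C Gr U)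
variable {a b : M →ₘ[m] ℝ}

include hC hG in
/-- fields with coefficients in a dense class are dense -/
theorem fvec_approx (hST : IsMod S T)
    (hSd : ∀ f ∈ C.W, ∀ ε > 0, ∃ g ∈ S, g ∈ C.W ∧ C.nrm2 (g - f) < ε) :
    ∀ (Z : List ((M →ₘ[m] ℝ) × (M →ₘ[m] ℝ))), C.IsTestV Z → ∀ ε : ℝ, 0 < ε →
      ∃ Z' : List ((M →ₘ[m] ℝ) × (M →ₘ[m] ℝ)), (∀ p ∈ Z', p.1 ∈ S ∧ p.2 ∈ C.Test) ∧
        MemLp (fvec Gr Z') 2 m ∧
        eLpNorm (fun x => fvec Gr Z x - fvec Gr Z' x) 2 m < ENNReal.ofReal ε := by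
  intro Z
  induction Z with
  | nil =>
    intro _ ε hε
    refine ⟨[], by simp, ?_, ?_⟩
    · rw [IsGrad.fvec_nil]; exact MemLp.zero
    · have : (fun x => fvec Gr ([] : List ((M →ₘ[m] ℝ) × (M →ₘ[m] ℝ))) x
          - fvec Gr ([] : List ((M →ₘ[m] ℝ) × (M →ₘ[m] ℝ))) x) = 0 := by
        funext x; simp
      rw [this, eLpNorm_zero]
      simpa using hε
  | cons p Z ih =>
    intro hZ ε hε
    have hZ' : C.IsTestV Z := fun q hq => hZ q (by simp [hq])
    obtain ⟨hp1, hp2⟩ := hZ p (by simp)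
    obtain ⟨Z1, h1, h2, h3⟩ := ih hZ' (ε / 2) (by positivity)
    obtain ⟨L, hL⟩ := mem_top_iff.1 (hC.test_Γ_top hp2)
    obtain ⟨α, hα, hαW, hαε⟩ := hSd p.1 (hC.tW hp1) ((ε / 2) ^ 2 / (|L| + 1)) (by positivity)
    have hαm := hST.topS α hα
    have m1 := smul_memE hαm (hG.mem _ (hC.tW hp2))
    have m0 := smul_memE (hC.test_A hp1).2 (hG.mem _ (hC.tW hp2))
    have hd : MemLp (fun x => p.1 x • Gr p.2 x - α x • Gr p.2 x) 2 m := m0.sub m1
    refine ⟨(α, p.2) :: Z1, ?_, ?_, ?_⟩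
    · intro q hq
      rcases List.mem_cons.1 hq with h | h
      · rw [h]; exact ⟨hα, hp2⟩
      · exact h1 q h
    · refine (m1.add h2).ae_eq ?_
      filter_upwards with x
      rw [IsGrad.fvec_cons]; rfl
    · have n1 : eLpNorm (fun x => p.1 x • Gr p.2 x - α x • Gr p.2 x) 2 m
          < ENNReal.ofReal (ε / 2) := by
        refine eLpNorm_lt_of_int hd (by positivity) ?_
        have e1 : ∫ x, ‖p.1 x • Gr p.2 x - α x • Gr p.2 x‖ ^ 2 ∂m
            ≤ |L| * I ((α - p.1) ^ 2) := by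
          unfold I
          rw [← integral_const_mul]
          refine integral_mono_ae (hd.integrable_norm_pow two_ne_zero)
            ((int_of_mem (mem_sq (mem_sub (hC.memLp _ hαW) (hC.memLp _ (hC.tW hp1))))).const_mul _)
            ?_
          filter_upwards [sq_ae (α - p.1), sub_ae α p.1, hL, hG.norm_sq (hC.tW hp2)]
            with x a1 a2 a3 a4
          rw [a1, a2, ← sub_smul, norm_smul, mul_pow, a4, Real.norm_eq_abs, sq_abs]
          have : C.Γ p.2 p.2 x ≤ |L| := (le_abs_self _).trans (a3.trans (le_abs_self _))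
          nlinarith [sq_nonneg (p.1 x - α x), mul_le_mul_of_nonneg_right this
            (sq_nonneg (p.1 x - α x))]
        have e2 : I ((α - p.1) ^ 2) < (ε / 2) ^ 2 / (|L| + 1) :=
          lt_of_le_of_lt (hC.I_sq_le_nrm2 (hC.sub_mem hαW (hC.tW hp1))) hαε
        refine lt_of_le_of_lt e1 ?_
        calc |L| * I ((α - p.1) ^ 2) ≤ |L| * ((ε / 2) ^ 2 / (|L| + 1)) := by gcongr
          _ = |L| / (|L| + 1) * (ε / 2) ^ 2 := by ring
          _ < 1 * (ε / 2) ^ 2 := by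
              refine mul_lt_mul_of_pos_right ?_ (by positivity)
              rw [div_lt_one (by positivity)]; linarith
          _ = (ε / 2) ^ 2 := one_mul _
      have e3 : (fun x => fvec Gr (p :: Z) x - fvec Gr ((α, p.2) :: Z1) x)
          = (fun x => p.1 x • Gr p.2 x - α x • Gr p.2 x)
            + fun x => fvec Gr Z x - fvec Gr Z1 x := by
        funext x
        rw [IsGrad.fvec_cons, IsGrad.fvec_cons, Pi.add_apply]
        abel
      rw [e3]
      refine lt_of_le_of_lt (eLpNorm_add_le hd.1 ((hG.fvec_mem hC hZ').sub h2).1 (by norm_num)) ?_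
      calc _ < ENNReal.ofReal (ε / 2) + ENNReal.ofReal (ε / 2) := ENNReal.add_lt_add n1 h3
        _ = ENNReal.ofReal ε := by
            rw [← ENNReal.ofReal_add (by positivity) (by positivity), add_halves]

include hC hB hG hU

/-- localisation in the potential, for lists -/
theorem loc_list [SigmaFinite m] (hST : IsMod S T) (hTA : ∀ f ∈ T, f ∈ C.A)
    (ha : a ∈ C.Test) (hb : b ∈ C.Test)
    (H : ∀ k ∈ C.Test, ∀ φ ∈ T, 0 ≤ φ → 0 ≤ I (C.rkI (UUof m U) κ' a b b a φ)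
      + 3 * nE m φ (fun x => U b a x + Gr k x)) :
    ∀ (Z : List ((M →ₘ[m] ℝ) × (M →ₘ[m] ℝ))), (∀ p ∈ Z, p.1 ∈ S ∧ p.2 ∈ C.Test) →
      MemLp (fun x => U b a x + fvec Gr Z x) 2 m ∧
      ∀ k ∈ C.Test, ∀ φ ∈ T, 0 ≤ φ → 0 ≤ I (C.rkI (UUof m U) κ' a b b a φ)
        + 3 * nE m φ (fun x => (U b a x + fvec Gr Z x) + Gr k x) := by
  intro Z
  induction Z with
  | nil =>
    intro _
    have e : (fun x => U b a x + fvec Gr ([] : List ((M →ₘ[m] ℝ) × (M →ₘ[m] ℝ))) x) = U b a := by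
      funext x; rw [IsGrad.fvec_nil]; simp
    have e' : ∀ k, (fun x => (U b a x + fvec Gr ([] : List ((M →ₘ[m] ℝ) × (M →ₘ[m] ℝ))) x)
        + Gr k x) = fun x => U b a x + Gr k x := by
      intro k; funext x; rw [IsGrad.fvec_nil]; simp
    refine ⟨by rw [e]; exact hU.mem b hb a ha, fun k hk φ hφ hφ0 => ?_⟩
    rw [e' k]
    exact H k hk φ hφ hφ0
  | cons p Z ih =>
    intro hZ
    obtain ⟨h1, h2⟩ := ih fun q hq => hZ q (by simp [hq])
    obtain ⟨hp1, hp2⟩ := hZ p (by simp)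
    have h3 := loc_step hC hB hG hU hST hTA ha hb h1 h2 hp1 hp2
    have e : ∀ x, U b a x + fvec Gr (p :: Z) x = (U b a x + fvec Gr Z x) + p.1 x • Gr p.2 x := by
      intro x; rw [IsGrad.fvec_cons]; abel
    refine ⟨?_, fun k hk φ hφ hφ0 => ?_⟩
    · simp only [e]
      exact h1.add (smul_memE (hST.topS _ hp1) (hG.mem _ (hC.tW hp2)))
    · simp only [e]
      exact h3 k hk φ hφ hφ0

/-- localisation in the potential: conclusion -/
theorem loc_all [SigmaFinite m] (hST : IsMod S T) (hTA : ∀ f ∈ T, f ∈ C.A)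
    (hSd : ∀ f ∈ C.W, ∀ ε > 0, ∃ g ∈ S, g ∈ C.W ∧ C.nrm2 (g - f) < ε)
    (ha : a ∈ C.Test) (hb : b ∈ C.Test)
    (H : ∀ k ∈ C.Test, ∀ φ ∈ T, 0 ≤ φ → 0 ≤ I (C.rkI (UUof m U) κ' a b b a φ)
      + 3 * nE m φ (fun x => U b a x + Gr k x)) :
    ∀ φ ∈ T, 0 ≤ φ → 0 ≤ I (C.rkI (UUof m U) κ' a b b a φ) := by
  intro φ hφ hφ0
  obtain ⟨L, hL⟩ := mem_top_iff.1 (hTA φ hφ).2
  refine le_of_forall_pos_le_add fun ε hε => ?_
  set δ : ℝ := Real.sqrt (ε / (3 * |L| + 1)) with hδ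
  have hδ0 : 0 < δ := Real.sqrt_pos.2 (by positivity)
  -- approximate `-U`
  have hi := (hU.incl hb ha).smul hB hG hC (-1)
  obtain ⟨Z, hZ, hZε⟩ := hi.2 (ENNReal.ofReal (δ / 2)) (by simpa using by positivity)
  obtain ⟨Z', h1, h2, h3⟩ := fvec_approx hC hG hST hSd Z hZ (δ / 2) (by positivity)
  obtain ⟨h4, h5⟩ := loc_list (κ' := κ') hC hB hG hU hST hTA ha hb H Z' h1
  have h6 := h5 0 (hC.test_zero hB) φ hφ hφ0
  have e1 : nE m φ (fun x => (U b a x + fvec Gr Z' x) + Gr 0 x)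
      = nE m φ (fun x => U b a x + fvec Gr Z' x) := by
    unfold nE
    refine integral_congr_ae ?_
    filter_upwards [hG.zero hC.toIsDir] with x hx
    rw [hx, add_zero]
  rw [e1] at h6
  have h7 := nE_le hL (hTA φ hφ).2 h4
  have h8 : (eLpNorm (fun x => U b a x + fvec Gr Z' x) 2 m).toReal ≤ δ := by
    have e2 : (fun x => U b a x + fvec Gr Z' x) = fun x => -(((-1 : ℝ) • U b a x - fvec Gr Z x)
        + (fvec Gr Z x - fvec Gr Z' x)) := by
      funext x
      rw [neg_one_smul]; abel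
    have e3 : eLpNorm (fun x => U b a x + fvec Gr Z' x) 2 m
        = eLpNorm ((fun x => (-1 : ℝ) • U b a x - fvec Gr Z x)
          + fun x => fvec Gr Z x - fvec Gr Z' x) 2 m := by
      rw [e2, ← eLpNorm_neg]; congr 1; funext x
      simp only [Pi.neg_apply, Pi.add_apply, neg_neg]
    rw [e3]
    have hm1 : MemLp (fun x => (-1 : ℝ) • U b a x - fvec Gr Z x) 2 m :=
      hi.1.sub (hG.fvec_mem hC hZ)
    have hm2 : MemLp (fun x => fvec Gr Z x - fvec Gr Z' x) 2 m := (hG.fvec_mem hC hZ).sub h2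
    refine ENNReal.toReal_le_of_le_ofReal hδ0.le ?_
    refine (eLpNorm_add_le hm1.1 hm2.1 (by norm_num)).trans ?_
    calc _ ≤ ENNReal.ofReal (δ / 2) + ENNReal.ofReal (δ / 2) := add_le_add hZε.le h3.le
      _ = ENNReal.ofReal δ := by
          rw [← ENNReal.ofReal_add (by positivity) (by positivity), add_halves]
  have h9 : (eLpNorm (fun x => U b a x + fvec Gr Z' x) 2 m).toReal ^ 2 ≤ ε / (3 * |L| + 1) := by
    rw [← Real.sq_sqrt (show 0 ≤ ε / (3 * |L| + 1) by positivity)]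
    exact pow_le_pow_left₀ ENNReal.toReal_nonneg h8 2
  have h10 : 3 * nE m φ (fun x => U b a x + fvec Gr Z' x) ≤ ε := by
    calc 3 * nE m φ (fun x => U b a x + fvec Gr Z' x)
        ≤ 3 * (L * (eLpNorm (fun x => U b a x + fvec Gr Z' x) 2 m).toReal ^ 2) := by gcongr
      _ ≤ 3 * (|L| * (ε / (3 * |L| + 1))) := by
          have : L * (eLpNorm (fun x => U b a x + fvec Gr Z' x) 2 m).toReal ^ 2
              ≤ |L| * (ε / (3 * |L| + 1)) :=
            mul_le_mul (le_abs_self L) h9 (sq_nonneg _) (abs_nonneg _)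
          linarith
      _ = (3 * |L|) / (3 * |L| + 1) * ε := by ring
      _ ≤ 1 * ε := by
          refine mul_le_mul_of_nonneg_right ?_ hε.le
          rw [div_le_one (by positivity)]; linarith
      _ = ε := one_mul ε
  linarith

end Vale.Agent.P233
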