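import Vale.Agent.P233.AB.FinA
import Vale.Agent.P233.AB.Loc3
import Vale.Agent.P233.Metric2

set_option linter.all false

open MeasureTheory Filter Topology
open scoped ENNReal NNReal InnerProductSpace

namespace Vale.Agent.P233

section ms

variable {M : Type*} [MetricSpace M] [MeasurableSpace M] {m : Measure M}

/-- bounded support -/
def BSupp (χ : M →ₘ[m] ℝ) : Prop := ∃ (x₀ : M) (R : ℝ), ∀ᵐ x ∂m, R < dist x x₀ → χ x = 0

theorem BSupp.union {χ θ : M →ₘ[m] ℝ} (h : BSupp χ) (h' : BSupp θ) :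
    BSupp (χ + θ - χ * θ) := by
  obtain ⟨x₀, R, hR⟩ := h
  obtain ⟨x₁, R', hR'⟩ := h'
  refine ⟨x₀, max R (R' + dist x₀ x₁), ?_⟩
  filter_upwards [hR, hR', AEEqFun.coeFn_sub (χ + θ) (χ * θ), AEEqFun.coeFn_add χ θ, mul_ae χ θ]
    with x h1 h2 h3 h4 h5 h6
  have h7 : R < dist x x₀ := (le_max_left _ _).trans_lt h6
  have h8 : R' < dist x x₁ := by
    have h9 := (le_max_right _ _).trans_lt h6
    have h10 := dist_triangle_right x x₀ x₁
    have h11 := dist_triangle x x₁ x₀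
    rw [dist_comm x₁ x₀] at h11
    linarith
  rw [h3, Pi.sub_apply, h4, Pi.add_apply, h5, h1 h7, h2 h8]
  ring

theorem BSupp.mul {χ f : M →ₘ[m] ℝ} (h : BSupp χ) (hf : χ * f = f) : BSupp f := by
  obtain ⟨x₀, R, hR⟩ := h
  refine ⟨x₀, R, ?_⟩
  rw [eq_iff_ae] at hf
  filter_upwards [hR, hf, mul_ae χ f] with x h1 h2 h3 h4
  rw [← h2, h3, h1 h4, zero_mul]

/-- a bounded function with bounded support is integrable -/
theorem BSupp.mem1 (hfin : ∀ (x : M) (r : ℝ), m (Metric.ball x r) < ∞) {f : M →ₘ[m] ℝ}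
    (hf : MemLp f ∞ m) (hs : BSupp f) : MemLp f 1 m := by
  obtain ⟨x₀, R, h⟩ := hs
  obtain ⟨B, hB⟩ := mem_top_iff.1 hf
  rw [memLp_one_iff_integrable]
  have h1 : IntegrableOn f (Metric.ball x₀ (R + 1)) m := by
    refine Measure.integrableOn_of_bounded (M := B) (hfin x₀ (R + 1)).ne
      f.aestronglyMeasurable ?_
    filter_upwards [ae_restrict_of_ae hB] with x hx
    rwa [Real.norm_eq_abs]
  refine h1.integrable_of_ae_notMem_eq_zero ?_
  filter_upwards [h] with x hx hx2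
  rw [Metric.mem_ball, not_lt] at hx2
  exact hx (by linarith)

/-- test functions with bounded support -/
def TB (C : Calc m) : Set (M →ₘ[m] ℝ) := {f | f ∈ C.TestI ∧ ∃ θ ∈ C.TestI, θ * f = f ∧ BSupp θ}

theorem union_mul {χ θ f : M →ₘ[m] ℝ} (h : χ * f = f) : (χ + θ - χ * θ) * f = f := by
  have h1 : (χ + θ - χ * θ) * f = χ * f + θ * f - θ * (χ * f) := by ring
  rw [h1, h]
  ring

theorem union_mul' {χ θ f : M →ₘ[m] ℝ} (h : θ * f = f) : (χ + θ - χ * θ) * f = f := by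
  have h1 : (χ + θ - χ * θ) * f = χ * f + θ * f - χ * (θ * f) := by ring
  rw [h1, h]
  ring

theorem testI_union {C : Calc m} (hC : IsGamma C) {κ : ℝ} (hB : C.BEi κ) {χ θ : M →ₘ[m] ℝ}
    (h : χ ∈ C.TestI) (h' : θ ∈ C.TestI) : χ + θ - χ * θ ∈ C.TestI := by
  have h1 := hC.testI_add hB (hC.testI_add hB h h') (hC.testI_smul hB (-1) (hC.testI_mul hB h h'))
  have h2 : χ + θ - χ * θ = χ + θ + (-1 : ℝ) • (χ * θ) := by
    rw [neg_smul, one_smul, sub_eq_add_neg]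
  rwa [h2]

theorem isMod_TB {C : Calc m} (hC : IsGamma C) {κ : ℝ} (hB : C.BEi κ) (x₀ : M) :
    IsMod C.TestI (TB C) where
  zero := ⟨hC.testI_zero hB, 0, hC.testI_zero hB, mul_zero _, x₀, 0, by
    filter_upwards [zero_ae (M := M) (m := m)] with x hx _
    exact hx⟩
  add := by
    rintro f ⟨hf, θ, hθ, h1, h2⟩ g ⟨hg, θ', hθ', h1', h2'⟩
    refine ⟨hC.testI_add hB hf hg, θ + θ' - θ * θ', testI_union hC hB hθ hθ', ?_, h2.union h2'⟩
    rw [mul_add, union_mul h1, union_mul' h1']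
  smul := by
    rintro c f ⟨hf, θ, hθ, h1, h2⟩
    refine ⟨hC.testI_smul hB c hf, θ, hθ, ?_, h2⟩
    rw [mul_smul_comm, h1]
  mul := by
    rintro f ⟨hf, θ, hθ, h1, h2⟩ g hg
    refine ⟨hC.testI_mul hB hf hg, θ, hθ, ?_, h2⟩
    rw [← mul_assoc, h1]
  zeroS := hC.testI_zero hB
  smulS := fun c f hf => hC.testI_smul hB c hf
  topS := fun f hf => (hC.test_A hf.1).2

end ms

variable {M : Type*} [MetricSpace M] [SecondCountableTopology M] [MeasurableSpace M]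
  [BorelSpace M] {m : Measure M}
variable {E : Type*} [NormedAddCommGroup E] [InnerProductSpace ℝ E] [CompleteSpace E]
  {Gr : (M →ₘ[m] ℝ) → M → E} {U : (M →ₘ[m] ℝ) → (M →ₘ[m] ℝ) → M → E}

/-- localisation of the core inequality: nonnegativity of the curvature defect of nice functions -/
theorem nice_pos {C : Calc m} (hC : IsGamma C) (hfin : ∀ (x : M) (r : ℝ), m (Metric.ball x r) < ∞)
    {K₀ κ K : ℝ} (hB : C.BEi K₀) (hK : 0 ≤ K) (hG : IsGrad C Gr) (hU : IsHU C Gr U)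
    (hcore : ∀ a b f χ : M →ₘ[m] ℝ, a ∈ C.TestI → b ∈ C.TestI → f ∈ C.TestI →
      0 ≤ f → χ ∈ C.TestI → χ * a = a → χ * b = b → χ * f = f → BSupp χ →
      C.CoreAt κ K a b f)
    (a b f χ : M →ₘ[m] ℝ) (ha : a ∈ C.TestI) (hb : b ∈ C.TestI) (hf : f ∈ C.TestI)
    (hf0 : 0 ≤ f) (hχ : χ ∈ C.TestI) (χa : χ * a = a) (χb : χ * b = b) (χf : χ * f = f)
    (hsupp : BSupp χ) : 0 ≤ I (C.rkI (UUof m U) κ a b b a f) := by
  have : SigmaFinite m := sigmaFinite_of_ball hfin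
  obtain ⟨x₀, -, -⟩ := id hsupp
  have hM := isMod_TB hC hB x₀
  have hTA : ∀ f ∈ TB C, f ∈ C.A := fun f hf => hC.test_A hf.1.1
  have hT1 : ∀ f ∈ TB C, MemLp f 1 m := by
    rintro f ⟨hf, θ, hθ, h1, h2⟩
    exact (h2.mul h1).mem1 hfin (hC.test_A hf.1).2
  have hSd : ∀ f ∈ C.W, ∀ ε > 0, ∃ g ∈ C.TestI, g ∈ C.W ∧ C.nrm2 (g - f) < ε := by
    intro f hf ε hε
    obtain ⟨g, h1, h2⟩ := hC.testI_dense hB hf hε
    exact ⟨g, h1, hC.tW h1.1, h2⟩
  have h : ∀ φ ∈ TB C, 0 ≤ φ → C.CoreAt κ K a b φ := by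
    rintro φ ⟨hφ, θ, hθ, h1, h2⟩ hφ0
    exact hcore a b φ (χ + θ - χ * θ) ha hb hφ hφ0 (testI_union hC hB hχ hθ)
      (union_mul χa) (union_mul χb) (union_mul' h1) (hsupp.union h2)
  exact loc_all hC hB hG hU hM hTA hSd ha.1 hb.1
    (elim_t hC hB hG hU hM hTA hT1 hSd ha.1 hb.1 hK h) f ⟨hf, χ, hχ, χf, hsupp⟩ hf0

end Vale.Agent.P233
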