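import Vale.Agent.P233.AB.DatI
import Vale.Agent.P233.AB.Dual0
import Vale.Agent.P233.Metric2

open MeasureTheory Filter Topology
open scoped ENNReal NNReal

namespace Vale.Agent.P233

/-- The standing assumptions on the metric measure space: `RCD(K,N)` (with `K ≤ 0`), geodesic, and
the quadratic (1+3)-point inequality of curvature `≥ κ`. -/
structure ABSpace {M : Type*} [MetricSpace M] [MeasurableSpace M] (m : Measure M) (κ K N : ℝ) :
    Prop where
  hfin : ∀ (x : M) (r : ℝ), m (Metric.ball x r) < ∞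
  hq : ∀ f ∈ (sob m).W, ∀ g ∈ (sob m).W,
    ∫ x, (slope (f + g) ^ 2) x ∂m + ∫ x, (slope (f - g) ^ 2) x ∂m
      = 2 * ∫ x, (slope f ^ 2) x ∂m + 2 * ∫ x, (slope g ^ 2) x ∂m
  hK : K ≤ 0
  hN : 0 < N
  hBN : (sob m).BE K N
  hSL : ∀ f ∈ (sob m).W, slope f ≤ 1 → ∃ u : M → ℝ, LipschitzWith 1 u ∧ f =ᵐ[m] u
  geo : ∀ (x y : M) (s t : ℝ), 0 ≤ s → 0 ≤ t → s + t = dist x y →
    ∃ w, dist x w = s ∧ dist w y = t
  lss : ∃ r₀ > 0, ∃ C ≥ 0, LSS M κ r₀ C

theorem ABSpace.hC {M : Type*} [MetricSpace M] [SecondCountableTopology M] [MeasurableSpace M]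
    [BorelSpace M] {m : Measure M} {κ K N : ℝ} (h : ABSpace m κ K N) : IsGamma (sob m) :=
  isGamma_sob h.hfin h.hq h.hSL

theorem ABSpace.hB {M : Type*} [MetricSpace M] [SecondCountableTopology M] [MeasurableSpace M]
    [BorelSpace M] {m : Measure M} {κ K N : ℝ} (h : ABSpace m κ K N) : (sob m).BEi K :=
  h.hC.bei h.hN h.hBN

namespace Dat

variable {M : Type*} [MeasurableSpace M] {m : Measure M} (X : Dat m) (C : Calc m)

/-- the upper bound of the action of a centre curve -/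
noncomputable def cp (e : ℝ × ℝ) (β α ε : ℝ) : ℝ :=
  ε / 2 * X.E2 C e e + ε ^ 2 / 2 * (X.X3 C e e e + X.W3 C e e e)
    + ε ^ 3 * (X.C3 C e - β * I (X.F * X.Ge C e) + α * I (X.F * X.Ge C e ^ 2))

/-- the sum of the three actions of the pairs -/
noncomputable def actS (k : M →ₘ[m] ℝ) (ε : ℝ) : ℝ :=
  X.actP C (dir 0) (dir 1 - dir 0) (k + (2 : ℝ)⁻¹ • X.P) ε
    + X.actP C (dir 0) (dir 2 - dir 0) (X.P - k) ε
    + X.actP C (dir 1) (dir 2 - dir 1) (k + X.Q + X.R) ε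

end Dat

end Vale.Agent.P233
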