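import Vale.Agent.P233.AB.FinB
import Vale.Agent.P233.AB.Space
import Vale.Agent.P233.AB.Alex
import Vale.Agent.P233.AB.BridgeB

set_option linter.all false

open MeasureTheory Filter Topology
open scoped ENNReal NNReal InnerProductSpace

universe u

namespace Vale.Agent.P233

/-- the Bochner inequality with a smaller constant -/
theorem IsGamma.BE_mono {M : Type*} [MeasurableSpace M] {m : Measure M} {C : Calc m}
    (hC : IsGamma C) {K K' N : ℝ} (hK : K' ≤ K) (hN : 0 < N) (hB : C.BE K N) : C.BE K' N := by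
  intro f h φ ψ h1 h2 h3 h4 h5 h6
  refine le_trans ?_ (hB f h φ ψ h1 h2 h3 h4 h5 h6)
  have hfW := h1.1
  have hh2 := hC.memLp h h2
  have hm : ∀ c : ℝ, MemLp (φ * (C.Γ f h + c • C.Γ f f + N⁻¹ • h ^ 2) : M →ₘ[m] ℝ) 1 m := fun c =>
    mem_mul_top h5 (mem_add (mem_add (hC.toIsDir.Γ_mem1 hfW h2) (mem_smul _ (hC.mem1 f hfW)))
      (mem_smul _ (mem_sq hh2)))
  refine I_mono (hm K') (hm K) ?_
  refine mul_le_mul_of_nonneg_left ?_ h4
  rw [add_le_add_iff_right, add_le_add_iff_left, ← sub_nonneg, ← sub_smul]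
  exact smul_nonneg' (sub_nonneg.2 hK) (hC.nonneg f hfW)

/-- the Hilbert space of vector fields exists -/
theorem IsGrad.exists_model {M : Type u} [MeasurableSpace M] {m : Measure M} {C : Calc m}
    {E : Type} [NormedAddCommGroup E] [InnerProductSpace ℝ E] [CompleteSpace E]
    {Gr : (M →ₘ[m] ℝ) → M → E} (hG : IsGrad C Gr) (hC : IsGamma C) {κ : ℝ} (hB : C.BEi κ) :
    ∃ (H : Type u) (_ : NormedAddCommGroup H) (_ : InnerProductSpace ℝ H) (_ : CompleteSpace H)
      (ι : List ((M →ₘ[m] ℝ) × (M →ₘ[m] ℝ)) → H), C.IsL2TM ι := by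
  classical
  let L : Submodule ℝ (Lp E 2 m) :=
    { carrier := {v | ∃ X, C.IsTestV X ∧ eE Gr X = v}
      add_mem' := by
        rintro _ _ ⟨X, hX, rfl⟩ ⟨Y, hY, rfl⟩
        refine ⟨X ++ Y, testV_append hX hY, ?_⟩
        have h1 := mem_fvec hG hC hX
        have h2 := mem_fvec hG hC hY
        have h3 : MemLp (fvec Gr (X ++ Y)) 2 m := mem_fvec hG hC (testV_append hX hY)
        unfold eE lE
        rw [dif_pos h1, dif_pos h2, dif_pos h3, ← MemLp.toLp_add]
        refine (MemLp.toLp_eq_toLp_iff _ _).2 (Eventually.of_forall fun x => ?_)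
        rw [IsGrad.fvec_append]
        rfl
      zero_mem' := by
        refine ⟨[], testV_nil, ?_⟩
        unfold eE lE
        have h : MemLp (fvec Gr []) 2 m := by rw [IsGrad.fvec_nil]; exact MemLp.zero
        rw [dif_pos h, ← MemLp.toLp_zero (MemLp.zero (p := 2) (μ := m) (ε := E))]
        refine (MemLp.toLp_eq_toLp_iff _ _).2 ?_
        rw [IsGrad.fvec_nil]
      smul_mem' := by
        rintro c _ ⟨X, hX, rfl⟩
        have hX' : C.IsTestV (X.map fun p => (c • p.1, p.2)) := by
          intro p hp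
          obtain ⟨q, hq, rfl⟩ := List.mem_map.1 hp
          exact ⟨hC.test_smul hB c (hX q hq).1, (hX q hq).2⟩
        refine ⟨_, hX', ?_⟩
        have h1 := mem_fvec hG hC hX
        have h3 := mem_fvec hG hC hX'
        unfold eE lE
        rw [dif_pos h1, dif_pos h3, ← MemLp.toLp_const_smul]
        refine (MemLp.toLp_eq_toLp_iff _ _).2 ?_
        clear hX hX' h1 h3
        induction X with
        | nil => exact Eventually.of_forall fun x => by simp [fvec]
        | cons p X ih =>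
          filter_upwards [ih, AEEqFun.coeFn_smul c p.1] with x h1 h2
          rw [Pi.smul_apply] at h1 ⊢
          rw [List.map_cons, IsGrad.fvec_cons, IsGrad.fvec_cons, h1, h2, Pi.smul_apply, smul_add,
            smul_assoc] }
  haveI : CompleteSpace L.topologicalClosure := L.isClosed_topologicalClosure.completeSpace_coe
  refine ⟨L.topologicalClosure, inferInstance, inferInstance, this,
    fun X => if h : C.IsTestV X then ⟨eE Gr X, L.le_topologicalClosure ⟨X, h, rfl⟩⟩ else 0, ?_, ?_⟩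
  · intro X Y hX hY
    beta_reduce
    rw [dif_pos hX, dif_pos hY]
    change ⟪eE Gr X, eE Gr Y⟫_ℝ = _
    unfold eE
    rw [lE_inner (mem_fvec hG hC hX) (mem_fvec hG hC hY)]
    exact integral_congr_ae (hG.inner_fvec (fun p hp => (hC.test_A (hX p hp).2).1)
      fun p hp => (hC.test_A (hY p hp).2).1)
  · rintro ⟨v, hv⟩
    rw [Metric.mem_closure_iff]
    intro ε hε
    obtain ⟨_, ⟨X, hX, rfl⟩, hw⟩ := Metric.mem_closure_iff.1 hv ε hε
    refine ⟨_, ⟨X, hX, rfl⟩, ?_⟩
    beta_reduce
    rw [dif_pos hX]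
    exact hw

section

variable {M : Type u} [MetricSpace M] [SecondCountableTopology M] [MeasurableSpace M]
  [BorelSpace M] {m : Measure M}

/-- `ABSpace` from the two hypotheses of the main theorem -/
theorem abSpace_of [CompleteSpace M] {κ K N : ℝ} (hN : 0 < N) (h : S.IsRCD m K N)
    (hA : AB.IsAlexandrov M κ) : ABSpace m κ (min K 0) N := by
  have hR := isRCD_of_S h
  have hfin := ball_lt_top_of_growth hR.growth
  have hC : IsGamma (sob m) := isGamma_sob hfin hR.quadratic hR.sobolev_to_lipschitz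
  obtain ⟨r₀, h1, C, h2, h3⟩ := hA.lss
  have h4 : LSS M κ r₀ C := fun z x₁ x₂ x₃ r a1 a2 a3 a4 => h3 z x₁ x₂ x₃ r a4 a1 a2 a3
  exact ⟨hfin, hR.quadratic, min_le_right _ _, hN,
    hC.BE_mono (min_le_left _ _) hN hR.bochner, hR.sobolev_to_lipschitz, hA.geodesic,
    ⟨r₀, h1, C, h2, h4⟩⟩

end

end Vale.Agent.P233
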