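import Vale.Agent.P233.AB.Space

open MeasureTheory Filter Topology
open scoped ENNReal NNReal

namespace Vale.Agent.P233.L2A

variable {M : Type*} [MeasurableSpace M] {m : Measure M} {C : Calc m}

/-! ### linearity in the density -/

theorem I_lin {F θ G : M →ₘ[m] ℝ} (h1 : MemLp (F * G : M →ₘ[m] ℝ) 1 m)
    (h2 : MemLp (θ * G : M →ₘ[m] ℝ) 1 m) (η : ℝ) :
    I ((F + η • θ) * G) = I (F * G) + η * I (θ * G) := by
  have e : (F + η • θ) * G = F * G + η • (θ * G) := by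
    rw [add_mul, smul_mul_assoc]
  rw [e, I_add h1 (mem_smul _ h2), I_smul]

theorem I_lin' {F θ G : M →ₘ[m] ℝ} (h1 : MemLp (G * F : M →ₘ[m] ℝ) 1 m)
    (h2 : MemLp (G * θ : M →ₘ[m] ℝ) 1 m) (η : ℝ) :
    I (G * (F + η • θ)) = I (G * F) + η * I (G * θ) := by
  rw [mul_comm G, mul_comm G, mul_comm G] at *
  exact I_lin h1 h2 η

section gamma

variable (hC : IsGamma C) {κ : ℝ} (hB : C.BEi κ)
variable {a b c φ ψ h : M →ₘ[m] ℝ}

include hC in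
theorem De_lin (hφ : φ ∈ C.W) (hψ : ψ ∈ C.W) (ha : a ∈ C.W) (η : ℝ) :
    C.De (φ + η • ψ) a = C.De φ a + η • C.De ψ a := by
  unfold Calc.De
  rw [hC.add_left φ hφ _ (hC.smul_mem η ψ hψ) a ha, hC.smul_left η ψ hψ a ha, add_mul,
    smul_mul_assoc, smul_add]
  abel

include hC in
theorem De_mem2 (hφ : φ ∈ C.A) (ha : a ∈ C.Test) : MemLp (C.De φ a) 2 m := by
  unfold Calc.De
  refine mem_add ?_ (mem_mul_top hφ.2 (hC.memLp _ (hC.test_lap_mem ha)))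
  rw [hC.symm φ hφ.1 a (hC.test_A ha).1]
  exact hC.toIsDir.Γ_mem2 (hC.test_A ha).1 (hC.test_Γ_top ha) hφ.1

include hC hB in
theorem De_memTop (hφ : φ ∈ C.Test) (ha : a ∈ C.TestI) : MemLp (C.De φ a) ∞ m := by
  unfold Calc.De
  exact mem_add (hC.Γ_mem hB hφ ha.1).2 (mem_mul_top (hC.test_A hφ).2 ha.2)

include hC in
theorem Γ_mem2' (ha : a ∈ C.Test) (hh : h ∈ C.W) : MemLp (C.Γ a h) 2 m :=
  hC.toIsDir.Γ_mem2 (hC.test_A ha).1 (hC.test_Γ_top ha) hh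

include hC hB in
theorem hess_mem2 (ha : a ∈ C.Test) (hb : b ∈ C.Test) (hc : c ∈ C.Test) :
    MemLp (C.hess b a c) 2 m := by
  unfold Calc.hess
  exact mem_smul _ (mem_sub (mem_add (Γ_mem2' hC ha (hC.Γ_mem hB hb hc).1)
    (Γ_mem2' hC hc (hC.Γ_mem hB hb ha).1)) (Γ_mem2' hC hb (hC.Γ_mem hB ha hc).1))

include hC hB in
theorem HW_lin (ha : a ∈ C.Test) (hb : b ∈ C.Test) (hh : h ∈ C.W) (hφ : φ ∈ C.A) (hψ : ψ ∈ C.A)
    (η : ℝ) : C.HW b a h (φ + η • ψ) = C.HW b a h φ + η * C.HW b a h ψ := by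
  have haW := (hC.test_A ha).1
  have hbW := (hC.test_A hb).1
  have hG := hC.toIsDir.Γ_mem1 hh (hC.Γ_mem hB hb ha).1
  unfold Calc.HW
  rw [De_lin hC hφ.1 hψ.1 haW, De_lin hC hφ.1 hψ.1 hbW,
    I_lin' (mem_mul_22 (Γ_mem2' hC hb hh) (De_mem2 hC hφ ha))
      (mem_mul_22 (Γ_mem2' hC hb hh) (De_mem2 hC hψ ha)),
    I_lin' (mem_mul_22 (Γ_mem2' hC ha hh) (De_mem2 hC hφ hb))
      (mem_mul_22 (Γ_mem2' hC ha hh) (De_mem2 hC hψ hb)),
    I_lin (mem_mul_top hφ.2 hG) (mem_mul_top hψ.2 hG)]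
  ring

include hC hB in
theorem S0_lin (ha : a ∈ C.Test) (hb : b ∈ C.Test) (hφ : φ ∈ C.A) (hψ : ψ ∈ C.A)
    (η : ℝ) : C.S0 a b (φ + η • ψ) = C.S0 a b φ + η * C.S0 a b ψ := by
  have haW := (hC.test_A ha).1
  have hbW := (hC.test_A hb).1
  have hG := hC.toIsDir.Γ_mem1 (hC.Γ_mem hB ha ha).1 (hC.Γ_mem hB hb hb).1
  unfold Calc.S0
  rw [HW_lin hC hB ha hb (hC.Γ_mem hB ha hb).1 hφ hψ, De_lin hC hφ.1 hψ.1 haW,
    De_lin hC hφ.1 hψ.1 hbW,
    I_lin (mem_mul_22 (De_mem2 hC hφ ha) (hess_mem2 hC hB ha hb hb))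
      (mem_mul_22 (De_mem2 hC hψ ha) (hess_mem2 hC hB ha hb hb)),
    I_lin (mem_mul_22 (De_mem2 hC hφ hb) (hess_mem2 hC hB ha hb ha))
      (mem_mul_22 (De_mem2 hC hψ hb) (hess_mem2 hC hB ha hb ha)),
    I_lin (mem_mul_top hφ.2 hG) (mem_mul_top hψ.2 hG)]
  ring

/-! ### the passage to all test functions `k` -/

include hC hB in
theorem ext_k [SigmaFinite m] (ha : a ∈ C.TestI) (hb : b ∈ C.TestI) (hφ : φ ∈ C.Test) {L : ℝ}
    (H : ∀ k ∈ C.TestI, 0 ≤ L + 6 * C.HW b a k φ + 3 * I (φ * C.Γ k k)) {k : M →ₘ[m] ℝ}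
    (hk : k ∈ C.Test) : 0 ≤ L + 6 * C.HW b a k φ + 3 * I (φ * C.Γ k k) := by
  have hD := hC.toIsDir
  have hkA := hC.test_A hk
  have haA := hC.test_A ha.1
  have hbA := hC.test_A hb.1
  have hφA := hC.test_A hφ
  obtain ⟨N, hN⟩ := IsGamma.exists_small κ
  set u : ℕ → M →ₘ[m] ℝ := fun n => C.J ((n : ℝ) + 1)⁻¹ k with hu
  have hl : ∀ n : ℕ, (0 : ℝ) < ((n : ℝ) + 1)⁻¹ := fun n => by positivity
  have huW : ∀ n, u n ∈ C.W := fun n => hD.J_mem (hl n) (hC.memLp _ hkA.1)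
  have hdW : ∀ n, u n - k ∈ C.W := fun n => hD.sub_mem (huW n) hkA.1
  have hlim : Tendsto (fun n => C.nrm2 (u n - k)) atTop (𝓝 0) := hD.J_tendsto_W hkA.1
  -- a general limit: `I (G * Γ g (u n)) → I (G * Γ g k)` for bounded `G`
  have key : ∀ G g : M →ₘ[m] ℝ, MemLp G ∞ m → g ∈ C.W →
      Tendsto (fun n => I (G * C.Γ (u n - k) g)) atTop (𝓝 0) := by
    intro G g hG hg
    obtain ⟨B, hBd⟩ := mem_top_iff.1 hG
    have h1 := (hD.tendsto_int_abs_Γ huW hkA.1 hg hlim).const_mul |B|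
    rw [mul_zero] at h1
    refine squeeze_zero_norm (fun n => ?_) h1
    rw [Real.norm_eq_abs, ← integral_const_mul]
    unfold I
    refine (abs_integral_le_integral_abs).trans ?_
    refine integral_mono_ae (int_of_mem (mem_mul_top hG (hD.Γ_mem1 (hdW n) hg))).abs
      ((int_of_mem (hD.Γ_mem1 (hdW n) hg)).abs.const_mul _) ?_
    filter_upwards [hBd, mul_ae G (C.Γ (u n - k) g)] with x h1 h2
    rw [h2, abs_mul]
    exact mul_le_mul_of_nonneg_right (h1.trans (le_abs_self _)) (abs_nonneg _)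
  have hba := (hC.Γ_mem hB hb.1 ha.1).1
  -- `HW` is continuous
  have l1 : Tendsto (fun n => C.HW b a (u n) φ) atTop (𝓝 (C.HW b a k φ)) := by
    have e : ∀ n, C.HW b a (u n) φ = C.HW b a k φ
        + 2⁻¹ * (-I (C.De φ a * C.Γ (u n - k) b) + I (φ * C.Γ (u n - k) (C.Γ b a))
          + I (C.De φ b * C.Γ (u n - k) a)) := by
      intro n
      have e1 : C.Γ b (u n) = C.Γ b k + (1 : ℝ) • C.Γ (u n - k) b := by
        rw [hD.Γ_sub_left (huW n) hkA.1 hbA.1, hC.symm _ (huW n) _ hbA.1,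
          hC.symm _ hkA.1 _ hbA.1]
        simp
      have e2 : C.Γ a (u n) = C.Γ a k + (1 : ℝ) • C.Γ (u n - k) a := by
        rw [hD.Γ_sub_left (huW n) hkA.1 haA.1, hC.symm _ (huW n) _ haA.1,
          hC.symm _ hkA.1 _ haA.1]
        simp
      have e3 : C.Γ (u n) (C.Γ b a) = C.Γ k (C.Γ b a) + (1 : ℝ) • C.Γ (u n - k) (C.Γ b a) := by
        rw [hD.Γ_sub_left (huW n) hkA.1 hba]
        simp
      have m1 := De_memTop hC hB hφ ha
      have m2 := De_memTop hC hB hφ hb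
      unfold Calc.HW
      rw [e1, e2, e3,
        I_lin (mem_top_mul (hD.Γ_mem1 hbA.1 hkA.1) m1) (mem_top_mul (hD.Γ_mem1 (hdW n) hbA.1) m1),
        I_lin (mem_top_mul (hD.Γ_mem1 haA.1 hkA.1) m2) (mem_top_mul (hD.Γ_mem1 (hdW n) haA.1) m2),
        I_lin' (mem_mul_top hφA.2 (hD.Γ_mem1 hkA.1 hba))
          (mem_mul_top hφA.2 (hD.Γ_mem1 (hdW n) hba)),
        mul_comm (C.De φ a) (C.Γ (u n - k) b), mul_comm (C.De φ b) (C.Γ (u n - k) a)]
      ring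
    have h2 := (((key _ _ (De_memTop hC hB hφ ha) hbA.1).neg.add (key _ _ hφA.2 hba)).add
      (key _ _ (De_memTop hC hB hφ hb) haA.1)).const_mul (2⁻¹ : ℝ) |>.const_add (C.HW b a k φ)
    simp only [neg_zero, add_zero, mul_zero] at h2
    exact h2.congr fun n => (e n).symm
  -- the quadratic term
  have l2 : Tendsto (fun n => I (φ * C.Γ (u n) (u n))) atTop (𝓝 (I (φ * C.Γ k k))) := by
    obtain ⟨B, hBd⟩ := mem_top_iff.1 hφA.2
    have h3 : Tendsto (fun n => I (φ * C.Γ (u n - k) (u n - k))) atTop (𝓝 0) := by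
      have h1 := (hD.tendsto_E_of_nrm2 huW hkA.1 hlim).const_mul |B|
      rw [mul_zero] at h1
      refine squeeze_zero_norm (fun n => ?_) h1
      rw [Real.norm_eq_abs]
      unfold I
      rw [← integral_const_mul]
      refine (abs_integral_le_integral_abs).trans ?_
      refine integral_mono_ae (int_of_mem (mem_mul_top hφA.2 (hD.Γ_mem1 (hdW n) (hdW n)))).abs
        ((int_of_mem (hD.Γ_mem1 (hdW n) (hdW n))).const_mul _) ?_
      filter_upwards [hBd, mul_ae φ (C.Γ (u n - k) (u n - k)), hD.Γ_nonneg_ae (hdW n)]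
        with x h1 h2 h3
      rw [h2, abs_mul, abs_of_nonneg h3]
      exact mul_le_mul_of_nonneg_right (h1.trans (le_abs_self _)) h3
    have e : ∀ n, I (φ * C.Γ (u n) (u n)) = I (φ * C.Γ k k) + 2 * I (φ * C.Γ (u n - k) k)
        + I (φ * C.Γ (u n - k) (u n - k)) := by
      intro n
      have e1 := hD.Γ_expand 1 hkA.1 (hdW n)
      rw [one_smul, add_sub_cancel, mul_one, one_pow, one_smul, hC.symm _ hkA.1 _ (hdW n)] at e1
      have m1 := mem_mul_top hφA.2 (hD.Γ_mem1 hkA.1 hkA.1)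
      have m2 := mem_mul_top hφA.2 (hD.Γ_mem1 (hdW n) hkA.1)
      have m3 := mem_mul_top hφA.2 (hD.Γ_mem1 (hdW n) (hdW n))
      rw [e1, mul_add, mul_add, mul_smul_comm, I_add (mem_add m1 (mem_smul _ m2)) m3,
        I_add m1 (mem_smul _ m2), I_smul]
    have h4 := (((key _ _ hφA.2 hkA.1).const_mul 2).const_add (I (φ * C.Γ k k))).add h3
    simp only [mul_zero, add_zero] at h4
    exact h4.congr fun n => (e n).symm
  have l3 := ((l1.const_mul 6).const_add L).add (l2.const_mul 3)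
  refine ge_of_tendsto l3 ?_
  filter_upwards [eventually_ge_atTop N] with n hn
  exact H _ (hC.testI_J hB (hl n) (hN n hn) hkA (hC.test_Γ_top hk))

/-! ### the passage `η → 0` -/

/-- the pointwise inequality -/
theorem HH_pt (κ : ℝ) (t : Fin 3 → ℝ) (p q r : ℝ) :
    κ * (p * r - q ^ 2) + κ / 4 * (HH t - (dHH t 0 * p + dHH t 1 * r
      + dHH t 2 * (p + 2 * q + r))) ≤ 3 / 4 * |κ| * ((p - t 0) ^ 2 + (r - t 1) ^ 2
        + (p + 2 * q + r - t 2) ^ 2) := by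
  set x := p - t 0 with hx
  set y := r - t 1 with hy
  set z := p + 2 * q + r - t 2 with hz
  have e : κ * (p * r - q ^ 2) + κ / 4 * (HH t - (dHH t 0 * p + dHH t 1 * r
      + dHH t 2 * (p + 2 * q + r)))
      = κ / 4 * (2 * (x * y + y * z + x * z) - (x ^ 2 + y ^ 2 + z ^ 2)) := by
    rw [hx, hy, hz]
    unfold HH dHH
    ring
  rw [e]
  have h1 : |2 * (x * y + y * z + x * z) - (x ^ 2 + y ^ 2 + z ^ 2)|
      ≤ 3 * (x ^ 2 + y ^ 2 + z ^ 2) := by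
    rw [abs_le]
    constructor
    · nlinarith [sq_nonneg (x + y + z)]
    · nlinarith [sq_nonneg (x - y), sq_nonneg (y - z), sq_nonneg (x - z), sq_nonneg x,
        sq_nonneg y, sq_nonneg z]
  have h2 : κ * (2 * (x * y + y * z + x * z) - (x ^ 2 + y ^ 2 + z ^ 2))
      ≤ |κ| * (3 * (x ^ 2 + y ^ 2 + z ^ 2)) := by
    refine (le_abs_self _).trans ?_
    rw [abs_mul]
    exact mul_le_mul_of_nonneg_left h1 (abs_nonneg _)
  linarith

/-- the expression in `lim_eps` -/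
noncomputable def lexp (C : Calc m) (κ : ℝ) (a b k : M →ₘ[m] ℝ) (t : Fin 3 → ℝ)
    (F : M →ₘ[m] ℝ) : ℝ :=
  C.S0 a b F + 6 * C.HW b a k F + 3 * I (F * C.Γ k k)
      + 3 / 4 * |κ| * (I (F * (C.Γ a a - t 0 • 1) ^ 2) + I (F * (C.Γ b b - t 1 • 1) ^ 2)
          + I (F * (C.Γ (a + b) (a + b) - t 2 • 1) ^ 2))
      + κ / 4 * (HH t * I F - (dHH t 0 * I (F * C.Γ a a) + dHH t 1 * I (F * C.Γ b b)
          + dHH t 2 * I (F * C.Γ (a + b) (a + b))))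

include hC hB in
theorem lexp_lin {κ' : ℝ} (ha : a ∈ C.Test) (hb : b ∈ C.Test) {k : M →ₘ[m] ℝ} (hk : k ∈ C.W)
    (hφ : φ ∈ C.A) (hφ1 : MemLp φ 1 m) (hψ : ψ ∈ C.A) (hψ1 : MemLp ψ 1 m) (t : Fin 3 → ℝ) (η : ℝ) :
    lexp C κ' a b k t (φ + η • ψ) = lexp C κ' a b k t φ + η * lexp C κ' a b k t ψ := by
  have hab := hC.test_add hB ha hb
  have m1 := (hC.Γ_mem hB ha ha).2
  have m2 := (hC.Γ_mem hB hb hb).2
  have m3 := (hC.Γ_mem hB hab hab).2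
  have hkk := hC.mem1 _ hk
  have sq : ∀ {G : M →ₘ[m] ℝ} (s : ℝ), MemLp G ∞ m →
      MemLp ((G - s • 1) ^ 2 : M →ₘ[m] ℝ) ∞ m := by
    intro G s hG
    rw [pow_two]
    have := mem_sub hG (mem_smul s mem_top_one)
    exact mem_mul_top this this
  have hI : I (φ + η • ψ) = I φ + η * I ψ := by
    rw [I_add hφ1 (mem_smul _ hψ1), I_smul]
  unfold lexp
  rw [S0_lin hC hB ha hb hφ hψ, HW_lin hC hB ha hb hk hφ hψ, hI,
    I_lin (mem_mul_top hφ.2 hkk) (mem_mul_top hψ.2 hkk),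
    I_lin (mem_top_mul hφ1 (sq (t 0) m1)) (mem_top_mul hψ1 (sq (t 0) m1)),
    I_lin (mem_top_mul hφ1 (sq (t 1) m2)) (mem_top_mul hψ1 (sq (t 1) m2)),
    I_lin (mem_top_mul hφ1 (sq (t 2) m3)) (mem_top_mul hψ1 (sq (t 2) m3)),
    I_lin (mem_top_mul hφ1 m1) (mem_top_mul hψ1 m1),
    I_lin (mem_top_mul hφ1 m2) (mem_top_mul hψ1 m2),
    I_lin (mem_top_mul hφ1 m3) (mem_top_mul hψ1 m3)]
  ring

include hC hB in
theorem lexp_zero {κ' : ℝ} (ha : a ∈ C.Test) (hb : b ∈ C.Test) {k : M →ₘ[m] ℝ} (hk : k ∈ C.W)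
    (hφ : φ ∈ C.A) (hφ1 : MemLp φ 1 m) (hψ : ψ ∈ C.A) (hψ1 : MemLp ψ 1 m) (t : Fin 3 → ℝ)
    (H : ∀ η : ℝ, 0 < η → 0 ≤ lexp C κ' a b k t (φ + η • ψ)) : 0 ≤ lexp C κ' a b k t φ := by
  have h1 : Tendsto (fun η : ℝ => lexp C κ' a b k t φ + η * lexp C κ' a b k t ψ) (𝓝[>] 0)
      (𝓝 (lexp C κ' a b k t φ)) := by
    have h2 : Tendsto (fun η : ℝ => lexp C κ' a b k t φ + η * lexp C κ' a b k t ψ) (𝓝 0)
        (𝓝 (lexp C κ' a b k t φ + 0 * lexp C κ' a b k t ψ)) :=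
      Continuous.tendsto (by fun_prop) 0
    rw [zero_mul, add_zero] at h2
    exact h2.mono_left nhdsWithin_le_nhds
  refine ge_of_tendsto h1 ?_
  filter_upwards [self_mem_nhdsWithin] with η hη
  rw [← lexp_lin hC hB ha hb hk hφ hφ1 hψ hψ1]
  exact H η hη

include hC hB in
/-- the curvature term -/
theorem lexp_le {κ' : ℝ} (ha : a ∈ C.Test) (hb : b ∈ C.Test) {k : M →ₘ[m] ℝ}
    (hφ1 : MemLp φ 1 m) (hφ0 : 0 ≤ φ) (t : Fin 3 → ℝ) :
    lexp C κ' a b k t φ ≤ C.S0 a b φ + 6 * C.HW b a k φ + 3 * I (φ * C.Γ k k)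
        + 2 * |κ'| * (I (φ * (C.Γ a a - t 0 • 1) ^ 2) + I (φ * (C.Γ b b - t 1 • 1) ^ 2)
          + I (φ * (C.Γ (a + b) (a + b) - t 2 • 1) ^ 2))
        - κ' * I (φ * (C.Γ a a * C.Γ b b - C.Γ a b ^ 2)) := by
  have hD := hC.toIsDir
  have haW := (hC.test_A ha).1
  have hbW := (hC.test_A hb).1
  have hab := hC.test_add hB ha hb
  have m1 := (hC.Γ_mem hB ha ha).2
  have m2 := (hC.Γ_mem hB hb hb).2
  have m3 := (hC.Γ_mem hB hab hab).2
  have m4 := (hC.Γ_mem hB ha hb).2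
  have sq : ∀ {G : M →ₘ[m] ℝ} (s : ℝ), MemLp G ∞ m →
      MemLp ((G - s • 1) ^ 2 : M →ₘ[m] ℝ) ∞ m := by
    intro G s hG
    rw [pow_two]
    have := mem_sub hG (mem_smul s mem_top_one)
    exact mem_mul_top this this
  have n1 : MemLp (φ * C.Γ a a : M →ₘ[m] ℝ) 1 m := mem_top_mul hφ1 m1
  have n2 : MemLp (φ * C.Γ b b : M →ₘ[m] ℝ) 1 m := mem_top_mul hφ1 m2
  have n3 : MemLp (φ * C.Γ (a + b) (a + b) : M →ₘ[m] ℝ) 1 m := mem_top_mul hφ1 m3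
  have s1 : MemLp (φ * (C.Γ a a - t 0 • 1) ^ 2 : M →ₘ[m] ℝ) 1 m := mem_top_mul hφ1 (sq _ m1)
  have s2 : MemLp (φ * (C.Γ b b - t 1 • 1) ^ 2 : M →ₘ[m] ℝ) 1 m := mem_top_mul hφ1 (sq _ m2)
  have s3 : MemLp (φ * (C.Γ (a + b) (a + b) - t 2 • 1) ^ 2 : M →ₘ[m] ℝ) 1 m :=
    mem_top_mul hφ1 (sq _ m3)
  have w1 : MemLp (φ * (C.Γ a a * C.Γ b b - C.Γ a b ^ 2) : M →ₘ[m] ℝ) 1 m :=
    mem_top_mul hφ1 (mem_sub (mem_mul_top m1 m2) (by rw [pow_two]; exact mem_mul_top m4 m4))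
  set Ss : ℝ := I (φ * (C.Γ a a - t 0 • 1) ^ 2) + I (φ * (C.Γ b b - t 1 • 1) ^ 2)
          + I (φ * (C.Γ (a + b) (a + b) - t 2 • 1) ^ 2) with hSs
  have key : κ' * I (φ * (C.Γ a a * C.Γ b b - C.Γ a b ^ 2))
      + κ' / 4 * (HH t * I φ - (dHH t 0 * I (φ * C.Γ a a) + dHH t 1 * I (φ * C.Γ b b)
          + dHH t 2 * I (φ * C.Γ (a + b) (a + b)))) ≤ 3 / 4 * |κ'| * Ss := by
    have e1 : κ' * I (φ * (C.Γ a a * C.Γ b b - C.Γ a b ^ 2))
      + κ' / 4 * (HH t * I φ - (dHH t 0 * I (φ * C.Γ a a) + dHH t 1 * I (φ * C.Γ b b)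
          + dHH t 2 * I (φ * C.Γ (a + b) (a + b))))
        = I (κ' • (φ * (C.Γ a a * C.Γ b b - C.Γ a b ^ 2))
          + ((κ' / 4 * HH t) • φ - ((κ' / 4 * dHH t 0) • (φ * C.Γ a a)
            + (κ' / 4 * dHH t 1) • (φ * C.Γ b b)
            + (κ' / 4 * dHH t 2) • (φ * C.Γ (a + b) (a + b))))) := by
      rw [I_add (mem_smul _ w1) (mem_sub (mem_smul _ hφ1) (mem_add (mem_add (mem_smul _ n1)
        (mem_smul _ n2)) (mem_smul _ n3))), I_sub (mem_smul _ hφ1) (mem_add (mem_add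
        (mem_smul _ n1) (mem_smul _ n2)) (mem_smul _ n3)), I_add (mem_add (mem_smul _ n1)
        (mem_smul _ n2)) (mem_smul _ n3), I_add (mem_smul _ n1) (mem_smul _ n2), I_smul, I_smul,
        I_smul, I_smul, I_smul]
      ring
    have e2 : 3 / 4 * |κ'| * Ss = I ((3 / 4 * |κ'|) • (φ * (C.Γ a a - t 0 • 1) ^ 2
        + φ * (C.Γ b b - t 1 • 1) ^ 2 + φ * (C.Γ (a + b) (a + b) - t 2 • 1) ^ 2)) := by
      rw [I_smul, I_add (mem_add s1 s2) s3, I_add s1 s2]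
    rw [e1, e2]
    refine I_mono (mem_add (mem_smul _ w1) (mem_sub (mem_smul _ hφ1) (mem_add (mem_add
      (mem_smul _ n1) (mem_smul _ n2)) (mem_smul _ n3)))) (mem_smul _ (mem_add (mem_add s1 s2) s3))
      ?_
    have e3 : C.Γ (a + b) (a + b) = C.Γ a a + (2 : ℝ) • C.Γ a b + C.Γ b b := by
      have := hD.Γ_expand 1 haW hbW
      rwa [one_smul, mul_one, one_pow, one_smul] at this
    have hφ0' := nonneg_iff_ae.1 hφ0
    rw [le_iff_ae, e3]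
    set P := C.Γ a a
    set Q := C.Γ a b
    set R := C.Γ b b
    filter_upwards [hφ0', add_ae (κ' • (φ * (P * R - Q ^ 2)))
        ((κ' / 4 * HH t) • φ - ((κ' / 4 * dHH t 0) • (φ * P) + (κ' / 4 * dHH t 1) • (φ * R)
            + (κ' / 4 * dHH t 2) • (φ * (P + (2 : ℝ) • Q + R)))),
      smul_ae (φ * (P * R - Q ^ 2)) κ', mul_ae φ (P * R - Q ^ 2), sub_ae (P * R) (Q ^ 2),
      mul_ae P R, sq_ae Q,
      sub_ae ((κ' / 4 * HH t) • φ) ((κ' / 4 * dHH t 0) • (φ * P) + (κ' / 4 * dHH t 1) • (φ * R)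
            + (κ' / 4 * dHH t 2) • (φ * (P + (2 : ℝ) • Q + R))),
      smul_ae φ (κ' / 4 * HH t),
      add_ae ((κ' / 4 * dHH t 0) • (φ * P) + (κ' / 4 * dHH t 1) • (φ * R))
        ((κ' / 4 * dHH t 2) • (φ * (P + (2 : ℝ) • Q + R))),
      add_ae ((κ' / 4 * dHH t 0) • (φ * P)) ((κ' / 4 * dHH t 1) • (φ * R)),
      smul_ae (φ * P) (κ' / 4 * dHH t 0), smul_ae (φ * R) (κ' / 4 * dHH t 1),
      smul_ae (φ * (P + (2 : ℝ) • Q + R)) (κ' / 4 * dHH t 2), mul_ae φ P, mul_ae φ R,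
      mul_ae φ (P + (2 : ℝ) • Q + R), add_ae (P + (2 : ℝ) • Q) R, add_ae P ((2 : ℝ) • Q),
      smul_ae Q (2 : ℝ),
      smul_ae (φ * (P - t 0 • 1) ^ 2 + φ * (R - t 1 • 1) ^ 2
        + φ * (P + (2 : ℝ) • Q + R - t 2 • 1) ^ 2) (3 / 4 * |κ'|),
      add_ae (φ * (P - t 0 • 1) ^ 2 + φ * (R - t 1 • 1) ^ 2)
        (φ * (P + (2 : ℝ) • Q + R - t 2 • 1) ^ 2),
      add_ae (φ * (P - t 0 • 1) ^ 2) (φ * (R - t 1 • 1) ^ 2),
      mul_ae φ ((P - t 0 • 1) ^ 2), mul_ae φ ((R - t 1 • 1) ^ 2),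
      mul_ae φ ((P + (2 : ℝ) • Q + R - t 2 • 1) ^ 2), sq_ae (P - t 0 • 1), sq_ae (R - t 1 • 1),
      sq_ae (P + (2 : ℝ) • Q + R - t 2 • 1), sub_ae P (t 0 • 1), sub_ae R (t 1 • 1),
      sub_ae (P + (2 : ℝ) • Q + R) (t 2 • 1), smul_ae (1 : M →ₘ[m] ℝ) (t 0),
      smul_ae (1 : M →ₘ[m] ℝ) (t 1), smul_ae (1 : M →ₘ[m] ℝ) (t 2), one_ae (M := M) (m := m)]
      with x a1 a2 a3 a4 a5 a6 a7 a8 a9 a10 a11 a12 a13 a14 a15 a16 a17 a18 a19 a20 a21 a22 a23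
        a24 a25 a26 a27 a28 a29 a30 a31 a32 a33 a34 a35 a36
    rw [a2, a3, a4, a5, a6, a7, a8, a9, a10, a11, a12, a13, a14, a15, a16, a17, a18, a19, a20,
      a21, a22, a23, a24, a25, a26, a27, a28, a29, a30, a31, a32, a33, a34, a35, a36, a18, a19,
      a20]
    have h1 := HH_pt κ' t (P x) (Q x) (R x)
    have h2 := mul_le_mul_of_nonneg_left h1 a1
    linarith
  have hSs0 : 0 ≤ Ss := by
    have g : ∀ G : M →ₘ[m] ℝ, 0 ≤ I (φ * G ^ 2) := fun G =>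
      I_nonneg (mul_nonneg hφ0 (sq_nonneg' G))
    rw [hSs]
    exact add_nonneg (add_nonneg (g _) (g _)) (g _)
  unfold lexp
  have h3 : 0 ≤ |κ'| * Ss := mul_nonneg (abs_nonneg _) hSs0
  linarith

end gamma

/-! ### the metric part -/

section metric

variable {M : Type*} [MetricSpace M] [MeasurableSpace M] [BorelSpace M] {m : Measure M}

omit [BorelSpace M] in
/-- a bounded function with bounded support is integrable -/
theorem mem1_of_supp (hfin : ∀ (x : M) (r : ℝ), m (Metric.ball x r) < ∞) {f : M →ₘ[m] ℝ}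
    (hf : MemLp f ∞ m) {x₀ : M} {R : ℝ} (h : ∀ᵐ x ∂m, R < dist x x₀ → f x = 0) :
    MemLp f 1 m := by
  obtain ⟨B, hB⟩ := mem_top_iff.1 hf
  rw [memLp_one_iff_integrable]
  have h1 : IntegrableOn f (Metric.ball x₀ (R + 1)) m := by
    refine Measure.integrableOn_of_bounded (M := B) (hfin x₀ (R + 1)).ne
      f.aestronglyMeasurable ?_
    filter_upwards [ae_restrict_of_ae hB] with x hx
    rwa [Real.norm_eq_abs]
  refine h1.integrable_of_ae_notMem_eq_zero ?_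
  filter_upwards [h] with x hx hx2
  rw [Metric.mem_ball, not_lt] at hx2
  exact hx (by linarith)

/-- the core inequality from the inequality for densities which are positive on the support -/
theorem core_nice_aux [SecondCountableTopology M] {κ K N : ℝ} (hM : ABSpace m κ K N) {a b f χ θ : M →ₘ[m] ℝ}
    (ha : a ∈ (sob m).TestI) (hb : b ∈ (sob m).TestI) (hf : f ∈ (sob m).TestI) (hf0 : 0 ≤ f)
    (χf : χ * f = f) (hsupp : ∃ (x₀ : M) (R : ℝ), ∀ᵐ x ∂m, R < dist x x₀ → χ x = 0)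
    (hθ : θ ∈ (sob m).TestI)
    (θsupp : ∃ (x₀ : M) (R : ℝ), ∀ᵐ x ∂m, R < dist x x₀ → θ x = 0)
    (H : ∀ k ∈ (sob m).TestI, ∀ F ∈ (sob m).TestI, MemLp F 1 m → ∀ η : ℝ, 0 < η → η • θ ≤ F →
      (∃ (x₀ : M) (R : ℝ), ∀ᵐ x ∂m, R < dist x x₀ → F x = 0) → ∀ t : Fin 3 → ℝ, (∀ i, 0 ≤ t i) →
      0 ≤ lexp (sob m) κ a b k t F) :
    (sob m).CoreAt κ (2 * |κ|) a b f := by
  have hC := hM.hC
  have hB := hC.bei hM.hN hM.hBN
  have : SigmaFinite m := sigmaFinite_of_ball hM.hfin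
  obtain ⟨x₀, R, hR⟩ := hsupp
  obtain ⟨y₀, S, hS⟩ := θsupp
  have hfR : ∀ᵐ x ∂m, R < dist x x₀ → f x = 0 := by
    rw [eq_iff_ae] at χf
    filter_upwards [hR, χf, mul_ae χ f] with x h1 h2 h3 h4
    rw [← h2, h3, h1 h4, zero_mul]
  have hfA := hC.test_A hf.1
  have hθA := hC.test_A hθ.1
  have hf1 := mem1_of_supp hM.hfin hfA.2 hfR
  have hθ1 := mem1_of_supp hM.hfin hθA.2 hS
  have main : ∀ k ∈ (sob m).TestI, ∀ t : Fin 3 → ℝ, (∀ i, 0 ≤ t i) →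
      0 ≤ lexp (sob m) κ a b k t f := by
    intro k hk t ht
    refine lexp_zero hC hB ha.1 hb.1 (hC.test_A hk.1).1 hfA hf1 hθA hθ1 t fun η hη => ?_
    refine H k hk _ (hC.testI_add hB hf (hC.testI_smul hB η hθ)) (mem_add hf1 (mem_smul _ hθ1))
      η hη ?_ ?_ t ht
    · rw [le_add_iff_nonneg_left]
      exact hf0
    · refine ⟨x₀, max R (S + dist x₀ y₀), ?_⟩
      filter_upwards [hfR, hS, add_ae f (η • θ), smul_ae θ η] with x h1 h2 h3 h4 h5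
      have h6 : R < dist x x₀ := (le_max_left _ _).trans_lt h5
      have h7 : S < dist x y₀ := by
        have h8 : S + dist x₀ y₀ < dist x x₀ := (le_max_right _ _).trans_lt h5
        have h9 := dist_triangle_right x x₀ y₀
        linarith
      rw [h3, h4, h1 h6, h2 h7]
      simp
  intro k hk t₁ t₂ t₃ h1 h2 h3
  have ht : ∀ i, 0 ≤ (![t₁, t₂, t₃] : Fin 3 → ℝ) i := by
    intro i
    fin_cases i
    · exact h1
    · exact h2
    · exact h3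
  have key := ext_k hC hB ha hb hf.1 (L := (sob m).S0 a b f
      + 2 * |κ| * (I (f * ((sob m).Γ a a - t₁ • 1) ^ 2) + I (f * ((sob m).Γ b b - t₂ • 1) ^ 2)
          + I (f * ((sob m).Γ (a + b) (a + b) - t₃ • 1) ^ 2))
      - κ * I (f * ((sob m).Γ a a * (sob m).Γ b b - (sob m).Γ a b ^ 2))) (fun k' hk' => by
    have e1 := main k' hk' _ ht
    have e2 := lexp_le hC hB (κ' := κ) ha.1 hb.1 (k := k') hf1 hf0 ![t₁, t₂, t₃]
    simp only [Matrix.cons_val_zero, Matrix.cons_val_one, Matrix.cons_val] at e2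
    linarith) hk
  linarith

end metric

end Vale.Agent.P233.L2A
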