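import Vale.Agent.P233.AB.Lim1
import Vale.Agent.P233.AB.Lim2A
import Vale.Agent.P233.AB.Cut

open MeasureTheory Filter Topology
open scoped ENNReal NNReal

namespace Vale.Agent.P233

variable {M : Type*} [MetricSpace M] [SecondCountableTopology M] [MeasurableSpace M]
  [BorelSpace M] {m : Measure M} [m.IsOpenPosMeasure]

/-- The core inequality for nice functions. -/
theorem core_nice {κ K N : ℝ} (hM : ABSpace m κ K N) {a b f χ : M →ₘ[m] ℝ}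
    (ha : a ∈ (sob m).TestI) (hb : b ∈ (sob m).TestI) (hf : f ∈ (sob m).TestI) (hf0 : 0 ≤ f)
    (hχ : χ ∈ (sob m).TestI) (χa : χ * a = a) (χb : χ * b = b) (χf : χ * f = f)
    (hsupp : ∃ (x₀ : M) (R : ℝ), ∀ᵐ x ∂m, R < dist x x₀ → χ x = 0) :
    (sob m).CoreAt κ (2 * |κ|) a b f := by
  obtain ⟨x₀, R, hR⟩ := hsupp
  obtain ⟨Cc, hCc⟩ := exists_cutI hM.hfin hM.hC hM.hN hM.hBN x₀
  obtain ⟨θ, hθ, hθ0, -, hθ1, ⟨R', hR'⟩, -, -⟩ := hCc (max 1 R) (le_max_left _ _)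
  have θχ : θ * χ = χ := by
    rw [eq_iff_ae]
    filter_upwards [hR, hθ1, mul_ae θ χ] with x h1 h2 h3
    rw [h3]
    rcases le_or_gt (dist x x₀) (max 1 R) with h | h
    · rw [h2 h, one_mul]
    · rw [h1 ((le_max_right _ _).trans_lt h), mul_zero]
  refine L2A.core_nice_aux hM ha hb hf hf0 χf ⟨x₀, R, hR⟩ hθ ⟨x₀, R', hR'⟩ ?_
  intro k hk F hF hF1 η hη Fη Fsupp t ht
  exact lim_eps hM ha hb hF hθ hχ hk hF1 hθ0 χa χb θχ hη Fη Fsupp t ht

end Vale.Agent.P233
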