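import Vale.Agent.P233.AB.FinC
import Vale.Agent.P233.AB.Ext
import Vale.Agent.P233.AB.Lim2

set_option linter.all false

open MeasureTheory Filter Topology
open scoped ENNReal NNReal InnerProductSpace

universe u

namespace Vale.Agent.P233

/-- (A) implies (B), in terms of functions: an Alexandrov space with curvature `≥ κ` that is
`RCD(K,N)` with full support has distributional sectional curvature `≥ κ`. -/
theorem ab_main {M : Type u} [MetricSpace M] [CompleteSpace M] [SecondCountableTopology M]
    [MeasurableSpace M] [BorelSpace M] (m : Measure M) [m.IsOpenPosMeasure] {κ K N : ℝ}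
    (hN : 0 < N) (h : S.IsRCD m K N) (hA : AB.IsAlexandrov M κ) :
    (∃ (H : Type u) (_ : NormedAddCommGroup H) (_ : InnerProductSpace ℝ H) (ι : S.VF M → H),
      (S.sob m).IsL2TM ι) ∧ (S.sob m).DistSecGE κ := by
  have hM : ABSpace m κ (min K 0) N := abSpace_of hN h hA
  have hC : IsGamma (sob m) := hM.hC
  have hB : (sob m).BEi (min K 0) := hM.hB
  have hsf : SigmaFinite m := sigmaFinite_of_ball hM.hfin
  obtain ⟨Gr, hG, -⟩ := hC.toIsDir.exists_grad
  obtain ⟨U, hU⟩ := hC.exists_HU hB hG
  have hpos : ∀ a ∈ (sob m).Test, ∀ b ∈ (sob m).Test, ∀ f ∈ (sob m).Test, 0 ≤ f →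
      0 ≤ I ((sob m).rkI (UUof m U) κ a b b a f) :=
    ext_all hM.hfin hC hM.hN hM.hBN hG hU fun a b f χ ha hb hf hf0 hχ χa χb χf hs =>
      nice_pos hC hM.hfin hB (K := 2 * |κ|) (by positivity) hG hU
        (fun a b f χ ha hb hf hf0 hχ χa χb χf hs => core_nice hM ha hb hf hf0 hχ χa χb χf hs)
        a b f χ ha hb hf hf0 hχ χa χb χf hs
  constructor
  · obtain ⟨H, i1, i2, i3, ι, hι⟩ := hG.exists_model hC hB
    refine ⟨H, i1, i2, fun X => ι (clsV m X), i3, ?_, ?_⟩
    · intro X Y hX hY
      have rX := RV_clsV hX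
      have rY := RV_clsV hY
      rw [hι.1 _ _ rX.isTestV rY.isTestV, (rX.ip rY hC).int]
    · intro v ε hε
      obtain ⟨w, ⟨X', hX', rfl⟩, hw⟩ := Metric.mem_closure_iff.1 (hι.2 v) ε hε
      have r := RV_coeV hX'
      refine ⟨coeV X', r.testV, ?_⟩
      have e : clsV m (coeV X') = X' := by
        unfold clsV coeV
        rw [List.map_map]
        conv_rhs => rw [← List.map_id X']
        refine List.map_congr_left fun p _ => ?_
        simp only [Function.comp, id, R_cls (R.coe p.1), R_cls (R.coe p.2)]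
      change ‖ι (clsV m (coeV X')) - v‖ < ε
      rw [e, ← dist_eq_norm, dist_comm]
      exact hw
  · refine distSec_of m hN h ?_
    intro H _ _ _ ι hι X Y hX hY
    exact fin_abs hC hB hG hU hι hpos hX hY

end Vale.Agent.P233
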