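import Vale.Agent.P233.MathlibUsed2

open MeasureTheory Filter Topology Real
open scoped ENNReal NNReal InnerProductSpace

universe u

namespace Vale.Agent.P233.T

/-! ### Alexandrov spaces -/

/-- Comparison with the plane of constant curvature `κ`: in a triangle with the vertices `p, x, y`
let `w` be the point of the side `xy` with `|xw| = s`, `|wy| = t`; then `r = |pw|` is at least the
distance of the corresponding points of the comparison triangle, where `a = |px|`, `b = |py|`. -/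
def Cmp (κ a b s t r : ℝ) : Prop :=
  (κ = 0 → t * a ^ 2 + s * b ^ 2 - s * t * (s + t) ≤ (s + t) * r ^ 2) ∧
  (0 < κ → sin (√κ * (s + t)) * cos (√κ * r)
    ≤ sin (√κ * t) * cos (√κ * a) + sin (√κ * s) * cos (√κ * b)) ∧
  (κ < 0 → sinh (√(-κ) * t) * cosh (√(-κ) * a) + sinh (√(-κ) * s) * cosh (√(-κ) * b)
    ≤ sinh (√(-κ) * (s + t)) * cosh (√(-κ) * r))

/-- A geodesic space with curvature `≥ κ` in the sense of Alexandrov: lower triangle comparison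
for all geodesic triangles (of perimeter `< 2π/√κ` when `κ > 0`; `√κ = 0` when `κ ≤ 0`). -/
structure IsAlexandrov (M : Type u) [MetricSpace M] (κ : ℝ) : Prop where
  geodesic : ∀ x y : M, ∀ s t : ℝ, 0 ≤ s → 0 ≤ t → s + t = dist x y →
    ∃ w, dist x w = s ∧ dist w y = t
  comparison : ∀ p x y w : M, dist x w + dist w y = dist x y →
    √κ * (dist p x + dist p y + dist x y) < 2 * π →
    Cmp κ (dist p x) (dist p y) (dist x w) (dist w y) (dist p w)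

/-! ### The minimal relaxed slope
Functions `M → ℝ` are representatives of classes modulo `m`-a.e. equality. -/

open Classical in
/-- Some `a` with `P a`, and `d` if there is none. -/
noncomputable def pick {α : Type u} (P : α → Prop) (d : α) : α :=
  if h : ∃ a, P a then h.choose else d

section Metric

variable {M : Type u} [MetricSpace M] [MeasurableSpace M] (m : Measure M)

/-- The local Lipschitz constant `limsup_{y → x} |f y - f x| / d(y,x)`. -/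
noncomputable def lipAt (f : M → ℝ) (x : M) : ℝ≥0∞ :=
  limsup (fun y => ENNReal.ofReal (|f y - f x| / dist y x)) (𝓝[≠] x)

/-- `f ∈ L²`. -/
def L2 (f : M → ℝ) : Prop := MemLp f 2 m

/-- `u k → f` in `L²`. -/
def Conv (u : ℕ → M → ℝ) (f : M → ℝ) : Prop :=
  Tendsto (fun k => eLpNorm (fun x => u k x - f x) 2 m) atTop (𝓝 0)

/-- `G ∈ L²` is a relaxed slope of `f ∈ L²`: there are Lipschitz `u k ∈ L²` with
`u k → f` in `L²` and `g k ∈ L²` with `lip (u k) ≤ g k` a.e. and `g k → G` in `L²`. -/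
def IsRelaxedSlope (f G : M → ℝ) : Prop :=
  L2 m f ∧ L2 m G ∧ ∃ u g : ℕ → M → ℝ, (∀ k, (∃ K, LipschitzWith K (u k)) ∧ L2 m (u k) ∧
    L2 m (g k) ∧ ∀ᵐ x ∂m, 0 ≤ g k x ∧ lipAt (u k) x ≤ ENNReal.ofReal (g k x)) ∧
    Conv m u f ∧ Conv m g G

/-- `G` is the minimal relaxed slope of `f`. -/
def IsMinSlope (f G : M → ℝ) : Prop :=
  IsRelaxedSlope m f G ∧ ∀ G', IsRelaxedSlope m f G' → G ≤ᵐ[m] G'

/-- The minimal relaxed slope `|Df|`. The Cheeger energy of `f ∈ W^{1,2}` is `½ ∫ |Df|² dm`. -/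
noncomputable def slope (f : M → ℝ) : M → ℝ := pick (IsMinSlope m f) fun _ => 0

end Metric

/-! ### Differential calculus -/

/-- The data of a Sobolev calculus: `L2 f`: `f ∈ L²`; `W f`: `f ∈ W^{1,2}`; `Γ f g = ⟨∇f,∇g⟩`;
`B f`: `f` is bounded and Lipschitz; `int f = ∫ f dm`; `ae P`: `P` holds almost everywhere. -/
structure Calc (M : Type u) where
  L2 : (M → ℝ) → Prop
  W : (M → ℝ) → Prop
  Γ : (M → ℝ) → (M → ℝ) → M → ℝ
  B : (M → ℝ) → Prop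
  int : (M → ℝ) → ℝ
  ae : (M → Prop) → Prop

/-- The Sobolev calculus of a metric measure space: `W^{1,2}(M)`, with `⟨∇f,∇g⟩` given by
polarization of `|Df|²`. -/
noncomputable def sob {M : Type u} [MetricSpace M] [MeasurableSpace M] (m : Measure M) :
    Calc M where
  L2 := L2 m
  W := fun f => ∃ G, IsRelaxedSlope m f G
  Γ := fun f g x => (slope m (fun y => f y + g y) x ^ 2 - slope m (fun y => f y - g y) x ^ 2) / 4
  B := fun f => ∃ u : M → ℝ, (∃ K, LipschitzWith K u) ∧ (∃ K : ℝ, ∀ x, |u x| ≤ K) ∧ f =ᵐ[m] u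
  int := fun f => ∫ x, f x ∂m
  ae := fun P => ∀ᵐ x ∂m, P x

/-- The list of the pairs `(a_j, b_j)` stands for the vector field `∑ a_j ∇b_j`. -/
abbrev VF (M : Type u) : Type u := List ((M → ℝ) × (M → ℝ))

/-- `∑_j F a_j b_j`. -/
def sm {M : Type u} (X : VF M) (F : (M → ℝ) → (M → ℝ) → ℝ) : ℝ := (X.map fun p => F p.1 p.2).sum

namespace Calc

variable {M : Type u} (C : Calc M)

/-- `h = Δf`. -/
def IsLap (f h : M → ℝ) : Prop :=
  C.W f ∧ C.L2 h ∧ ∀ g, C.W g → C.int (C.Γ f g) = -C.int fun x => h x * g x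

/-- `Δf`. -/
noncomputable def lap (f : M → ℝ) : M → ℝ := pick (C.IsLap f) fun _ => 0

/-- The weak Bochner inequality `BE(K,N)`. -/
def BE (K N : ℝ) : Prop :=
  ∀ f h φ ψ b, C.IsLap f h → C.W h → C.IsLap φ ψ →
    C.ae (fun x => 0 ≤ φ x ∧ φ x ≤ b ∧ |ψ x| ≤ b) →
    C.int (fun x => φ x * (C.Γ f h x + K * C.Γ f f x + h x ^ 2 / N))
      ≤ C.int (fun x => C.Γ f f x * ψ x) / 2

/-- `f ∈ Test(M)`: `f ∈ D(Δ)` is bounded and Lipschitz and `Δf ∈ W^{1,2}`. -/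
def Test (f : M → ℝ) : Prop := C.B f ∧ ∃ h, C.IsLap f h ∧ C.W h

/-- `X ∈ TestV(M)`. -/
def TestV (X : VF M) : Prop := ∀ p ∈ X, C.Test p.1 ∧ C.Test p.2

/-- `⟨X,Y⟩`. -/
noncomputable def ip (X Y : VF M) (x : M) : ℝ :=
  sm X fun a b => sm Y fun c d => a x * c x * C.Γ b d x

/-- `div X`. -/
noncomputable def dv (X : VF M) (x : M) : ℝ := sm X fun a b => C.Γ a b x + a x * C.lap b x

/-- `Hess b (∇g, ∇h)`. -/
noncomputable def hess (b g h : M → ℝ) (x : M) : ℝ :=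
  (C.Γ g (C.Γ b h) x + C.Γ h (C.Γ b g) x - C.Γ b (C.Γ g h) x) / 2

/-- `⟨∇_X Y, Z⟩`, where `⟨∇_X (c ∇d), Z⟩ = ⟨X,∇c⟩ ⟨∇d,Z⟩ + c Hess d (X, Z)`. -/
noncomputable def nab (X Y Z : VF M) (x : M) : ℝ :=
  sm X fun a b => sm Y fun c d => sm Z fun e g =>
    a x * e x * (C.Γ b c x * C.Γ d g x + c x * C.hess d b g x)

/-- `f X`. -/
def mul (f : M → ℝ) (X : VF M) : VF M := X.map fun p => (fun x => f x * p.1 x, p.2)

variable {H : Type u} [NormedAddCommGroup H] [InnerProductSpace ℝ H] (ι : VF M → H)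

/-- `H`, with the map `ι`, is the Hilbert space `L²(TM)`: the completion of `TestV(M)` with
respect to `∫ ⟨X,Y⟩ dm`. -/
def IsL2TM : Prop :=
  CompleteSpace H ∧ (∀ X Y, C.TestV X → C.TestV Y → ⟪ι X, ι Y⟫_ℝ = C.int (C.ip X Y)) ∧
    ∀ v : H, ∀ ε > 0, ∃ X, C.TestV X ∧ ‖ι X - v‖ < ε

/-- `V = ∇_X Y` in `L²(TM)`. -/
def IsCov (X Y : VF M) (V : H) : Prop := ∀ Z, C.TestV Z → ⟪V, ι Z⟫_ℝ = C.int (C.nab X Y Z)

/-- Gigli's functional `R(X,Y,Y,X)(f)` is at least `c`: the vector fields `A = ∇_X (f X)`,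
`B = ∇_Y Y`, `D = ∇_Y (f X)`, `E = ∇_X Y`, `F = ∇_Y X` and `G = ⟨∇_• Y, f X⟩` exist in `L²(TM)`,
and `-∫⟨A,B⟩ - ∫ f ⟨∇_Y Y, X⟩ div X + ∫⟨D,E⟩ + ∫ f ⟨∇_X Y, X⟩ div Y - ∫⟨∇_{[X,Y]} Y, f X⟩ ≥ c`. -/
def CurvGE (X Y : VF M) (f : M → ℝ) (c : ℝ) : Prop :=
  ∃ A B D E F G : H, C.IsCov ι X (mul f X) A ∧ C.IsCov ι Y Y B ∧ C.IsCov ι Y (mul f X) D ∧
    C.IsCov ι X Y E ∧ C.IsCov ι Y X F ∧
    (∀ Z, C.TestV Z → ⟪G, ι Z⟫_ℝ = C.int (C.nab Z Y (mul f X))) ∧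
    c ≤ -⟪A, B⟫_ℝ - C.int (fun x => f x * C.nab Y Y X x * C.dv X x)
      + ⟪D, E⟫_ℝ + C.int (fun x => f x * C.nab X Y X x * C.dv Y x) - ⟪E - F, G⟫_ℝ

end Calc

/-- `RCD(K,N)` for finite `N`, in its Eulerian form. -/
structure IsRCD {M : Type u} [MetricSpace M] [MeasurableSpace M] (m : Measure M) (K N : ℝ) :
    Prop where
  quadratic : ∀ f g, (sob m).W f → (sob m).W g →
    ∫ x, slope m (fun y => f y + g y) x ^ 2 + slope m (fun y => f y - g y) x ^ 2 ∂m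
      = ∫ x, 2 * slope m f x ^ 2 + 2 * slope m g x ^ 2 ∂m
  growth : ∃ (x₀ : M) (c : ℝ), ∀ r > 0,
    m (Metric.ball x₀ r) ≤ ENNReal.ofReal (c * Real.exp (c * r ^ 2))
  sobolev_to_lipschitz : ∀ f, (sob m).W f → (∀ᵐ x ∂m, slope m f x ≤ 1) →
    ∃ u : M → ℝ, LipschitzWith 1 u ∧ f =ᵐ[m] u
  bochner : (sob m).BE K N

/-- Distributional sectional curvature `≥ κ`: `L²(TM)` exists, and in `L²(TM)`
`R(X,Y,Y,X)(f) ≥ κ ∫ f (|X|²|Y|² - ⟨X,Y⟩²) dm` for all test vector fields `X`, `Y` and all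
nonnegative test functions `f`. -/
def DistSecGE {M : Type u} (C : Calc M) (κ : ℝ) : Prop :=
  ∃ (H : Type u) (_ : NormedAddCommGroup H) (_ : InnerProductSpace ℝ H) (ι : VF M → H),
    C.IsL2TM ι ∧ ∀ X Y, C.TestV X → C.TestV Y → ∀ f, C.Test f → C.ae (fun x => 0 ≤ f x) →
      C.CurvGE ι X Y f
        (κ * C.int fun x => f x * (C.ip X X x * C.ip Y Y x - C.ip X Y x ^ 2))

end Vale.Agent.P233.T
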