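import Vale.Agent.P233.AB.FinD
import Vale.Agent.P233.AB.StmtAB

set_option linter.all false

open MeasureTheory Filter Topology
open scoped ENNReal NNReal InnerProductSpace

universe u

namespace Vale.Agent.P233

section

variable {M : Type u} [MetricSpace M] [MeasurableSpace M] {m : Measure M}

theorem T_slope (f : M → ℝ) : T.slope m f = S.slope m f := rfl

theorem T_W (f : M → ℝ) : (T.sob m).W f ↔ (S.sob m).W f := Iff.rfl

theorem T_Γ (f g : M → ℝ) : (T.sob m).Γ f g = (S.sob m).Γ f g := rfl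

theorem T_isLap (f g : M → ℝ) : (T.sob m).IsLap f g ↔ (S.sob m).IsLap f g := Iff.rfl

theorem T_lap (f : M → ℝ) : (T.sob m).lap f = (S.sob m).lap f := rfl

theorem T_test (f : M → ℝ) : (T.sob m).Test f ↔ (S.sob m).Test f := Iff.rfl

theorem T_testV (X : T.VF M) : (T.sob m).TestV X ↔ (S.sob m).TestV X := Iff.rfl

theorem T_ip (X Y : T.VF M) : (T.sob m).ip X Y = (S.sob m).ip X Y := rfl

theorem T_dv (X : T.VF M) : (T.sob m).dv X = (S.sob m).dv X := rfl

theorem T_hess (a b c : M → ℝ) : (T.sob m).hess a b c = (S.sob m).hess a b c := rfl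

theorem T_nab (X Y Z : T.VF M) : (T.sob m).nab X Y Z = (S.sob m).nab X Y Z := rfl

theorem T_rcd {K N : ℝ} (h : T.IsRCD m K N) : S.IsRCD m K N :=
  ⟨h.quadratic, h.growth, h.sobolev_to_lipschitz, h.bochner⟩

end

theorem T_alex {M : Type u} [MetricSpace M] {κ : ℝ} (h : T.IsAlexandrov M κ) :
    AB.IsAlexandrov M κ := by
  refine ⟨h.geodesic, fun p x y w h1 h2 => h.comparison p x y w h1 ?_⟩
  rcases le_or_gt κ 0 with h3 | h3
  · rw [Real.sqrt_eq_zero_of_nonpos h3, zero_mul]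
    exact Real.two_pi_pos
  · have h4 := h2 h3
    rw [lt_div_iff₀ (Real.sqrt_pos.2 h3)] at h4
    linarith

/-- (A) implies (B) -/
theorem ab_T {M : Type u} [MetricSpace M] [CompleteSpace M] [SecondCountableTopology M]
    [MeasurableSpace M] [BorelSpace M] (m : Measure M) [m.IsOpenPosMeasure] {κ K N : ℝ}
    (hN : 0 < N) (hA : T.IsAlexandrov M κ) (h : T.IsRCD m K N) :
    T.DistSecGE (T.sob m) κ := by
  have hS := T_rcd h
  obtain ⟨⟨H, i1, i2, ι, hι⟩, hD⟩ := ab_main m hN hS (T_alex hA)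
  have hM : ABSpace m κ (min K 0) N := abSpace_of hN hS (T_alex hA)
  have hC : IsGamma (sob m) := hM.hC
  have hB : (sob m).BEi (min K 0) := hM.hB
  refine ⟨H, i1, i2, ι, hι, ?_⟩
  intro X Y hX hY f hf hf0
  rw [T_testV] at hX hY
  rw [T_test] at hf
  have hmul : ∀ {Z : T.VF M}, (S.sob m).TestV Z → (S.sob m).TestV (T.Calc.mul f Z) := by
    intro Z hZ
    obtain ⟨F, hF, hF'⟩ := S_test_exists hf
    exact (RV_mulV hC hB (RV_clsV hZ) hF hF').testV
  have e1 : ∀ {X Y : T.VF M}, (S.sob m).TestV X → (S.sob m).TestV Y →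
      (T.sob m).IsCov ι X Y ((S.sob m).cov ι X Y) := by
    intro X Y hX hY
    have h1 := (hD H ι hι X Y hX hY).1
    unfold S.Calc.cov S.Calc.rep
    rw [dif_pos h1]
    exact h1.choose_spec
  have h2 := (hD H ι hι Y (T.Calc.mul f X) hY (hmul hX)).2.1
  have h3 : ∀ Z, (S.sob m).TestV Z →
      ⟪(S.sob m).rep ι (fun X' => (S.sob m).int ((S.sob m).nab X' Y (T.Calc.mul f X))), ι Z⟫_ℝ
        = (S.sob m).int ((S.sob m).nab Z Y (T.Calc.mul f X)) := by
    unfold S.Calc.rep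
    rw [dif_pos h2]
    exact h2.choose_spec
  refine ⟨_, _, _, _, _, _, e1 hX (hmul hX), e1 hY hY, e1 hY (hmul hX), e1 hX hY, e1 hY hX, h3, ?_⟩
  exact (hD H ι hι X Y hX hY).2.2 f hf hf0

end Vale.Agent.P233
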