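import Vale.Agent.P233.AB.HU

/-!
P233, block GLUE: the curvature functional of a model of `L²(TM)` in terms of the functions
`⟨∇_{∇a} ∇b, ∇_{∇a'} ∇b'⟩`.
-/

open MeasureTheory Filter Topology
open scoped ENNReal NNReal InnerProductSpace

namespace Vale.Agent.P233

variable {M : Type*} [MeasurableSpace M] {m : Measure M} {C : Calc m}
variable {E : Type*} [NormedAddCommGroup E] [InnerProductSpace ℝ E] {Gr : (M →ₘ[m] ℝ) → M → E}
variable {U : (M →ₘ[m] ℝ) → (M →ₘ[m] ℝ) → M → E}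

/-! ### list sums -/

section lists

variable {α β R : Type*}

theorem ls_comm [AddCommMonoid R] (L : List α) (L' : List β) (F : α → β → R) :
    (L.map fun a => (L'.map fun b => F a b).sum).sum
      = (L'.map fun b => (L.map fun a => F a b).sum).sum := by
  induction L with
  | nil => simp
  | cons a L ih => simp only [List.map_cons, List.sum_cons, ih, List.sum_map_add]

theorem ls_neg [AddCommGroup R] (L : List α) (F : α → R) :
    (L.map fun a => -F a).sum = -(L.map F).sum := by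
  induction L with
  | nil => simp
  | cons a L ih => simp only [List.map_cons, List.sum_cons, ih]; abel

theorem ls_sub [AddCommGroup R] (L : List α) (F G : α → R) :
    (L.map fun a => F a - G a).sum = (L.map F).sum - (L.map G).sum := by
  induction L with
  | nil => simp
  | cons a L ih => simp only [List.map_cons, List.sum_cons, ih]; abel

theorem ls_mul [CommRing R] (L : List α) (F : α → R) (c : R) :
    (L.map fun a => c * F a).sum = c * (L.map F).sum := by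
  induction L with
  | nil => simp
  | cons a L ih => simp only [List.map_cons, List.sum_cons, ih]; ring

theorem ls_mul' [CommRing R] (L : List α) (F : α → R) (c : R) :
    (L.map fun a => F a * c).sum = (L.map F).sum * c := by
  induction L with
  | nil => simp
  | cons a L ih => simp only [List.map_cons, List.sum_cons, ih]; ring

theorem ls_congr [AddCommMonoid R] {L : List α} {F G : α → R} (h : ∀ a ∈ L, F a = G a) :
    (L.map F).sum = (L.map G).sum := by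
  rw [List.map_congr_left h]

theorem inner_ls_left {L : List α} {V : α → M → E} {w : M → E} {F : α → M →ₘ[m] ℝ}
    (h : ∀ a ∈ L, ∀ᵐ x ∂m, ⟪V a x, w x⟫_ℝ = F a x) :
    ∀ᵐ x ∂m, ⟪(L.map fun a => V a x).sum, w x⟫_ℝ = (L.map F).sum x := by
  induction L with
  | nil =>
    filter_upwards [zero_ae (M := M) (m := m)] with x hx
    simp only [List.map_nil, List.sum_nil, inner_zero_left]
    exact hx.symm
  | cons a L ih =>
    simp only [List.map_cons, List.sum_cons]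
    filter_upwards [h a List.mem_cons_self, ih fun b hb => h b (List.mem_cons_of_mem _ hb),
      add_ae (F a) (L.map F).sum] with x h1 h2 h3
    rw [h3, inner_add_left, h1, h2]

theorem inner_ls_right {L : List α} {V : α → M → E} {w : M → E} {F : α → M →ₘ[m] ℝ}
    (h : ∀ a ∈ L, ∀ᵐ x ∂m, ⟪w x, V a x⟫_ℝ = F a x) :
    ∀ᵐ x ∂m, ⟪w x, (L.map fun a => V a x).sum⟫_ℝ = (L.map F).sum x := by
  have h1 := inner_ls_left (m := m) (L := L) (V := V) (w := w) (F := F) fun a ha => by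
    filter_upwards [h a ha] with x hx
    rw [real_inner_comm]; exact hx
  filter_upwards [h1] with x hx
  rw [real_inner_comm]; exact hx

theorem mem_ls {p : ℝ≥0∞} {L : List α} {F : α → M →ₘ[m] ℝ} (h : ∀ a ∈ L, MemLp (F a) p m) :
    MemLp ((L.map F).sum : M →ₘ[m] ℝ) p m := by
  induction L with
  | nil => simpa using mem_zero
  | cons a L ih =>
    simp only [List.map_cons, List.sum_cons]
    exact mem_add (h a List.mem_cons_self) (ih fun b hb => h b (List.mem_cons_of_mem _ hb))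

end lists

/-! ### the closure of the test fields -/

/-- `v` is in the closure of the test vector fields in `L²(M;E)` -/
def InCl (C : Calc m) (Gr : (M →ₘ[m] ℝ) → M → E) (v : M → E) : Prop :=
  MemLp v 2 m ∧ ∀ ε > 0, ∃ Z, C.IsTestV Z ∧ eLpNorm (fun x => v x - fvec Gr Z x) 2 m < ε

theorem testV_append {Z Z' : List ((M →ₘ[m] ℝ) × (M →ₘ[m] ℝ))} (h : C.IsTestV Z)
    (h' : C.IsTestV Z') : C.IsTestV (Z ++ Z') := fun r hr =>
  (List.mem_append.1 hr).elim (h r) (h' r)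

theorem testV_nil : C.IsTestV [] := fun r hr => by simp at hr

namespace InCl

variable {v w : M → E}

theorem congr (h : InCl C Gr v) (hw : ∀ᵐ x ∂m, v x = w x) : InCl C Gr w := by
  refine ⟨h.1.ae_eq hw, fun ε hε => ?_⟩
  obtain ⟨Z, hZ, h1⟩ := h.2 ε hε
  refine ⟨Z, hZ, lt_of_eq_of_lt (eLpNorm_congr_ae ?_) h1⟩
  filter_upwards [hw] with x hx
  rw [hx]

theorem zero : InCl C Gr (fun _ => 0) := by
  refine ⟨MemLp.zero, fun ε hε => ⟨[], testV_nil, ?_⟩⟩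
  have : (fun x : M => (0 : E) - fvec Gr [] x) = 0 := by
    funext x; simp [fvec]
  rw [this, eLpNorm_zero]
  exact hε

theorem add (hG : IsGrad C Gr) (hC : IsGamma C) (hv : InCl C Gr v) (hw : InCl C Gr w) :
    InCl C Gr (fun x => v x + w x) := by
  refine ⟨hv.1.add hw.1, fun ε hε => ?_⟩
  obtain ⟨Z, hZ, h1⟩ := hv.2 (ε / 2) (ENNReal.half_pos hε.ne')
  obtain ⟨Z', hZ', h2⟩ := hw.2 (ε / 2) (ENNReal.half_pos hε.ne')
  have mf : ∀ {Z : List ((M →ₘ[m] ℝ) × (M →ₘ[m] ℝ))}, C.IsTestV Z →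
      AEStronglyMeasurable (fvec Gr Z) m := by
    intro Z hZ
    induction Z with
    | nil => rw [IsGrad.fvec_nil]; exact aestronglyMeasurable_zero
    | cons p Z ih =>
      have e : fvec Gr (p :: Z) = fun x => p.1 x • Gr p.2 x + fvec Gr Z x := by
        funext x; exact IsGrad.fvec_cons p Z x
      rw [e]
      exact (p.1.aestronglyMeasurable.smul
        (hG.mem _ (hC.test_A (hZ p List.mem_cons_self).2).1).1).add
        (ih fun q hq => hZ q (List.mem_cons_of_mem _ hq))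
  refine ⟨Z ++ Z', testV_append hZ hZ', ?_⟩
  have e : (fun x => v x + w x - fvec Gr (Z ++ Z') x)
      = (fun x => v x - fvec Gr Z x) + fun x => w x - fvec Gr Z' x := by
    funext x
    rw [Pi.add_apply, IsGrad.fvec_append]
    abel
  rw [e]
  calc eLpNorm ((fun x => v x - fvec Gr Z x) + fun x => w x - fvec Gr Z' x) 2 m
      ≤ _ := eLpNorm_add_le (hv.1.1.sub (mf hZ)) (hw.1.1.sub (mf hZ')) (by norm_num)
    _ < ε / 2 + ε / 2 := ENNReal.add_lt_add h1 h2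
    _ = ε := ENNReal.add_halves ε

theorem ls (hG : IsGrad C Gr) (hC : IsGamma C) {α : Type*} {L : List α} {V : α → M → E}
    (h : ∀ a ∈ L, InCl C Gr (V a)) : InCl C Gr (fun x => (L.map fun a => V a x).sum) := by
  induction L with
  | nil => simpa using zero (C := C) (Gr := Gr)
  | cons a L ih =>
    simp only [List.map_cons, List.sum_cons]
    exact (h a List.mem_cons_self).add hG hC (ih fun b hb => h b (List.mem_cons_of_mem _ hb))

theorem fvec_mulV (a : M →ₘ[m] ℝ) (Z : List ((M →ₘ[m] ℝ) × (M →ₘ[m] ℝ))) :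
    ∀ᵐ x ∂m, fvec Gr (Calc.mulV a Z) x = a x • fvec Gr Z x := by
  induction Z with
  | nil => exact Eventually.of_forall fun x => by simp [Calc.mulV, fvec]
  | cons p Z ih =>
    filter_upwards [ih, mul_ae a p.1] with x h1 h2
    have e : Calc.mulV a (p :: Z) = (a * p.1, p.2) :: Calc.mulV a Z := by
      simp [Calc.mulV]
    rw [e, IsGrad.fvec_cons, IsGrad.fvec_cons, h1, h2, smul_add, mul_smul]

theorem smul_test (hC : IsGamma C) {κ : ℝ} (hB : C.BEi κ) (hv : InCl C Gr v) {a : M →ₘ[m] ℝ}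
    (ha : a ∈ C.Test) : InCl C Gr (fun x => a x • v x) := by
  have haT := (hC.test_A ha).2
  refine ⟨MemLp.smul hv.1 haT, fun ε hε => ?_⟩
  obtain ⟨K, hK⟩ := mem_top_iff.1 haT
  set c : ℝ≥0 := Real.toNNReal K + 1 with hc
  have hc0 : (c : ℝ≥0∞) ≠ 0 := by simp [hc]
  obtain ⟨Z, hZ, h1⟩ := hv.2 (ε / c) (ENNReal.div_pos hε.ne' ENNReal.coe_ne_top)
  refine ⟨Calc.mulV a Z, ?_, ?_⟩
  · intro r hr
    unfold Calc.mulV at hr
    rw [List.mem_map] at hr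
    obtain ⟨s, hs, rfl⟩ := hr
    exact ⟨hC.test_mul hB ha (hZ s hs).1, (hZ s hs).2⟩
  · have h2 : eLpNorm (fun x => a x • v x - fvec Gr (Calc.mulV a Z) x) 2 m
        ≤ c • eLpNorm (fun x => v x - fvec Gr Z x) 2 m := by
      refine eLpNorm_le_nnreal_smul_eLpNorm_of_ae_le_mul ?_ 2
      filter_upwards [fvec_mulV (Gr := Gr) a Z, hK] with x b1 b2
      rw [b1, ← smul_sub, nnnorm_smul]
      refine mul_le_mul_of_nonneg_right ?_ zero_le
      rw [← NNReal.coe_le_coe, coe_nnnorm, Real.norm_eq_abs, hc, NNReal.coe_add, NNReal.coe_one]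
      exact b2.trans ((Real.le_coe_toNNReal K).trans (by linarith))
    refine lt_of_le_of_lt h2 ?_
    rw [ENNReal.smul_def, smul_eq_mul]
    calc (c : ℝ≥0∞) * eLpNorm (fun x => v x - fvec Gr Z x) 2 m < c * (ε / c) :=
          (ENNReal.mul_lt_mul_iff_right hc0 ENNReal.coe_ne_top).2 h1
      _ ≤ ε := ENNReal.mul_div_le

theorem smul_grad [SigmaFinite m] (hC : IsGamma C) {κ : ℝ} (hB : C.BEi κ) (hG : IsGrad C Gr)
    {a b : M →ₘ[m] ℝ} (ha : a ∈ C.A) (hb : b ∈ C.Test) : InCl C Gr (fun x => a x • Gr b x) := by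
  have hbW := (hC.test_A hb).1
  refine ⟨MemLp.smul (hG.mem _ hbW) ha.2, fun ε hε => ?_⟩
  obtain ⟨L, hL⟩ := mem_top_iff.1 (hC.test_Γ_top hb)
  set c : ℝ≥0 := Real.toNNReal (Real.sqrt L) + 1 with hc
  have hc0 : (c : ℝ≥0∞) ≠ 0 := by simp [hc]
  -- a small real number
  obtain ⟨δ, hδ, hδε⟩ : ∃ δ : ℝ, 0 < δ ∧ ENNReal.ofReal δ < ε / c := by
    have hpos : 0 < ε / (c : ℝ≥0∞) := ENNReal.div_pos hε.ne' ENNReal.coe_ne_top
    obtain ⟨r, hr0, hr⟩ := ENNReal.lt_iff_exists_nnreal_btwn.1 hpos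
    refine ⟨r, by exact_mod_cast hr0, ?_⟩
    rw [ENNReal.ofReal_coe_nnreal]
    exact hr
  obtain ⟨g, hg, hg2⟩ := hC.test_dense hB ha.1 (ε := δ ^ 2) (by positivity)
  have hgW := (hC.test_A hg).1
  have hsub := hC.sub_mem hgW ha.1
  refine ⟨[(g, b)], ?_, ?_⟩
  · intro r hr
    simp only [List.mem_singleton] at hr
    rw [hr]; exact ⟨hg, hb⟩
  · have h2 : eLpNorm (fun x => a x • Gr b x - fvec Gr [(g, b)] x) 2 m
        ≤ c • eLpNorm (g - a : M →ₘ[m] ℝ) 2 m := by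
      refine eLpNorm_le_nnreal_smul_eLpNorm_of_ae_le_mul ?_ 2
      filter_upwards [hG.norm_eq hbW, hL, sub_ae g a] with x b1 b2 b3
      have e : a x • Gr b x - fvec Gr [(g, b)] x = -((g - a : M →ₘ[m] ℝ) x • Gr b x) := by
        rw [b3]
        simp only [fvec, List.map_cons, List.map_nil, List.sum_cons, List.sum_nil, add_zero]
        rw [sub_smul]; abel
      rw [e, nnnorm_neg, nnnorm_smul, mul_comm]
      refine mul_le_mul_of_nonneg_right ?_ zero_le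
      rw [← NNReal.coe_le_coe, coe_nnnorm, b1, hc, NNReal.coe_add, NNReal.coe_one]
      have : Real.sqrt (C.Γ b b x) ≤ Real.sqrt L := Real.sqrt_le_sqrt ((le_abs_self _).trans b2)
      exact this.trans ((Real.le_coe_toNNReal _).trans (by linarith))
    have h3 : eLpNorm (g - a : M →ₘ[m] ℝ) 2 m ≤ ENNReal.ofReal δ := by
      have m2 : MemLp (g - a : M →ₘ[m] ℝ) 2 m := hC.memLp _ hsub
      have h4 : I ((g - a) ^ 2) < δ ^ 2 := (hC.I_sq_le_nrm2 hsub).trans_lt hg2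
      have h5 : ‖m2.toLp‖ ^ 2 = I ((g - a) ^ 2) := by
        rw [← real_inner_self_eq_norm_sq, L2.inner_def]
        unfold I
        refine integral_congr_ae ?_
        filter_upwards [m2.coeFn_toLp, sq_ae (g - a)] with x b1 b2
        rw [b1, b2, real_inner_self_eq_norm_sq, Real.norm_eq_abs, sq_abs]
      have h6 : ‖m2.toLp‖ ≤ δ := by
        refine le_of_lt (lt_of_pow_lt_pow_left₀ 2 hδ.le ?_)
        rw [h5]; exact h4
      rw [Lp.norm_toLp] at h6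
      exact (ENNReal.le_ofReal_iff_toReal_le m2.eLpNorm_lt_top.ne hδ.le).2 h6
    refine lt_of_le_of_lt h2 ?_
    rw [ENNReal.smul_def, smul_eq_mul]
    calc (c : ℝ≥0∞) * eLpNorm (g - a : M →ₘ[m] ℝ) 2 m ≤ c * ENNReal.ofReal δ :=
          mul_le_mul_of_nonneg_left h3 zero_le
      _ < c * (ε / c) := (ENNReal.mul_lt_mul_iff_right hc0 ENNReal.coe_ne_top).2 hδε
      _ ≤ ε := ENNReal.mul_div_le

end InCl

/-! ### `L²(M;E)` -/

open Classical in
/-- the class in `L²(M;E)` -/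
noncomputable def lE (m : Measure M) (v : M → E) : Lp E 2 m :=
  if h : MemLp v 2 m then h.toLp v else 0

theorem lE_inner {u v : M → E} (hu : MemLp u 2 m) (hv : MemLp v 2 m) :
    ⟪lE m u, lE m v⟫_ℝ = ∫ x, ⟪u x, v x⟫_ℝ ∂m := by
  unfold lE
  rw [dif_pos hu, dif_pos hv, L2.inner_def]
  refine integral_congr_ae ?_
  filter_upwards [hu.coeFn_toLp, hv.coeFn_toLp] with x a1 a2
  rw [a1, a2]

theorem lE_dist {u v : M → E} (hu : MemLp u 2 m) (hv : MemLp v 2 m) :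
    edist (lE m u) (lE m v) = eLpNorm (fun x => u x - v x) 2 m := by
  unfold lE
  rw [dif_pos hu, dif_pos hv, Lp.edist_toLp_toLp]
  rfl

theorem mem_fvec (hG : IsGrad C Gr) (hC : IsGamma C) {Z : List ((M →ₘ[m] ℝ) × (M →ₘ[m] ℝ))}
    (hZ : C.IsTestV Z) : MemLp (fvec Gr Z) 2 m := by
  induction Z with
  | nil => rw [IsGrad.fvec_nil]; exact MemLp.zero
  | cons p Z ih =>
    have e : fvec Gr (p :: Z) = fun x => p.1 x • Gr p.2 x + fvec Gr Z x := by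
      funext x; exact IsGrad.fvec_cons p Z x
    rw [e]
    exact (MemLp.smul (hG.mem _ (hC.test_A (hZ p List.mem_cons_self).2).1)
      (hC.test_A (hZ p List.mem_cons_self).1).2).add
      (ih fun q hq => hZ q (List.mem_cons_of_mem _ hq))

/-- the representation of a test vector field -/
noncomputable def eE (Gr : (M →ₘ[m] ℝ) → M → E) (Z : List ((M →ₘ[m] ℝ) × (M →ₘ[m] ℝ))) :
    Lp E 2 m := lE m (fvec Gr Z)

section model

variable {H : Type*} [NormedAddCommGroup H] [InnerProductSpace ℝ H]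
  {ι : List ((M →ₘ[m] ℝ) × (M →ₘ[m] ℝ)) → H}

/-- `V ∈ H` corresponds to `v ∈ L²(M;E)` -/
def RepE (C : Calc m) (Gr : (M →ₘ[m] ℝ) → M → E)
    (ι : List ((M →ₘ[m] ℝ) × (M →ₘ[m] ℝ)) → H) (V : H) (v : Lp E 2 m) : Prop :=
  ∃ T : ℕ → List ((M →ₘ[m] ℝ) × (M →ₘ[m] ℝ)), (∀ n, C.IsTestV (T n)) ∧
    Tendsto (fun n => ι (T n)) atTop (𝓝 V) ∧ Tendsto (fun n => eE Gr (T n)) atTop (𝓝 v)

variable {X Y Z : List ((M →ₘ[m] ℝ) × (M →ₘ[m] ℝ))}

theorem iotaE_inner (hG : IsGrad C Gr) (hC : IsGamma C) (hι : C.IsL2TM ι) (hX : C.IsTestV X)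
    (hY : C.IsTestV Y) : ⟪ι X, ι Y⟫_ℝ = ⟪eE Gr X, eE Gr Y⟫_ℝ := by
  unfold eE
  rw [lE_inner (mem_fvec hG hC hX) (mem_fvec hG hC hY), hι.1 X Y hX hY]
  exact (integral_congr_ae (hG.inner_fvec (fun p hp => (hC.test_A (hX p hp).2).1)
    fun p hp => (hC.test_A (hY p hp).2).1)).symm

theorem iotaE_norm_sub (hG : IsGrad C Gr) (hC : IsGamma C) (hι : C.IsL2TM ι) (hX : C.IsTestV X)
    (hY : C.IsTestV Y) : ‖ι X - ι Y‖ = ‖eE Gr X - eE Gr Y‖ := by
  have h1 : ‖ι X - ι Y‖ ^ 2 = ‖eE Gr X - eE Gr Y‖ ^ 2 := by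
    rw [← real_inner_self_eq_norm_sq, ← real_inner_self_eq_norm_sq]
    simp only [inner_sub_left, inner_sub_right]
    rw [iotaE_inner hG hC hι hX hX, iotaE_inner hG hC hι hX hY, iotaE_inner hG hC hι hY hX,
      iotaE_inner hG hC hι hY hY]
  have := abs_eq_abs.2 (sq_eq_sq_iff_eq_or_eq_neg.1 h1)
  rwa [abs_of_nonneg (norm_nonneg _), abs_of_nonneg (norm_nonneg _)] at this

theorem repE_self (hX : C.IsTestV X) : RepE C Gr ι (ι X) (eE Gr X) :=
  ⟨fun _ => X, fun _ => hX, tendsto_const_nhds, tendsto_const_nhds⟩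

theorem repE_inner (hG : IsGrad C Gr) (hC : IsGamma C) (hι : C.IsL2TM ι) {V V' : H}
    {v v' : Lp E 2 m} (h : RepE C Gr ι V v) (h' : RepE C Gr ι V' v') :
    ⟪V, V'⟫_ℝ = ⟪v, v'⟫_ℝ := by
  obtain ⟨T, hT, h1, h2⟩ := h
  obtain ⟨T', hT', h1', h2'⟩ := h'
  have a1 := h1.inner (𝕜 := ℝ) h1'
  have a2 := h2.inner (𝕜 := ℝ) h2'
  refine tendsto_nhds_unique a1 (a2.congr fun n => ?_)
  rw [iotaE_inner hG hC hι (hT n) (hT' n)]

theorem repE_exists [CompleteSpace H] (hG : IsGrad C Gr) (hC : IsGamma C) (hι : C.IsL2TM ι)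
    {v : M → E} (hv : InCl C Gr v) : ∃ V, RepE C Gr ι V (lE m v) := by
  choose T hT hTv using fun n : ℕ => hv.2 (ENNReal.ofReal ((n : ℝ) + 1)⁻¹)
    (ENNReal.ofReal_pos.2 (by positivity))
  have hlim : Tendsto (fun n => eE Gr (T n)) atTop (𝓝 (lE m v)) := by
    rw [tendsto_iff_edist_tendsto_0]
    have h1 : Tendsto (fun n : ℕ => ENNReal.ofReal ((n : ℝ) + 1)⁻¹) atTop (𝓝 0) := by
      have := ENNReal.tendsto_ofReal (tendsto_inv_succ)
      simpa using this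
    refine tendsto_of_tendsto_of_tendsto_of_le_of_le tendsto_const_nhds h1
      (fun n => zero_le) fun n => ?_
    beta_reduce
    unfold eE
    rw [edist_comm, lE_dist hv.1 (mem_fvec hG hC (hT n))]
    exact (hTv n).le
  have hc : CauchySeq (fun n => eE Gr (T n)) := hlim.cauchySeq
  have hc2 : CauchySeq (fun n => ι (T n)) := by
    rw [Metric.cauchySeq_iff] at hc ⊢
    intro ε hε
    obtain ⟨N, hN⟩ := hc ε hε
    refine ⟨N, fun a ha b hb => ?_⟩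
    have := hN a ha b hb
    rw [dist_eq_norm] at this ⊢
    rwa [iotaE_norm_sub hG hC hι (hT a) (hT b)]
  obtain ⟨V, hV⟩ := cauchySeq_tendsto_of_complete hc2
  exact ⟨V, T, hT, hV, hlim⟩

theorem eqE_of_inner (hι : C.IsL2TM ι) {V V' : H}
    (h : ∀ X, C.IsTestV X → ⟪V, ι X⟫_ℝ = ⟪V', ι X⟫_ℝ) : V = V' := by
  have h1 : ∀ w : H, ⟪V - V', w⟫_ℝ = 0 := by
    intro w
    have hcl : IsClosed {w : H | ⟪V - V', w⟫_ℝ = 0} :=
      isClosed_eq (by fun_prop) continuous_const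
    have : closure {v | ∃ X, C.IsTestV X ∧ ι X = v} ⊆ {w : H | ⟪V - V', w⟫_ℝ = 0} := by
      apply hcl.closure_subset_iff.2
      rintro _ ⟨X, hX, rfl⟩
      change ⟪V - V', ι X⟫_ℝ = 0
      rw [inner_sub_left, h X hX, sub_self]
    have h2 := hι.2 w
    exact this h2
  have := h1 (V - V')
  rw [inner_self_eq_zero] at this
  exact sub_eq_zero.1 this

end model

/-! ### covariant derivatives -/

/-- the field `∇_p q` -/
noncomputable def cvT (C : Calc m) (Gr : (M →ₘ[m] ℝ) → M → E)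
    (U : (M →ₘ[m] ℝ) → (M →ₘ[m] ℝ) → M → E) (p q : (M →ₘ[m] ℝ) × (M →ₘ[m] ℝ)) (x : M) : E :=
  p.1 x • (C.Γ p.2 q.1 x • Gr q.2 x + q.1 x • U q.2 p.2 x)

/-- the field `(∇ r)ᵀ s` -/
noncomputable def ctT (C : Calc m) (Gr : (M →ₘ[m] ℝ) → M → E)
    (U : (M →ₘ[m] ℝ) → (M →ₘ[m] ℝ) → M → E) (r s : (M →ₘ[m] ℝ) × (M →ₘ[m] ℝ)) (x : M) : E :=
  s.1 x • (C.Γ r.2 s.2 x • Gr r.1 x + r.1 x • U r.2 s.2 x)

/-- the field `∇_X Y` -/
noncomputable def cvV (C : Calc m) (Gr : (M →ₘ[m] ℝ) → M → E)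
    (U : (M →ₘ[m] ℝ) → (M →ₘ[m] ℝ) → M → E) (X Y : List ((M →ₘ[m] ℝ) × (M →ₘ[m] ℝ)))
    (x : M) : E :=
  (X.map fun p => (Y.map fun q => cvT C Gr U p q x).sum).sum

/-- the field `(∇ Y)ᵀ Z` -/
noncomputable def ctV (C : Calc m) (Gr : (M →ₘ[m] ℝ) → M → E)
    (U : (M →ₘ[m] ℝ) → (M →ₘ[m] ℝ) → M → E) (Y Z : List ((M →ₘ[m] ℝ) × (M →ₘ[m] ℝ)))
    (x : M) : E :=
  (Y.map fun r => (Z.map fun s => ctT C Gr U r s x).sum).sum

/-- a pair of test functions -/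
def TP (C : Calc m) (p : (M →ₘ[m] ℝ) × (M →ₘ[m] ℝ)) : Prop := p.1 ∈ C.Test ∧ p.2 ∈ C.Test

section base

variable {p q r s : (M →ₘ[m] ℝ) × (M →ₘ[m] ℝ)}

theorem cvT_inCl [SigmaFinite m] (hC : IsGamma C) {κ : ℝ} (hB : C.BEi κ) (hG : IsGrad C Gr)
    (hU : IsHU C Gr U) (hp : TP C p) (hq : TP C q) : InCl C Gr (cvT C Gr U p q) := by
  have h1 : InCl C Gr (fun x => (p.1 * C.Γ p.2 q.1 : M →ₘ[m] ℝ) x • Gr q.2 x) :=
    InCl.smul_grad hC hB hG (hC.mul_mem_A (hC.test_A hp.1) (hC.Γ_mem hB hp.2 hq.1)) hq.2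
  have h2 : InCl C Gr (fun x => (p.1 * q.1 : M →ₘ[m] ℝ) x • U q.2 p.2 x) :=
    InCl.smul_test hC hB ⟨hU.mem _ hq.2 _ hp.2, hU.dense _ hq.2 _ hp.2⟩
      (hC.test_mul hB hp.1 hq.1)
  refine (h1.add hG hC h2).congr ?_
  filter_upwards [mul_ae p.1 (C.Γ p.2 q.1), mul_ae p.1 q.1] with x a1 a2
  rw [a1, a2, cvT, smul_add, mul_smul, mul_smul]

theorem ctT_inCl [SigmaFinite m] (hC : IsGamma C) {κ : ℝ} (hB : C.BEi κ) (hG : IsGrad C Gr)
    (hU : IsHU C Gr U) (hr : TP C r) (hs : TP C s) : InCl C Gr (ctT C Gr U r s) := by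
  have h1 : InCl C Gr (fun x => (s.1 * C.Γ r.2 s.2 : M →ₘ[m] ℝ) x • Gr r.1 x) :=
    InCl.smul_grad hC hB hG (hC.mul_mem_A (hC.test_A hs.1) (hC.Γ_mem hB hr.2 hs.2)) hr.1
  have h2 : InCl C Gr (fun x => (s.1 * r.1 : M →ₘ[m] ℝ) x • U r.2 s.2 x) :=
    InCl.smul_test hC hB ⟨hU.mem _ hr.2 _ hs.2, hU.dense _ hr.2 _ hs.2⟩
      (hC.test_mul hB hs.1 hr.1)
  refine (h1.add hG hC h2).congr ?_
  filter_upwards [mul_ae s.1 (C.Γ r.2 s.2), mul_ae s.1 r.1] with x a1 a2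
  rw [a1, a2, ctT, smul_add, mul_smul, mul_smul]

theorem cc_ae (hC : IsGamma C) (hG : IsGrad C Gr) (hU : IsHU C Gr U) (hp : TP C p)
    (hq : TP C q) (hr : TP C r) (hs : TP C s) :
    ∀ᵐ x ∂m, ⟪cvT C Gr U p q x, cvT C Gr U r s x⟫_ℝ = C.ccI (UUof m U) p q r s x := by
  have qW := hC.tW hq.2
  have sW := hC.tW hs.2
  unfold Calc.ccI
  filter_upwards [hG.inner _ qW _ sW, hU.inner _ hs.2 _ hr.2 _ hq.2, hU.inner _ hq.2 _ hp.2 _ hs.2,
    ipE_ae (hU.mem _ hq.2 _ hp.2).1 (hU.mem _ hs.2 _ hr.2).1,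
    mul_ae (p.1 * r.1) (C.Γ p.2 q.1 * C.Γ r.2 s.1 * C.Γ q.2 s.2
      + C.Γ p.2 q.1 * s.1 * C.hess s.2 r.2 q.2 + q.1 * C.Γ r.2 s.1 * C.hess q.2 p.2 s.2
      + q.1 * s.1 * UUof m U q.2 p.2 s.2 r.2),
    add_ae (C.Γ p.2 q.1 * C.Γ r.2 s.1 * C.Γ q.2 s.2 + C.Γ p.2 q.1 * s.1 * C.hess s.2 r.2 q.2
      + q.1 * C.Γ r.2 s.1 * C.hess q.2 p.2 s.2) (q.1 * s.1 * UUof m U q.2 p.2 s.2 r.2),
    add_ae (C.Γ p.2 q.1 * C.Γ r.2 s.1 * C.Γ q.2 s.2 + C.Γ p.2 q.1 * s.1 * C.hess s.2 r.2 q.2)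
      (q.1 * C.Γ r.2 s.1 * C.hess q.2 p.2 s.2),
    add_ae (C.Γ p.2 q.1 * C.Γ r.2 s.1 * C.Γ q.2 s.2) (C.Γ p.2 q.1 * s.1 * C.hess s.2 r.2 q.2),
    mul_ae (C.Γ p.2 q.1 * C.Γ r.2 s.1) (C.Γ q.2 s.2), mul_ae (C.Γ p.2 q.1) (C.Γ r.2 s.1),
    mul_ae (C.Γ p.2 q.1 * s.1) (C.hess s.2 r.2 q.2), mul_ae (C.Γ p.2 q.1) s.1,
    mul_ae (q.1 * C.Γ r.2 s.1) (C.hess q.2 p.2 s.2), mul_ae q.1 (C.Γ r.2 s.1),
    mul_ae (q.1 * s.1) (UUof m U q.2 p.2 s.2 r.2), mul_ae q.1 s.1, mul_ae p.1 r.1]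
    with x a1 a2 a3 a4 b1 b2 b3 b4 b5 b6 b7 b8 b9 b10 b11 b12 b13
  rw [b1, b2, b3, b4, b5, b6, b7, b8, b9, b10, b11, b12, b13]
  have a4' : UUof m U q.2 p.2 s.2 r.2 x = ⟪U q.2 p.2 x, U s.2 r.2 x⟫_ℝ := a4
  rw [a4', ← a1, ← a2, ← a3]
  unfold cvT
  simp only [inner_add_left, inner_add_right, real_inner_smul_left, real_inner_smul_right]
  rw [real_inner_comm (Gr q.2 x) (U s.2 r.2 x)]
  ring

theorem ct_ae (hC : IsGamma C) (hG : IsGrad C Gr) (hU : IsHU C Gr U) (hp : TP C p)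
    (hq : TP C q) (hr : TP C r) (hs : TP C s) :
    ∀ᵐ x ∂m, ⟪cvT C Gr U p q x, ctT C Gr U r s x⟫_ℝ = C.ctI (UUof m U) p q r s x := by
  have qW := hC.tW hq.2
  have rW := hC.tW hr.1
  unfold Calc.ctI
  filter_upwards [hG.inner _ qW _ rW, hU.inner _ hr.2 _ hs.2 _ hq.2, hU.inner _ hq.2 _ hp.2 _ hr.1,
    ipE_ae (hU.mem _ hq.2 _ hp.2).1 (hU.mem _ hr.2 _ hs.2).1,
    mul_ae (p.1 * s.1) (C.Γ p.2 q.1 * (C.Γ r.2 s.2 * C.Γ q.2 r.1 + r.1 * C.hess r.2 s.2 q.2)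
      + q.1 * (C.Γ r.2 s.2 * C.hess q.2 p.2 r.1 + r.1 * UUof m U q.2 p.2 r.2 s.2)),
    add_ae (C.Γ p.2 q.1 * (C.Γ r.2 s.2 * C.Γ q.2 r.1 + r.1 * C.hess r.2 s.2 q.2))
      (q.1 * (C.Γ r.2 s.2 * C.hess q.2 p.2 r.1 + r.1 * UUof m U q.2 p.2 r.2 s.2)),
    mul_ae (C.Γ p.2 q.1) (C.Γ r.2 s.2 * C.Γ q.2 r.1 + r.1 * C.hess r.2 s.2 q.2),
    add_ae (C.Γ r.2 s.2 * C.Γ q.2 r.1) (r.1 * C.hess r.2 s.2 q.2),
    mul_ae (C.Γ r.2 s.2) (C.Γ q.2 r.1), mul_ae r.1 (C.hess r.2 s.2 q.2),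
    mul_ae q.1 (C.Γ r.2 s.2 * C.hess q.2 p.2 r.1 + r.1 * UUof m U q.2 p.2 r.2 s.2),
    add_ae (C.Γ r.2 s.2 * C.hess q.2 p.2 r.1) (r.1 * UUof m U q.2 p.2 r.2 s.2),
    mul_ae (C.Γ r.2 s.2) (C.hess q.2 p.2 r.1), mul_ae r.1 (UUof m U q.2 p.2 r.2 s.2),
    mul_ae p.1 s.1]
    with x a1 a2 a3 a4 b1 b2 b3 b4 b5 b6 b7 b8 b9 b10 b11
  rw [b1, b2, b3, b4, b5, b6, b7, b8, b9, b10, b11]
  have a4' : UUof m U q.2 p.2 r.2 s.2 x = ⟪U q.2 p.2 x, U r.2 s.2 x⟫_ℝ := a4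
  rw [a4', ← a1, ← a2, ← a3]
  unfold cvT ctT
  simp only [inner_add_left, inner_add_right, real_inner_smul_left, real_inner_smul_right]
  rw [real_inner_comm (Gr q.2 x) (U r.2 s.2 x)]
  ring

theorem cn_ae (hC : IsGamma C) (hG : IsGrad C Gr) (hU : IsHU C Gr U) (hp : TP C p)
    (hq : TP C q) (hr : TP C r) :
    ∀ᵐ x ∂m, ⟪cvT C Gr U p q x, r.1 x • Gr r.2 x⟫_ℝ = C.nabI p q r x := by
  unfold Calc.nabI
  filter_upwards [hG.inner _ (hC.tW hq.2) _ (hC.tW hr.2), hU.inner _ hq.2 _ hp.2 _ hr.2,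
    mul_ae (p.1 * r.1) (C.Γ p.2 q.1 * C.Γ q.2 r.2 + q.1 * C.hess q.2 p.2 r.2),
    add_ae (C.Γ p.2 q.1 * C.Γ q.2 r.2) (q.1 * C.hess q.2 p.2 r.2),
    mul_ae (C.Γ p.2 q.1) (C.Γ q.2 r.2), mul_ae q.1 (C.hess q.2 p.2 r.2), mul_ae p.1 r.1]
    with x a1 a2 b1 b2 b3 b4 b5
  rw [b1, b2, b3, b4, b5, ← a1, ← a2]
  unfold cvT
  simp only [inner_add_left, real_inner_smul_left, real_inner_smul_right]
  ring

theorem tn_ae (hC : IsGamma C) {κ : ℝ} (hB : C.BEi κ) (hG : IsGrad C Gr) (hU : IsHU C Gr U)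
    (hp : TP C p) (hq : TP C q) (hr : TP C r) :
    ∀ᵐ x ∂m, ⟪p.1 x • Gr p.2 x, ctT C Gr U q r x⟫_ℝ = C.nabI p q r x := by
  unfold Calc.nabI
  filter_upwards [hG.inner _ (hC.tW hp.2) _ (hC.tW hq.1), hU.inner _ hq.2 _ hr.2 _ hp.2,
    mul_ae (p.1 * r.1) (C.Γ p.2 q.1 * C.Γ q.2 r.2 + q.1 * C.hess q.2 p.2 r.2),
    add_ae (C.Γ p.2 q.1 * C.Γ q.2 r.2) (q.1 * C.hess q.2 p.2 r.2),
    mul_ae (C.Γ p.2 q.1) (C.Γ q.2 r.2), mul_ae q.1 (C.hess q.2 p.2 r.2), mul_ae p.1 r.1]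
    with x a1 a2 b1 b2 b3 b4 b5
  rw [b1, b2, b3, b4, b5, hC.hess_symm hB hq.2 hp.2 hr.2, ← a1, ← a2]
  unfold ctT
  simp only [inner_add_right, real_inner_smul_left, real_inner_smul_right]
  rw [real_inner_comm (Gr p.2 x) (U q.2 r.2 x)]
  ring

end base

section fields

variable {X Y Z W : List ((M →ₘ[m] ℝ) × (M →ₘ[m] ℝ))}

theorem cvV_inCl [SigmaFinite m] (hC : IsGamma C) {κ : ℝ} (hB : C.BEi κ) (hG : IsGrad C Gr)
    (hU : IsHU C Gr U) (hX : C.IsTestV X) (hY : C.IsTestV Y) : InCl C Gr (cvV C Gr U X Y) :=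
  InCl.ls hG hC fun p hp => InCl.ls hG hC fun q hq => cvT_inCl hC hB hG hU (hX p hp) (hY q hq)

theorem ctV_inCl [SigmaFinite m] (hC : IsGamma C) {κ : ℝ} (hB : C.BEi κ) (hG : IsGrad C Gr)
    (hU : IsHU C Gr U) (hX : C.IsTestV X) (hY : C.IsTestV Y) : InCl C Gr (ctV C Gr U X Y) :=
  InCl.ls hG hC fun p hp => InCl.ls hG hC fun q hq => ctT_inCl hC hB hG hU (hX p hp) (hY q hq)

theorem ccV_ae (hC : IsGamma C) (hG : IsGrad C Gr) (hU : IsHU C Gr U) (hX : C.IsTestV X)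
    (hY : C.IsTestV Y) (hZ : C.IsTestV Z) (hW : C.IsTestV W) :
    ∀ᵐ x ∂m, ⟪cvV C Gr U X Y x, cvV C Gr U Z W x⟫_ℝ
      = (X.map fun p => (Y.map fun q => (Z.map fun r => (W.map fun s =>
          C.ccI (UUof m U) p q r s).sum).sum).sum).sum x :=
  inner_ls_left fun p hp => inner_ls_left fun q hq => inner_ls_right fun r hr =>
    inner_ls_right fun s hs => cc_ae hC hG hU (hX p hp) (hY q hq) (hZ r hr) (hW s hs)

theorem ctV_ae (hC : IsGamma C) (hG : IsGrad C Gr) (hU : IsHU C Gr U) (hX : C.IsTestV X)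
    (hY : C.IsTestV Y) (hZ : C.IsTestV Z) (hW : C.IsTestV W) :
    ∀ᵐ x ∂m, ⟪cvV C Gr U X Y x, ctV C Gr U Z W x⟫_ℝ
      = (X.map fun p => (Y.map fun q => (Z.map fun r => (W.map fun s =>
          C.ctI (UUof m U) p q r s).sum).sum).sum).sum x :=
  inner_ls_left fun p hp => inner_ls_left fun q hq => inner_ls_right fun r hr =>
    inner_ls_right fun s hs => ct_ae hC hG hU (hX p hp) (hY q hq) (hZ r hr) (hW s hs)

theorem nabV_ae (hC : IsGamma C) (hG : IsGrad C Gr) (hU : IsHU C Gr U) (hX : C.IsTestV X)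
    (hY : C.IsTestV Y) (hZ : C.IsTestV Z) :
    ∀ᵐ x ∂m, ⟪cvV C Gr U X Y x, fvec Gr Z x⟫_ℝ = C.nab X Y Z x :=
  inner_ls_left fun p hp => inner_ls_left fun q hq => inner_ls_right fun r hr =>
    cn_ae hC hG hU (hX p hp) (hY q hq) (hZ r hr)

theorem nabT_ae (hC : IsGamma C) {κ : ℝ} (hB : C.BEi κ) (hG : IsGrad C Gr) (hU : IsHU C Gr U)
    (hX : C.IsTestV X) (hY : C.IsTestV Y) (hZ : C.IsTestV Z) :
    ∀ᵐ x ∂m, ⟪fvec Gr X x, ctV C Gr U Y Z x⟫_ℝ = C.nab X Y Z x :=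
  inner_ls_left fun p hp => inner_ls_right fun q hq => inner_ls_right fun r hr =>
    tn_ae hC hB hG hU (hX p hp) (hY q hq) (hZ r hr)

variable {H : Type*} [NormedAddCommGroup H] [InnerProductSpace ℝ H] [CompleteSpace H]
  {ι : List ((M →ₘ[m] ℝ) × (M →ₘ[m] ℝ)) → H}

theorem covE_rep [SigmaFinite m] (hC : IsGamma C) {κ : ℝ} (hB : C.BEi κ) (hG : IsGrad C Gr)
    (hU : IsHU C Gr U) (hι : C.IsL2TM ι) (hX : C.IsTestV X) (hY : C.IsTestV Y) :
    (∃ V, C.IsCov ι X Y V) ∧ RepE C Gr ι (C.cov ι X Y) (lE m (cvV C Gr U X Y)) := by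
  have hcl := cvV_inCl hC hB hG hU hX hY
  obtain ⟨V, hV⟩ := repE_exists hG hC hι hcl
  have hcov : C.IsCov ι X Y V := by
    intro Z hZ
    rw [repE_inner hG hC hι hV (repE_self hZ)]
    unfold eE
    rw [lE_inner hcl.1 (mem_fvec hG hC hZ)]
    exact integral_congr_ae (nabV_ae hC hG hU hX hY hZ)
  refine ⟨⟨V, hcov⟩, ?_⟩
  have hex : ∃ V, C.IsCov ι X Y V := ⟨V, hcov⟩
  have e : C.cov ι X Y = V := by
    have h1 : C.cov ι X Y = hex.choose := by unfold Calc.cov; rw [dif_pos hex]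
    rw [h1]
    apply eqE_of_inner hι
    intro Z hZ
    rw [hex.choose_spec Z hZ, hcov Z hZ]
  rw [e]; exact hV

theorem covTE_rep [SigmaFinite m] (hC : IsGamma C) {κ : ℝ} (hB : C.BEi κ) (hG : IsGrad C Gr)
    (hU : IsHU C Gr U) (hι : C.IsL2TM ι) (hY : C.IsTestV Y) (hZ : C.IsTestV Z) :
    (∃ V, C.IsCovT ι Y Z V) ∧ RepE C Gr ι (C.covT ι Y Z) (lE m (ctV C Gr U Y Z)) := by
  have hcl := ctV_inCl hC hB hG hU hY hZ
  obtain ⟨V, hV⟩ := repE_exists hG hC hι hcl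
  have hcov : C.IsCovT ι Y Z V := by
    intro X hX
    rw [real_inner_comm, repE_inner hG hC hι (repE_self hX) hV]
    unfold eE
    rw [lE_inner (mem_fvec hG hC hX) hcl.1]
    exact integral_congr_ae (nabT_ae hC hB hG hU hX hY hZ)
  refine ⟨⟨V, hcov⟩, ?_⟩
  have hex : ∃ V, C.IsCovT ι Y Z V := ⟨V, hcov⟩
  have e : C.covT ι Y Z = V := by
    have h1 : C.covT ι Y Z = hex.choose := by unfold Calc.covT; rw [dif_pos hex]
    rw [h1]
    apply eqE_of_inner hι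
    intro Z hZ
    rw [hex.choose_spec Z hZ, hcov Z hZ]
  rw [e]; exact hV

end fields

/-! ### the curvature functional -/

theorem memI_of_inner {u v : M → E} {F : M →ₘ[m] ℝ} (hu : MemLp u 2 m) (hv : MemLp v 2 m)
    (h : ∀ᵐ x ∂m, ⟪u x, v x⟫_ℝ = F x) : MemLp F 1 m ∧ ⟪lE m u, lE m v⟫_ℝ = I F := by
  constructor
  · have h1 : Integrable (fun x => ⟪u x, v x⟫_ℝ) m := by
      refine (L2.integrable_inner (𝕜 := ℝ) hu.toLp hv.toLp).congr ?_
      filter_upwards [hu.coeFn_toLp, hv.coeFn_toLp] with x a1 a2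
      rw [a1, a2]
    exact (memLp_one_iff_integrable.2 h1).ae_eq h
  · rw [lE_inner hu hv]
    exact integral_congr_ae h

theorem I_comb6 {a b c d e e' : M →ₘ[m] ℝ} (ha : MemLp a 1 m) (hb : MemLp b 1 m)
    (hc : MemLp c 1 m) (hd : MemLp d 1 m) (he : MemLp e 1 m) (he' : MemLp e' 1 m) :
    I (-a - b + c + d - (e - e')) = -I a - I b + I c + I d - (I e - I e') := by
  rw [I_sub (mem_add (mem_add (mem_sub (mem_neg ha) hb) hc) hd) (mem_sub he he'), I_sub he he',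
    I_add (mem_add (mem_sub (mem_neg ha) hb) hc) hd, I_add (mem_sub (mem_neg ha) hb) hc,
    I_sub (mem_neg ha) hb, I_neg]

section curv

variable {X Y Z : List ((M →ₘ[m] ℝ) × (M →ₘ[m] ℝ))} {f : M →ₘ[m] ℝ}

theorem nab_mem2 (hC : IsGamma C) {κ : ℝ} (hB : C.BEi κ) (hX : C.IsTestV X) (hY : C.IsTestV Y)
    (hZ : C.IsTestV Z) : MemLp (C.nab X Y Z) 2 m := by
  unfold Calc.nab
  refine mem_ls fun p hp => mem_ls fun q hq => mem_ls fun r hr => ?_
  refine mem_mul_top (mem_mul_top (hC.test_A (hX p hp).1).2 (hC.test_A (hZ r hr).1).2)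
    (mem_add (mem_mul_top (hC.Γ_mem hB (hX p hp).2 (hY q hq).1).2
      (hC.memLp _ (hC.Γ_mem hB (hY q hq).2 (hZ r hr).2).1))
    (mem_mul_top (hC.test_A (hY q hq).1).2 (hC.hess_mem2 hB (hY q hq).2 (hX p hp).2
      (hZ r hr).2)))

theorem dv_mem2 (hC : IsGamma C) {κ : ℝ} (hB : C.BEi κ) (hX : C.IsTestV X) :
    MemLp (C.dv X) 2 m := by
  unfold Calc.dv
  refine mem_ls fun p hp => ?_
  exact mem_add (hC.memLp _ (hC.Γ_mem hB (hX p hp).1 (hX p hp).2).1)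
    (mem_mul_top (hC.test_A (hX p hp).1).2 (hC.lap2 (hX p hp).2))

theorem mulV_test (hC : IsGamma C) {κ : ℝ} (hB : C.BEi κ) (hX : C.IsTestV X)
    (hf : f ∈ C.Test) : C.IsTestV (Calc.mulV f X) := by
  intro r hr
  unfold Calc.mulV at hr
  rw [List.mem_map] at hr
  obtain ⟨s, hs, rfl⟩ := hr
  exact ⟨hC.test_mul hB hf (hX s hs).1, (hX s hs).2⟩

theorem ls_mulV {R : Type*} [AddCommMonoid R] (f : M →ₘ[m] ℝ)
    (X : List ((M →ₘ[m] ℝ) × (M →ₘ[m] ℝ))) (F : (M →ₘ[m] ℝ) × (M →ₘ[m] ℝ) → R) :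
    ((Calc.mulV f X).map F).sum = (X.map fun s => F (f * s.1, s.2)).sum := by
  unfold Calc.mulV
  rw [List.map_map]
  rfl

/-- the algebraic identity behind the curvature formula -/
theorem om_sum (UU : UUT m) (f : M →ₘ[m] ℝ) (X Y : List ((M →ₘ[m] ℝ) × (M →ₘ[m] ℝ))) :
    (X.map fun p => (Y.map fun q => (Y.map fun r => (X.map fun s =>
      C.omI UU f p q r s).sum).sum).sum).sum =
    -(X.map fun p => ((Calc.mulV f X).map fun s => (Y.map fun q => (Y.map fun r =>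
        C.ccI UU p s q r).sum).sum).sum).sum
      - f * C.nab Y Y X * C.dv X
      + (Y.map fun q => ((Calc.mulV f X).map fun s => (X.map fun p => (Y.map fun r =>
        C.ccI UU q s p r).sum).sum).sum).sum
      + f * C.nab X Y X * C.dv Y
      - ((X.map fun p => (Y.map fun q => (Y.map fun r => ((Calc.mulV f X).map fun s =>
        C.ctI UU p q r s).sum).sum).sum).sum
        - (Y.map fun q => (X.map fun p => (Y.map fun r => ((Calc.mulV f X).map fun s =>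
        C.ctI UU q p r s).sum).sum).sum).sum) := by
  have e1 : (X.map fun p => ((Calc.mulV f X).map fun s => (Y.map fun q => (Y.map fun r =>
        C.ccI UU p s q r).sum).sum).sum).sum
      = (X.map fun p => (Y.map fun q => (Y.map fun r => (X.map fun s =>
        C.ccI UU p (f * s.1, s.2) q r).sum).sum).sum).sum := by
    refine ls_congr fun p _ => ?_
    rw [ls_mulV, ls_comm]
    refine ls_congr fun q _ => ?_
    rw [ls_comm]
  have e2 : (Y.map fun q => ((Calc.mulV f X).map fun s => (X.map fun p => (Y.map fun r =>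
        C.ccI UU q s p r).sum).sum).sum).sum
      = (X.map fun p => (Y.map fun q => (Y.map fun r => (X.map fun s =>
        C.ccI UU q (f * s.1, s.2) p r).sum).sum).sum).sum := by
    rw [ls_comm X Y]
    refine ls_congr fun q _ => ?_
    rw [ls_mulV, ls_comm]
    refine ls_congr fun p _ => ?_
    rw [ls_comm]
  have e3 : (X.map fun p => (Y.map fun q => (Y.map fun r => ((Calc.mulV f X).map fun s =>
        C.ctI UU p q r s).sum).sum).sum).sum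
      = (X.map fun p => (Y.map fun q => (Y.map fun r => (X.map fun s =>
        C.ctI UU p q r (f * s.1, s.2)).sum).sum).sum).sum := by
    simp only [ls_mulV]
  have e4 : (Y.map fun q => (X.map fun p => (Y.map fun r => ((Calc.mulV f X).map fun s =>
        C.ctI UU q p r s).sum).sum).sum).sum
      = (X.map fun p => (Y.map fun q => (Y.map fun r => (X.map fun s =>
        C.ctI UU q p r (f * s.1, s.2)).sum).sum).sum).sum := by
    rw [ls_comm X Y]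
    simp only [ls_mulV]
  have e5 : f * C.nab Y Y X * C.dv X = (X.map fun p => (Y.map fun q => (Y.map fun r =>
      (X.map fun s => f * C.nabI q r s * C.dvI p).sum).sum).sum).sum := by
    simp only [ls_mul', ls_mul]
    rfl
  have e6 : f * C.nab X Y X * C.dv Y = (X.map fun p => (Y.map fun q => (Y.map fun r =>
      (X.map fun s => f * C.nabI p r s * C.dvI q).sum).sum).sum).sum := by
    simp only [ls_mul', ls_mul]
    rfl
  rw [e1, e2, e3, e4, e5, e6]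
  simp only [Calc.omI, ls_sub, List.sum_map_add, ls_neg]

theorem glue {H : Type*} [NormedAddCommGroup H] [InnerProductSpace ℝ H] [CompleteSpace H]
    [SigmaFinite m] (hC : IsGamma C) {κ : ℝ} (hB : C.BEi κ) (hG : IsGrad C Gr)
    (hU : IsHU C Gr U) {ι : List ((M →ₘ[m] ℝ) × (M →ₘ[m] ℝ)) → H} (hι : C.IsL2TM ι)
    (hX : C.IsTestV X) (hY : C.IsTestV Y) :
    (∃ V, C.IsCov ι X Y V) ∧ (∃ V, C.IsCovT ι X Y V) ∧ ∀ f ∈ C.Test,
      C.curv ι X Y Y X f = I ((X.map fun p => (Y.map fun q => (Y.map fun r => (X.map fun s =>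
        C.omI (UUof m U) f p q r s).sum).sum).sum).sum) := by
  refine ⟨(covE_rep hC hB hG hU hι hX hY).1, (covTE_rep hC hB hG hU hι hX hY).1, fun f hf => ?_⟩
  have hV := mulV_test hC hB hX hf
  have r1 := (covE_rep hC hB hG hU hι hX hV).2
  have r2 := (covE_rep hC hB hG hU hι hY hY).2
  have r3 := (covE_rep hC hB hG hU hι hY hV).2
  have r4 := (covE_rep hC hB hG hU hι hX hY).2
  have r5 := (covE_rep hC hB hG hU hι hY hX).2
  have r6 := (covTE_rep hC hB hG hU hι hY hV).2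
  have i1 := repE_inner hG hC hι r1 r2
  have i2 := repE_inner hG hC hι r3 r4
  have i3 := repE_inner hG hC hι r4 r6
  have i4 := repE_inner hG hC hι r5 r6
  have c1 := (cvV_inCl hC hB hG hU hX hV).1
  have c2 := (cvV_inCl hC hB hG hU hY hY).1
  have c3 := (cvV_inCl hC hB hG hU hY hV).1
  have c4 := (cvV_inCl hC hB hG hU hX hY).1
  have c5 := (cvV_inCl hC hB hG hU hY hX).1
  have c6 := (ctV_inCl hC hB hG hU hY hV).1
  obtain ⟨m1, j1⟩ := memI_of_inner c1 c2 (ccV_ae hC hG hU hX hV hY hY)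
  obtain ⟨m2, j2⟩ := memI_of_inner c3 c4 (ccV_ae hC hG hU hY hV hX hY)
  obtain ⟨m3, j3⟩ := memI_of_inner c4 c6 (ctV_ae hC hG hU hX hY hY hV)
  obtain ⟨m4, j4⟩ := memI_of_inner c5 c6 (ctV_ae hC hG hU hY hX hY hV)
  have fT := (hC.test_A hf).2
  have n5 : MemLp (f * C.nab Y Y X * C.dv X) 1 m :=
    mem_mul_22 (mem_mul_top fT (nab_mem2 hC hB hY hY hX)) (dv_mem2 hC hB hX)
  have n6 : MemLp (f * C.nab X Y X * C.dv Y) 1 m :=
    mem_mul_22 (mem_mul_top fT (nab_mem2 hC hB hX hY hX)) (dv_mem2 hC hB hY)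
  have d5 : ∫ x, (f * C.nab Y Y X * C.dv X) x ∂m = I (f * C.nab Y Y X * C.dv X) := rfl
  have d6 : ∫ x, (f * C.nab X Y X * C.dv Y) x ∂m = I (f * C.nab X Y X * C.dv Y) := rfl
  unfold Calc.curv
  rw [inner_sub_left, i1, i2, i3, i4, j1, j2, j3, j4, d5, d6, om_sum,
    ← I_comb6 m1 n5 m2 n6 m3 m4]

end curv

end Vale.Agent.P233
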