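import Vale.Agent.P233.AB.Mas

open MeasureTheory Filter Topology
open scoped ENNReal NNReal InnerProductSpace

namespace Vale.Agent.P233

/-! ### Cholesky decomposition of a positive semidefinite kernel on `ℕ` -/

/-- A positive semidefinite kernel. -/
structure PSDK (K : ℕ → ℕ → ℝ) : Prop where
  symm : ∀ i j, K i j = K j i
  nonneg : ∀ (s : Finset ℕ) (c : ℕ → ℝ), 0 ≤ ∑ i ∈ s, ∑ j ∈ s, c i * c j * K i j

namespace PSDK
variable {K : ℕ → ℕ → ℝ}

theorem cs (h : PSDK K) (s : Finset ℕ) (c : ℕ → ℝ) (n : ℕ) :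
    (∑ i ∈ s, c i * K n i) ^ 2 ≤ (∑ i ∈ s, ∑ j ∈ s, c i * c j * K i j) * K n n := by
  refine disc_of_forall fun t => ?_
  set a : ℕ → ℝ := fun i => (if i ∈ s then c i else 0) + t * (if i = n then 1 else 0) with ha
  have key : ∀ F : ℕ → ℝ, ∑ i ∈ insert n s, a i * F i = ∑ i ∈ s, c i * F i + t * F n := by
    intro F
    have h1 : ∀ i ∈ insert n s, a i * F i =
        (if i ∈ s then c i * F i else 0) + (if i = n then t * F i else 0) := by
      intro i _
      simp only [ha]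
      split_ifs <;> ring
    rw [Finset.sum_congr rfl h1, Finset.sum_add_distrib, Finset.sum_ite_mem, Finset.sum_ite_eq',
      if_pos (Finset.mem_insert_self n s)]
    congr 2
    exact Finset.inter_eq_right.2 (Finset.subset_insert n s)
  have h2 := h.nonneg (insert n s) a
  have h3 : ∑ i ∈ insert n s, ∑ j ∈ insert n s, a i * a j * K i j =
      ∑ i ∈ insert n s, a i * (∑ j ∈ s, c j * K i j + t * K i n) := by
    refine Finset.sum_congr rfl fun i _ => ?_
    rw [← key, Finset.mul_sum]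
    exact Finset.sum_congr rfl fun j _ => by ring
  rw [h3, key] at h2
  have h4 : ∑ i ∈ s, c i * (∑ j ∈ s, c j * K i j + t * K i n) =
      ∑ i ∈ s, ∑ j ∈ s, c i * c j * K i j + t * ∑ i ∈ s, c i * K n i := by
    rw [Finset.mul_sum, ← Finset.sum_add_distrib]
    refine Finset.sum_congr rfl fun i _ => ?_
    rw [mul_add, Finset.mul_sum, h.symm i n]
    congr 1
    · exact Finset.sum_congr rfl fun j _ => by ring
    · ring
  rw [h4] at h2
  nlinarith

theorem diag_nonneg (h : PSDK K) (n : ℕ) : 0 ≤ K n n := by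
  have := h.nonneg {n} (fun _ => 1)
  simpa using this

theorem eq_zero (h : PSDK K) {n : ℕ} (h0 : K n n = 0) (k : ℕ) : K n k = 0 := by
  have := h.cs {k} (fun _ => 1) n
  rw [h0] at this
  simp only [Finset.sum_singleton, one_mul, mul_zero] at this
  exact pow_eq_zero_iff (two_ne_zero) |>.1 (le_antisymm this (sq_nonneg _))

end PSDK

/-- Iterated Schur complements. -/
noncomputable def schurs (K : ℕ → ℕ → ℝ) : ℕ → ℕ → ℕ → ℝ
  | 0 => K
  | n + 1 => fun k l => schurs K n k l - schurs K n n k * schurs K n n l / schurs K n n n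

/-- The Cholesky factor. -/
noncomputable def chol (K : ℕ → ℕ → ℝ) (n k : ℕ) : ℝ :=
  schurs K n n k / Real.sqrt (schurs K n n n)

namespace PSDK
variable {K : ℕ → ℕ → ℝ}

theorem schur_step (h : PSDK K) (n : ℕ) : PSDK (fun k l => K k l - K n k * K n l / K n n) where
  symm i j := by simp only [h.symm i j, mul_comm (K n i)]
  nonneg s c := by
    have e1 : ∑ i ∈ s, ∑ j ∈ s, c i * c j * (K i j - K n i * K n j / K n n) =
        ∑ i ∈ s, ∑ j ∈ s, c i * c j * K i j - (∑ i ∈ s, c i * K n i) ^ 2 / K n n := by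
      have e2 : (∑ i ∈ s, c i * K n i) ^ 2 / K n n =
          ∑ i ∈ s, ∑ j ∈ s, c i * c j * (K n i * K n j / K n n) := by
        rw [sq, Finset.sum_mul_sum, Finset.sum_div]
        refine Finset.sum_congr rfl fun i _ => ?_
        rw [Finset.sum_div]
        exact Finset.sum_congr rfl fun j _ => by ring
      rw [e2, ← Finset.sum_sub_distrib]
      refine Finset.sum_congr rfl fun i _ => ?_
      rw [← Finset.sum_sub_distrib]
      exact Finset.sum_congr rfl fun j _ => by ring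
    rw [e1, sub_nonneg]
    rcases (h.diag_nonneg n).eq_or_lt with h0 | h0
    · rw [← h0, div_zero]; exact h.nonneg s c
    · rw [div_le_iff₀ h0]; exact h.cs s c n

theorem schurs (h : PSDK K) : ∀ n, PSDK (schurs K n)
  | 0 => h
  | n + 1 => (h.schurs n).schur_step n

theorem schurs_succ (h : PSDK K) (n k l : ℕ) :
    P233.schurs K (n + 1) k l = P233.schurs K n k l - chol K n k * chol K n l := by
  have h1 : chol K n k * chol K n l =
      P233.schurs K n n k * P233.schurs K n n l / P233.schurs K n n n := by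
    unfold chol
    rw [div_mul_div_comm, Real.mul_self_sqrt ((h.schurs n).diag_nonneg n)]
  rw [h1]; rfl

theorem telescope (h : PSDK K) (k l : ℕ) : ∀ N,
    K k l = ∑ n ∈ Finset.range N, chol K n k * chol K n l + P233.schurs K N k l
  | 0 => by simp [P233.schurs]
  | N + 1 => by
    rw [h.telescope k l N, Finset.sum_range_succ, h.schurs_succ]
    ring

theorem schurs_diag (h : PSDK K) (k l : ℕ) : P233.schurs K (k + 1) k l = 0 := by
  have h1 : P233.schurs K (k + 1) k l = P233.schurs K k k l -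
    P233.schurs K k k k * P233.schurs K k k l / P233.schurs K k k k := rfl
  rw [h1]
  by_cases h0 : P233.schurs K k k k = 0
  · rw [(h.schurs k).eq_zero h0 l]; simp
  · field_simp; ring

theorem eq_sum (h : PSDK K) (k l : ℕ) :
    K k l = ∑ n ∈ Finset.range (k + 1), chol K n k * chol K n l := by
  rw [h.telescope k l (k + 1), h.schurs_diag, add_zero]

end PSDK

/-! ### the vectors of a kernel -/

section vec
variable {E : Type*} [NormedAddCommGroup E] [InnerProductSpace ℝ E]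

/-- The vectors of the kernel `K` with respect to an orthonormal sequence. -/
noncomputable def kvec (b : ℕ → E) (K : ℕ → ℕ → ℝ) (k : ℕ) : E :=
  ∑ n ∈ Finset.range (k + 1), chol K n k • b n

theorem inner_kvec_aux {b : ℕ → E} (hb : Orthonormal ℝ b) {K : ℕ → ℕ → ℝ} (hK : PSDK K)
    {k l : ℕ} (h : k ≤ l) : ⟪kvec b K k, kvec b K l⟫_ℝ = K k l := by
  classical
  unfold kvec
  rw [sum_inner, hK.eq_sum k l]
  refine Finset.sum_congr rfl fun n hn => ?_
  rw [real_inner_smul_left, inner_sum]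
  have h1 : ∀ i ∈ Finset.range (l + 1), ⟪b n, chol K i l • b i⟫_ℝ =
      if n = i then chol K i l else 0 := by
    intro i _
    rw [real_inner_smul_right, orthonormal_iff_ite.1 hb n i]
    split_ifs <;> simp
  rw [Finset.sum_congr rfl h1, Finset.sum_ite_eq, if_pos]
  rw [Finset.mem_range] at hn ⊢
  omega

theorem inner_kvec {b : ℕ → E} (hb : Orthonormal ℝ b) {K : ℕ → ℕ → ℝ} (hK : PSDK K)
    (k l : ℕ) : ⟪kvec b K k, kvec b K l⟫_ℝ = K k l := by
  rcases le_total k l with h | h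
  · exact inner_kvec_aux hb hK h
  · rw [real_inner_comm, inner_kvec_aux hb hK h, hK.symm]

variable {M : Type*} [MeasurableSpace M]

theorem measurable_schurs {K : M → ℕ → ℕ → ℝ} (hK : ∀ i j, Measurable fun x => K x i j) :
    ∀ n i j, Measurable fun x => schurs (K x) n i j
  | 0, i, j => hK i j
  | n + 1, i, j => by
    have h := measurable_schurs hK n
    exact (h i j).sub (((h n i).mul (h n j)).div (h n n))

theorem measurable_chol {K : M → ℕ → ℕ → ℝ} (hK : ∀ i j, Measurable fun x => K x i j)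
    (n k : ℕ) : Measurable fun x => chol (K x) n k :=
  (measurable_schurs hK n n k).div (measurable_schurs hK n n n).sqrt

theorem stronglyMeasurable_kvec (b : ℕ → E) {K : M → ℕ → ℕ → ℝ}
    (hK : ∀ i j, Measurable fun x => K x i j) (k : ℕ) :
    StronglyMeasurable fun x => kvec b (K x) k := by
  unfold kvec
  exact Finset.stronglyMeasurable_fun_sum _ fun n _ =>
    (measurable_chol hK n k).stronglyMeasurable.smul_const (b n)

end vec

/-! ### the kernel `Γ(e_i,e_j)(x)` -/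

section gram
variable {M : Type*} [MeasurableSpace M] {m : Measure M} {C : Calc m}

theorem sum_ae {ι : Type*} (s : Finset ι) (f : ι → M →ₘ[m] ℝ) :
    ⇑(∑ i ∈ s, f i) =ᵐ[m] fun x => ∑ i ∈ s, f i x := by
  classical
  induction s using Finset.induction_on with
  | empty => simpa using zero_ae (M := M) (m := m)
  | insert a s ha ih =>
    rw [Finset.sum_insert ha]
    filter_upwards [ih, add_ae (f a) (∑ i ∈ s, f i)] with x h1 h2
    rw [h2, h1, Finset.sum_insert ha]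

namespace IsDir
variable (hC : IsDir C)
include hC

theorem sum_mem {ι : Type*} (s : Finset ι) {f : ι → M →ₘ[m] ℝ} (hf : ∀ i, f i ∈ C.W) :
    ∑ i ∈ s, f i ∈ C.W := by
  classical
  induction s using Finset.induction_on with
  | empty => simpa using hC.zero_mem
  | insert a s ha ih =>
    rw [Finset.sum_insert ha]
    exact hC.add_mem _ (hf a) _ ih

theorem Γ_sum_left {ι : Type*} (s : Finset ι) {f : ι → M →ₘ[m] ℝ} (hf : ∀ i, f i ∈ C.W)
    {g : M →ₘ[m] ℝ} (hg : g ∈ C.W) : C.Γ (∑ i ∈ s, f i) g = ∑ i ∈ s, C.Γ (f i) g := by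
  classical
  induction s using Finset.induction_on with
  | empty => simpa using hC.Γ_zero_left hg
  | insert a s ha ih =>
    rw [Finset.sum_insert ha, Finset.sum_insert ha,
      hC.add_left _ (hf a) _ (hC.sum_mem s hf) _ hg, ih]

theorem Γ_sum_right {ι : Type*} (s : Finset ι) {f : ι → M →ₘ[m] ℝ} (hf : ∀ i, f i ∈ C.W)
    {g : M →ₘ[m] ℝ} (hg : g ∈ C.W) : C.Γ g (∑ i ∈ s, f i) = ∑ i ∈ s, C.Γ g (f i) := by
  rw [hC.symm g hg _ (hC.sum_mem s hf), hC.Γ_sum_left s hf hg]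
  exact Finset.sum_congr rfl fun i _ => hC.symm _ (hf i) _ hg

theorem gram_ae {e : ℕ → M →ₘ[m] ℝ} (he : ∀ i, e i ∈ C.W) (s : Finset ℕ) (c : ℕ → ℝ) :
    ∀ᵐ x ∂m, 0 ≤ ∑ i ∈ s, ∑ j ∈ s, c i * c j * C.Γ (e i) (e j) x := by
  have h1 : ∀ i, c i • e i ∈ C.W := fun i => hC.smul_mem _ _ (he i)
  have h2 := hC.nonneg _ (hC.sum_mem s h1)
  rw [nonneg_iff_ae, hC.Γ_sum_left s h1 (hC.sum_mem s h1)] at h2
  have h3 : ∀ᵐ x ∂m, ∀ i j, C.Γ (c i • e i) (c j • e j) x = c i * c j * C.Γ (e i) (e j) x := by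
    refine ae_all_iff.2 fun i => ae_all_iff.2 fun j => ?_
    rw [hC.smul_left _ _ (he i) _ (h1 j), hC.Γ_smul_right _ (he i) (he j), smul_smul]
    exact smul_ae _ _
  have h4 : ∀ᵐ x ∂m, ∀ i, C.Γ (c i • e i) (∑ j ∈ s, c j • e j) x =
      ∑ j ∈ s, C.Γ (c i • e i) (c j • e j) x := by
    refine ae_all_iff.2 fun i => ?_
    rw [hC.Γ_sum_right s h1 (h1 i)]
    exact sum_ae s _
  filter_upwards [h2, h3, h4, sum_ae s fun i => C.Γ (c i • e i) (∑ j ∈ s, c j • e j)]
    with x a2 a3 a4 a5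
  rw [a5] at a2
  simpa only [a4, a3] using a2

theorem psdk_ae {e : ℕ → M →ₘ[m] ℝ} (he : ∀ i, e i ∈ C.W) :
    ∀ᵐ x ∂m, PSDK fun i j => C.Γ (e i) (e j) x := by
  have h1 : ∀ᵐ x ∂m, ∀ (s : Finset ℕ) (q : s → ℚ),
      0 ≤ ∑ i, ∑ j, (q i : ℝ) * (q j : ℝ) * C.Γ (e i) (e j) x := by
    refine ae_all_iff.2 fun s => ae_all_iff.2 fun q => ?_
    classical
    filter_upwards [hC.gram_ae he s (fun i => if h : i ∈ s then (q ⟨i, h⟩ : ℝ) else 0)] with x hx
    rw [← Finset.sum_coe_sort s] at hx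
    refine hx.trans_eq (Finset.sum_congr rfl fun i _ => ?_)
    rw [← Finset.sum_coe_sort s]
    refine Finset.sum_congr rfl fun j _ => ?_
    simp
  filter_upwards [h1] with x hx
  refine ⟨fun i j => by rw [hC.symm _ (he i) _ (he j)], fun s c => ?_⟩
  have hcont : Continuous fun r : s → ℝ => ∑ i, ∑ j, r i * r j * C.Γ (e i) (e j) x := by fun_prop
  have hcl : IsClosed {r : s → ℝ | 0 ≤ ∑ i, ∑ j, r i * r j * C.Γ (e i) (e j) x} :=
    isClosed_le continuous_const hcont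
  have hd : DenseRange (Pi.map fun (_ : s) (q : ℚ) => (q : ℝ)) :=
    DenseRange.piMap fun _ => Rat.denseRange_cast
  have h2 : ∀ r : s → ℝ, 0 ≤ ∑ i, ∑ j, r i * r j * C.Γ (e i) (e j) x := by
    intro r
    have := hcl.closure_subset_iff.2 (show Set.range (Pi.map fun (_ : s) (q : ℚ) => (q : ℝ)) ⊆
      {r : s → ℝ | 0 ≤ ∑ i, ∑ j, r i * r j * C.Γ (e i) (e j) x} by
        rintro _ ⟨q, rfl⟩; exact hx s q)
    exact this (hd r)
  have h3 := h2 fun i => c i
  rw [← Finset.sum_coe_sort]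
  refine h3.trans_eq (Finset.sum_congr rfl fun i _ => ?_)
  rw [← Finset.sum_coe_sort s]

end IsDir
end gram

/-! ### the gradient -/

/-- `Gr` is a realization of the gradient with values in a Hilbert space. -/
structure IsGrad {M : Type*} [MeasurableSpace M] {m : Measure M} (C : Calc m) {E : Type*}
    [NormedAddCommGroup E] [InnerProductSpace ℝ E] (Gr : (M →ₘ[m] ℝ) → M → E) : Prop where
  mem : ∀ f ∈ C.W, MemLp (Gr f) 2 m
  inner : ∀ f ∈ C.W, ∀ g ∈ C.W, ∀ᵐ x ∂m, ⟪Gr f x, Gr g x⟫_ℝ = C.Γ f g x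

section ext
variable {M : Type*} [MeasurableSpace M] {m : Measure M} {C : Calc m}
variable {E : Type*} [NormedAddCommGroup E] [InnerProductSpace ℝ E]

/-- convergence in `L¹` implies convergence a.e. along a subsequence -/
theorem exists_subseq_of_int_abs {u : ℕ → M →ₘ[m] ℝ} {f : M →ₘ[m] ℝ}
    (hu : ∀ n, MemLp (u n - f : M →ₘ[m] ℝ) 1 m)
    (h : Tendsto (fun n => ∫ x, |(u n - f : M →ₘ[m] ℝ) x| ∂m) atTop (𝓝 0)) :
    ∃ ns : ℕ → ℕ, StrictMono ns ∧ ∀ᵐ x ∂m, Tendsto (fun n => u (ns n) x) atTop (𝓝 (f x)) := by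
  have h1 : Tendsto (fun n => eLpNorm ((⇑(u n) : M → ℝ) - ⇑f) 1 m) atTop (𝓝 0) := by
    have h2 : ∀ n, eLpNorm ((⇑(u n) : M → ℝ) - ⇑f) 1 m =
        ENNReal.ofReal (∫ x, |(u n - f : M →ₘ[m] ℝ) x| ∂m) := by
      intro n
      rw [← eLpNorm_congr_ae (AEEqFun.coeFn_sub (u n) f), eLpNorm_one_eq_lintegral_enorm,
        ← ofReal_integral_norm_eq_lintegral_enorm (int_of_mem (hu n))]
      simp
    simp_rw [h2]
    simpa using ENNReal.tendsto_ofReal h
  exact (tendstoInMeasure_of_tendsto_eLpNorm (by norm_num) (fun n => (u n).aestronglyMeasurable)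
    f.aestronglyMeasurable h1).exists_seq_tendsto_ae

/-- limits of inner products -/
theorem inner_limit {F : ℕ → M → E} {F0 G : M → E} {a : ℕ → M →ₘ[m] ℝ} {a0 : M →ₘ[m] ℝ}
    (hF : ∀ n, AEStronglyMeasurable (F n) m) (hF0 : AEStronglyMeasurable F0 m)
    (hlim : Tendsto (fun n => eLpNorm (F n - F0) 2 m) atTop (𝓝 0))
    (ha : ∀ n, MemLp (a n - a0 : M →ₘ[m] ℝ) 1 m)
    (halim : Tendsto (fun n => ∫ x, |(a n - a0 : M →ₘ[m] ℝ) x| ∂m) atTop (𝓝 0))
    (h : ∀ n, ∀ᵐ x ∂m, ⟪F n x, G x⟫_ℝ = a n x) : ∀ᵐ x ∂m, ⟪F0 x, G x⟫_ℝ = a0 x := by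
  obtain ⟨ns, hns, h1⟩ := (tendstoInMeasure_of_tendsto_eLpNorm (by norm_num) hF hF0
    hlim).exists_seq_tendsto_ae
  obtain ⟨ks, hks, h2⟩ := exists_subseq_of_int_abs (u := fun n => a (ns n)) (f := a0)
    (fun n => ha (ns n)) (halim.comp hns.tendsto_atTop)
  filter_upwards [h1, h2, ae_all_iff.2 h] with x b1 b2 b3
  have b4 : Tendsto (fun n => ⟪F (ns (ks n)) x, G x⟫_ℝ) atTop (𝓝 ⟪F0 x, G x⟫_ℝ) :=
    (b1.comp hks.tendsto_atTop).inner tendsto_const_nhds
  simp only [b3] at b4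
  exact tendsto_nhds_unique b4 b2

namespace IsDir
variable (hC : IsDir C)
include hC

theorem exists_gradE [CompleteSpace E] {b : ℕ → E} (hb : Orthonormal ℝ b) {e : ℕ → M →ₘ[m] ℝ}
    (he : ∀ n, e n ∈ C.W) (hd : ∀ f ∈ C.W, ∀ ε > 0, ∃ n, C.nrm2 (e n - f) < ε) :
    ∃ Gr : (M →ₘ[m] ℝ) → M → E, IsGrad C Gr ∧ ∀ f, StronglyMeasurable (Gr f) := by
  classical
  set K : M → ℕ → ℕ → ℝ := fun x i j => C.Γ (e i) (e j) x with hKd
  have hKm : ∀ i j, Measurable fun x => K x i j := fun i j =>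
    (C.Γ (e i) (e j)).measurable
  set u : ℕ → M → E := fun k x => kvec b (K x) k with hu
  have hum : ∀ k, StronglyMeasurable (u k) := stronglyMeasurable_kvec b hKm
  have hui : ∀ k l, ∀ᵐ x ∂m, ⟪u k x, u l x⟫_ℝ = C.Γ (e k) (e l) x := by
    intro k l
    filter_upwards [hC.psdk_ae he] with x hx
    exact inner_kvec hb hx k l
  have huL : ∀ k, MemLp (u k) 2 m := by
    intro k
    rw [memLp_two_iff_integrable_sq_norm (hum k).aestronglyMeasurable]
    refine (int_of_mem (hC.mem1 _ (he k))).congr ?_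
    filter_upwards [hui k k] with x hx
    rw [← hx, real_inner_self_eq_norm_sq]
  -- the norm of differences
  have hdist : ∀ k l, ‖(huL k).toLp - (huL l).toLp‖ ^ 2 = I (C.Γ (e k - e l) (e k - e l)) := by
    intro k l
    rw [← real_inner_self_eq_norm_sq, L2.inner_def]
    unfold I
    refine integral_congr_ae ?_
    have hkl := hC.sub_mem (he k) (he l)
    have e1 : C.Γ (e k - e l) (e k - e l) =
        (C.Γ (e k) (e k) - C.Γ (e k) (e l)) - (C.Γ (e l) (e k) - C.Γ (e l) (e l)) := by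
      rw [hC.Γ_sub_left (he k) (he l) hkl, hC.Γ_sub_right (he k) (he k) (he l),
        hC.Γ_sub_right (he l) (he k) (he l)]
    rw [e1]
    filter_upwards [hui k k, hui k l, hui l k, hui l l, Lp.coeFn_sub (huL k).toLp (huL l).toLp,
      (huL k).coeFn_toLp, (huL l).coeFn_toLp,
      sub_ae (C.Γ (e k) (e k) - C.Γ (e k) (e l)) (C.Γ (e l) (e k) - C.Γ (e l) (e l)),
      sub_ae (C.Γ (e k) (e k)) (C.Γ (e k) (e l)), sub_ae (C.Γ (e l) (e k)) (C.Γ (e l) (e l))]
      with x a1 a2 a3 a4 a5 a6 a7 a8 a9 a10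
    rw [a5, Pi.sub_apply, a6, a7, a8, a9, a10, ← a1, ← a2, ← a3, ← a4, inner_sub_left,
      inner_sub_right, inner_sub_right]
  -- the approximating sequences
  have hseq : ∀ f ∈ C.W, ∃ k : ℕ → ℕ, Tendsto (fun n => C.nrm2 (e (k n) - f)) atTop (𝓝 0) := by
    intro f hf
    choose k hk using fun n : ℕ => hd f hf (((n : ℝ) + 1)⁻¹) (by positivity)
    exact ⟨k, squeeze_zero (fun n => hC.nrm2_nonneg (hC.sub_mem (he _) hf)) (fun n => (hk n).le)
      tendsto_inv_succ⟩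
  have hlim : ∀ f ∈ C.W, ∃ F : Lp E 2 m, ∃ k : ℕ → ℕ,
      Tendsto (fun n => C.nrm2 (e (k n) - f)) atTop (𝓝 0) ∧
      Tendsto (fun n => (huL (k n)).toLp) atTop (𝓝 F) := by
    intro f hf
    obtain ⟨k, hk⟩ := hseq f hf
    have hc : CauchySeq fun n => (huL (k n)).toLp := by
      rw [Metric.cauchySeq_iff]
      intro ε hε
      obtain ⟨N, hN⟩ := eventually_atTop.1
        (hk.eventually (gt_mem_nhds (show (0:ℝ) < ε ^ 2 / 4 by positivity)))
      refine ⟨N, fun n hn l hl => ?_⟩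
      rw [dist_eq_norm]
      have h1 := hdist (k n) (k l)
      have h2 : I (C.Γ (e (k n) - e (k l)) (e (k n) - e (k l))) < ε ^ 2 := by
        have h3 := hC.nrm2_sub_le (hC.sub_mem (he (k n)) hf) (hC.sub_mem (he (k l)) hf)
        rw [sub_sub_sub_cancel_right] at h3
        have h4 := hC.E_le_nrm2 (e (k n) - e (k l))
        have h5 := hN n hn
        have h6 := hN l hl
        linarith
      rw [← h1] at h2
      exact lt_of_pow_lt_pow_left₀ 2 hε.le h2
    obtain ⟨F, hF⟩ := cauchySeq_tendsto_of_complete hc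
    exact ⟨F, k, hk, hF⟩
  choose! F k hk hF using hlim
  -- convergence of the representatives
  have hF' : ∀ f ∈ C.W, Tendsto (fun n => eLpNorm (u (k f n) - ⇑(F f)) 2 m) atTop (𝓝 0) := by
    intro f hf
    have h1 := (Lp.tendsto_Lp_iff_tendsto_eLpNorm' _ _).1 (hF f hf)
    refine h1.congr fun n => eLpNorm_congr_ae ?_
    filter_upwards [(huL (k f n)).coeFn_toLp] with x hx
    simp [hx]
  -- inner product with `u i`
  have hA : ∀ f ∈ C.W, ∀ i, ∀ᵐ x ∂m, ⟪F f x, u i x⟫_ℝ = C.Γ f (e i) x := by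
    intro f hf i
    have hsub : ∀ n, C.Γ (e (k f n)) (e i) - C.Γ f (e i) = C.Γ (e (k f n) - f) (e i) := fun n =>
      (hC.Γ_sub_left (he _) hf (he i)).symm
    refine inner_limit (fun n => (hum (k f n)).aestronglyMeasurable) (Lp.aestronglyMeasurable _)
      (hF' f hf) (a := fun n => C.Γ (e (k f n)) (e i)) (fun n => ?_) ?_ (fun n => hui _ _)
    · rw [hsub]; exact hC.Γ_mem1 (hC.sub_mem (he _) hf) (he i)
    · simp only [hsub]
      exact hC.tendsto_int_abs_Γ (fun n => he _) hf (he i) (hk f hf)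
  have hB : ∀ f ∈ C.W, ∀ g ∈ C.W, ∀ᵐ x ∂m, ⟪F f x, F g x⟫_ℝ = C.Γ f g x := by
    intro f hf g hg
    rw [hC.symm f hf g hg]
    have hsub : ∀ n, C.Γ (e (k g n)) f - C.Γ g f = C.Γ (e (k g n) - g) f := fun n =>
      (hC.Γ_sub_left (he _) hg hf).symm
    have h1 : ∀ᵐ x ∂m, ⟪F g x, F f x⟫_ℝ = C.Γ g f x := by
      refine inner_limit (fun n => (hum (k g n)).aestronglyMeasurable) (Lp.aestronglyMeasurable _)
        (hF' g hg) (a := fun n => C.Γ (e (k g n)) f) (fun n => ?_) ?_ (fun n => ?_)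
      · rw [hsub]; exact hC.Γ_mem1 (hC.sub_mem (he _) hg) hf
      · simp only [hsub]
        exact hC.tendsto_int_abs_Γ (fun n => he _) hg hf (hk g hg)
      · filter_upwards [hA f hf (k g n)] with x hx
        rw [real_inner_comm, hx, hC.symm f hf _ (he _)]
    filter_upwards [h1] with x hx
    rw [real_inner_comm, hx]
  refine ⟨fun f => if f ∈ C.W then ⇑(F f) else 0, ⟨fun f hf => ?_, fun f hf g hg => ?_⟩,
    fun f => ?_⟩
  · simp only [hf, if_true]; exact Lp.memLp _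
  · simp only [hf, hg, if_true]; exact hB f hf g hg
  · beta_reduce
    split_ifs
    · exact Lp.stronglyMeasurable _
    · exact stronglyMeasurable_zero

theorem exists_grad [SigmaFinite m] [MeasurableSpace.CountablyGenerated M] :
    ∃ Gr : (M →ₘ[m] ℝ) → M → lp (fun _ : ℕ => ℝ) 2, IsGrad C Gr ∧
      ∀ f, StronglyMeasurable (Gr f) := by
  obtain ⟨e, he, hd⟩ := hC.exists_dense_seq
  have hb : Orthonormal ℝ fun n : ℕ => lp.single (E := fun _ : ℕ => ℝ) 2 n (1 : ℝ) := by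
    rw [orthonormal_iff_ite]
    intro i j
    rw [lp.inner_single_left, lp.single_apply]
    by_cases h : i = j
    · subst h; simp
    · rw [if_neg h, Pi.single_eq_of_ne h, inner_zero_right]
  exact hC.exists_gradE hb he hd

end IsDir
end ext

/-! ### rules -/

section rules
variable {M : Type*} [MeasurableSpace M] {m : Measure M} {C : Calc m}
variable {E : Type*} [NormedAddCommGroup E] [InnerProductSpace ℝ E] {Gr : (M →ₘ[m] ℝ) → M → E}
variable {f g h : M →ₘ[m] ℝ}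

/-- The vector field of the list `X` of pairs `(a_j, b_j)`. -/
noncomputable def fvec (Gr : (M →ₘ[m] ℝ) → M → E) (X : List ((M →ₘ[m] ℝ) × (M →ₘ[m] ℝ))) :
    M → E := fun x => (X.map fun p => p.1 x • Gr p.2 x).sum

namespace IsGrad
variable (hG : IsGrad C Gr)
include hG

theorem norm_sq (hf : f ∈ C.W) : ∀ᵐ x ∂m, ‖Gr f x‖ ^ 2 = C.Γ f f x := by
  filter_upwards [hG.inner f hf f hf] with x hx
  rw [← hx, real_inner_self_eq_norm_sq]

theorem norm_eq (hf : f ∈ C.W) : ∀ᵐ x ∂m, ‖Gr f x‖ = Real.sqrt (C.Γ f f x) := by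
  filter_upwards [hG.norm_sq hf] with x hx
  rw [← hx, Real.sqrt_sq (norm_nonneg _)]

theorem int_inner (hf : f ∈ C.W) (hg : g ∈ C.W) : ∫ x, ⟪Gr f x, Gr g x⟫_ℝ ∂m = I (C.Γ f g) :=
  integral_congr_ae (hG.inner f hf g hg)

theorem int_norm_sq (hf : f ∈ C.W) : ∫ x, ‖Gr f x‖ ^ 2 ∂m = I (C.Γ f f) :=
  integral_congr_ae (hG.norm_sq hf)

/-- a field is a gradient if it has the right inner products -/
theorem lin2 (hC : IsDir C) (hf : f ∈ C.W) (hg : g ∈ C.W) (hh : h ∈ C.W) {a b : M → ℝ}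
    (H : ∀ k ∈ C.W, ∀ᵐ x ∂m, C.Γ h k x = a x * C.Γ f k x + b x * C.Γ g k x) :
    ∀ᵐ x ∂m, Gr h x = a x • Gr f x + b x • Gr g x := by
  have hfh := hG.inner f hf h hh
  have hgh := hG.inner g hg h hh
  filter_upwards [hG.inner h hh h hh, hG.inner h hh f hf, hG.inner h hh g hg, hG.inner f hf f hf,
    hG.inner f hf g hg, hG.inner g hg g hg, hG.inner g hg f hf, hfh, hgh, H h hh, H f hf, H g hg]
    with x a1 a2 a3 a4 a5 a6 a7 a8 a9 b1 b2 b3
  rw [← sub_eq_zero, ← norm_eq_zero, ← sq_eq_zero_iff, ← real_inner_self_eq_norm_sq]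
  simp only [inner_sub_left, inner_sub_right, inner_add_left, inner_add_right,
    real_inner_smul_left, real_inner_smul_right]
  rw [a1, a2, a3, a4, a5, a6, a7, a8, a9]
  have c1 : C.Γ f h x = C.Γ h f x := by rw [hC.symm f hf h hh]
  have c2 : C.Γ g h x = C.Γ h g x := by rw [hC.symm g hg h hh]
  have c3 : C.Γ g f x = C.Γ f g x := by rw [hC.symm g hg f hf]
  rw [c1, c2] at b1 ⊢
  rw [c3] at b2 ⊢
  rw [b1, b2, b3]
  ring

theorem add (hC : IsDir C) (hf : f ∈ C.W) (hg : g ∈ C.W) :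
    ∀ᵐ x ∂m, Gr (f + g) x = Gr f x + Gr g x := by
  have h1 := hG.lin2 hC hf hg (hC.add_mem f hf g hg) (a := fun _ => 1) (b := fun _ => 1)
    (fun k hk => by
      rw [hC.add_left f hf g hg k hk]
      filter_upwards [add_ae (C.Γ f k) (C.Γ g k)] with x hx
      rw [hx]; ring)
  filter_upwards [h1] with x hx
  rw [hx, one_smul, one_smul]

theorem smul (hC : IsDir C) (c : ℝ) (hf : f ∈ C.W) :
    ∀ᵐ x ∂m, Gr (c • f) x = c • Gr f x := by
  have h1 := hG.lin2 hC hf hf (hC.smul_mem c f hf) (a := fun _ => c) (b := fun _ => 0)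
    (fun k hk => by
      rw [hC.smul_left c f hf k hk]
      filter_upwards [smul_ae (C.Γ f k) c] with x hx
      rw [hx]; ring)
  filter_upwards [h1] with x hx
  rw [hx, zero_smul, add_zero]

theorem sub (hC : IsDir C) (hf : f ∈ C.W) (hg : g ∈ C.W) :
    ∀ᵐ x ∂m, Gr (f - g) x = Gr f x - Gr g x := by
  have h1 := hG.lin2 hC hf hg (hC.sub_mem hf hg) (a := fun _ => 1) (b := fun _ => -1)
    (fun k hk => by
      rw [hC.Γ_sub_left hf hg hk]
      filter_upwards [sub_ae (C.Γ f k) (C.Γ g k)] with x hx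
      rw [hx]; ring)
  filter_upwards [h1] with x hx
  rw [hx, one_smul, neg_one_smul, sub_eq_add_neg]

theorem neg (hC : IsDir C) (hf : f ∈ C.W) : ∀ᵐ x ∂m, Gr (-f) x = -Gr f x := by
  filter_upwards [hG.smul hC (-1) hf] with x hx
  rw [neg_one_smul, neg_one_smul] at hx
  exact hx

theorem zero (hC : IsDir C) : ∀ᵐ x ∂m, Gr 0 x = 0 := by
  filter_upwards [hG.smul hC 0 hC.zero_mem] with x hx
  rw [zero_smul, zero_smul] at hx
  exact hx

theorem sum (hC : IsDir C) {ι : Type*} (s : Finset ι) {F : ι → M →ₘ[m] ℝ} (hF : ∀ i, F i ∈ C.W) :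
    ∀ᵐ x ∂m, Gr (∑ i ∈ s, F i) x = ∑ i ∈ s, Gr (F i) x := by
  classical
  induction s using Finset.induction_on with
  | empty => simpa using hG.zero hC
  | insert a s ha ih =>
    rw [Finset.sum_insert ha]
    filter_upwards [ih, hG.add hC (hF a) (hC.sum_mem s hF)] with x h1 h2
    rw [h2, h1, Finset.sum_insert ha]

/-- Leibniz rule -/
theorem mul (hC : IsDir C) (hf : f ∈ C.A) (hg : g ∈ C.A) :
    ∀ᵐ x ∂m, Gr (f * g) x = f x • Gr g x + g x • Gr f x :=
  hG.lin2 hC hg.1 hf.1 (hC.mul_mem_A hf hg).1 fun k hk => by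
    rw [hC.Γ_mul_left hf hg hk]
    filter_upwards [add_ae (f * C.Γ g k) (g * C.Γ f k), mul_ae f (C.Γ g k), mul_ae g (C.Γ f k)]
      with x h1 h2 h3
    rw [h1, h2, h3]

/-- Leibniz rule, one factor bounded and Lipschitz -/
theorem mul_lip (hC : IsDir C) (hf : f ∈ C.A) (hf' : MemLp (C.Γ f f) ∞ m) (hg : g ∈ C.W) :
    ∀ᵐ x ∂m, Gr (f * g) x = f x • Gr g x + g x • Gr f x :=
  hG.lin2 hC hg hf.1 (hC.mul_mem_lip hf hf' hg) fun k hk => by
    rw [hC.Γ_mul_left_lip hf hf' hg hk]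
    filter_upwards [add_ae (f * C.Γ g k) (g * C.Γ f k), mul_ae f (C.Γ g k), mul_ae g (C.Γ f k)]
      with x h1 h2 h3
    rw [h1, h2, h3]

/-- chain rule -/
theorem chain (hC : IsDir C) (hf : f ∈ C.W) {φ φ' : ℝ → ℝ} (hφ : Continuous φ)
    (hφ' : Continuous φ') (hd : ∀ t, HasDerivAt φ (φ' t) t) (h0 : φ 0 = 0)
    (hb : ∃ K : ℝ, ∀ t, |φ' t| ≤ K) :
    ∀ᵐ x ∂m, Gr (AEEqFun.comp φ hφ f) x = φ' (f x) • Gr f x := by
  obtain ⟨h1, h2⟩ := hC.chain f hf φ φ' hφ hφ' hd h0 hb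
  have h3 := hG.lin2 hC hf hf h1 (a := fun x => φ' (f x)) (b := fun _ => 0)
    (fun k hk => by
      rw [h2 k hk]
      filter_upwards [mul_ae (AEEqFun.comp φ' hφ' f) (C.Γ f k), AEEqFun.coeFn_comp φ' hφ' f]
        with x b1 b2
      rw [b1, b2, Function.comp_apply]; ring)
  filter_upwards [h3] with x hx
  rw [hx, zero_smul, add_zero]

/-- continuity -/
theorem tendsto (hC : IsDir C) {u : ℕ → M →ₘ[m] ℝ} (hu : ∀ n, u n ∈ C.W) (hf : f ∈ C.W)
    (h : Tendsto (fun n => C.nrm2 (u n - f)) atTop (𝓝 0)) :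
    Tendsto (fun n => eLpNorm (Gr (u n) - Gr f) 2 m) atTop (𝓝 0) := by
  have h1 : ∀ n, eLpNorm (Gr (u n) - Gr f) 2 m =
      ENNReal.ofReal (Real.sqrt (I (C.Γ (u n - f) (u n - f)))) := by
    intro n
    have h2 := hC.sub_mem (hu n) hf
    have h3 : eLpNorm (Gr (u n) - Gr f) 2 m = eLpNorm (Gr (u n - f)) 2 m := by
      refine eLpNorm_congr_ae ?_
      filter_upwards [hG.sub hC (hu n) hf] with x hx
      rw [hx, Pi.sub_apply]
    rw [h3, ← hG.int_norm_sq h2]
    have h4 := hG.mem _ h2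
    have h5 : eLpNorm (Gr (u n - f)) 2 m =
        ENNReal.ofReal (‖h4.toLp‖) := by
      rw [Lp.norm_toLp, ENNReal.ofReal_toReal h4.eLpNorm_lt_top.ne]
    have h6 : ‖h4.toLp‖ ^ 2 = ∫ x, ‖Gr (u n - f) x‖ ^ 2 ∂m := by
      rw [← real_inner_self_eq_norm_sq, L2.inner_def]
      refine integral_congr_ae ?_
      filter_upwards [h4.coeFn_toLp] with x hx
      rw [hx, real_inner_self_eq_norm_sq]
    rw [h5, ← h6, Real.sqrt_sq (norm_nonneg _)]
  simp_rw [h1]
  simpa [Function.comp_def] using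
    ENNReal.tendsto_ofReal ((Real.continuous_sqrt.tendsto 0).comp (hC.tendsto_E_of_nrm2 hu hf h))

omit hG in
theorem fvec_nil : fvec Gr [] = 0 := by funext x; simp [fvec]

omit hG in
theorem fvec_cons (p : (M →ₘ[m] ℝ) × (M →ₘ[m] ℝ)) (X : List ((M →ₘ[m] ℝ) × (M →ₘ[m] ℝ)))
    (x : M) : fvec Gr (p :: X) x = p.1 x • Gr p.2 x + fvec Gr X x := by
  simp [fvec]

omit hG in
theorem fvec_append (X Y : List ((M →ₘ[m] ℝ) × (M →ₘ[m] ℝ))) (x : M) :
    fvec Gr (X ++ Y) x = fvec Gr X x + fvec Gr Y x := by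
  simp [fvec]

/-- inner products of fields -/
theorem inner_fvec : ∀ {X Y : List ((M →ₘ[m] ℝ) × (M →ₘ[m] ℝ))}, (∀ p ∈ X, p.2 ∈ C.W) →
    (∀ p ∈ Y, p.2 ∈ C.W) → ∀ᵐ x ∂m, ⟪fvec Gr X x, fvec Gr Y x⟫_ℝ = C.ip X Y x
  | [], Y, _, _ => by
    have h1 : C.ip [] Y = 0 := by simp [Calc.ip]
    rw [h1]
    filter_upwards [zero_ae (M := M) (m := m)] with x hx
    rw [hx]; simp [fvec]
  | p :: X, Y, hX, hY => by
    have h1 : ∀ {Y : List ((M →ₘ[m] ℝ) × (M →ₘ[m] ℝ))}, (∀ q ∈ Y, q.2 ∈ C.W) →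
        ∀ᵐ x ∂m, ⟪p.1 x • Gr p.2 x, fvec Gr Y x⟫_ℝ =
          (Y.map fun q => p.1 * q.1 * C.Γ p.2 q.2).sum x := by
      intro Y
      induction Y with
      | nil =>
        intro _
        filter_upwards [zero_ae (M := M) (m := m)] with x hx
        simp only [List.map_nil, List.sum_nil]
        rw [hx]; simp [fvec]
      | cons q Y ih =>
        intro hY
        simp only [List.map_cons, List.sum_cons]
        filter_upwards [ih fun r hr => hY r (List.mem_cons_of_mem _ hr),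
          hG.inner _ (hX p List.mem_cons_self) _ (hY q List.mem_cons_self),
          add_ae (p.1 * q.1 * C.Γ p.2 q.2) (Y.map fun q => p.1 * q.1 * C.Γ p.2 q.2).sum,
          mul_ae (p.1 * q.1) (C.Γ p.2 q.2), mul_ae p.1 q.1] with x a1 a2 a3 a4 a5
        rw [a3, a4, a5, ← a1, ← a2, fvec_cons, inner_add_right, real_inner_smul_left,
          real_inner_smul_right]
        ring
    have h2 : C.ip (p :: X) Y = (Y.map fun q => p.1 * q.1 * C.Γ p.2 q.2).sum + C.ip X Y := by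
      simp [Calc.ip]
    rw [h2]
    filter_upwards [h1 hY, inner_fvec (fun r hr => hX r (List.mem_cons_of_mem _ hr)) hY,
      add_ae (Y.map fun q => p.1 * q.1 * C.Γ p.2 q.2).sum (C.ip X Y)] with x a1 a2 a3
    rw [a3, ← a1, ← a2, fvec_cons, inner_add_left]

end IsGrad
end rules

end Vale.Agent.P233
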