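import Vale.Agent.P233.AB.Mas

/-!
# P233, (A) ⇒ (B): limits of `∫ ψ Γ(u_n, g)`, chain rule for nonnegative functions
-/

open MeasureTheory Filter Topology
open scoped ENNReal NNReal

namespace Vale.Agent.P233

variable {M : Type*} [MeasurableSpace M] {m : Measure M} {C : Calc m}

namespace IsDir

variable (hC : IsDir C)
variable {f g h φ ψ v : M →ₘ[m] ℝ}

include hC

/-- `|∫ ψ Γ(w, g)| ≤ K ∫ |Γ(w, g)|` for `|ψ| ≤ K` -/
theorem ha_abs_le {K : ℝ} (hK : ∀ᵐ x ∂m, |ψ x| ≤ K) (hf : f ∈ C.W) (hg : g ∈ C.W) :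
    |I (ψ * C.Γ f g)| ≤ K * ∫ x, |C.Γ f g x| ∂m := by
  have h1 : |I (ψ * C.Γ f g)| ≤ ∫ x, |(ψ * C.Γ f g) x| ∂m := by
    unfold I
    have := norm_integral_le_integral_norm (μ := m) (f := fun x => (ψ * C.Γ f g) x)
    simpa [Real.norm_eq_abs] using this
  refine h1.trans ?_
  rw [← integral_const_mul]
  have hint := int_of_mem (hC.Γ_mem1 hf hg)
  refine integral_mono_ae ?_ (hint.abs.const_mul K) ?_
  · exact (int_of_mem (mem_mul_top (mem_top_iff.2 ⟨K, hK⟩) (hC.Γ_mem1 hf hg))).abs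
  · filter_upwards [hK, mul_ae ψ (C.Γ f g)] with x h2 h3
    rw [h3, abs_mul]
    exact mul_le_mul_of_nonneg_right h2 (abs_nonneg _)

/-- `∫ ψ Γ(u_n, g) → ∫ ψ Γ(f, g)` -/
theorem ha_tendsto (hψ : MemLp ψ ∞ m) {u : ℕ → M →ₘ[m] ℝ} (hu : ∀ n, u n ∈ C.W) (hf : f ∈ C.W)
    (hg : g ∈ C.W) (h : Tendsto (fun n => C.nrm2 (u n - f)) atTop (𝓝 0)) :
    Tendsto (fun n => I (ψ * C.Γ (u n) g)) atTop (𝓝 (I (ψ * C.Γ f g))) := by
  obtain ⟨K, hK⟩ := mem_top_iff.1 hψ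
  rw [tendsto_iff_dist_tendsto_zero]
  have h1 := (hC.tendsto_int_abs_Γ hu hf hg h).const_mul K
  rw [mul_zero] at h1
  refine squeeze_zero (fun n => dist_nonneg) (fun n => ?_) h1
  rw [Real.dist_eq, ← I_sub (mem_mul_top hψ (hC.Γ_mem1 (hu n) hg))
    (mem_mul_top hψ (hC.Γ_mem1 hf hg)), ← mul_sub, ← hC.Γ_sub_left (hu n) hf hg]
  exact hC.ha_abs_le hK (hC.sub_mem (hu n) hf) hg

/-- `∫ ψ Γ(u_n, u_n) → ∫ ψ Γ(f, f)` -/
theorem ha_tendsto_self (hψ : MemLp ψ ∞ m) {u : ℕ → M →ₘ[m] ℝ} (hu : ∀ n, u n ∈ C.W)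
    (hf : f ∈ C.W) (h : Tendsto (fun n => C.nrm2 (u n - f)) atTop (𝓝 0)) :
    Tendsto (fun n => I (ψ * C.Γ (u n) (u n))) atTop (𝓝 (I (ψ * C.Γ f f))) := by
  obtain ⟨K, hK⟩ := mem_top_iff.1 hψ
  have h1 := hC.ha_tendsto hψ hu hf hf h
  have h2 : Tendsto (fun n => I (ψ * C.Γ (u n - f) (u n - f))) atTop (𝓝 0) := by
    have h3 := (hC.tendsto_E_of_nrm2 hu hf h).const_mul K
    rw [mul_zero] at h3
    refine squeeze_zero_norm (fun n => ?_) h3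
    rw [Real.norm_eq_abs]
    have hw := hC.sub_mem (hu n) hf
    refine (hC.ha_abs_le hK hw hw).trans (le_of_eq ?_)
    congr 1
    unfold I
    refine integral_congr_ae ?_
    filter_upwards [hC.Γ_nonneg_ae hw] with x hx
    rw [abs_of_nonneg hx]
  have h4 := (h2.add (h1.const_mul 2)).sub (tendsto_const_nhds (x := I (ψ * C.Γ f f)))
  have e : 0 + 2 * I (ψ * C.Γ f f) - I (ψ * C.Γ f f) = I (ψ * C.Γ f f) := by ring
  rw [e] at h4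
  refine h4.congr fun n => ?_
  have hw := hC.sub_mem (hu n) hf
  have e2 : C.Γ (u n) (u n) = C.Γ (u n - f) (u n - f) + (2 : ℝ) • C.Γ (u n) f - C.Γ f f := by
    rw [hC.Γ_sub_left (hu n) hf hw, hC.Γ_sub_right (hu n) (hu n) hf,
      hC.Γ_sub_right hf (hu n) hf, hC.symm _ hf _ (hu n)]
    algebra
  rw [e2, mul_sub, mul_add, I_sub, I_add]
  · congr 1
    congr 1
    rw [mul_smul_comm, I_smul]
  · exact mem_mul_top hψ (hC.Γ_mem1 hw hw)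
  · exact mem_mul_top hψ (mem_smul _ (hC.Γ_mem1 (hu n) hf))
  · exact mem_add (mem_mul_top hψ (hC.Γ_mem1 hw hw))
      (mem_mul_top hψ (mem_smul _ (hC.Γ_mem1 (hu n) hf)))
  · exact mem_mul_top hψ (hC.Γ_mem1 hf hf)

/-- chain rule for nonnegative functions -/
theorem ha_chain (hf : f ∈ C.W) (h0 : ∀ᵐ x ∂m, 0 ≤ f x) (Φ Φ' : ℝ → ℝ) (hΦ' : Continuous Φ')
    (hd : ∀ t, 0 ≤ t → HasDerivWithinAt Φ (Φ' t) (Set.Ici 0) t) (hΦ0 : Φ 0 = 0)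
    (hb : ∃ K : ℝ, ∀ t, |Φ' t| ≤ K) :
    ∃ F ∈ C.W, (∀ᵐ x ∂m, F x = Φ (f x)) ∧
      ∀ g ∈ C.W, ∀ᵐ x ∂m, C.Γ F g x = Φ' (f x) * C.Γ f g x := by
  set ψ : ℝ → ℝ := fun t => ∫ s in (0 : ℝ)..t, Φ' s with hψ
  have hψd : ∀ t, HasDerivAt ψ (Φ' t) t := fun t =>
    (hΦ'.integral_hasStrictDerivAt 0 t).hasDerivAt
  have hψc : Continuous ψ := continuous_iff_continuousAt.2 fun t => (hψd t).continuousAt
  have hψ0 : ψ 0 = 0 := by simp [hψ]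
  have hψΦ : ∀ t, 0 ≤ t → ψ t = Φ t := by
    intro t ht
    have h1 := Convex.norm_image_sub_le_of_norm_hasDerivWithin_le (f := fun t => ψ t - Φ t)
      (f' := fun t => Φ' t - Φ' t) (s := Set.Ici 0) (C := 0)
      (fun x hx => ((hψd x).hasDerivWithinAt).sub (hd x hx))
      (fun x _ => by simp) (convex_Ici 0) (Set.mem_Ici.2 (le_refl (0 : ℝ)))
      (Set.mem_Ici.2 ht)
    rw [zero_mul, norm_le_zero_iff] at h1
    rw [hψ0, hΦ0] at h1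
    linarith
  obtain ⟨h1, h2⟩ := hC.chain f hf ψ Φ' hψc hΦ' hψd hψ0 hb
  refine ⟨_, h1, ?_, fun g hg => ?_⟩
  · filter_upwards [AEEqFun.coeFn_comp ψ hψc f, h0] with x a1 a2
    rw [a1, Function.comp_apply, hψΦ _ a2]
  · rw [h2 g hg]
    filter_upwards [mul_ae (AEEqFun.comp Φ' hΦ' f) (C.Γ f g), AEEqFun.coeFn_comp Φ' hΦ' f]
      with x a1 a2
    rw [a1, a2, Function.comp_apply]

end IsDir

end Vale.Agent.P233
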