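import Vale.Agent.P233.AB.HA0

/-!
# P233, (A) ⇒ (B), block HA1: improved Bochner inequality, Kato inequality
-/

open MeasureTheory Filter Topology
open scoped ENNReal NNReal

namespace Vale.Agent.P233

variable {M : Type*} [MeasurableSpace M] {m : Measure M} {C : Calc m}

namespace IsGamma

variable (hC : IsGamma C) {κ : ℝ} (hB : C.BEi κ)
variable {b f g h φ ψ v : M →ₘ[m] ℝ}

include hC hB

theorem ha_KK (hv : v ∈ C.Test) (hg : g ∈ C.Test) : C.KK v v g = C.Γ g (C.Γ v v) := by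
  unfold Calc.KK Calc.hess
  algebra

/-- one step: a test function `g` and a bounded coefficient `t` -/
theorem ha_step [SigmaFinite m] (hv : v ∈ C.Test) (hφ : φ ∈ C.A) (h0 : 0 ≤ φ)
    {t : M →ₘ[m] ℝ} (ht : MemLp t ∞ m) (ht2 : MemLp t 2 m) (hg : g ∈ C.Test) :
    0 ≤ C.NN κ v v φ - I (φ * (t * C.Γ g (C.Γ v v)))
      + I (φ * (t ^ 2 * (C.Γ v v * C.Γ g g))) := by
  have hvA := hC.test_A hv
  have hgA := hC.test_A hg
  have hG := hC.Γ_mem hB hv hv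
  have hgg := hC.Γ_mem hB hg hg
  have h := hC.tensor_ineq' (κ := κ) hB (n := 1) hv (F := fun _ => v) (H := fun _ => g)
    (s := fun _ => (-(2 : ℝ)⁻¹) • t) (fun _ => hv) (fun _ => hg) (fun _ => mem_smul _ ht)
    (fun _ => mem_smul _ ht2) hφ h0
  simp only [Finset.univ_unique, Finset.sum_const, Finset.card_singleton, one_smul] at h
  have e1 : φ * ((-(2 : ℝ)⁻¹) • t * C.KK v v g) = (-(2 : ℝ)⁻¹) • (φ * (t * C.Γ g (C.Γ v v))) := by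
    rw [hC.ha_KK hB hv hg]
    algebra
  have e2 : φ * ((-(2 : ℝ)⁻¹) • t * ((-(2 : ℝ)⁻¹) • t) * C.MM v g v g) =
      (4 : ℝ)⁻¹ • (φ * (t ^ 2 * C.MM v g v g)) := by
    algebra
  have ht3 : MemLp (t ^ 2 : M →ₘ[m] ℝ) ∞ m := by rw [sq]; exact mem_mul_top ht ht
  have e3 : I (φ * (t ^ 2 * C.MM v g v g)) ≤
      2 * I (φ * (t ^ 2 * (C.Γ v v * C.Γ g g))) := by
    rw [← I_smul]
    refine I_mono (mem_mul_top hφ.2 (mem_mul_top ht3 (hC.MM_mem1 hB hv hg hv hg)))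
      (mem_smul _ (mem_mul_top hφ.2 (mem_mul_top ht3
        (mem_mul_top hG.2 (hC.Γ_mem1 hgA.1 hgA.1))))) ?_
    have h1 : C.MM v g v g ≤ (2 : ℝ) • (C.Γ v v * C.Γ g g) := by
      unfold Calc.MM
      have h2 := hC.Γ_cs hvA.1 hgA.1
      rw [hC.symm _ hgA.1 _ hvA.1, ← sq]
      calc C.Γ v v * C.Γ g g + C.Γ v g ^ 2 ≤ C.Γ v v * C.Γ g g + C.Γ v v * C.Γ g g := by
            gcongr
        _ = _ := by algebra
    calc φ * (t ^ 2 * C.MM v g v g) ≤ φ * (t ^ 2 * ((2 : ℝ) • (C.Γ v v * C.Γ g g))) :=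
          mul_le_mul_of_nonneg_left (mul_le_mul_of_nonneg_left h1 (sq_nonneg' t)) h0
      _ = _ := by algebra
  rw [e1, e2, I_smul, I_smul] at h
  linarith

/-- the step with `g = Γ(v,v)` -/
theorem ha_step' [SigmaFinite m] (hv : v ∈ C.Test) (hφ : φ ∈ C.A) (h0 : 0 ≤ φ)
    {t : M →ₘ[m] ℝ} (ht : MemLp t ∞ m) (ht2 : MemLp t 2 m) :
    I (φ * (t * C.Γ (C.Γ v v) (C.Γ v v))) -
      I (φ * (t ^ 2 * (C.Γ v v * C.Γ (C.Γ v v) (C.Γ v v)))) ≤ C.NN κ v v φ := by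
  have hG := hC.Γ_mem hB hv hv
  have hu : ∀ n : ℕ, ∃ g ∈ C.Test, C.nrm2 (g - C.Γ v v) < ((n : ℝ) + 1)⁻¹ := fun n =>
    hC.test_dense hB hG.1 (by positivity)
  choose u hu1 hu2 using hu
  have huW : ∀ n, u n ∈ C.W := fun n => (hC.test_A (hu1 n)).1
  have hlim : Tendsto (fun n => C.nrm2 (u n - C.Γ v v)) atTop (𝓝 0) :=
    squeeze_zero (fun n => hC.nrm2_nonneg (hC.sub_mem (huW n) hG.1)) (fun n => (hu2 n).le)
      tendsto_inv_succ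
  have ht3 : MemLp (t ^ 2 : M →ₘ[m] ℝ) ∞ m := by rw [sq]; exact mem_mul_top ht ht
  have l1 := hC.ha_tendsto (mem_mul_top hφ.2 ht) huW hG.1 hG.1 hlim
  have l2 := hC.ha_tendsto_self (mem_mul_top hφ.2 (mem_mul_top ht3 hG.2)) huW hG.1 hlim
  have h := ge_of_tendsto' (((tendsto_const_nhds (x := C.NN κ v v φ)).sub l1).add l2)
    (b := 0) fun n => by
      have h1 := hC.ha_step hB hv hφ h0 ht ht2 (hu1 n)
      have e1 : φ * (t * C.Γ (u n) (C.Γ v v)) = φ * t * C.Γ (u n) (C.Γ v v) := by ring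
      have e2 : φ * (t ^ 2 * (C.Γ v v * C.Γ (u n) (u n))) =
          φ * (t ^ 2 * C.Γ v v) * C.Γ (u n) (u n) := by ring
      rw [e1, e2] at h1
      exact h1
  have e1 : φ * (t * C.Γ (C.Γ v v) (C.Γ v v)) = φ * t * C.Γ (C.Γ v v) (C.Γ v v) := by ring
  have e2 : φ * (t ^ 2 * (C.Γ v v * C.Γ (C.Γ v v) (C.Γ v v))) =
      φ * (t ^ 2 * C.Γ v v) * C.Γ (C.Γ v v) (C.Γ v v) := by ring
  rw [e1, e2]
  linarith

/-- Kato inequality with regularization: `-½ ∫ Γ(Γv,φ) - ∫ φ (Γ(v,Δv) + κ Γv)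
≥ ¼ ∫ φ s² Γ(Γv)` for `s² (Γv + η²) = 1`. -/
theorem bochner_improved [SigmaFinite m] (hv : v ∈ C.Test) {η : ℝ} (hη : 0 < η) (hφ : φ ∈ C.A)
    (h0 : 0 ≤ φ) {s : M →ₘ[m] ℝ} (hs0 : 0 ≤ s) (hs : s ^ 2 * (C.Γ v v + η ^ 2 • 1) = 1) :
    (4 : ℝ)⁻¹ * I (φ * (s ^ 2 * C.Γ (C.Γ v v) (C.Γ v v))) ≤ C.NN κ v v φ := by
  have hG := hC.Γ_mem hB hv hv
  have hG0 := hC.nonneg v (hC.test_A hv).1
  have hGG0 := hC.nonneg _ hG.1
  have hGG1 := hC.Γ_mem1 hG.1 hG.1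
  set G := C.Γ v v with hGdef
  set E := C.Γ G G with hE
  -- bounds for `s`
  have hsae : ∀ᵐ x ∂m, s x ^ 2 * (G x + η ^ 2) = 1 := by
    have h1 := eq_iff_ae.1 hs
    filter_upwards [h1, mul_ae (s ^ 2) (G + η ^ 2 • (1 : M →ₘ[m] ℝ)), sq_ae s,
      add_ae G (η ^ 2 • (1 : M →ₘ[m] ℝ)), smul_ae (1 : M →ₘ[m] ℝ) (η ^ 2),
      one_ae (M := M) (m := m)] with x a1 a2 a3 a4 a5 a6
    rw [a2, a3, a4, a5, a6, mul_one] at a1
    exact a1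
  have hsη : ∀ᵐ x ∂m, s x ^ 2 ≤ (η ^ 2)⁻¹ ∧ s x ^ 2 * G x ≤ 1 := by
    filter_upwards [hsae, nonneg_iff_ae.1 hG0] with x a1 a2
    have hs2 := sq_nonneg (s x)
    constructor
    · rw [← one_div, le_div_iff₀ (by positivity)]
      nlinarith
    · nlinarith [mul_nonneg hs2 (sq_nonneg η)]
  have hs2T : MemLp (s ^ 2 : M →ₘ[m] ℝ) ∞ m := by
    refine mem_top_iff.2 ⟨(η ^ 2)⁻¹, ?_⟩
    filter_upwards [hsη, sq_ae s] with x a1 a2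
    rw [a2, abs_of_nonneg (sq_nonneg _)]
    exact a1.1
  obtain ⟨w, hw1, -, hw3⟩ := hC.cutoff
  -- the inequality with cut-off
  have key : ∀ k : ℕ, (4 : ℝ)⁻¹ * I (w k * (φ * (s ^ 2 * E))) ≤ C.NN κ v v φ := by
    intro k
    obtain ⟨wW, w0, w1, -⟩ := hw1 k
    have wT : MemLp (w k) ∞ m := by
      refine mem_top_iff.2 ⟨1, ?_⟩
      filter_upwards [nonneg_iff_ae.1 w0, le_iff_ae.1 w1, one_ae (M := M) (m := m)] with x a1 a2 a3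
      rw [abs_of_nonneg a1]
      rwa [a3] at a2
    set t := (2 : ℝ)⁻¹ • (s ^ 2 * w k) with ht
    have htT : MemLp t ∞ m := mem_smul _ (mem_mul_top hs2T wT)
    have ht2 : MemLp t 2 m := mem_smul _ (mem_mul_top hs2T (hC.memLp _ wW))
    have ht3 : MemLp (t ^ 2 : M →ₘ[m] ℝ) ∞ m := by rw [sq]; exact mem_mul_top htT htT
    have h1 := hC.ha_step' (κ := κ) hB hv hφ h0 htT ht2
    rw [← hGdef, ← hE] at h1
    have i1 : MemLp (φ * (t * E) : M →ₘ[m] ℝ) 1 m := mem_mul_top hφ.2 (mem_mul_top htT hGG1)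
    have i2 : MemLp (φ * (t ^ 2 * (G * E)) : M →ₘ[m] ℝ) 1 m :=
      mem_mul_top hφ.2 (mem_mul_top ht3 (mem_mul_top hG.2 hGG1))
    rw [← I_sub i1 i2] at h1
    refine le_trans ?_ h1
    rw [← I_smul]
    refine I_mono (mem_smul _ (mem_mul_top wT (mem_mul_top hφ.2 (mem_mul_top hs2T hGG1))))
      (mem_sub i1 i2) ?_
    rw [le_iff_ae]
    filter_upwards [nonneg_iff_ae.1 w0, le_iff_ae.1 w1, one_ae (M := M) (m := m), hsη,
      nonneg_iff_ae.1 hGG0, nonneg_iff_ae.1 h0, nonneg_iff_ae.1 hG0,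
      smul_ae (w k * (φ * (s ^ 2 * E))) (4 : ℝ)⁻¹, mul_ae (w k) (φ * (s ^ 2 * E)),
      mul_ae φ (s ^ 2 * E), mul_ae (s ^ 2) E, sq_ae s, sub_ae (φ * (t * E)) (φ * (t ^ 2 * (G * E))),
      mul_ae φ (t * E), mul_ae t E, mul_ae φ (t ^ 2 * (G * E)), mul_ae (t ^ 2) (G * E), sq_ae t,
      mul_ae G E, smul_ae (s ^ 2 * w k) (2 : ℝ)⁻¹, mul_ae (s ^ 2) (w k)]
      with x a1 a2 a3 a4 a5 a6 a7 b1 b2 b3 b4 b5 b6 b7 b8 b9 b10 b11 b12 b13 b14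
    rw [b1, b2, b3, b4, b6, b7, b8, b9, b10, b11, b12]
    have hb : t x = (2 : ℝ)⁻¹ * (s x ^ 2 * w k x) := by rw [ht, b13, b14, b5]
    rw [hb, b5]
    rw [a3] at a2
    obtain ⟨a8, a9⟩ := a4
    have c1 : 0 ≤ s x ^ 2 := sq_nonneg _
    have c2 : 0 ≤ φ x * E x := mul_nonneg a6 a5
    -- `(t - t² G) ≥ s² w / 4`
    have c3 : (4 : ℝ)⁻¹ * (w k x * s x ^ 2) ≤ (2 : ℝ)⁻¹ * (s x ^ 2 * w k x) -
        ((2 : ℝ)⁻¹ * (s x ^ 2 * w k x)) ^ 2 * G x := by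
      have c4 : (s x ^ 2 * w k x) ^ 2 * G x ≤ s x ^ 2 * w k x := by
        have c5 : (s x ^ 2 * w k x) ^ 2 * G x = (s x ^ 2 * w k x) * w k x * (s x ^ 2 * G x) := by
          ring
        rw [c5]
        have c6 : 0 ≤ s x ^ 2 * w k x := mul_nonneg c1 a1
        calc (s x ^ 2 * w k x) * w k x * (s x ^ 2 * G x) ≤ (s x ^ 2 * w k x) * 1 * 1 := by
              refine mul_le_mul (mul_le_mul_of_nonneg_left a2 c6) a9 (mul_nonneg c1 a7)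
                (by linarith)
          _ = _ := by ring
      nlinarith
    calc (4 : ℝ)⁻¹ * (w k x * (φ x * (s x ^ 2 * E x)))
        = (4 : ℝ)⁻¹ * (w k x * s x ^ 2) * (φ x * E x) := by ring
      _ ≤ ((2 : ℝ)⁻¹ * (s x ^ 2 * w k x) - ((2 : ℝ)⁻¹ * (s x ^ 2 * w k x)) ^ 2 * G x) *
          (φ x * E x) := mul_le_mul_of_nonneg_right c3 c2
      _ = _ := by ring
  -- limit of the cut-off functions
  have hlim : Tendsto (fun k => I (w k * (φ * (s ^ 2 * E)))) atTop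
      (𝓝 (I (1 * (φ * (s ^ 2 * E))))) := by
    refine I_tendsto_of_bdd (K := 1) (fun k => ?_) ?_
      (mem_mul_top hφ.2 (mem_mul_top hs2T hGG1))
    · filter_upwards [nonneg_iff_ae.1 (hw1 k).2.1, le_iff_ae.1 (hw1 k).2.2.1,
        one_ae (M := M) (m := m)] with x a1 a2 a3
      rw [abs_of_nonneg a1]
      rwa [a3] at a2
    · filter_upwards [hw3, one_ae (M := M) (m := m)] with x a1 a2
      rw [a2]
      exact a1
  rw [one_mul] at hlim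
  exact le_of_tendsto' (hlim.const_mul _) key

/-- the regularized modulus of the gradient -/
theorem exists_gt (hv : v ∈ C.Test) {η : ℝ} (hη : 0 < η) :
    ∃ q s : M →ₘ[m] ℝ, q ∈ C.A ∧ s ∈ C.AP ∧ (∀ᵐ x ∂m, q x = √(C.Γ v v x + η ^ 2) - η) ∧
      (∀ᵐ x ∂m, s x = (√(C.Γ v v x + η ^ 2))⁻¹) ∧
      (∀ h ∈ C.W, C.Γ q h = (2 : ℝ)⁻¹ • (s * C.Γ (C.Γ v v) h)) ∧
      (∀ φ ∈ C.A, φ * s ∈ C.A ∧ ∀ h ∈ C.W, C.Γ (φ * s) h = s * C.Γ φ h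
        - (2 : ℝ)⁻¹ • (φ * (s ^ 3 * C.Γ (C.Γ v v) h))) := by
  have hG := hC.Γ_mem hB hv hv
  have hG0 := nonneg_iff_ae.1 (hC.nonneg v (hC.test_A hv).1)
  set G := C.Γ v v with hGdef
  have hη2 : 0 < η ^ 2 := by positivity
  have hr : ∀ t : ℝ, η ≤ √(max t 0 + η ^ 2) := fun t => by
    rw [Real.le_sqrt' hη]
    have := le_max_right t 0
    linarith
  have hrpos : ∀ t : ℝ, 0 < √(max t 0 + η ^ 2) := fun t => hη.trans_le (hr t)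
  have hrc : Continuous fun t : ℝ => √(max t 0 + η ^ 2) := by fun_prop
  have hric : Continuous fun t : ℝ => (√(max t 0 + η ^ 2))⁻¹ :=
    hrc.inv₀ fun t => (hrpos t).ne'
  have hmx : ∀ t : ℝ, 0 ≤ t → max t 0 = t := fun t ht => max_eq_left ht
  have hrd : ∀ t : ℝ, 0 ≤ t → HasDerivAt (fun t : ℝ => √(t + η ^ 2))
      (1 / (2 * √(t + η ^ 2))) t := by
    intro t ht
    have := ((hasDerivAt_id' t).add_const (η ^ 2)).sqrt (by positivity)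
    simpa using this
  -- the function `q`
  obtain ⟨q, hqW, hq1, hq2⟩ := hC.ha_chain hG.1 hG0 (fun t => √(t + η ^ 2) - η)
    (fun t => (2 : ℝ)⁻¹ * (√(max t 0 + η ^ 2))⁻¹) (continuous_const.mul hric)
    (fun t ht => by
      have h1 := ((hrd t ht).sub_const η).hasDerivWithinAt (s := Set.Ici 0)
      refine h1.congr_deriv ?_
      rw [hmx t ht]
      rw [one_div, mul_inv])
    (by simp only [zero_add]; rw [Real.sqrt_sq hη.le, sub_self])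
    ⟨(2 : ℝ)⁻¹ * η⁻¹, fun t => by
      rw [abs_of_nonneg (by have := hrpos t; positivity)]
      exact mul_le_mul_of_nonneg_left (inv_anti₀ hη (hr t)) (by norm_num)⟩
  -- the function `s - η⁻¹`
  obtain ⟨s0, hsW, hs1, hs2⟩ := hC.ha_chain hG.1 hG0 (fun t => (√(t + η ^ 2))⁻¹ - η⁻¹)
    (fun t => -((2 : ℝ)⁻¹ * (√(max t 0 + η ^ 2))⁻¹ ^ 3)) (continuous_const.mul (hric.pow 3)).neg
    (fun t ht => by
      have h2 : √(t + η ^ 2) ≠ 0 := by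
        have := hrpos t
        rw [hmx t ht] at this
        exact this.ne'
      have h1 := (((hrd t ht).inv h2).sub_const η⁻¹).hasDerivWithinAt (s := Set.Ici 0)
      refine h1.congr_deriv ?_
      rw [hmx t ht]
      field_simp)
    (by simp only [zero_add]; rw [Real.sqrt_sq hη.le, sub_self])
    ⟨(2 : ℝ)⁻¹ * η⁻¹ ^ 3, fun t => by
      have h1 := hrpos t
      rw [abs_neg, abs_of_nonneg (by positivity)]
      exact mul_le_mul_of_nonneg_left (pow_le_pow_left₀ (by positivity) (inv_anti₀ hη (hr t)) 3)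
        (by norm_num)⟩
  have hs0T : MemLp s0 ∞ m := by
    refine mem_top_iff.2 ⟨η⁻¹, ?_⟩
    filter_upwards [hs1, hG0] with x a1 a2
    rw [a1]
    have h1 := hr (G x)
    rw [hmx _ a2] at h1
    have h2 : (√(G x + η ^ 2))⁻¹ ≤ η⁻¹ := inv_anti₀ hη h1
    have h3 : 0 ≤ (√(G x + η ^ 2))⁻¹ := by positivity
    rw [abs_le]
    constructor <;> linarith
  have hqT : MemLp q ∞ m := by
    obtain ⟨K, hK⟩ := mem_top_iff.1 hG.2
    refine mem_top_iff.2 ⟨√(K + η ^ 2), ?_⟩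
    filter_upwards [hq1, hG0, hK] with x a1 a2 a3
    rw [a1]
    have h1 := hr (G x)
    rw [hmx _ a2] at h1
    rw [abs_of_nonneg (by linarith)]
    have h2 : √(G x + η ^ 2) ≤ √(K + η ^ 2) :=
      Real.sqrt_le_sqrt (by linarith [(le_abs_self (G x)).trans a3])
    linarith
  have hs0A : s0 ∈ C.A := ⟨hsW, hs0T⟩
  set s : M →ₘ[m] ℝ := s0 + η⁻¹ • (1 : M →ₘ[m] ℝ) with hs
  have hsx : ∀ᵐ x ∂m, s x = (√(G x + η ^ 2))⁻¹ := by
    filter_upwards [hs1, add_ae s0 (η⁻¹ • (1 : M →ₘ[m] ℝ)), smul_ae (1 : M →ₘ[m] ℝ) η⁻¹,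
      one_ae (M := M) (m := m)] with x a1 a2 a3 a4
    rw [hs, a2, a3, a4, a1]
    ring
  have hs0h : ∀ h ∈ C.W, C.Γ s0 h = -((2 : ℝ)⁻¹ • (s ^ 3 * C.Γ G h)) := by
    intro h hh
    rw [eq_iff_ae]
    filter_upwards [hs2 h hh, neg_ae ((2 : ℝ)⁻¹ • (s ^ 3 * C.Γ G h)),
      smul_ae (s ^ 3 * C.Γ G h) (2 : ℝ)⁻¹, mul_ae (s ^ 3) (C.Γ G h), AEEqFun.coeFn_pow s 3, hsx, hG0]
      with x a1 a2 a3 a4 a5 a6 a7
    rw [a1, a2, a3, a4, a5, Pi.pow_apply, a6, hmx _ a7]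
    ring
  refine ⟨q, s, ⟨hqW, hqT⟩, ⟨η⁻¹, by rw [hs]; simpa using hs0A⟩, hq1, hsx, fun h hh => ?_,
    fun φ hφ => ?_⟩
  · rw [eq_iff_ae]
    filter_upwards [hq2 h hh, smul_ae (s * C.Γ G h) (2 : ℝ)⁻¹, mul_ae s (C.Γ G h), hsx, hG0]
      with x a1 a2 a3 a4 a5
    rw [a1, a2, a3, a4, hmx _ a5]
    ring
  · have e : φ * s = φ * s0 + η⁻¹ • φ := by rw [hs]; algebra
    have hm := hC.mul_mem_A hφ hs0A
    refine ⟨by rw [e]; exact hC.A_add hm (hC.A_smul _ hφ), fun h hh => ?_⟩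
    rw [e, hC.add_left _ hm.1 _ (hC.smul_mem _ _ hφ.1) _ hh, hC.Γ_mul_left hφ hs0A hh,
      hC.smul_left _ _ hφ.1 _ hh, hs0h h hh]
    rw [hs]
    algebra

/-- weak inequality `Δ √(Γv+η²) ≥ s (Γ(v,Δv) + κ Γv)` -/
theorem ib [SigmaFinite m] (hv : v ∈ C.Test) {η : ℝ} (hη : 0 < η) (hφ : φ ∈ C.A) (h0 : 0 ≤ φ)
    {q s : M →ₘ[m] ℝ} (hq : ∀ᵐ x ∂m, q x = √(C.Γ v v x + η ^ 2) - η)
    (hs : ∀ᵐ x ∂m, s x = (√(C.Γ v v x + η ^ 2))⁻¹) :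
    q ∈ C.A ∧ I (φ * (s * (C.Γ v (C.lap v) + κ • C.Γ v v))) ≤ - I (C.Γ q φ) := by
  obtain ⟨q', s', hq'A, hs'P, hq', hs', hΓq, hΓs⟩ := hC.exists_gt hB hv hη
  obtain rfl : q = q' := by
    rw [eq_iff_ae]
    filter_upwards [hq, hq'] with x a1 a2
    rw [a1, a2]
  obtain rfl : s = s' := by
    rw [eq_iff_ae]
    filter_upwards [hs, hs'] with x a1 a2
    rw [a1, a2]
  refine ⟨hq'A, ?_⟩
  have hG := hC.Γ_mem hB hv hv
  have hG0 := nonneg_iff_ae.1 (hC.nonneg v (hC.test_A hv).1)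
  obtain ⟨hφs, hΓφs⟩ := hΓs φ hφ
  have hs0 : 0 ≤ s := by
    rw [nonneg_iff_ae]
    filter_upwards [hs] with x a1
    rw [a1]
    positivity
  have hsT : MemLp s ∞ m := IsDir.AP_top hs'P
  have hs3T : MemLp (s ^ 3 : M →ₘ[m] ℝ) ∞ m := by
    rw [pow_succ, sq]
    exact mem_mul_top (mem_mul_top hsT hsT) hsT
  have hsq : s ^ 2 * (C.Γ v v + η ^ 2 • 1) = 1 := by
    rw [eq_iff_ae]
    filter_upwards [mul_ae (s ^ 2) (C.Γ v v + η ^ 2 • (1 : M →ₘ[m] ℝ)), sq_ae s,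
      add_ae (C.Γ v v) (η ^ 2 • (1 : M →ₘ[m] ℝ)), smul_ae (1 : M →ₘ[m] ℝ) (η ^ 2),
      one_ae (M := M) (m := m), hs, hG0] with x a2 a3 a4 a5 a6 a7 a8
    rw [a2, a3, a4, a5, a6, mul_one, a7, inv_pow, Real.sq_sqrt (by positivity)]
    exact inv_mul_cancel₀ (by positivity)
  have h1 := hC.bochner_improved (κ := κ) hB hv hη hφs (mul_nonneg h0 hs0) hs0 hsq
  unfold Calc.NN at h1
  have hGG1 := hC.Γ_mem1 hG.1 hG.1
  have e1 : C.Γ (C.Γ v v) (φ * s) = s * C.Γ (C.Γ v v) φ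
      - (2 : ℝ)⁻¹ • (φ * (s ^ 3 * C.Γ (C.Γ v v) (C.Γ v v))) := by
    rw [hC.symm _ hG.1 _ hφs.1, hΓφs _ hG.1, hC.symm _ hG.1 _ hφ.1]
  have e2 : φ * s * (s ^ 2 * C.Γ (C.Γ v v) (C.Γ v v)) =
      φ * (s ^ 3 * C.Γ (C.Γ v v) (C.Γ v v)) := by ring
  have e3 : C.Γ q φ = (2 : ℝ)⁻¹ • (s * C.Γ (C.Γ v v) φ) := hΓq φ hφ.1
  have hvW := (hC.test_A hv).1
  have i1 : MemLp (s * C.Γ (C.Γ v v) φ : M →ₘ[m] ℝ) 1 m :=
    mem_mul_top hsT (hC.Γ_mem1 hG.1 hφ.1)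
  have i2 : MemLp (φ * (s ^ 3 * C.Γ (C.Γ v v) (C.Γ v v)) : M →ₘ[m] ℝ) 1 m :=
    mem_mul_top hφ.2 (mem_mul_top hs3T hGG1)
  have i3 : MemLp (φ * (s * C.Γ v (C.lap v)) : M →ₘ[m] ℝ) 1 m :=
    mem_mul_top hφ.2 (mem_mul_top hsT (hC.Γ_mem1 hvW (hC.test_lap_mem hv)))
  have i4 : MemLp (φ * (s * C.Γ v v) : M →ₘ[m] ℝ) 1 m :=
    mem_mul_top hφ.2 (mem_mul_top hsT (hC.Γ_mem1 hvW hvW))
  have e4 : φ * s * (C.Γ v (C.lap v) + C.Γ v (C.lap v)) = (2 : ℝ) • (φ * (s * C.Γ v (C.lap v))) := by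
    algebra
  have e5 : φ * s * C.Γ v v = φ * (s * C.Γ v v) := by ring
  have e6 : φ * (s * (C.Γ v (C.lap v) + κ • C.Γ v v)) =
      φ * (s * C.Γ v (C.lap v)) + κ • (φ * (s * C.Γ v v)) := by algebra
  rw [e1, e2, e4, e5, I_sub i1 (mem_smul _ i2), I_smul, I_smul] at h1
  rw [e6, e3, I_add i3 (mem_smul _ i4), I_smul, I_smul]
  linarith

end IsGamma

end Vale.Agent.P233
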