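import Vale.Agent.P233.AB.Mas

/-! P233 AB, block 3 (viscous Hamilton-Jacobi by resolvents): composition with functions of one
real variable. -/

open MeasureTheory Filter Topology
open scoped ENNReal NNReal

namespace Vale.Agent.P233

variable {M : Type*} [MeasurableSpace M] {m : Measure M} {C : Calc m}

/-- Chain rule on the range of `f`. -/
theorem IsDir.hc_chain (hC : IsDir C) {f : M →ₘ[m] ℝ} (hf : f ∈ C.W) {a b : ℝ} (ha : a ≤ 0)
    (hb : 0 ≤ b) (hab : ∀ᵐ x ∂m, a ≤ f x ∧ f x ≤ b) {φ φ' : ℝ → ℝ} (hφ : Continuous φ)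
    (hφ' : Continuous φ')
    (hd : ∀ t ∈ Set.Icc a b, HasDerivWithinAt φ (φ' t) (Set.Icc a b) t) (h0 : φ 0 = 0) :
    AEEqFun.comp φ hφ f ∈ C.W ∧
      ∀ g ∈ C.W, C.Γ (AEEqFun.comp φ hφ f) g = AEEqFun.comp φ' hφ' f * C.Γ f g := by
  have hab' : a ≤ b := ha.trans hb
  set cl : ℝ → ℝ := fun t => max a (min b t) with hcl
  have hclc : Continuous cl := continuous_const.max (continuous_const.min continuous_id)
  have hclm : ∀ t, cl t ∈ Set.Icc a b := fun t =>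
    ⟨le_max_left _ _, max_le hab' (min_le_left _ _)⟩
  have hcleq : ∀ t ∈ Set.Icc a b, cl t = t := by
    intro t ht
    simp only [hcl]
    rw [min_eq_right ht.2, max_eq_right ht.1]
  set ψ' : ℝ → ℝ := fun t => φ' (cl t) with hψ'
  have hψ'c : Continuous ψ' := hφ'.comp hclc
  set ψ : ℝ → ℝ := fun t => ∫ s in (0 : ℝ)..t, ψ' s with hψ
  have hψd : ∀ t, HasDerivAt ψ (ψ' t) t := fun t =>
    (hψ'c.integral_hasStrictDerivAt 0 t).hasDerivAt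
  have hψc : Continuous ψ := continuous_iff_continuousAt.2 fun t => (hψd t).continuousAt
  have hψ0 : ψ 0 = 0 := by simp [hψ]
  obtain ⟨B, hB⟩ : ∃ B : ℝ, ∀ t, |ψ' t| ≤ B := by
    obtain ⟨B, hB⟩ := (isCompact_Icc (a := a) (b := b)).exists_bound_of_continuousOn
      hφ'.continuousOn
    exact ⟨B, fun t => hB _ (hclm t)⟩
  have hψφ : ∀ t ∈ Set.Icc a b, ψ t = φ t := by
    intro t ht
    have h1 := Convex.norm_image_sub_le_of_norm_hasDerivWithin_le (f := fun t => ψ t - φ t)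
      (f' := fun t => ψ' t - φ' t) (s := Set.Icc a b) (C := 0)
      (fun x hx => ((hψd x).hasDerivWithinAt).sub (hd x hx))
      (fun x hx => by simp only [hψ']; rw [hcleq x hx]; simp) (convex_Icc _ _)
      (show (0 : ℝ) ∈ Set.Icc a b from ⟨ha, hb⟩) ht
    rw [zero_mul, norm_le_zero_iff] at h1
    rw [hψ0, h0] at h1
    linarith
  obtain ⟨h1, h2⟩ := hC.chain f hf ψ ψ' hψc hψ'c hψd hψ0 ⟨B, hB⟩
  have e1 : AEEqFun.comp φ hφ f = AEEqFun.comp ψ hψc f := by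
    rw [eq_iff_ae]
    filter_upwards [AEEqFun.coeFn_comp φ hφ f, AEEqFun.coeFn_comp ψ hψc f, hab] with x a1 a2 a3
    rw [a1, a2, Function.comp_apply, Function.comp_apply, hψφ _ a3]
  have e2 : AEEqFun.comp φ' hφ' f = AEEqFun.comp ψ' hψ'c f := by
    rw [eq_iff_ae]
    filter_upwards [AEEqFun.coeFn_comp φ' hφ' f, AEEqFun.coeFn_comp ψ' hψ'c f, hab]
      with x a1 a2 a3
    rw [a1, a2, Function.comp_apply, Function.comp_apply]
    simp only [hψ']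
    rw [hcleq _ a3]
  rw [e1, e2]
  exact ⟨h1, h2⟩

/-- A continuous function of a bounded function is bounded. -/
theorem hc_comp_top {f : M →ₘ[m] ℝ} {a b : ℝ} (hab : ∀ᵐ x ∂m, a ≤ f x ∧ f x ≤ b) {φ : ℝ → ℝ}
    (hφ : Continuous φ) : MemLp (AEEqFun.comp φ hφ f) ∞ m := by
  obtain ⟨B, hB⟩ := (isCompact_Icc (a := a) (b := b)).exists_bound_of_continuousOn
    hφ.continuousOn
  rw [mem_top_iff]
  refine ⟨B, ?_⟩
  filter_upwards [AEEqFun.coeFn_comp φ hφ f, hab] with x h1 h2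
  rw [h1, Function.comp_apply]
  exact hB _ h2

namespace IsGamma

variable (hC : IsGamma C)
include hC

/-- The composition of a test function with a function of one variable. -/
theorem hc_comp {f : M →ₘ[m] ℝ} (hf : f ∈ C.Test) (hff : C.Γ f f ∈ C.W) {a b : ℝ} (ha : a ≤ 0)
    (hb : 0 ≤ b) (hab : ∀ᵐ x ∂m, a ≤ f x ∧ f x ≤ b) {φ φ1 φ2 φ3 : ℝ → ℝ} (hφ : Continuous φ)
    (hφ1 : Continuous φ1) (hφ2 : Continuous φ2) (hφ3 : Continuous φ3)
    (hd : ∀ t ∈ Set.Icc a b, HasDerivWithinAt φ (φ1 t) (Set.Icc a b) t)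
    (hd1 : ∀ t ∈ Set.Icc a b, HasDerivWithinAt φ1 (φ2 t) (Set.Icc a b) t)
    (hd2 : ∀ t ∈ Set.Icc a b, HasDerivWithinAt φ2 (φ3 t) (Set.Icc a b) t) (h0 : φ 0 = 0) :
    AEEqFun.comp φ hφ f ∈ C.Test ∧
      C.lap (AEEqFun.comp φ hφ f) =
        AEEqFun.comp φ1 hφ1 f * C.lap f + AEEqFun.comp φ2 hφ2 f * C.Γ f f ∧
      ∀ g ∈ C.W, C.Γ (AEEqFun.comp φ hφ f) g = AEEqFun.comp φ1 hφ1 f * C.Γ f g := by
  have hD := hC.toIsDir
  have hfA := hC.test_A hf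
  have hfΓ := hC.test_Γ_top hf
  have hfL := hC.test_isLap hf
  have hlW := hC.test_lap_mem hf
  obtain ⟨p1, p2⟩ := hD.hc_chain hfA.1 ha hb hab hφ hφ1 hd h0
  have q1 : MemLp (AEEqFun.comp φ1 hφ1 f) ∞ m := hc_comp_top hab hφ1
  have q2 : MemLp (AEEqFun.comp φ2 hφ2 f) ∞ m := hc_comp_top hab hφ2
  -- the shifted functions
  have hv1 : Continuous fun t => φ1 t - φ1 0 := hφ1.sub continuous_const
  have hv2 : Continuous fun t => φ2 t - φ2 0 := hφ2.sub continuous_const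
  obtain ⟨r1, r2⟩ := hD.hc_chain hfA.1 ha hb hab hv1 hφ2
    (fun t ht => (hd1 t ht).sub_const _) (sub_self _)
  obtain ⟨s1, s2⟩ := hD.hc_chain hfA.1 ha hb hab hv2 hφ3
    (fun t ht => (hd2 t ht).sub_const _) (sub_self _)
  set V := AEEqFun.comp (fun t => φ1 t - φ1 0) hv1 f with hV
  set V2 := AEEqFun.comp (fun t => φ2 t - φ2 0) hv2 f with hV2
  have hVA : V ∈ C.A := ⟨r1, hc_comp_top hab hv1⟩
  have hV2A : V2 ∈ C.A := ⟨s1, hc_comp_top hab hv2⟩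
  have eV : AEEqFun.comp φ1 hφ1 f = φ1 0 • (1 : M →ₘ[m] ℝ) + V := by
    rw [eq_iff_ae]
    filter_upwards [AEEqFun.coeFn_comp φ1 hφ1 f, AEEqFun.coeFn_comp _ hv1 f,
      add_ae (φ1 0 • (1 : M →ₘ[m] ℝ)) V, smul_ae (1 : M →ₘ[m] ℝ) (φ1 0), one_ae (M := M) (m := m)]
      with x a1 a2 a3 a4 a5
    rw [a1, a3, a4, a5, hV, a2]
    simp
  have eV2 : AEEqFun.comp φ2 hφ2 f = φ2 0 • (1 : M →ₘ[m] ℝ) + V2 := by
    rw [eq_iff_ae]
    filter_upwards [AEEqFun.coeFn_comp φ2 hφ2 f, AEEqFun.coeFn_comp _ hv2 f,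
      add_ae (φ2 0 • (1 : M →ₘ[m] ℝ)) V2, smul_ae (1 : M →ₘ[m] ℝ) (φ2 0),
      one_ae (M := M) (m := m)] with x a1 a2 a3 a4 a5
    rw [a1, a3, a4, a5, hV2, a2]
    simp
  have hΓt : MemLp (C.Γ (AEEqFun.comp φ hφ f) (AEEqFun.comp φ hφ f)) ∞ m := by
    rw [p2 _ p1, hD.symm _ hfA.1 _ p1, p2 _ hfA.1]
    exact mem_mul_top q1 (mem_mul_top q1 hfΓ)
  have hVΓ : MemLp (C.Γ V V) ∞ m := by
    rw [r2 _ r1, hD.symm _ hfA.1 _ r1, r2 _ hfA.1]
    exact mem_mul_top q2 (mem_mul_top q2 hfΓ)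
  -- the Laplacian is a Sobolev function
  have hVl : V * C.lap f ∈ C.W := (hD.mul_mem_lip hVA hVΓ hlW)
  have hHW : AEEqFun.comp φ1 hφ1 f * C.lap f + AEEqFun.comp φ2 hφ2 f * C.Γ f f ∈ C.W := by
    rw [eV, eV2, add_mul, add_mul, smul_mul_assoc, smul_mul_assoc, one_mul, one_mul]
    exact hD.add_mem _ (hD.add_mem _ (hD.smul_mem _ _ hlW) _ hVl) _
      (hD.add_mem _ (hD.smul_mem _ _ hff) _ (hD.mul_mem_A hV2A ⟨hff, hfΓ⟩).1)
  have hL : C.IsLap (AEEqFun.comp φ hφ f)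
      (AEEqFun.comp φ1 hφ1 f * C.lap f + AEEqFun.comp φ2 hφ2 f * C.Γ f f) := by
    refine ⟨p1, hC.memLp _ hHW, fun g hg => ?_⟩
    show I (C.Γ (AEEqFun.comp φ hφ f) g) = -I ((AEEqFun.comp φ1 hφ1 f * C.lap f
      + AEEqFun.comp φ2 hφ2 f * C.Γ f f) * g)
    have hg2 := hC.memLp g hg
    have hVg : V * g ∈ C.W := hD.mul_mem_lip hVA hVΓ hg
    have k1 : I (C.Γ f g) = -I (C.lap f * g) := hfL.2.2 g hg
    have k2 : I (C.Γ f (V * g)) = -I (C.lap f * (V * g)) := hfL.2.2 _ hVg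
    have k3 : C.Γ f (V * g) = V * C.Γ f g + AEEqFun.comp φ2 hφ2 f * C.Γ f f * g := by
      rw [hD.symm _ hfA.1 _ hVg, hD.Γ_mul_left_lip hVA hVΓ hg hfA.1, hD.symm _ hg _ hfA.1,
        r2 _ hfA.1]
      ring
    have m1 : MemLp (C.Γ f g) 1 m := hD.Γ_mem1 hfA.1 hg
    have m2 : MemLp (V * C.Γ f g) 1 m := mem_mul_top hVA.2 m1
    have m3 : MemLp (AEEqFun.comp φ2 hφ2 f * C.Γ f f * g) 1 m :=
      mem_mul_22 (mem_mul_top q2 (hC.memLp _ hff)) hg2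
    have m4 : MemLp (C.lap f * g) 1 m := mem_mul_22 (hC.memLp _ hlW) hg2
    have m5 : MemLp (C.lap f * (V * g)) 1 m := mem_mul_22 (hC.memLp _ hlW) (hC.memLp _ hVg)
    rw [p2 g hg, eV, add_mul, smul_mul_assoc, one_mul, I_add (mem_smul _ m1) m2, I_smul, k1]
    rw [k3, I_add m2 m3] at k2
    have e : (AEEqFun.comp φ1 hφ1 f * C.lap f + AEEqFun.comp φ2 hφ2 f * C.Γ f f) * g =
        φ1 0 • (C.lap f * g) + C.lap f * (V * g) + AEEqFun.comp φ2 hφ2 f * C.Γ f f * g := by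
      rw [eV, add_mul, add_mul, smul_mul_assoc, one_mul, add_mul, smul_mul_assoc]
      ring
    rw [← eV, e, I_add (mem_add (mem_smul _ m4) m5) m3, I_add (mem_smul _ m4) m5, I_smul]
    linarith
  refine ⟨hC.mem_test_iff.2 ⟨p1, hc_comp_top hab hφ, hΓt, _, hL, hHW⟩, hD.lap_eq hL, p2⟩

end IsGamma

end Vale.Agent.P233
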