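import Vale.Agent.P233.AB.HC1

/-! P233 AB, block 3: maximum principle, logarithm and exponential of test functions, the
resolvent commutes with the Laplacian. -/

open MeasureTheory Filter Topology
open scoped ENNReal NNReal

namespace Vale.Agent.P233

variable {M : Type*} [MeasurableSpace M] {m : Measure M} {C : Calc m}

/-- Maximum principle. -/
theorem IsDir.hc_max (hC : IsDir C) {w X : M →ₘ[m] ℝ} (hw : w ∈ C.A) (hX : MemLp X 2 m)
    {lam B θ : ℝ} (hl : 0 < lam) (hB : 0 ≤ B) (hθ : 0 < θ)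
    (h : ∀ φ ∈ C.A, 0 ≤ φ → lam * I (C.Γ w φ) ≤ I (φ * X))
    (hX2 : ∀ᵐ x ∂m, B < w x → X x ≤ -(θ * (w x - B))) : ∀ᵐ x ∂m, w x ≤ B := by
  set φ' : ℝ → ℝ := fun t => max (t - B) 0 with hφ'
  have hφ'c : Continuous φ' := (continuous_id.sub continuous_const).max continuous_const
  set φ : ℝ → ℝ := fun t => ∫ s in (0 : ℝ)..t, φ' s with hφ
  have hφd : ∀ t, HasDerivAt φ (φ' t) t := fun t =>
    (hφ'c.integral_hasStrictDerivAt 0 t).hasDerivAt
  have hφc : Continuous φ := continuous_iff_continuousAt.2 fun t => (hφd t).continuousAt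
  have hφ0 : φ 0 = 0 := by simp [hφ]
  have hz : ∀ t, t ≤ B → φ t = 0 := by
    intro t ht
    have h1 : Set.EqOn φ' (fun _ => (0 : ℝ)) (Set.uIcc 0 t) := by
      intro s hs
      have h2 : s ≤ max 0 t := hs.2
      have h3 : s ≤ B := h2.trans (max_le hB ht)
      simp only [hφ']
      exact max_eq_right (by linarith)
    simp only [hφ]
    rw [intervalIntegral.integral_congr h1]
    simp
  have hp : ∀ t, B < t → 0 < φ t := by
    intro t ht
    have h1 : φ t = φ B + ∫ s in B..t, φ' s := by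
      simp only [hφ]
      rw [intervalIntegral.integral_add_adjacent_intervals (hφ'c.intervalIntegrable _ _)
        (hφ'c.intervalIntegrable _ _)]
    rw [h1, hz B le_rfl, zero_add]
    refine intervalIntegral.intervalIntegral_pos_of_pos_on (hφ'c.intervalIntegrable _ _) ?_ ht
    intro x hx
    simp only [hφ']
    exact lt_of_lt_of_le (by linarith [hx.1]) (le_max_left _ _)
  have hnn : ∀ t, 0 ≤ φ t := by
    intro t
    rcases le_or_gt t B with ht | ht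
    · exact (hz t ht).ge
    · exact (hp t ht).le
  have hφ'0 : ∀ t, 0 ≤ φ' t := fun t => le_max_right _ _
  obtain ⟨K, hK⟩ := mem_top_iff.1 hw.2
  obtain ⟨c1, c2⟩ := hC.chain_bdd hw.1 hK hφc hφ'c (fun t _ => (hφd t).hasDerivWithinAt) hφ0
  have ae1 : ∀ᵐ x ∂m, AEEqFun.comp φ hφc w x = φ (w x) := AEEqFun.coeFn_comp φ hφc w
  have ae2 : ∀ᵐ x ∂m, AEEqFun.comp φ' hφ'c w x = φ' (w x) := AEEqFun.coeFn_comp φ' hφ'c w
  have hWr : ∀ᵐ x ∂m, -K ≤ w x ∧ w x ≤ K := by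
    filter_upwards [hK] with x hx
    exact abs_le.1 hx
  have hΦA : AEEqFun.comp φ hφc w ∈ C.A := ⟨c1, hc_comp_top hWr hφc⟩
  have hΦ0 : 0 ≤ AEEqFun.comp φ hφc w := by
    rw [nonneg_iff_ae]
    filter_upwards [ae1] with x hx
    rw [hx]; exact hnn _
  have h1 := h _ hΦA hΦ0
  have h2 : 0 ≤ I (C.Γ w (AEEqFun.comp φ hφc w)) := by
    rw [hC.symm _ hw.1 _ c1, c2 _ hw.1]
    refine I_nonneg (mul_nonneg ?_ (hC.nonneg _ hw.1))
    rw [nonneg_iff_ae]
    filter_upwards [ae2] with x hx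
    rw [hx]; exact hφ'0 _
  have h3 : 0 ≤ I (AEEqFun.comp φ hφc w * X) := le_trans (mul_nonneg hl.le h2) h1
  have hw2 := hC.memLp _ hw.1
  have hφ'2 : MemLp (AEEqFun.comp φ' hφ'c w) 2 m := by
    refine mem_of_le hw2 ?_
    filter_upwards [ae2] with x hx
    rw [hx, abs_of_nonneg (hφ'0 _)]
    simp only [hφ']
    exact max_le (by linarith [le_abs_self (w x)]) (abs_nonneg _)
  have hY1 : MemLp (AEEqFun.comp φ hφc w * AEEqFun.comp φ' hφ'c w) 1 m :=
    mem_mul_22 (hC.memLp _ c1) hφ'2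
  have h4 : I (AEEqFun.comp φ hφc w * X) ≤
      I ((-θ) • (AEEqFun.comp φ hφc w * AEEqFun.comp φ' hφ'c w)) := by
    refine I_mono (mem_mul_22 (hC.memLp _ c1) hX) (mem_smul _ hY1) ?_
    rw [le_iff_ae]
    filter_upwards [mul_ae (AEEqFun.comp φ hφc w) X,
      smul_ae (AEEqFun.comp φ hφc w * AEEqFun.comp φ' hφ'c w) (-θ),
      mul_ae (AEEqFun.comp φ hφc w) (AEEqFun.comp φ' hφ'c w), ae1, ae2, hX2]
      with x a1 a2 a3 a4 a5 a6
    rw [a1, a2, a3, a4, a5]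
    rcases le_or_gt (w x) B with hx | hx
    · rw [hz _ hx]; simp
    · have h5 := a6 hx
      have h6 : φ' (w x) = w x - B := max_eq_left (by linarith)
      rw [h6]
      nlinarith [hnn (w x)]
  rw [I_smul] at h4
  have hY0 : 0 ≤ AEEqFun.comp φ hφc w * AEEqFun.comp φ' hφ'c w := by
    refine mul_nonneg hΦ0 ?_
    rw [nonneg_iff_ae]
    filter_upwards [ae2] with x hx
    rw [hx]; exact hφ'0 _
  have h5 := I_nonneg hY0
  have h6 : I (AEEqFun.comp φ hφc w * AEEqFun.comp φ' hφ'c w) = 0 := by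
    refine le_antisymm ?_ h5
    by_contra hcon
    push Not at hcon
    nlinarith
  have h7 := I_eq_zero_of_nonneg hY1 hY0 h6
  rw [eq_iff_ae] at h7
  filter_upwards [h7, zero_ae (M := M) (m := m),
    mul_ae (AEEqFun.comp φ hφc w) (AEEqFun.comp φ' hφ'c w), ae1, ae2] with x a1 a2 a3 a4 a5
  by_contra hx
  push Not at hx
  rw [a2, a3, a4, a5] at a1
  have h8 : φ' (w x) = w x - B := max_eq_left (by linarith)
  rw [h8] at a1
  have := mul_pos (hp _ hx) (sub_pos.2 hx)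
  linarith

/-- The resolvent commutes with the Laplacian. -/
theorem IsDir.hc_J_lap (hC : IsDir C) {lam : ℝ} (hl : 0 < lam) {f h : M →ₘ[m] ℝ} (hf : C.IsLap f h) :
    C.J lam h = lam⁻¹ • (C.J lam f - f) := by
  have hf2 := hC.memLp f hf.1
  refine hC.J_eq hl ⟨hC.smul_mem _ _ (hC.sub_mem (hC.J_mem hl hf2) hf.1), fun g hg => ?_⟩
  have a1 := (hC.J_spec hl hf2).2 g hg
  have a2 : I (C.Γ f g) = -I (h * g) := hf.2.2 g hg
  have hg2 := hC.memLp g hg
  have hJW := hC.J_mem hl hf2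
  rw [smul_mul_assoc, I_smul, sub_mul, I_sub (mem_mul_22 (hC.J_mem2 hl hf2) hg2)
    (mem_mul_22 hf2 hg2), hC.smul_left _ _ (hC.sub_mem hJW hf.1) g hg, I_smul,
    hC.Γ_sub_left hJW hf.1 hg, I_sub (hC.Γ_mem1 hJW hg) (hC.Γ_mem1 hf.1 hg)]
  rw [a2]
  field_simp
  linarith

/-- `1 + χ = exp f`, with the chain rule for both functions. -/
structure Lg (C : Calc m) (χ f : M →ₘ[m] ℝ) : Prop where
  tχ : χ ∈ C.Test
  tf : f ∈ C.Test
  exp_eq : ∀ᵐ x ∂m, 1 + χ x = Real.exp (f x)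
  grad : ∀ g ∈ C.W, C.Γ χ g = (1 + χ) * C.Γ f g
  lap : C.lap χ = (1 + χ) * (C.lap f + C.Γ f f)

theorem hc_one_add (χ : M →ₘ[m] ℝ) : ∀ᵐ x ∂m, (1 + χ : M →ₘ[m] ℝ) x = 1 + χ x := by
  filter_upwards [add_ae (1 : M →ₘ[m] ℝ) χ, one_ae (M := M) (m := m)] with x a1 a2
  rw [a1, a2]

theorem Lg.pos {χ f : M →ₘ[m] ℝ} (h : Lg C χ f) : 0 ≤ 1 + χ := by
  rw [nonneg_iff_ae]
  filter_upwards [hc_one_add χ, h.exp_eq] with x a1 a2
  rw [a1, a2]; exact (Real.exp_pos _).le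

namespace IsGamma

variable (hC : IsGamma C)
include hC

/-- The exponential. -/
theorem hc_exp {φ : M →ₘ[m] ℝ} (hφ : φ ∈ C.Test) (hφφ : C.Γ φ φ ∈ C.W) :
    ∃ χ, Lg C χ φ := by
  have hD := hC.toIsDir
  have hA := hC.test_A hφ
  obtain ⟨K, hK⟩ := mem_top_iff.1 hA.2
  have hKr : ∀ᵐ x ∂m, -(max K 0) ≤ φ x ∧ φ x ≤ max K 0 := by
    filter_upwards [hK] with x hx
    exact abs_le.1 (hx.trans (le_max_left _ _))
  have c0 : Continuous fun t : ℝ => Real.exp t - 1 := Real.continuous_exp.sub continuous_const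
  have c1 : Continuous fun t : ℝ => Real.exp t := Real.continuous_exp
  have d1 : ∀ t : ℝ, HasDerivAt (fun t : ℝ => Real.exp t) (Real.exp t) t := Real.hasDerivAt_exp
  have d0 : ∀ t : ℝ, HasDerivAt (fun t : ℝ => Real.exp t - 1) (Real.exp t) t := fun t =>
    (d1 t).sub_const 1
  obtain ⟨h1, h2, h3⟩ := hC.hc_comp hφ hφφ (neg_nonpos.2 (le_max_right K 0)) (le_max_right K 0)
    hKr c0 c1 c1 c1 (fun t _ => (d0 t).hasDerivWithinAt) (fun t _ => (d1 t).hasDerivWithinAt)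
    (fun t _ => (d1 t).hasDerivWithinAt) (by simp)
  set χ := AEEqFun.comp (fun t : ℝ => Real.exp t - 1) c0 φ with hχ
  have e1 : AEEqFun.comp (fun t : ℝ => Real.exp t) c1 φ = 1 + χ := by
    rw [eq_iff_ae]
    filter_upwards [AEEqFun.coeFn_comp (fun t : ℝ => Real.exp t) c1 φ, hc_one_add χ,
      AEEqFun.coeFn_comp (fun t : ℝ => Real.exp t - 1) c0 φ] with x a1 a2 a3
    rw [a1, a2, hχ, a3]
    simp
  rw [e1] at h2 h3
  refine ⟨χ, h1, hφ, ?_, h3, ?_⟩
  · filter_upwards [AEEqFun.coeFn_comp (fun t : ℝ => Real.exp t - 1) c0 φ] with x a3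
    rw [hχ, a3]
    simp
  · rw [h2]; ring

/-- The logarithm. -/
theorem hc_log {χ : M →ₘ[m] ℝ} (hχ : χ ∈ C.Test) (hχχ : C.Γ χ χ ∈ C.W) {c : ℝ} (hc : 0 < c)
    (hc1 : c ≤ 1) (hlow : ∀ᵐ x ∂m, c - 1 ≤ χ x) : ∃ f, Lg C χ f := by
  have hD := hC.toIsDir
  have hA := hC.test_A hχ
  obtain ⟨K, hK⟩ := mem_top_iff.1 hA.2
  have hKr : ∀ᵐ x ∂m, c - 1 ≤ χ x ∧ χ x ≤ max K 0 := by
    filter_upwards [hK, hlow] with x hx hx'
    exact ⟨hx', ((le_abs_self _).trans hx).trans (le_max_left _ _)⟩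
  set mx : ℝ → ℝ := fun t => max (1 + t) c with hmx
  have hmxc : Continuous mx := (continuous_const.add continuous_id).max continuous_const
  have hmx0 : ∀ t, 0 < mx t := fun t => lt_of_lt_of_le hc (le_max_right _ _)
  have hmxe : ∀ t ∈ Set.Icc (c - 1) (max K 0), mx t = 1 + t := fun t ht =>
    max_eq_left (by linarith [ht.1])
  have c0 : Continuous fun t : ℝ => Real.log (mx t) := hmxc.log fun t => (hmx0 t).ne'
  have c1 : Continuous fun t : ℝ => (mx t)⁻¹ := hmxc.inv₀ fun t => (hmx0 t).ne'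
  have c2 : Continuous fun t : ℝ => -((mx t) ^ 2)⁻¹ :=
    ((hmxc.pow 2).inv₀ fun t => (pow_pos (hmx0 t) 2).ne').neg
  have c3 : Continuous fun t : ℝ => 2 * ((mx t) ^ 3)⁻¹ :=
    ((hmxc.pow 3).inv₀ fun t => (pow_pos (hmx0 t) 3).ne').const_mul 2 |>.congr fun t => rfl
  have hb : ∀ t : ℝ, HasDerivAt (fun t : ℝ => 1 + t) 1 t := fun t => by
    simpa using (hasDerivAt_id' t).const_add 1
  have hpos : ∀ t ∈ Set.Icc (c - 1) (max K 0), 0 < 1 + t := fun t ht => by linarith [ht.1]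
  have d0 : ∀ t ∈ Set.Icc (c - 1) (max K 0),
      HasDerivWithinAt (fun t : ℝ => Real.log (mx t)) (mx t)⁻¹ (Set.Icc (c - 1) (max K 0)) t := by
    intro t ht
    have h1 : HasDerivAt (fun t : ℝ => Real.log (1 + t)) (1 + t)⁻¹ t := by
      have := (hb t).log (hpos t ht).ne'
      simpa using this
    rw [hmxe t ht]
    exact h1.hasDerivWithinAt.congr (fun y hy => by simp only [hmxe y hy]) (by simp only [hmxe t ht])
  have d1 : ∀ t ∈ Set.Icc (c - 1) (max K 0),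
      HasDerivWithinAt (fun t : ℝ => (mx t)⁻¹) (-((mx t) ^ 2)⁻¹) (Set.Icc (c - 1) (max K 0)) t := by
    intro t ht
    have h1 : HasDerivAt (fun t : ℝ => (1 + t)⁻¹) (-((1 + t) ^ 2)⁻¹) t := by
      have := (hb t).fun_inv (hpos t ht).ne'
      refine this.congr_deriv ?_
      rw [neg_div, one_div]
    rw [hmxe t ht]
    exact h1.hasDerivWithinAt.congr (fun y hy => by simp only [hmxe y hy]) (by simp only [hmxe t ht])
  have d2 : ∀ t ∈ Set.Icc (c - 1) (max K 0),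
      HasDerivWithinAt (fun t : ℝ => -((mx t) ^ 2)⁻¹) (2 * ((mx t) ^ 3)⁻¹)
        (Set.Icc (c - 1) (max K 0)) t := by
    intro t ht
    have hp := hpos t ht
    have h1 : HasDerivAt (fun t : ℝ => -((1 + t) ^ 2)⁻¹) (2 * ((1 + t) ^ 3)⁻¹) t := by
      have := (((hb t).fun_pow 2).fun_inv (pow_pos hp 2).ne').fun_neg
      refine this.congr_deriv ?_
      field_simp
      norm_num
      ring
    rw [hmxe t ht]
    exact h1.hasDerivWithinAt.congr (fun y hy => by simp only [hmxe y hy]) (by simp only [hmxe t ht])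
  obtain ⟨h1, h2, h3⟩ := hC.hc_comp hχ hχχ (by linarith) (le_max_right K 0) hKr c0 c1 c2 c3 d0
    d1 d2 (by simp only [hmx]; rw [max_eq_left (by linarith)]; simp)
  set f := AEEqFun.comp (fun t : ℝ => Real.log (mx t)) c0 χ with hf
  set i := AEEqFun.comp (fun t : ℝ => (mx t)⁻¹) c1 χ with hi
  have ei : (1 + χ) * i = 1 := by
    rw [eq_iff_ae]
    filter_upwards [mul_ae (1 + χ) i, hc_one_add χ, AEEqFun.coeFn_comp (fun t : ℝ => (mx t)⁻¹) c1 χ,
      one_ae (M := M) (m := m), hKr] with x a1 a2 a3 a4 a5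
    rw [a1, a2, a4, hi, a3, Function.comp_apply, hmxe _ a5]
    exact mul_inv_cancel₀ (hpos _ a5).ne'
  have ei2 : AEEqFun.comp (fun t : ℝ => -((mx t) ^ 2)⁻¹) c2 χ = -(i * i) := by
    rw [eq_iff_ae]
    filter_upwards [AEEqFun.coeFn_comp (fun t : ℝ => -((mx t) ^ 2)⁻¹) c2 χ, neg_ae (i * i),
      mul_ae i i, AEEqFun.coeFn_comp (fun t : ℝ => (mx t)⁻¹) c1 χ] with x a1 a2 a3 a4
    rw [a1, a2, a3, hi, a4, Function.comp_apply, Function.comp_apply]
    have := (hmx0 (χ x)).ne'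
    field_simp
  rw [ei2] at h2
  refine ⟨f, hχ, h1, ?_, fun g hg => ?_, ?_⟩
  · filter_upwards [AEEqFun.coeFn_comp (fun t : ℝ => Real.log (mx t)) c0 χ, hKr] with x a1 a2
    rw [hf, a1, Function.comp_apply, hmxe _ a2, Real.exp_log (hpos _ a2)]
  · rw [h3 g hg, ← mul_assoc, ei, one_mul]
  · have e3 : C.Γ f f = i * (i * C.Γ χ χ) := by
      rw [h3 f (hC.test_A h1).1, hD.symm _ hA.1 _ (hC.test_A h1).1, h3 χ hA.1]
    rw [h2, e3]
    calc C.lap χ = ((1 + χ) * i) * C.lap χ := by rw [ei, one_mul]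
      _ = _ := by ring

end IsGamma

end Vale.Agent.P233
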