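import Vale.Agent.P233.AB.HC2

/-! P233 AB, block 3: one step of the resolvent scheme, weak inequalities. -/

open MeasureTheory Filter Topology
open scoped ENNReal NNReal

namespace Vale.Agent.P233

variable {M : Type*} [MeasurableSpace M] {m : Measure M} {C : Calc m}

namespace IsGamma

variable (hC : IsGamma C) {κ : ℝ} (hB : C.BEi κ) [SigmaFinite m]
include hC hB

omit [SigmaFinite m] in
/-- `ψ Γ(log ψ)`. -/
theorem hc_q_mem {χ f : M →ₘ[m] ℝ} (h : Lg C χ f) : (1 + χ) * C.Γ f f ∈ C.A := by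
  have hD := hC.toIsDir
  have hG := hC.Γ_mem hB h.tf h.tf
  rw [add_mul, one_mul]
  exact hD.A_add hG (hD.mul_mem_A (hC.test_A h.tχ) hG)

/-- The weak inequality `(1 + 2 κ lam) q' - lam Δ q' ≤ q`. -/
theorem hc_step_q {χ f χ' f' : M →ₘ[m] ℝ} (h : Lg C χ f) (h' : Lg C χ' f') {lam : ℝ}
    (hl : 0 < lam) (hJ : C.lap χ' = lam⁻¹ • (χ' - χ)) {φ : M →ₘ[m] ℝ} (hφ : φ ∈ C.A)
    (h0 : 0 ≤ φ) :
    lam * I (C.Γ ((1 + χ') * C.Γ f' f') φ) ≤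
      I (φ * ((1 + χ) * C.Γ f f - (1 + 2 * κ * lam) • ((1 + χ') * C.Γ f' f'))) := by
  have hD := hC.toIsDir
  have hgA := hC.test_A h'.tχ
  have hfA := hC.test_A h'.tf
  have hgΓ := hC.test_Γ_top h'.tχ
  have hfΓ := hC.test_Γ_top h'.tf
  have hχA := hC.test_A h.tχ
  have hf0A := hC.test_A h.tf
  have hGA := hC.Γ_mem hB h'.tf h'.tf
  have hG0A := hC.Γ_mem hB h.tf h.tf
  have hlfW := hC.test_lap_mem h'.tf
  have hlgW := hC.test_lap_mem h'.tχ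
  set g := χ' with hg
  set G := C.Γ f' f' with hG
  set S := C.lap f' + G with hS
  have hSW : S ∈ C.W := hD.add_mem _ hlfW _ hGA.1
  have hφ2 := hC.memLp _ hφ.1
  have hG2 := hC.memLp _ hGA.1
  -- first order identities
  have e1 : C.Γ f' g = (1 + g) * G := by
    rw [hD.symm _ hfA.1 _ hgA.1, h'.grad _ hfA.1]
  have e2 : C.Γ f' χ = (1 + χ) * C.Γ f f' := by
    rw [hD.symm _ hfA.1 _ hχA.1, h.grad _ hfA.1]
  have e3 : C.Γ g G = (1 + g) * C.Γ f' G := h'.grad _ hGA.1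
  have e4 : C.lap g = S + g * S := by rw [h'.lap]; ring
  have hgS : g * S ∈ C.W := hD.mul_mem_lip hgA hgΓ hSW
  have e5 : C.Γ f' (C.lap g) = (1 + g) * C.Γ f' S + S * ((1 + g) * G) := by
    rw [e4, hD.Γ_add_right hfA.1 hSW hgS, hD.symm _ hfA.1 _ hgS,
      hD.Γ_mul_left_lip hgA hgΓ hSW hfA.1, hD.symm _ hSW _ hfA.1, hD.symm _ hgA.1 _ hfA.1, e1]
    ring
  have e6 : C.Γ f' S = C.Γ f' (C.lap f') + C.Γ f' G := hD.Γ_add_right hfA.1 hlfW hGA.1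
  have e7 : (1 + g) * C.Γ f' (C.lap f') = C.Γ f' (C.lap g) - C.lap g * G - C.Γ g G := by
    rw [e5, e6, e3, e4]; ring
  have e8 : lam • C.Γ f' (C.lap g) = (1 + g) * G - C.Γ f' χ := by
    rw [hJ, hD.Γ_smul_right _ hfA.1 (hD.sub_mem hgA.1 hχA.1), hD.Γ_sub_right hfA.1 hgA.1 hχA.1,
      smul_smul, mul_inv_cancel₀ hl.ne', one_smul, e1]
  have e9 : lam • C.lap g = g - χ := by
    rw [hJ, smul_smul, mul_inv_cancel₀ hl.ne', one_smul]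
  -- the test function
  have hgφA : g * φ ∈ C.A := hD.mul_mem_A hgA hφ
  have hφ'A : φ + g * φ ∈ C.A := hD.A_add hφ hgφA
  have hφ'0 : 0 ≤ φ + g * φ := by
    have : φ + g * φ = (1 + g) * φ := by ring
    rw [this]
    exact mul_nonneg h'.pos h0
  have hb := hC.bochner_weak hB h'.tf hφ'A hφ'0
  -- integrability
  have i1 : MemLp (C.Γ G φ) 1 m := hD.Γ_mem1 hGA.1 hφ.1
  have i2 : MemLp (g * C.Γ G φ) 1 m := mem_mul_top hgA.2 i1
  have i3 : MemLp (G * C.Γ g φ) 1 m := mem_mul_top hGA.2 (hD.Γ_mem1 hgA.1 hφ.1)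
  have i4 : MemLp (φ * C.Γ g G) 1 m := mem_mul_top hφ.2 (hD.Γ_mem1 hgA.1 hGA.1)
  have i5 : MemLp (φ * C.Γ f' (C.lap g)) 1 m :=
    mem_mul_22 hφ2 (hD.Γ_mem2 hfA.1 hfΓ hlgW)
  have hlg2 := hC.memLp _ hlgW
  have i6 : MemLp (φ * (C.lap g * G)) 1 m := mem_mul_22 hφ2 (mem_top_mul hlg2 hGA.2)
  have hq2 : MemLp ((1 + g) * G : M →ₘ[m] ℝ) 2 m := hC.memLp _ (hC.hc_q_mem hB h').1
  have hq02 : MemLp ((1 + χ) * C.Γ f f : M →ₘ[m] ℝ) 2 m := hC.memLp _ (hC.hc_q_mem hB h).1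
  have i7 : MemLp (φ * ((1 + g) * G) : M →ₘ[m] ℝ) 1 m := mem_mul_22 hφ2 hq2
  -- the gradient of `q'`
  have k1 : C.Γ ((1 + g) * G) φ = C.Γ G φ + g * C.Γ G φ + G * C.Γ g φ := by
    have : (1 + g) * G = G + g * G := by ring
    rw [this, hD.add_left _ hGA.1 _ (hD.mul_mem_A hgA hGA).1 _ hφ.1, hD.Γ_mul_left hgA hGA hφ.1]
    ring
  have k2 : C.Γ G (φ + g * φ) = C.Γ G φ + g * C.Γ G φ + φ * C.Γ g G := by
    rw [hD.Γ_add_right hGA.1 hφ.1 hgφA.1, hD.Γ_mul_right hgA hφ hGA.1, hD.symm _ hGA.1 _ hgA.1]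
    ring
  -- integration by parts
  have k3 : I (G * C.Γ g φ) + I (φ * C.Γ g G) = -I (φ * (C.lap g * G)) := by
    have hGφ : G * φ ∈ C.A := hD.mul_mem_A hGA hφ
    have a1 : I (C.Γ g (G * φ)) = -I (C.lap g * (G * φ)) := (hC.test_isLap h'.tχ).2.2 _ hGφ.1
    rw [hD.Γ_mul_right hGA hφ hgA.1, I_add i3 i4] at a1
    rw [a1]
    congr 2
    ring
  -- Bochner
  have k4 : (φ + g * φ) * (C.Γ f' (C.lap f') + κ • C.Γ f' f') =
      φ * C.Γ f' (C.lap g) - φ * (C.lap g * G) - φ * C.Γ g G + κ • (φ * ((1 + g) * G)) := by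
    have a1 : (φ + g * φ) * (C.Γ f' (C.lap f') + κ • C.Γ f' f') =
        φ * ((1 + g) * C.Γ f' (C.lap f')) + κ • (φ * ((1 + g) * G)) := by
      rw [mul_add, mul_smul_comm, ← hG]
      congr 1
      · ring
      · congr 1
        ring
    rw [a1, e7]
    ring
  rw [k4, k2, I_add (mem_sub (mem_sub i5 i6) i4) (mem_smul _ i7), I_sub (mem_sub i5 i6) i4,
    I_sub i5 i6, I_smul, I_add (mem_add i1 i2) i4, I_add i1 i2] at hb
  rw [k1, I_add (mem_add i1 i2) i3, I_add i1 i2]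
  -- right hand side
  have r1 : lam * I (φ * C.Γ f' (C.lap g)) = I (φ * ((1 + g) * G)) - I (φ * C.Γ f' χ) := by
    have hΓχ2 : MemLp (C.Γ f' χ) 2 m := hD.Γ_mem2 hfA.1 hfΓ hχA.1
    rw [← I_smul, ← mul_smul_comm, e8, mul_sub, I_sub i7 (mem_mul_22 hφ2 hΓχ2)]
  have r2 : lam * I (φ * (C.lap g * G)) = I (φ * ((g - χ) * G)) := by
    rw [← I_smul, ← mul_smul_comm, ← smul_mul_assoc, e9]
  have hΓχ2 : MemLp (C.Γ f' χ) 2 m := hD.Γ_mem2 hfA.1 hfΓ hχA.1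
  have j1 : MemLp (φ * C.Γ f' χ) 1 m := mem_mul_22 hφ2 hΓχ2
  have j2 : MemLp (φ * ((g - χ) * G)) 1 m :=
    mem_mul_22 hφ2 (mem_mul_top (mem_sub hgA.2 hχA.2) hG2)
  have j3 : MemLp (φ * ((1 + χ) * C.Γ f f) : M →ₘ[m] ℝ) 1 m := mem_mul_22 hφ2 hq02
  have key : (2 : ℝ) • (φ * C.Γ f' χ) + φ * ((g - χ) * G) ≤
      φ * ((1 + χ) * C.Γ f f) + φ * ((1 + g) * G) := by
    have a1 : 0 ≤ C.Γ f f - C.Γ f f' - (C.Γ f f' - G) := by
      have := hC.nonneg _ (hD.sub_mem hf0A.1 hfA.1)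
      rwa [hD.Γ_sub_left hf0A.1 hfA.1 (hD.sub_mem hf0A.1 hfA.1),
        hD.Γ_sub_right hf0A.1 hf0A.1 hfA.1, hD.Γ_sub_right hfA.1 hf0A.1 hfA.1,
        hD.symm _ hfA.1 _ hf0A.1] at this
    have a2 := mul_nonneg h0 (mul_nonneg h.pos a1)
    rw [e2, ← sub_nonneg]
    have a3 : φ * ((1 + χ) * C.Γ f f) + φ * ((1 + g) * G) -
        ((2 : ℝ) • (φ * ((1 + χ) * C.Γ f f')) + φ * ((g - χ) * G)) =
        φ * ((1 + χ) * (C.Γ f f - C.Γ f f' - (C.Γ f f' - G))) := by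
      rw [two_smul]
      ring
    rw [a3]
    exact a2
  have key2 := I_mono (mem_add (mem_smul _ j1) j2) (mem_add j3 i7) key
  rw [I_add (mem_smul _ j1) j2, I_add j3 i7, I_smul] at key2
  rw [mul_sub, mul_smul_comm, I_sub j3 (mem_smul _ i7), I_smul]
  nlinarith

end IsGamma

end Vale.Agent.P233
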