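import Vale.Agent.P233.AB.HC3

/-! P233 AB, block 3: one step of the resolvent scheme, propagation of the bounds. -/

open MeasureTheory Filter Topology
open scoped ENNReal NNReal

namespace Vale.Agent.P233

variable {M : Type*} [MeasurableSpace M] {m : Measure M} {C : Calc m}

/-- The bounds that are propagated by the scheme. -/
structure HSt (C : Calc m) (c A B D : ℝ) (χ f : M →ₘ[m] ℝ) : Prop where
  lg : Lg C χ f
  low : ∀ᵐ x ∂m, c - 1 ≤ χ x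
  gr : ∀ᵐ x ∂m, C.Γ f f x ≤ A
  lp : ∀ᵐ x ∂m, -B ≤ C.lap f x
  bd : ∀ᵐ x ∂m, |C.lap χ x| ≤ D * (1 + χ x)

/-- `J_le` in pointwise form. -/
theorem IsDir.hc_J_le (hC : IsDir C) {lam : ℝ} (hl : 0 < lam) {f : M →ₘ[m] ℝ} (hf : MemLp f 2 m)
    {K : ℝ} (hK : 0 ≤ K) (h0 : ∀ᵐ x ∂m, f x ≤ K) : ∀ᵐ x ∂m, C.J lam f x ≤ K := by
  have h1 := hC.J_le hl hf hK (by
    rw [le_iff_ae]
    filter_upwards [h0, smul_ae (1 : M →ₘ[m] ℝ) K, one_ae (M := M) (m := m)] with x a1 a2 a3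
    rw [a2, a3, mul_one]
    exact a1)
  rw [le_iff_ae] at h1
  filter_upwards [h1, smul_ae (1 : M →ₘ[m] ℝ) K, one_ae (M := M) (m := m)] with x a1 a2 a3
  rwa [a2, a3, mul_one] at a1

/-- pointwise inequality for the gradient bound -/
theorem hc_pt1 {A k K ψ ψ' q q' : ℝ} (hA : 0 ≤ A) (hψ' : 0 < ψ') (hh : ψ' ≤ 2 * ψ) (hK : 0 ≤ K)
    (hk : -K ≤ k) (hK8 : 8 * K ≤ 1) (hq : q ≤ A * ψ) :
    q - (1 + 2 * k) * q' + A * (1 + 8 * K) * (ψ' - ψ) ≤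
      -((1 + 2 * k) * (q' - A * (1 + 8 * K) * ψ')) := by
  have h1 : A * (1 + 8 * K) ≤ 2 * A := by nlinarith
  have h0 : 0 ≤ A * (1 + 8 * K) := mul_nonneg hA (by linarith)
  have h2 : A * (1 + 8 * K) * ψ' ≤ (2 * A) * (2 * ψ) := mul_le_mul h1 hh hψ'.le (by linarith)
  have h3 : K * (A * (1 + 8 * K) * ψ') ≤ K * ((2 * A) * (2 * ψ)) :=
    mul_le_mul_of_nonneg_left h2 hK
  have h4 : -(K * (A * (1 + 8 * K) * ψ')) ≤ k * (A * (1 + 8 * K) * ψ') := by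
    have := mul_le_mul_of_nonneg_right hk (mul_nonneg h0 hψ'.le)
    linarith
  nlinarith

/-- pointwise inequality for the bound of the Laplacian -/
theorem hc_pt2 {A B k K ψ ψ' q q' l f' : ℝ} (hA : 0 ≤ A) (hψ : 0 < ψ) (hh : ψ' ≤ 2 * ψ) (hK : 0 ≤ K)
    (hk : -K ≤ k) (hK8 : 8 * K ≤ 1) (hq0 : 0 ≤ q') (hq' : q' ≤ A * (1 + 8 * K) * ψ')
    (hl : -B ≤ l) :
    q - (1 + 2 * k) * q' - (ψ * l + q) + f' + (B + 8 * K * A) * (ψ' - ψ) ≤
      -(1 * (q' - f' - (B + 8 * K * A) * ψ')) := by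
  have h1 : A * (1 + 8 * K) ≤ 2 * A := by nlinarith
  have h2 : q' ≤ 4 * A * ψ := by
    have h3 : A * (1 + 8 * K) * ψ' ≤ (2 * A) * (2 * ψ) := by
      rcases le_or_gt ψ' 0 with h | h
      · have h4 : A * (1 + 8 * K) * ψ' ≤ 0 :=
          mul_nonpos_of_nonneg_of_nonpos (mul_nonneg hA (by linarith)) h
        have h5 : 0 ≤ (2 * A) * (2 * ψ) := by positivity
        linarith
      · exact mul_le_mul h1 hh h.le (by linarith)
    linarith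
  have h3 : -(K * q') ≤ k * q' := by
    have := mul_le_mul_of_nonneg_right hk hq0
    linarith
  have h4 : K * q' ≤ K * (4 * A * ψ) := mul_le_mul_of_nonneg_left h2 hK
  have h5 := mul_le_mul_of_nonneg_right hl hψ.le
  nlinarith

namespace IsGamma

variable (hC : IsGamma C) {κ : ℝ} (hB : C.BEi κ) [SigmaFinite m]
include hC

/-- integration by parts for the resolvent -/
theorem hc_ibp {χ χ' φ : M →ₘ[m] ℝ} {lam : ℝ} (hl : 0 < lam) (hT' : χ' ∈ C.Test)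
    (hlap' : C.lap χ' = lam⁻¹ • (χ' - χ)) (hφ : φ ∈ C.W) :
    lam * I (C.Γ χ' φ) = -I ((χ' - χ) * φ) := by
  have a1 : I (C.Γ χ' φ) = -I (C.lap χ' * φ) := (hC.test_isLap hT').2.2 _ hφ
  rw [a1, hlap', smul_mul_assoc, I_smul]
  field_simp

include hB

/-- propagation of the gradient bound -/
theorem hc_step_gr {χ f χ' f' : M →ₘ[m] ℝ} {lam A : ℝ} (hg : Lg C χ f) (hf' : Lg C χ' f')
    (hl : 0 < lam) (hlap' : C.lap χ' = lam⁻¹ • (χ' - χ)) (hA : 0 ≤ A)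
    (hgr : ∀ᵐ x ∂m, C.Γ f f x ≤ A) (hk : 8 * (|κ| * lam) ≤ 1)
    (hhar : ∀ᵐ x ∂m, 1 + χ' x ≤ 2 * (1 + χ x)) :
    ∀ᵐ x ∂m, C.Γ f' f' x ≤ A * (1 + 8 * (|κ| * lam)) := by
  have hD := hC.toIsDir
  have hχA := hC.test_A hg.tχ
  have hχ2 := hC.memLp _ hχA.1
  have hχ'A := hC.test_A hf'.tχ
  have hχ'2 := hC.memLp _ hχ'A.1
  have hqA := hC.hc_q_mem hB hg
  have hq'A := hC.hc_q_mem hB hf'
  have hK0 : 0 ≤ |κ| * lam := mul_nonneg (abs_nonneg κ) hl.le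
  have hκ1 : -(|κ| * lam) ≤ κ * lam := by
    have := mul_le_mul_of_nonneg_right (neg_abs_le κ) hl.le
    linarith
  set A' := A * (1 + 8 * (|κ| * lam)) with hA'def
  have hA' : 0 ≤ A' := mul_nonneg hA (by linarith)
  set q := (1 + χ) * C.Γ f f with hq
  set q' := (1 + χ') * C.Γ f' f' with hq'
  have hX1 : MemLp (q - (1 + 2 * (κ * lam)) • q' : M →ₘ[m] ℝ) 2 m :=
    mem_sub (hC.memLp _ hqA.1) (mem_smul _ (hC.memLp _ hq'A.1))
  have hX2 : MemLp (q - (1 + 2 * (κ * lam)) • q' + A' • (χ' - χ) : M →ₘ[m] ℝ) 2 m :=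
    mem_add hX1 (mem_smul _ (mem_sub hχ'2 hχ2))
  have hθ : 0 < 1 + 2 * (κ * lam) := by linarith
  have hw : q' - A' • χ' ∈ C.A := hD.A_sub hq'A (hD.A_smul _ hχ'A)
  have hmp := hD.hc_max hw hX2 hl hA' hθ (fun φ hφ h0 => by
    have h1 := hC.hc_step_q hB hg hf' hl hlap' hφ h0
    rw [mul_assoc 2 κ lam] at h1
    have h2 := hC.hc_ibp hl hf'.tχ hlap' hφ.1
    have hφ2 := hC.memLp _ hφ.1
    rw [hD.Γ_sub_left hq'A.1 (hD.smul_mem _ _ hχ'A.1) hφ.1, hD.smul_left _ _ hχ'A.1 _ hφ.1,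
      I_sub (hD.Γ_mem1 hq'A.1 hφ.1) (mem_smul _ (hD.Γ_mem1 hχ'A.1 hφ.1)), I_smul, mul_sub,
      mul_add, mul_smul_comm, I_add (mem_mul_22 hφ2 hX1)
      (mem_smul _ (mem_mul_22 hφ2 (mem_sub hχ'2 hχ2))), I_smul, mul_comm φ (χ' - χ)]
    have h3 : lam * (A' * I (C.Γ χ' φ)) = A' * (lam * I (C.Γ χ' φ)) := by ring
    rw [h3, h2]
    linarith) (by
    filter_upwards [add_ae (q - (1 + 2 * (κ * lam)) • q') (A' • (χ' - χ)),
      sub_ae q ((1 + 2 * (κ * lam)) • q'), smul_ae q' (1 + 2 * (κ * lam)),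
      smul_ae (χ' - χ) A', sub_ae χ' χ, sub_ae q' (A' • χ'), smul_ae χ' A',
      mul_ae (1 + χ) (C.Γ f f), hc_one_add χ, hgr, hhar, hg.exp_eq, hf'.exp_eq]
      with x b1 b2 b3 b4 b5 b6 b7 b8 b9 b10 b11 b12 b13 _
    have hp : 0 < 1 + χ x := by rw [b12]; exact Real.exp_pos _
    have hp' : 0 < 1 + χ' x := by rw [b13]; exact Real.exp_pos _
    have hqx : q x ≤ A * (1 + χ x) := by
      rw [hq, b8, b9, mul_comm]
      exact mul_le_mul_of_nonneg_right b10 hp.le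
    have h1 := hc_pt1 (q' := q' x) hA hp' b11 hK0 hκ1 hk hqx
    rw [b1, b2, b3, b4, b5, b6, b7]
    have e1 : (1 + χ' x) - (1 + χ x) = χ' x - χ x := by ring
    rw [e1] at h1
    refine h1.trans (le_of_eq ?_)
    rw [hA'def]; ring)
  filter_upwards [hmp, sub_ae q' (A' • χ'), smul_ae χ' A', mul_ae (1 + χ') (C.Γ f' f'),
    hc_one_add χ', hf'.exp_eq] with x b1 b2 b3 b4 b5 b6
  rw [b2, b3, hq', b4, b5] at b1
  have hp' : 0 < 1 + χ' x := by rw [b6]; exact Real.exp_pos _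
  have h1 : (1 + χ' x) * C.Γ f' f' x ≤ (1 + χ' x) * A' := by linarith
  exact le_of_mul_le_mul_left h1 hp'

/-- propagation of the bound of the Laplacian -/
theorem hc_step_lp {χ f χ' f' : M →ₘ[m] ℝ} {lam A B : ℝ} (hg : Lg C χ f) (hf' : Lg C χ' f')
    (hl : 0 < lam) (hlap' : C.lap χ' = lam⁻¹ • (χ' - χ)) (hA : 0 ≤ A) (hB0 : 0 ≤ B)
    (hk : 8 * (|κ| * lam) ≤ 1) (hhar : ∀ᵐ x ∂m, 1 + χ' x ≤ 2 * (1 + χ x))
    (hgr' : ∀ᵐ x ∂m, C.Γ f' f' x ≤ A * (1 + 8 * (|κ| * lam)))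
    (hlp : ∀ᵐ x ∂m, -B ≤ C.lap f x)
    (hres : ∀ φ ∈ C.W, lam * I (C.Γ (C.lap χ') φ) = I (C.lap χ * φ) - I (C.lap χ' * φ)) :
    ∀ᵐ x ∂m, -(B + 8 * (|κ| * lam) * A) ≤ C.lap f' x := by
  have hD := hC.toIsDir
  have hχA := hC.test_A hg.tχ
  have hχ2 := hC.memLp _ hχA.1
  have hχ'A := hC.test_A hf'.tχ
  have hχ'2 := hC.memLp _ hχ'A.1
  have hqA := hC.hc_q_mem hB hg
  have hq'A := hC.hc_q_mem hB hf'
  have hK0 : 0 ≤ |κ| * lam := mul_nonneg (abs_nonneg κ) hl.le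
  have hκ1 : -(|κ| * lam) ≤ κ * lam := by
    have := mul_le_mul_of_nonneg_right (neg_abs_le κ) hl.le
    linarith
  set B' := B + 8 * (|κ| * lam) * A with hB'def
  have hB'0 : 0 ≤ B' := by
    have : 0 ≤ |κ| * lam * A := mul_nonneg hK0 hA
    rw [hB'def]; linarith
  set q := (1 + χ) * C.Γ f f with hq
  set q' := (1 + χ') * C.Γ f' f' with hq'
  have hlχ'A : C.lap χ' ∈ C.A := by
    rw [hlap']; exact hD.A_smul _ (hD.A_sub hχ'A hχA)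
  have hlχ'2 := hC.memLp _ hlχ'A.1
  have hlχ2 := hC.memLp _ (hC.test_lap_mem hg.tχ)
  have hX1 : MemLp (q - (1 + 2 * (κ * lam)) • q' : M →ₘ[m] ℝ) 2 m :=
    mem_sub (hC.memLp _ hqA.1) (mem_smul _ (hC.memLp _ hq'A.1))
  have hX2 : MemLp (q - (1 + 2 * (κ * lam)) • q' - C.lap χ + C.lap χ' + B' • (χ' - χ) :
      M →ₘ[m] ℝ) 2 m :=
    mem_add (mem_add (mem_sub hX1 hlχ2) hlχ'2) (mem_smul _ (mem_sub hχ'2 hχ2))
  have hw : q' - C.lap χ' - B' • χ' ∈ C.A :=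
    hD.A_sub (hD.A_sub hq'A hlχ'A) (hD.A_smul _ hχ'A)
  have hmp := hD.hc_max hw hX2 hl hB'0 one_pos (fun φ hφ h0 => by
    have h1 := hC.hc_step_q hB hg hf' hl hlap' hφ h0
    rw [mul_assoc 2 κ lam] at h1
    have h2 := hC.hc_ibp hl hf'.tχ hlap' hφ.1
    have h4 := hres _ hφ.1
    have hφ2 := hC.memLp _ hφ.1
    rw [hD.Γ_sub_left (hD.sub_mem hq'A.1 hlχ'A.1) (hD.smul_mem _ _ hχ'A.1) hφ.1,
      hD.Γ_sub_left hq'A.1 hlχ'A.1 hφ.1, hD.smul_left _ _ hχ'A.1 _ hφ.1,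
      I_sub (mem_sub (hD.Γ_mem1 hq'A.1 hφ.1) (hD.Γ_mem1 hlχ'A.1 hφ.1))
        (mem_smul _ (hD.Γ_mem1 hχ'A.1 hφ.1)),
      I_sub (hD.Γ_mem1 hq'A.1 hφ.1) (hD.Γ_mem1 hlχ'A.1 hφ.1), I_smul]
    have n1 := mem_mul_22 hφ2 hX1
    have n2 : MemLp (C.lap χ * φ) 1 m := mem_mul_22 hlχ2 hφ2
    have n3 : MemLp (C.lap χ' * φ) 1 m := mem_mul_22 hlχ'2 hφ2
    have n4 : MemLp ((χ' - χ) * φ) 1 m := mem_mul_22 (mem_sub hχ'2 hχ2) hφ2
    have e1 : φ * (q - (1 + 2 * (κ * lam)) • q' - C.lap χ + C.lap χ' + B' • (χ' - χ)) =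
        φ * (q - (1 + 2 * (κ * lam)) • q') - C.lap χ * φ + C.lap χ' * φ +
          B' • ((χ' - χ) * φ) := by
      rw [mul_add, mul_smul_comm, mul_comm φ (χ' - χ)]
      ring
    rw [e1, I_add (mem_add (mem_sub n1 n2) n3) (mem_smul _ n4), I_add (mem_sub n1 n2) n3,
      I_sub n1 n2, I_smul]
    have h3 : lam * (I (C.Γ q' φ) - I (C.Γ (C.lap χ') φ) - B' * I (C.Γ χ' φ)) =
      lam * I (C.Γ q' φ) - lam * I (C.Γ (C.lap χ') φ) - B' * (lam * I (C.Γ χ' φ)) := by ring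
    rw [h3, h2, h4]
    linarith) (by
    filter_upwards [add_ae (q - (1 + 2 * (κ * lam)) • q' - C.lap χ + C.lap χ') (B' • (χ' - χ)),
      add_ae (q - (1 + 2 * (κ * lam)) • q' - C.lap χ) (C.lap χ'),
      sub_ae (q - (1 + 2 * (κ * lam)) • q') (C.lap χ),
      sub_ae q ((1 + 2 * (κ * lam)) • q'), smul_ae q' (1 + 2 * (κ * lam)), smul_ae (χ' - χ) B',
      sub_ae χ' χ, sub_ae (q' - C.lap χ') (B' • χ'), sub_ae q' (C.lap χ'), smul_ae χ' B',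
      mul_ae (1 + χ) (C.Γ f f), mul_ae (1 + χ') (C.Γ f' f'), hc_one_add χ, hc_one_add χ', hgr',
      hhar, hg.exp_eq, hf'.exp_eq, hlp, mul_ae (1 + χ) (C.lap f + C.Γ f f),
      add_ae (C.lap f) (C.Γ f f), nonneg_iff_ae.1 (hC.nonneg _ (hC.test_A hf'.tf).1)]
      with x b1 b2 b3 b4 b5 b6 b7 b8 b9 b10 b11 b12 b13 b14 b15 b16 b17 b18 b19 b20 b21 b22 _
    have hp : 0 < 1 + χ x := by rw [b17]; exact Real.exp_pos _
    have hp' : 0 < 1 + χ' x := by rw [b18]; exact Real.exp_pos _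
    have hp1 : C.lap χ x = (1 + χ x) * C.lap f x + q x := by
      rw [hg.lap, b20, b21, b13, hq, b11, b13]; ring
    have hq'x : q' x ≤ A * (1 + 8 * (|κ| * lam)) * (1 + χ' x) := by
      rw [hq', b12, b14, mul_comm]
      exact mul_le_mul_of_nonneg_right b15 hp'.le
    have hq'0 : 0 ≤ q' x := by
      rw [hq', b12, b14]
      exact mul_nonneg hp'.le b22
    have h1 := hc_pt2 (q := q x) (f' := C.lap χ' x) hA hp b16 hK0 hκ1 hk hq'0 hq'x b19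
    rw [b1, b2, b3, b4, b5, b6, b7, b8, b9, b10, hp1]
    have e1 : (1 + χ' x) - (1 + χ x) = χ' x - χ x := by ring
    rw [e1] at h1
    refine h1.trans (le_of_eq ?_)
    rw [hB'def]; ring)
  filter_upwards [hmp, sub_ae (q' - C.lap χ') (B' • χ'), sub_ae q' (C.lap χ'), smul_ae χ' B',
    mul_ae (1 + χ') (C.Γ f' f'), hc_one_add χ', hf'.exp_eq,
    mul_ae (1 + χ') (C.lap f' + C.Γ f' f'), add_ae (C.lap f') (C.Γ f' f')]
    with x b1 b2 b3 b4 b5 b6 b7 b8 b9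
  rw [b2, b3, b4, hf'.lap, b8, b9, hq', b5, b6] at b1
  have hp' : 0 < 1 + χ' x := by rw [b7]; exact Real.exp_pos _
  have h1 : (1 + χ' x) * -B' ≤ (1 + χ' x) * C.lap f' x := by linarith
  exact le_of_mul_le_mul_left h1 hp'

/-- One step of the scheme. -/
theorem hc_step {c A B D lam : ℝ} {χ f : M →ₘ[m] ℝ} (h : HSt C c A B D χ f) (hl : 0 < lam)
    (hc : 0 < c) (hc1 : c ≤ 1) (hA : 0 ≤ A) (hBB : 0 ≤ B) (hD0 : 0 ≤ D) (hlD : lam * D ≤ 1 / 2)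
    (hk : 8 * (|κ| * lam) ≤ 1) :
    C.lap (C.J lam χ) = lam⁻¹ • (C.J lam χ - χ) ∧
    ∃ f', HSt C c (A * (1 + 8 * (|κ| * lam))) (B + 8 * (|κ| * lam) * A) D (C.J lam χ) f' := by
  have hD := hC.toIsDir
  obtain ⟨hg, hlow, hgr, hlp, hbd⟩ := h
  have hχA := hC.test_A hg.tχ
  have hχ2 := hC.memLp _ hχA.1
  have hlχW := hC.test_lap_mem hg.tχ
  have hκ1 : -(|κ| * lam) ≤ κ * lam := by
    have := mul_le_mul_of_nonneg_right (neg_abs_le κ) hl.le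
    linarith
  have hT' : C.J lam χ ∈ C.Test :=
    hC.J_test hB hl (by linarith) hχA (hC.test_Γ_top hg.tχ)
  have hlap' : C.lap (C.J lam χ) = lam⁻¹ • (C.J lam χ - χ) := hD.lap_eq (hD.J_isLap hl hχ2)
  have hlapJ : C.J lam (C.lap χ) = C.lap (C.J lam χ) := by
    rw [hlap']; exact hD.hc_J_lap hl (hC.test_isLap hg.tχ)
  refine ⟨hlap', ?_⟩
  set χ' := C.J lam χ with hχ'
  have hχ'A := hC.test_A hT'
  have hχ'2 := hC.memLp _ hχ'A.1
  -- lower bound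
  have hlow' : ∀ᵐ x ∂m, c - 1 ≤ χ' x := by
    have h1 := hD.hc_J_le hl (mem_neg hχ2) (K := 1 - c) (by linarith) (by
      filter_upwards [neg_ae χ, hlow] with x a1 a2
      rw [a1]; linarith)
    rw [hD.J_neg hl hχ2] at h1
    filter_upwards [h1, neg_ae (C.J lam χ)] with x a1 a2
    rw [a2] at a1
    linarith
  -- bound of the Laplacian of `χ'`
  have hl2 := hC.memLp _ hlχW
  have hbd' : ∀ᵐ x ∂m, |C.lap χ' x| ≤ D * (1 + χ' x) := by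
    have h1 := hD.hc_J_le hl (mem_sub hl2 (mem_smul D hχ2)) hD0 (by
      filter_upwards [sub_ae (C.lap χ) (D • χ), smul_ae χ D, hbd] with x a1 a2 a3
      rw [a1, a2]
      have := (le_abs_self _).trans a3
      linarith)
    have h2 := hD.hc_J_le hl (mem_sub (mem_neg hl2) (mem_smul D hχ2)) hD0 (by
      filter_upwards [sub_ae (-C.lap χ) (D • χ), smul_ae χ D, neg_ae (C.lap χ), hbd]
        with x a1 a2 a3 a4
      rw [a1, a2, a3]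
      have := (neg_le_abs _).trans a4
      linarith)
    rw [hD.J_sub hl hl2 (mem_smul D hχ2), hD.J_smul hl D hχ2, hlapJ] at h1
    rw [hD.J_sub hl (mem_neg hl2) (mem_smul D hχ2), hD.J_smul hl D hχ2, hD.J_neg hl hl2,
      hlapJ] at h2
    filter_upwards [h1, h2, sub_ae (C.lap χ') (D • χ'), sub_ae (-C.lap χ') (D • χ'),
      smul_ae χ' D, neg_ae (C.lap χ')] with x a1 a2 a3 a4 a5 a6
    rw [a3, a5] at a1
    rw [a4, a5, a6] at a2
    exact abs_le.2 ⟨by linarith, by linarith⟩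
  -- the logarithm
  have hχχ' : C.Γ χ' χ' ∈ C.W := (hC.Γ_mem hB hT' hT').1
  obtain ⟨f', hf'⟩ := hC.hc_log hT' hχχ' hc hc1 hlow'
  -- one step Harnack inequality
  have hhar : ∀ᵐ x ∂m, 1 + χ' x ≤ 2 * (1 + χ x) := by
    filter_upwards [hbd', hf'.exp_eq, smul_ae (χ' - χ) lam⁻¹, sub_ae χ' χ] with x a1 a2 a3 a4
    rw [hlap', a3, a4] at a1
    have hp : 0 < 1 + χ' x := by rw [a2]; exact Real.exp_pos _
    have h1 := (le_abs_self _).trans a1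
    have h2 : χ' x - χ x ≤ lam * D * (1 + χ' x) := by
      have h3 := mul_le_mul_of_nonneg_left h1 hl.le
      rw [← mul_assoc, mul_inv_cancel₀ hl.ne', one_mul] at h3
      linarith
    have h3 : lam * D * (1 + χ' x) ≤ 1 / 2 * (1 + χ' x) :=
      mul_le_mul_of_nonneg_right hlD hp.le
    linarith
  have hgr' := hC.hc_step_gr hB hg hf' hl hlap' hA hgr hk hhar
  have hlp' := hC.hc_step_lp hB hg hf' hl hlap' hA hBB hk hhar hgr' hlp (fun φ hφ => by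
    have a1 := (hD.J_spec hl hl2).2 φ hφ
    rw [hlapJ] at a1
    linarith)
  exact ⟨f', hf', hlow', hgr', hlp', hbd'⟩

end IsGamma

end Vale.Agent.P233
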