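import Vale.Agent.P233.AB.HopfLax

/-!
# Kuwada's inequality for the Hopf-Lax functions
-/

open MeasureTheory Filter Topology Set
open scoped ENNReal NNReal

universe u

set_option linter.unusedSectionVars false

namespace Vale.Agent.P233.AB

section pure

/-- the speed `v ≥ 0` with `α v² + 3 β v⁴ = q`. -/
noncomputable def spd (α β q : ℝ) : ℝ := √(2 * q / (α + √(α ^ 2 + 12 * β * q)))

theorem spd_nonneg (α β q : ℝ) : 0 ≤ spd α β q := Real.sqrt_nonneg _

theorem spd_eq {α β q : ℝ} (hα : 0 < α) (hβ : 0 ≤ β) (hq : 0 ≤ q) :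
    α * spd α β q ^ 2 + 3 * β * spd α β q ^ 4 = q := by
  have h0 : 0 ≤ α ^ 2 + 12 * β * q := by positivity
  set d := √(α ^ 2 + 12 * β * q) with hd
  have hd0 : 0 ≤ d := Real.sqrt_nonneg _
  have hd2 : d ^ 2 = α ^ 2 + 12 * β * q := Real.sq_sqrt h0
  have h1 : spd α β q ^ 2 = 2 * q / (α + d) := Real.sq_sqrt (by positivity)
  have h2 : spd α β q ^ 4 = (2 * q / (α + d)) ^ 2 := by
    rw [← h1]; ring
  rw [h1, h2]
  have hne : α + d ≠ 0 := by positivity
  field_simp
  nlinarith

theorem spd_sq_le {α β q : ℝ} (hα : 0 < α) (hβ : 0 ≤ β) (hq : 0 ≤ q) :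
    spd α β q ^ 2 ≤ q / α := by
  have h := spd_eq hα hβ hq
  rw [le_div_iff₀ hα]
  have : 0 ≤ 3 * β * spd α β q ^ 4 := by positivity
  nlinarith

theorem measurable_spd (α β : ℝ) : Measurable (spd α β) := by
  unfold spd
  fun_prop

/-- Young's inequality for `α v² + β v⁴`. -/
theorem young {α β v w : ℝ} (hα : 0 ≤ α) (hβ : 0 ≤ β) :
    (2 * α * v + 4 * β * v ^ 3) * w
      ≤ (α * v ^ 2 + 3 * β * v ^ 4) + (α * w ^ 2 + β * w ^ 4) := by
  have h1 : 0 ≤ α * (v - w) ^ 2 := by positivity
  have h2 : 0 ≤ β * ((v - w) ^ 2 * (2 * v ^ 2 + (v + w) ^ 2)) := by positivity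
  nlinarith

end pure

section U

variable {M : Type u} [MetricSpace M] {α β K L : ℝ} {h : M → ℝ}

open Classical in
/-- the Hopf-Lax function, extended by `h` to nonpositive times. -/
noncomputable def hlu (α β : ℝ) (h : M → ℝ) (r : ℝ) (x : M) : ℝ :=
  if r ≤ 0 then h x else hl α β h r x

theorem hlu_pos {r : ℝ} (hr : 0 < r) (x : M) : hlu α β h r x = hl α β h r x := by
  unfold hlu
  rw [if_neg (not_le.2 hr)]

theorem hlu_nonpos {r : ℝ} (hr : r ≤ 0) (x : M) : hlu α β h r x = h x := by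
  unfold hlu
  rw [if_pos hr]

namespace Dat

variable (D : Dat α β K L h)
include D

theorem hlu_abs (r : ℝ) (x : M) : |hlu α β h r x| ≤ K := by
  rcases le_or_gt r 0 with hr | hr
  · rw [hlu_nonpos hr]; exact D.hK x
  · rw [hlu_pos hr]; exact D.hl_abs hr x

theorem L_le_cx : L ≤ cx α β L := by
  have hα := D.hα
  have hβ := D.hβ
  have hL0 := D.hL0
  have : 0 ≤ L ^ 2 / (4 * α) + 2 * α * ((L + 1) / α + 2) + 4 * β * ((L + 1) / α + 2) ^ 3 := by
    positivity
  unfold cx
  linarith

theorem hlu_lip (r : ℝ) (x y : M) :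
    |hlu α β h r x - hlu α β h r y| ≤ cx α β L * dist x y := by
  rcases le_or_gt r 0 with hr | hr
  · rw [hlu_nonpos hr, hlu_nonpos hr]
    exact (D.hL x y).trans (mul_le_mul_of_nonneg_right D.L_le_cx dist_nonneg)
  · rw [hlu_pos hr, hlu_pos hr]; exact D.hl_lip hr x y

theorem hlu_anti {r r' : ℝ} (hrr : r ≤ r') (x : M) : hlu α β h r' x ≤ hlu α β h r x := by
  rcases le_or_gt r' 0 with hr' | hr'
  · rw [hlu_nonpos hr', hlu_nonpos (hrr.trans hr')]
  · rcases le_or_gt r 0 with hr | hr
    · rw [hlu_pos hr', hlu_nonpos hr]; exact D.hl_le_self hr' x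
    · rw [hlu_pos hr', hlu_pos hr]; exact D.hl_anti hr hrr x

theorem hlu_time {r r' : ℝ} (hrr : r ≤ r') (x : M) :
    hlu α β h r x - hlu α β h r' x ≤ ct α β L * (r' - r) := by
  have hct := D.ct_nonneg
  rcases le_or_gt r' 0 with hr' | hr'
  · rw [hlu_nonpos hr', hlu_nonpos (hrr.trans hr'), sub_self]
    exact mul_nonneg hct (by linarith)
  · rcases le_or_gt r 0 with hr | hr
    · rw [hlu_pos hr', hlu_nonpos hr]
      have h1 := D.hl_ge_self hr' x
      have hα := D.hα
      have hβ := D.hβ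
      have hL0 := D.hL0
      have h2 : L ^ 2 / (4 * α) ≤ ct α β L := by
        have e : L ^ 2 / (4 * α) ≤ L ^ 2 / (2 * α) := by
          gcongr; norm_num
        unfold ct
        have : 0 ≤ α * (2 * ((L + 1) / α + 1)) ^ 2 + 3 * β * (2 * ((L + 1) / α + 1)) ^ 4 := by
          positivity
        linarith
      have h3 : L ^ 2 / (4 * α) * r' ≤ ct α β L * (r' - r) := by
        have : 0 ≤ L ^ 2 / (4 * α) := by positivity
        nlinarith
      linarith
    · rw [hlu_pos hr', hlu_pos hr]; exact D.hl_time hr hrr x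

theorem hlu_time_abs (r r' : ℝ) (x : M) :
    |hlu α β h r x - hlu α β h r' x| ≤ ct α β L * |r - r'| := by
  rcases le_total r r' with hrr | hrr
  · have h1 := D.hlu_time hrr x
    have h2 := D.hlu_anti hrr x
    rw [abs_of_nonneg (by linarith), abs_of_nonpos (by linarith)]
    linarith
  · have h1 := D.hlu_time hrr x
    have h2 := D.hlu_anti hrr x
    rw [abs_of_nonpos (by linarith), abs_of_nonneg (by linarith)]
    linarith

theorem lip_time (x : M) : LipschitzWith (ct α β L).toNNReal fun r => hlu α β h r x := by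
  refine LipschitzWith.of_dist_le_mul fun r r' => ?_
  rw [Real.dist_eq, Real.dist_eq, Real.coe_toNNReal _ D.ct_nonneg]
  exact D.hlu_time_abs r r' x

theorem lip_space (r : ℝ) : LipschitzWith (cx α β L).toNNReal fun x => hlu α β h r x := by
  refine LipschitzWith.of_dist_le_mul fun x y => ?_
  rw [Real.dist_eq, Real.coe_toNNReal _ D.cx_nonneg]
  exact D.hlu_lip r x y

theorem cont : Continuous (Function.uncurry fun (x : M) (r : ℝ) => hlu α β h r x) := by
  exact continuous_prod_of_continuous_lipschitzWith _ (cx α β L).toNNReal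
    (fun x => (D.lip_time x).continuous) (fun r => D.lip_space r)

/-- the slope at times of differentiability. -/
theorem lipAt_hlu {r q : ℝ} {x : M} (hr : 0 < r)
    (hd : HasDerivAt (fun s => hlu α β h s x) q r) :
    q ≤ 0 ∧ lipAt (hlu α β h r) x
      ≤ ENNReal.ofReal (2 * α * spd α β (-q) + 4 * β * spd α β (-q) ^ 3) := by
  have hq : q ≤ 0 := by
    have h1 := hd.tendsto_slope_zero_right
    refine le_of_tendsto h1 ?_
    filter_upwards [self_mem_nhdsWithin] with s hs
    have hs0 : 0 < s := hs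
    have h2 := D.hlu_anti (by linarith : r ≤ r + s) x
    rw [smul_eq_mul]
    have : 0 < s⁻¹ := by positivity
    nlinarith
  refine ⟨hq, ?_⟩
  have hd' : HasDerivAt (fun s => hl α β h s x) q r := by
    refine hd.congr_of_eventuallyEq ?_
    filter_upwards [lt_mem_nhds hr] with s hs
    exact (hlu_pos hs x).symm
  have h1 := D.lipAt_hl hr (spd_nonneg α β (-q)) hd'
    (spd_eq D.hα D.hβ (by linarith : 0 ≤ -q)).ge
  have h2 : hlu α β h r = hl α β h r := by
    funext y; exact hlu_pos hr y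
  rw [h2]
  exact h1

end Dat

end U

section int

variable {M : Type u} [MetricSpace M] [MeasurableSpace M] [BorelSpace M]
  [SecondCountableTopology M] {m : Measure M} [SFinite m] {α β K L : ℝ} {h : M → ℝ}

namespace Dat

variable (D : Dat α β K L h)
include D

theorem meas_deriv (r : ℝ) : Measurable fun x : M => deriv (fun s => hlu α β h s x) r := by
  have h1 := measurable_deriv_with_param (𝕜 := ℝ) (f := fun (x : M) (s : ℝ) => hlu α β h s x) D.cont
  have h2 : Measurable fun x : M => (x, r) := measurable_prodMk_right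
  exact (h1.comp h2 :)

theorem ae_diff (ε : ℝ) :
    ∀ᵐ t : ℝ, ∀ᵐ x ∂m, DifferentiableAt ℝ (fun s => hlu α β h s x) (ε - t) := by
  have h1 : ∀ᵐ r : ℝ, ∀ᵐ x ∂m, DifferentiableAt ℝ (fun s => hlu α β h s x) r := by
    have hS := measurableSet_of_differentiableAt_with_param (𝕜 := ℝ)
      (f := fun (x : M) (s : ℝ) => hlu α β h s x) D.cont
    have h2 : ∀ᵐ x ∂m, ∀ᵐ r : ℝ, DifferentiableAt ℝ (fun s => hlu α β h s x) r :=
      Eventually.of_forall fun x => (D.lip_time x).ae_differentiableAt_real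
    exact (Measure.ae_ae_comm hS).1 h2
  exact (volume.measurePreserving_sub_left ε).quasiMeasurePreserving.ae h1

theorem deriv_bound {r : ℝ} {x : M} : |deriv (fun s => hlu α β h s x) r| ≤ ct α β L := by
  have h1 := norm_deriv_le_of_lipschitz (x₀ := r) (D.lip_time x)
  rwa [Real.norm_eq_abs, Real.coe_toNNReal _ D.ct_nonneg] at h1

end Dat

/-- the density. -/
noncomputable def rho (F R1 R2 : M → ℝ) (t : ℝ) (x : M) : ℝ := F x + t * R1 x + t ^ 2 / 2 * R2 x

omit [MetricSpace M] [MeasurableSpace M] [BorelSpace M] [SecondCountableTopology M] in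
theorem rho_abs {F R1 R2 : M → ℝ} {t T : ℝ} (ht : |t| ≤ T) (x : M) :
    |rho F R1 R2 t x| ≤ |F x| + T * |R1 x| + T ^ 2 * |R2 x| := by
  unfold rho
  have h1 : |t * R1 x| ≤ T * |R1 x| := by
    rw [abs_mul]; gcongr
  have h2 : |t ^ 2 / 2 * R2 x| ≤ T ^ 2 * |R2 x| := by
    rw [abs_mul]
    gcongr
    rw [abs_of_nonneg (by positivity)]
    have : t ^ 2 ≤ T ^ 2 := by
      rw [← sq_abs t]
      gcongr
    nlinarith [sq_nonneg t]
  calc |F x + t * R1 x + t ^ 2 / 2 * R2 x| ≤ |F x| + |t * R1 x| + |t ^ 2 / 2 * R2 x| :=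
        abs_add_three _ _ _
    _ ≤ _ := by linarith

omit [MetricSpace M] [MeasurableSpace M] [BorelSpace M] [SecondCountableTopology M] in
theorem rho_sub {F R1 R2 : M → ℝ} {t t' T : ℝ} (ht : |t| ≤ T) (ht' : |t'| ≤ T) (x : M) :
    |rho F R1 R2 t x - rho F R1 R2 t' x| ≤ (|R1 x| + T * |R2 x|) * |t - t'| := by
  have e : rho F R1 R2 t x - rho F R1 R2 t' x = (t - t') * (R1 x + (t + t') / 2 * R2 x) := by
    unfold rho; ring
  rw [e, abs_mul, mul_comm]
  gcongr
  refine (abs_add_le _ _).trans ?_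
  gcongr
  rw [abs_mul]
  gcongr
  rw [abs_div, abs_two, div_le_iff₀ two_pos]
  calc |t + t'| ≤ |t| + |t'| := abs_add_le _ _
    _ ≤ T * 2 := by linarith

omit [MetricSpace M] [BorelSpace M] [SecondCountableTopology M] in
theorem rho_int {F R1 R2 : M → ℝ} (hF : Integrable F m) (h1 : Integrable R1 m)
    (h2 : Integrable R2 m) (t : ℝ) : Integrable (rho F R1 R2 t) m :=
  (hF.add (h1.const_mul t)).add (h2.const_mul (t ^ 2 / 2))

theorem Dat.hl_int (D : Dat α β K L h) {ε : ℝ} (hε : 0 < ε) {F R1 R2 : M → ℝ}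
    (hF : Integrable F m) (h1 : Integrable R1 m) (h2 : Integrable R2 m)
    (hρ : ∀ t ∈ Icc 0 ε, ∀ᵐ x ∂m, 0 ≤ rho F R1 R2 t x)
    (w : ℝ → M → ℝ) (hwm : ∀ t ∈ Icc 0 ε, AEStronglyMeasurable (w t) m)
    (hwi : ∀ t ∈ Icc 0 ε,
      Integrable (fun x => rho F R1 R2 t x * (α * w t x ^ 2 + β * w t x ^ 4)) m)
    (act : ℝ → ℝ) (hai : IntervalIntegrable act volume 0 ε)
    (hact : ∀ t ∈ Icc 0 ε, ∫ x, rho F R1 R2 t x * (α * w t x ^ 2 + β * w t x ^ 4) ∂m ≤ act t)
    (H : ∀ t ∈ Icc 0 ε, ∀ g : M → ℝ, (∃ C, LipschitzWith C g) → (∃ b, ∀ x, |g x| ≤ b) →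
      ∀ ℓ : M → ℝ, Measurable ℓ → (∀ x, 0 ≤ ℓ x) → (∃ b, ∀ x, ℓ x ≤ b) →
      (∀ᵐ x ∂m, lipAt g x ≤ ENNReal.ofReal (ℓ x)) →
      Integrable (fun x => rho F R1 R2 t x * (ℓ x * w t x)) m →
      -∫ x, rho F R1 R2 t x * (ℓ x * w t x) ∂m ≤ ∫ x, g x * (R1 x + t * R2 x) ∂m) :
    ∫ x, hl α β h ε x * F x ∂m
      ≤ ∫ x, h x * rho F R1 R2 ε x ∂m + ∫ t in (0 : ℝ)..ε, act t := by
  have hα := D.hα
  have hβ := D.hβ
  have hct := D.ct_nonneg
  set ρ := rho F R1 R2 with hρdef
  set U := hlu α β h with hU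
  set G : ℝ → ℝ := fun t => ∫ x, U (ε - t) x * ρ t x ∂m with hG
  set bd : M → ℝ := fun x => ct α β L * (|F x| + (ε + 1) * |R1 x| + (ε + 1) ^ 2 * |R2 x|)
    + |K| * (|R1 x| + (ε + 1) * |R2 x|) with hbd
  have hbdi : Integrable bd m := by
    refine Integrable.add (Integrable.const_mul ?_ _) (Integrable.const_mul ?_ _)
    · exact (hF.abs.add (h1.abs.const_mul _)).add (h2.abs.const_mul _)
    · exact h1.abs.add (h2.abs.const_mul _)
  have hbd0 : ∀ x, 0 ≤ bd x := by
    intro x
    have : 0 ≤ ε + 1 := by linarith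
    positivity
  have hlip : ∀ t t' : ℝ, |t| ≤ ε + 1 → |t'| ≤ ε + 1 → ∀ x,
      |U (ε - t) x * ρ t x - U (ε - t') x * ρ t' x| ≤ bd x * |t - t'| := by
    intro t t' ht ht' x
    have e : U (ε - t) x * ρ t x - U (ε - t') x * ρ t' x
        = (U (ε - t) x - U (ε - t') x) * ρ t x + U (ε - t') x * (ρ t x - ρ t' x) := by ring
    rw [e]
    have a1 := D.hlu_time_abs (ε - t) (ε - t') x
    have a2 := rho_abs (F := F) (R1 := R1) (R2 := R2) ht x
    have a3 := rho_sub (F := F) (R1 := R1) (R2 := R2) ht ht' x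
    have a4 : |U (ε - t') x| ≤ |K| := (D.hlu_abs _ x).trans (le_abs_self K)
    have a5 : |ε - t - (ε - t')| = |t - t'| := by
      rw [show ε - t - (ε - t') = -(t - t') by ring, abs_neg]
    rw [a5] at a1
    refine (abs_add_le _ _).trans ?_
    rw [abs_mul, abs_mul]
    have b1 : |U (ε - t) x - U (ε - t') x| * |ρ t x| ≤
        (ct α β L * |t - t'|) * (|F x| + (ε + 1) * |R1 x| + (ε + 1) ^ 2 * |R2 x|) := by
      gcongr
    have b2 : |U (ε - t') x| * |ρ t x - ρ t' x| ≤
        |K| * ((|R1 x| + (ε + 1) * |R2 x|) * |t - t'|) := by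
      gcongr
    calc _ ≤ _ := add_le_add b1 b2
      _ = bd x * |t - t'| := by rw [hbd]; ring
  have hUm : ∀ r, Measurable (U r) := fun r => (D.lip_space r).continuous.measurable
  have hint : ∀ t : ℝ, Integrable (fun x => U (ε - t) x * ρ t x) m := by
    intro t
    refine (rho_int hF h1 h2 t).bdd_mul (c := |K|) (hUm _).aestronglyMeasurable ?_
    exact Eventually.of_forall fun x => by
      rw [Real.norm_eq_abs]; exact (D.hlu_abs _ x).trans (le_abs_self K)
  -- absolute continuity
  have hGlip : LipschitzOnWith (∫ x, bd x ∂m).toNNReal G (uIcc 0 ε) := by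
    refine LipschitzOnWith.of_dist_le_mul fun t ht t' ht' => ?_
    rw [uIcc_of_le hε.le] at ht ht'
    rw [Real.dist_eq, Real.dist_eq, Real.coe_toNNReal _ (integral_nonneg hbd0)]
    have ht1 : |t| ≤ ε + 1 := by rw [abs_of_nonneg ht.1]; linarith [ht.2]
    have ht1' : |t'| ≤ ε + 1 := by rw [abs_of_nonneg ht'.1]; linarith [ht'.2]
    rw [hG]
    dsimp only
    rw [← integral_sub (hint t) (hint t')]
    refine (abs_integral_le_integral_abs).trans ?_
    rw [← integral_mul_const]
    refine integral_mono_ae ((hint t).sub (hint t')).abs (hbdi.mul_const _) ?_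
    exact Eventually.of_forall fun x => hlip t t' ht1 ht1' x
  have hAC := hGlip.absolutelyContinuousOnInterval
  have hftc := hAC.integral_deriv_eq_sub
  -- the derivative
  have key : ∀ᵐ t : ℝ, t ∈ Ioo 0 ε → -act t ≤ deriv G t := by
    filter_upwards [D.ae_diff (m := m) ε] with t ht htI
    have htI' : t ∈ Icc 0 ε := ⟨htI.1.le, htI.2.le⟩
    have hr : 0 < ε - t := by linarith [htI.2]
    set q : M → ℝ := fun x => deriv (fun s => U s x) (ε - t) with hq
    have hqm : Measurable q := D.meas_deriv _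
    set F' : M → ℝ := fun x => -q x * ρ t x + U (ε - t) x * (R1 x + t * R2 x) with hF'
    have hqb : ∀ x, |q x| ≤ ct α β L := fun x => D.deriv_bound
    have hi1 : Integrable (fun x => -q x * ρ t x) m := by
      refine (rho_int hF h1 h2 t).bdd_mul (c := ct α β L) hqm.neg.aestronglyMeasurable ?_
      exact Eventually.of_forall fun x => by
        rw [Real.norm_eq_abs]
        exact (abs_neg (q x)).trans_le (hqb x)
    have hi2 : Integrable (fun x => U (ε - t) x * (R1 x + t * R2 x)) m := by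
      refine (h1.add (h2.const_mul t)).bdd_mul (c := |K|) (hUm _).aestronglyMeasurable ?_
      exact Eventually.of_forall fun x => by
        rw [Real.norm_eq_abs]; exact (D.hlu_abs _ x).trans (le_abs_self K)
    have hder : HasDerivAt G (∫ x, F' x ∂m) t := by
      refine (hasDerivAt_integral_of_dominated_loc_of_lip (𝕜 := ℝ) (μ := m)
        (F := fun t x => U (ε - t) x * ρ t x) (F' := F') (x₀ := t) (bound := bd)
        (s := Ioo 0 ε) (isOpen_Ioo.mem_nhds htI) ?_ (hint t) ?_ ?_ hbdi ?_).2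
      · exact Eventually.of_forall fun s => (hint s).aestronglyMeasurable
      · exact (hi1.add hi2).aestronglyMeasurable
      · refine Eventually.of_forall fun x => ?_
        refine LipschitzOnWith.of_dist_le_mul fun s hs s' hs' => ?_
        rw [Real.dist_eq, Real.dist_eq, Real.coe_nnabs, abs_of_nonneg (hbd0 x)]
        exact hlip s s' (by rw [abs_of_nonneg hs.1.le]; linarith [hs.2])
          (by rw [abs_of_nonneg hs'.1.le]; linarith [hs'.2]) x
      · filter_upwards [ht] with x hx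
        have d1 : HasDerivAt (fun s => U (ε - s) x) (-q x) t := by
          have := hx.hasDerivAt.comp_const_sub ε t
          exact this
        have d2 : HasDerivAt (fun s => ρ s x) (R1 x + t * R2 x) t := by
          have e : (fun s => ρ s x) = fun s => F x + s * R1 x + s ^ 2 / 2 * R2 x := rfl
          rw [e]
          have := (((hasDerivAt_id t).mul_const (R1 x)).const_add (F x)).add
            (((hasDerivAt_pow 2 t).div_const 2).mul_const (R2 x))
          refine this.congr_deriv ?_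
          simp
        exact d1.mul d2
    rw [hder.deriv]
    have hsplit : ∫ x, F' x ∂m = ∫ x, -q x * ρ t x ∂m + ∫ x, U (ε - t) x * (R1 x + t * R2 x) ∂m :=
      integral_add hi1 hi2
    rw [hsplit]
    -- the slope
    set v : M → ℝ := fun x => spd α β (-q x) with hv
    set ℓ : M → ℝ := fun x => 2 * α * v x + 4 * β * v x ^ 3 with hℓ
    have hvm : Measurable v := (measurable_spd α β).comp hqm.neg
    have hv0 : ∀ x, 0 ≤ v x := fun x => spd_nonneg _ _ _
    have hℓm : Measurable ℓ := (hvm.const_mul (2 * α)).add ((hvm.pow_const 3).const_mul (4 * β))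
    have hℓ0 : ∀ x, 0 ≤ ℓ x := by
      intro x
      have := hv0 x
      positivity
    -- the boundedness of the speed
    have hvb : ∀ x, v x ≤ √(ct α β L / α) := by
      intro x
      by_cases hqx : 0 ≤ -q x
      · refine Real.le_sqrt_of_sq_le ((spd_sq_le hα hβ hqx).trans ?_)
        gcongr
        exact (neg_le_abs _).trans (hqb x)
      · push Not at hqx
        have : v x = 0 := by
          rw [hv]
          dsimp only
          unfold spd
          refine Real.sqrt_eq_zero_of_nonpos ?_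
          exact div_nonpos_of_nonpos_of_nonneg (by linarith) (by positivity)
        rw [this]
        exact Real.sqrt_nonneg _
    set V := √(ct α β L / α) with hV
    have hV0 : 0 ≤ V := Real.sqrt_nonneg _
    have hℓb : ∀ x, ℓ x ≤ 2 * α * V + 4 * β * V ^ 3 := by
      intro x
      have := hvb x
      have := hv0 x
      rw [hℓ]
      dsimp only
      gcongr
    have hsl : ∀ᵐ x ∂m, 0 ≤ -q x ∧ lipAt (U (ε - t)) x ≤ ENNReal.ofReal (ℓ x) := by
      filter_upwards [ht] with x hx
      have := D.lipAt_hlu hr hx.hasDerivAt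
      exact ⟨by linarith [this.1], this.2⟩
    -- integrability of the mixed term
    have hρt := hρ t htI'
    have hi3 : Integrable (fun x => ρ t x * (ℓ x * w t x)) m := by
      set B := 2 * α * V + 4 * β * V ^ 3 with hB
      have hB0 : 0 ≤ B := by positivity
      refine Integrable.mono' (g := fun x => B * (ρ t x + α⁻¹ *
        (ρ t x * (α * w t x ^ 2 + β * w t x ^ 4)))) ?_ ?_ ?_
      · exact ((rho_int hF h1 h2 t).add ((hwi t htI').const_mul _)).const_mul _
      · exact (rho_int hF h1 h2 t).aestronglyMeasurable.mul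
          (hℓm.aestronglyMeasurable.mul (hwm t htI'))
      · filter_upwards [hρt] with x hx
        rw [Real.norm_eq_abs, abs_mul, abs_mul, abs_of_nonneg hx, abs_of_nonneg (hℓ0 x)]
        have c1 : |w t x| ≤ 1 + α⁻¹ * (α * w t x ^ 2 + β * w t x ^ 4) := by
          have : α⁻¹ * (α * w t x ^ 2 + β * w t x ^ 4) = w t x ^ 2 + α⁻¹ * (β * w t x ^ 4) := by
            field_simp
          rw [this]
          have : 0 ≤ α⁻¹ * (β * w t x ^ 4) := by positivity
          nlinarith [abs_nonneg (w t x), sq_abs (w t x), sq_nonneg (|w t x| - 1)]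
        calc ρ t x * (ℓ x * |w t x|) ≤ ρ t x * (B * (1 + α⁻¹ * (α * w t x ^ 2 + β * w t x ^ 4))) := by
              have := hℓb x
              have := hℓ0 x
              gcongr
          _ = _ := by ring
    have hH := H t htI' (U (ε - t)) ⟨_, D.lip_space (ε - t)⟩
      ⟨K, fun x => D.hlu_abs _ x⟩ ℓ hℓm hℓ0 ⟨_, hℓb⟩ (hsl.mono fun x hx => hx.2) hi3
    have hpt : ∫ x, ρ t x * (ℓ x * w t x) ∂m ≤ ∫ x, -q x * ρ t x ∂m
        + ∫ x, ρ t x * (α * w t x ^ 2 + β * w t x ^ 4) ∂m := by
      rw [← integral_add hi1 (hwi t htI')]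
      refine integral_mono_ae hi3 (hi1.add (hwi t htI')) ?_
      filter_upwards [hρt, hsl] with x hx hx2
      have y1 := young (v := v x) (w := w t x) hα.le hβ
      have y2 := spd_eq hα hβ hx2.1
      change α * v x ^ 2 + 3 * β * v x ^ 4 = -q x at y2
      rw [y2] at y1
      calc ρ t x * (ℓ x * w t x) ≤ ρ t x * (-q x + (α * w t x ^ 2 + β * w t x ^ 4)) :=
            mul_le_mul_of_nonneg_left y1 hx
        _ = _ := by ring
    have := hact t htI'
    linarith
  -- integrate
  have h3 : -∫ t in (0 : ℝ)..ε, act t ≤ ∫ t in (0 : ℝ)..ε, deriv G t := by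
    rw [← intervalIntegral.integral_neg]
    refine intervalIntegral.integral_mono_ae_restrict hε.le hai.neg
      hAC.intervalIntegrable_deriv ?_
    refine (ae_restrict_iff' measurableSet_Icc).2 ?_
    have hz : ∀ᵐ t : ℝ, t ≠ 0 ∧ t ≠ ε := by
      have z1 : ∀ᵐ t : ℝ, t ≠ 0 := by simp [ae_iff]
      have z2 : ∀ᵐ t : ℝ, t ≠ ε := by simp [ae_iff]
      exact z1.and z2
    filter_upwards [key, hz] with t ht1 ht2 ht3
    exact ht1 ⟨lt_of_le_of_ne ht3.1 (Ne.symm ht2.1), lt_of_le_of_ne ht3.2 ht2.2⟩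
  rw [hftc] at h3
  have e1 : G ε = ∫ x, h x * ρ ε x ∂m := by
    rw [hG]
    dsimp only
    refine integral_congr_ae (Eventually.of_forall fun x => ?_)
    dsimp only
    rw [hU, sub_self, hlu_nonpos le_rfl]
  have e2 : G 0 = ∫ x, hl α β h ε x * F x ∂m := by
    rw [hG]
    dsimp only
    refine integral_congr_ae (Eventually.of_forall fun x => ?_)
    dsimp only
    rw [hU, sub_zero, hlu_pos hε, hρdef]
    unfold rho
    ring
  rw [e1, e2] at h3
  linarith

end int

end Vale.Agent.P233.AB
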