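import Vale.Agent.P233.AB.HA2
import Vale.Agent.P233.AB.Grad
import Vale.Agent.P233.AB.Tens3

open MeasureTheory Filter Topology
open scoped ENNReal NNReal InnerProductSpace

namespace Vale.Agent.P233

/-- representation of a functional that is bounded by the norm of a linear map -/
theorem riesz_gen {E R : Type*} [NormedAddCommGroup E] [InnerProductSpace ℝ E] [CompleteSpace E]
    [AddCommGroup R] [Module ℝ R] (T : R →ₗ[ℝ] E) (L : R →ₗ[ℝ] ℝ) (K A : ℝ) (hA : 0 ≤ A)
    (h : ∀ r, 0 ≤ K + 2 * L r + A * ‖T r‖ ^ 2) :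
    ∃ σ ∈ (LinearMap.range T).topologicalClosure, ∀ r, L r = ⟪σ, T r⟫_ℝ := by
  have hK : 0 ≤ K := by simpa using h 0
  have hsq : ∀ r, L r ^ 2 ≤ K * A * ‖T r‖ ^ 2 := by
    intro r
    have h1 : ∀ t : ℝ, 0 ≤ (A * ‖T r‖ ^ 2) * (t * t) + (2 * L r) * t + K := by
      intro t
      have h2 := h (t • r)
      rw [map_smul, map_smul, norm_smul, Real.norm_eq_abs, mul_pow, sq_abs, smul_eq_mul] at h2
      linarith
    have := discrim_le_zero h1
    unfold discrim at this
    nlinarith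
  have habs : ∀ r, |L r| ≤ Real.sqrt (K * A) * ‖T r‖ := by
    intro r
    refine abs_le_of_sq_le_sq ?_ (by positivity)
    rw [mul_pow, Real.sq_sqrt (by positivity)]
    exact hsq r
  have hker : LinearMap.ker T ≤ LinearMap.ker L := by
    intro r hr
    rw [LinearMap.mem_ker] at hr ⊢
    have := habs r
    rw [hr, norm_zero, mul_zero] at this
    exact abs_eq_zero.1 (le_antisymm this (abs_nonneg _))
  let f0 : LinearMap.range T →ₗ[ℝ] ℝ :=
    ((LinearMap.ker T).liftQ L hker).comp T.quotKerEquivRange.symm.toLinearMap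
  have hf0 : ∀ r, f0 ⟨T r, LinearMap.mem_range_self T r⟩ = L r := by
    intro r
    change (LinearMap.ker T).liftQ L hker (T.quotKerEquivRange.symm _) = L r
    rw [LinearMap.quotKerEquivRange_symm_apply_image]
    simp
  let f : LinearMap.range T →L[ℝ] ℝ := f0.mkContinuous (Real.sqrt (K * A)) (by
    rintro ⟨_, r, rfl⟩
    rw [Real.norm_eq_abs]
    have := habs r
    rw [← hf0 r] at this
    exact this)
  obtain ⟨g, hg, -⟩ := exists_extension_norm_eq (LinearMap.range T) f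
  set P := (LinearMap.range T).topologicalClosure with hP
  have : CompleteSpace P := (Submodule.isClosed_topologicalClosure _).completeSpace_coe
  set σ₀ := (InnerProductSpace.toDual ℝ E).symm g with hσ₀
  refine ⟨P.starProjection σ₀, Submodule.starProjection_apply_mem P σ₀, fun r => ?_⟩
  have hT : T r ∈ P := Submodule.le_topologicalClosure _ (LinearMap.mem_range_self T r)
  have h1 : ⟪σ₀, T r⟫_ℝ = L r := by
    rw [hσ₀, InnerProductSpace.toDual_symm_apply]
    have := hg ⟨T r, LinearMap.mem_range_self T r⟩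
    exact this.trans (hf0 r)
  have h2 := Submodule.starProjection_inner_eq_zero σ₀ (T r) hT
  rw [inner_sub_left, h1] at h2
  linarith

variable {M : Type*} [MeasurableSpace M] {m : Measure M} {C : Calc m}

theorem fsum_ae {ι : Type*} (s : Finset ι) (f : ι → M →ₘ[m] ℝ) :
    ∀ᵐ x ∂m, (∑ i ∈ s, f i : M →ₘ[m] ℝ) x = ∑ i ∈ s, f i x := by
  classical
  induction s using Finset.induction_on with
  | empty =>
    filter_upwards [zero_ae (M := M) (m := m)] with x h
    simpa using h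
  | insert i s hi ih =>
    filter_upwards [ih, add_ae (f i) (∑ i ∈ s, f i)] with x h1 h2
    rw [Finset.sum_insert hi, Finset.sum_insert hi, h2, h1]

theorem I_fsum {ι : Type*} (s : Finset ι) {f : ι → M →ₘ[m] ℝ} (hf : ∀ i ∈ s, MemLp (f i) 1 m) :
    I (∑ i ∈ s, f i) = ∑ i ∈ s, I (f i) ∧ MemLp (∑ i ∈ s, f i : M →ₘ[m] ℝ) 1 m := by
  classical
  induction s using Finset.induction_on with
  | empty => simpa using ⟨I_zero, mem_zero⟩
  | insert i s hi ih =>
    obtain ⟨h1, h2⟩ := ih fun j hj => hf j (Finset.mem_insert_of_mem hj)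
    have h3 := hf i (Finset.mem_insert_self i s)
    rw [Finset.sum_insert hi, Finset.sum_insert hi, I_add h3 h2, h1]
    exact ⟨rfl, mem_add h3 h2⟩

theorem mem_fsum {ι : Type*} {p : ℝ≥0∞} (s : Finset ι) {f : ι → M →ₘ[m] ℝ}
    (hf : ∀ i ∈ s, MemLp (f i) p m) : MemLp (∑ i ∈ s, f i : M →ₘ[m] ℝ) p m := by
  classical
  induction s using Finset.induction_on with
  | empty => simpa using mem_zero
  | insert i s hi ih =>
    rw [Finset.sum_insert hi]
    exact mem_add (hf i (Finset.mem_insert_self i s))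
      (ih fun j hj => hf j (Finset.mem_insert_of_mem hj))

variable {E : Type*} [NormedAddCommGroup E] [InnerProductSpace ℝ E] {Gr : (M →ₘ[m] ℝ) → M → E}

omit [InnerProductSpace ℝ E] in
theorem lpsum_ae {ι : Type*} (s : Finset ι) (f : ι → Lp E 2 m) :
    ∀ᵐ x ∂m, (∑ i ∈ s, f i : Lp E 2 m) x = ∑ i ∈ s, f i x := by
  classical
  induction s using Finset.induction_on with
  | empty =>
    filter_upwards [Lp.coeFn_zero E 2 m] with x h
    simpa using h
  | insert i s hi ih =>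
    filter_upwards [ih, Lp.coeFn_add (f i) (∑ i ∈ s, f i)] with x h1 h2
    rw [Finset.sum_insert hi, Finset.sum_insert hi, h2, Pi.add_apply, h1]

namespace IsGrad

variable (hG : IsGrad C Gr)
include hG

/-- `s ∇F` is in `L²` for bounded `s` -/
theorem smul_mem2 {s F : M →ₘ[m] ℝ} (hs : MemLp s ∞ m) (hF : F ∈ C.W) :
    MemLp (fun x => s x • Gr F x) 2 m := by
  have := (hG.mem F hF).smul (p := ∞) (r := 2) hs
  exact this

end IsGrad

namespace IsGamma

variable (hC : IsGamma C) {κ : ℝ} (hB : C.BEi κ) (hG : IsGrad C Gr)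
variable {f g h φ ψ b k a c : M →ₘ[m] ℝ}

include hC hB

/-- an `L²` function orthogonal to all test functions vanishes -/
theorem eq_zero_of_test2 [SigmaFinite m] {G : M →ₘ[m] ℝ} (hG2 : MemLp G 2 m)
    (h : ∀ s ∈ C.Test, I (s * G) = 0) : G = 0 := by
  obtain ⟨χ, Λ, hT, -, -, hconv, -⟩ := hC.exists_cut hB
  have h1 : ∀ k, χ k * G = 0 := fun k => by
    refine hC.eq_zero_of_forall_test hB (mem_mul_22 (hC.memLp _ (hC.tW (hT k))) hG2) fun s hs => ?_
    rw [← mul_assoc]
    exact h _ (hC.test_mul hB hs (hT k))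
  have h2 : ∀ᵐ x ∂m, ∀ k, (χ k * G) x = χ k x * G x := ae_all_iff.2 fun k => mul_ae _ _
  rw [eq_iff_ae]
  filter_upwards [hconv, h2, zero_ae (M := M) (m := m)] with x a1 a2 a3
  rw [a3]
  have a4 : ∀ k, χ k x * G x = 0 := fun k => by rw [← a2 k, h1 k, a3]
  have a5 := a1.mul_const (G x)
  simp only [a4, one_mul] at a5
  exact (tendsto_nhds_unique a5 tendsto_const_nhds)

include hG

/-- the vector fields `∇_{∇a} ∇b` -/
theorem exists_U [SigmaFinite m] [CompleteSpace E] (hb : b ∈ C.Test) (ha : a ∈ C.Test) :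
    ∃ u : M → E, MemLp u 2 m ∧ (∀ c ∈ C.Test, ∀ᵐ x ∂m, ⟪u x, Gr c x⟫_ℝ = C.hess b a c x) ∧
      ∀ ε > 0, ∃ Z, C.IsTestV Z ∧ eLpNorm (fun x => u x - fvec Gr Z x) 2 m < ε := by
  classical
  obtain ⟨L0, hL0⟩ := mem_top_iff.1 (hC.test_Γ_top ha)
  let P := {p : (M →ₘ[m] ℝ) × (M →ₘ[m] ℝ) // p.1 ∈ C.Test ∧ p.2 ∈ C.Test}
  have hP : ∀ p : P, MemLp (fun x => p.1.1 x • Gr p.1.2 x) 2 m := fun p =>
    hG.smul_mem2 (hC.test_A p.2.1).2 (hC.tW p.2.2)
  let v : P → Lp E 2 m := fun p => (hP p).toLp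
  let T : (P →₀ ℝ) →ₗ[ℝ] Lp E 2 m := Finsupp.linearCombination ℝ v
  let L : (P →₀ ℝ) →ₗ[ℝ] ℝ :=
    Finsupp.linearCombination ℝ (fun p : P => I (p.1.1 * C.hess b a p.1.2))
  have hT : ∀ r, ∀ᵐ x ∂m, T r x = ∑ p ∈ r.support, (r p * p.1.1 x) • Gr p.1.2 x := by
    intro r
    have h1 : T r = ∑ p ∈ r.support, r p • v p := by
      change Finsupp.linearCombination ℝ v r = _
      rw [Finsupp.linearCombination_apply, Finsupp.sum]
    have h2 : ∀ᵐ x ∂m, ∀ p : r.support, (r p • v p.1 : Lp E 2 m) x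
        = (r p * p.1.1.1 x) • Gr p.1.1.2 x := by
      rw [ae_all_iff]
      intro p
      filter_upwards [Lp.coeFn_smul (r p) (v p), (hP p).coeFn_toLp] with x a1 a2
      rw [a1, Pi.smul_apply, a2, smul_smul]
    filter_upwards [lpsum_ae r.support (fun p => r p • v p), h2] with x a1 a2
    rw [h1, a1]
    exact Finset.sum_congr rfl fun p hp => a2 ⟨p, hp⟩
  have hL : ∀ r, L r = ∑ p ∈ r.support, r p * I (p.1.1 * C.hess b a p.1.2) := by
    intro r
    change Finsupp.linearCombination ℝ (fun p : P => I (p.1.1 * C.hess b a p.1.2)) r = _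
    rw [Finsupp.linearCombination_apply, Finsupp.sum]
    rfl
  have hpos : ∀ r, 0 ≤ (I (C.lap b ^ 2) - κ * I (C.Γ b b)) / 2 + 2 * L r
      + (2 * |L0|) * ‖T r‖ ^ 2 := by
    intro r
    have sum_eq : ∀ {β : Type _} [AddCommMonoid β] (f : P → β),
        ∑ k : Fin r.support.card, f (r.support.equivFin.symm k) = ∑ i ∈ r.support, f i := by
      intro β _ f
      rw [← Finset.sum_coe_sort r.support f]
      exact Equiv.sum_comp r.support.equivFin.symm (fun i : r.support => f i)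
    have h1 := hC.tensor_ineq_one hB hb (n := r.support.card)
      (F := fun _ => a) (H := fun k => (r.support.equivFin.symm k).1.1.2)
      (s := fun k => r (r.support.equivFin.symm k) • (r.support.equivFin.symm k).1.1.1)
      (fun _ => ha) (fun k => (r.support.equivFin.symm k).1.2.2)
      (fun k => mem_smul _ (hC.test_A (r.support.equivFin.symm k).1.2.1).2)
      (fun k => mem_smul _ (hC.memLp _ (hC.tW (r.support.equivFin.symm k).1.2.1)))
    have e1 : ∑ k : Fin r.support.card, I ((r (r.support.equivFin.symm k) •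
        (r.support.equivFin.symm k).1.1.1) * C.KK b a (r.support.equivFin.symm k).1.1.2)
        = 2 * L r := by
      rw [sum_eq (fun p => I ((r p • p.1.1) * C.KK b a p.1.2)), hL, Finset.mul_sum]
      refine Finset.sum_congr rfl fun p _ => ?_
      unfold Calc.KK
      rw [smul_mul_assoc, mul_smul_comm, I_smul, I_smul]
      ring
    have e2 : ∑ i : Fin r.support.card, ∑ j : Fin r.support.card,
        I ((r (r.support.equivFin.symm i) • (r.support.equivFin.symm i).1.1.1) *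
          (r (r.support.equivFin.symm j) • (r.support.equivFin.symm j).1.1.1) *
          C.MM a (r.support.equivFin.symm i).1.1.2 a (r.support.equivFin.symm j).1.1.2)
        = I (∑ p ∈ r.support, ∑ q ∈ r.support, (r p • p.1.1) * (r q • q.1.1)
          * C.MM a p.1.2 a q.1.2) ∧ MemLp (∑ p ∈ r.support, ∑ q ∈ r.support,
            (r p • p.1.1) * (r q • q.1.1) * C.MM a p.1.2 a q.1.2 : M →ₘ[m] ℝ) 1 m := by
      have hm : ∀ p q : P, MemLp ((r p • p.1.1) * (r q • q.1.1) * C.MM a p.1.2 a q.1.2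
          : M →ₘ[m] ℝ) 1 m := fun p q =>
        mem_mul_top (mem_mul_top (mem_smul _ (hC.test_A p.2.1).2) (mem_smul _ (hC.test_A q.2.1).2))
          (hC.MM_mem1 hB ha p.2.2 ha q.2.2)
      have hm2 : ∀ p : P, MemLp (∑ q ∈ r.support, (r p • p.1.1) * (r q • q.1.1)
          * C.MM a p.1.2 a q.1.2 : M →ₘ[m] ℝ) 1 m := fun p => (I_fsum _ fun q _ => hm p q).2
      refine ⟨?_, (I_fsum _ fun p _ => hm2 p).2⟩
      rw [(I_fsum _ fun p _ => hm2 p).1, ← sum_eq]
      refine Finset.sum_congr rfl fun i _ => ?_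
      rw [(I_fsum _ fun q _ => hm _ q).1, ← sum_eq]
    have e3 : I (∑ p ∈ r.support, ∑ q ∈ r.support, (r p • p.1.1) * (r q • q.1.1)
          * C.MM a p.1.2 a q.1.2) ≤ 2 * |L0| * ‖T r‖ ^ 2 := by
      have n1 : ‖T r‖ ^ 2 = ∫ x, ‖T r x‖ ^ 2 ∂m := by
        rw [← real_inner_self_eq_norm_sq, L2.inner_def]
        refine integral_congr_ae ?_
        filter_upwards with x
        rw [real_inner_self_eq_norm_sq]
      rw [n1, ← integral_const_mul]
      refine integral_mono_ae (int_of_mem e2.2) ((Lp.memLp (T r)).integrable_norm_pow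
        (two_ne_zero)|>.const_mul _) ?_
      have c1 : ∀ᵐ x ∂m, (∑ p ∈ r.support, ∑ q ∈ r.support, (r p • p.1.1) * (r q • q.1.1)
          * C.MM a p.1.2 a q.1.2 : M →ₘ[m] ℝ) x
          = ∑ p ∈ r.support, ∑ q ∈ r.support, (r p * p.1.1 x) * (r q * q.1.1 x)
            * (C.Γ a a x * C.Γ q.1.2 p.1.2 x + C.Γ a p.1.2 x * C.Γ q.1.2 a x) := by
        have c2 : ∀ᵐ x ∂m, ∀ p : r.support, (∑ q ∈ r.support, (r p • p.1.1.1) * (r q • q.1.1)
            * C.MM a p.1.1.2 a q.1.2 : M →ₘ[m] ℝ) x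
            = ∑ q ∈ r.support, ((r p • p.1.1.1) * (r q • q.1.1)
            * C.MM a p.1.1.2 a q.1.2 : M →ₘ[m] ℝ) x := by
          rw [ae_all_iff]; intro p; exact fsum_ae _ _
        have c3 : ∀ᵐ x ∂m, ∀ p q : r.support, ((r p • p.1.1.1) * (r q • q.1.1.1)
            * C.MM a p.1.1.2 a q.1.1.2 : M →ₘ[m] ℝ) x = (r p * p.1.1.1 x) * (r q * q.1.1.1 x)
            * (C.Γ a a x * C.Γ q.1.1.2 p.1.1.2 x + C.Γ a p.1.1.2 x * C.Γ q.1.1.2 a x) := by
          rw [ae_all_iff]; intro p; rw [ae_all_iff]; intro q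
          unfold Calc.MM
          filter_upwards [mul_ae ((r p • p.1.1.1) * (r q • q.1.1.1))
            (C.Γ a a * C.Γ q.1.1.2 p.1.1.2 + C.Γ a p.1.1.2 * C.Γ q.1.1.2 a),
            mul_ae (r p • p.1.1.1) (r q • q.1.1.1), smul_ae p.1.1.1 (r p), smul_ae q.1.1.1 (r q),
            add_ae (C.Γ a a * C.Γ q.1.1.2 p.1.1.2) (C.Γ a p.1.1.2 * C.Γ q.1.1.2 a),
            mul_ae (C.Γ a a) (C.Γ q.1.1.2 p.1.1.2), mul_ae (C.Γ a p.1.1.2) (C.Γ q.1.1.2 a)]
            with x b1 b2 b3 b4 b5 b6 b7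
          rw [b1, b2, b3, b4, b5, b6, b7]
        filter_upwards [fsum_ae r.support (fun p => ∑ q ∈ r.support, (r p • p.1.1) * (r q • q.1.1)
          * C.MM a p.1.2 a q.1.2), c2, c3] with x b1 b2 b3
        rw [b1]
        refine Finset.sum_congr rfl fun p hp => ?_
        rw [b2 ⟨p, hp⟩]
        exact Finset.sum_congr rfl fun q hq => b3 ⟨p, hp⟩ ⟨q, hq⟩
      have g1 : ∀ᵐ x ∂m, ∀ p q : r.support, ⟪Gr q.1.1.2 x, Gr p.1.1.2 x⟫_ℝ
          = C.Γ q.1.1.2 p.1.1.2 x := by
        rw [ae_all_iff]; intro p; rw [ae_all_iff]; intro q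
        exact hG.inner _ (hC.tW q.1.2.2) _ (hC.tW p.1.2.2)
      have g2 : ∀ᵐ x ∂m, ∀ p : r.support, ⟪Gr a x, Gr p.1.1.2 x⟫_ℝ = C.Γ a p.1.1.2 x := by
        rw [ae_all_iff]; intro p
        exact hG.inner _ (hC.tW ha) _ (hC.tW p.1.2.2)
      have g3 : ∀ᵐ x ∂m, ∀ p : r.support, ⟪Gr p.1.1.2 x, Gr a x⟫_ℝ = C.Γ p.1.1.2 a x := by
        rw [ae_all_iff]; intro p
        exact hG.inner _ (hC.tW p.1.2.2) _ (hC.tW ha)
      filter_upwards [c1, hT r, hL0, g1, g2, g3, hG.inner a (hC.tW ha) a (hC.tW ha)]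
        with x b1 b2 b3 b4 b5 b6 b7
      rw [b1, b2]
      set V := ∑ p ∈ r.support, (r p * p.1.1 x) • Gr p.1.2 x with hV
      have d1 : ∑ p ∈ r.support, ∑ q ∈ r.support, (r p * p.1.1 x) * (r q * q.1.1 x)
            * (C.Γ a a x * C.Γ q.1.2 p.1.2 x + C.Γ a p.1.2 x * C.Γ q.1.2 a x)
          = C.Γ a a x * ⟪V, V⟫_ℝ + ⟪Gr a x, V⟫_ℝ * ⟪V, Gr a x⟫_ℝ := by
        rw [hV]
        simp only [sum_inner, inner_sum, real_inner_smul_left, real_inner_smul_right,
          Finset.mul_sum, Finset.sum_mul]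
        rw [Finset.sum_comm, ← Finset.sum_add_distrib]
        refine Finset.sum_congr rfl fun p hp => ?_
        rw [← Finset.sum_add_distrib]
        refine Finset.sum_congr rfl fun q hq => ?_
        rw [b4 ⟨p, hp⟩ ⟨q, hq⟩, b5 ⟨q, hq⟩, b6 ⟨p, hp⟩, hC.symm _ (hC.tW p.2.2) _ (hC.tW q.2.2)]
        ring
      rw [d1, real_inner_self_eq_norm_sq]
      have d2 : ⟪Gr a x, V⟫_ℝ * ⟪V, Gr a x⟫_ℝ ≤ C.Γ a a x * ‖V‖ ^ 2 := by
        have q1 := real_inner_mul_inner_self_le (Gr a x) V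
        rw [b7, real_inner_self_eq_norm_sq, real_inner_comm V (Gr a x)] at q1
        rw [real_inner_comm V (Gr a x)]
        exact q1
      have d3 : C.Γ a a x ≤ |L0| := (le_abs_self _).trans (b3.trans (le_abs_self _))
      have d4 := mul_le_mul_of_nonneg_right d3 (sq_nonneg ‖V‖)
      linarith
    rw [e1, e2.1] at h1
    linarith
  obtain ⟨σ, hσ, hσL⟩ := riesz_gen T L _ _ (by positivity) hpos
  refine ⟨σ, Lp.memLp σ, fun c hc => ?_, fun ε hε => ?_⟩
  · -- the pairing with gradients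
    have hm : AEStronglyMeasurable (fun x => ⟪σ x, Gr c x⟫_ℝ) m :=
      (Lp.memLp σ).1.inner (hG.mem c (hC.tW hc)).1
    obtain ⟨K, hK⟩ := mem_top_iff.1 (hC.test_Γ_top hc)
    set G : M →ₘ[m] ℝ := AEEqFun.mk _ hm with hGdef
    have hGx : ∀ᵐ x ∂m, G x = ⟪σ x, Gr c x⟫_ℝ := AEEqFun.coeFn_mk _ _
    have hG2 : MemLp G 2 m := by
      refine (Lp.memLp σ).of_le_mul (c := Real.sqrt |K|) G.aestronglyMeasurable ?_
      filter_upwards [hGx, hG.inner c (hC.tW hc) c (hC.tW hc), hK] with x a1 a2 a3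
      rw [a1, mul_comm]
      refine (norm_inner_le_norm _ _).trans ?_
      refine mul_le_mul_of_nonneg_left ?_ (norm_nonneg _)
      rw [← Real.sqrt_sq (norm_nonneg (Gr c x)), ← real_inner_self_eq_norm_sq, a2]
      exact Real.sqrt_le_sqrt ((le_abs_self _).trans (a3.trans (le_abs_self _)))
    have hH2 := hC.hess_mem2 hB hb ha hc
    have h0 : G - C.hess b a c = 0 := by
      refine hC.eq_zero_of_test2 hB (mem_sub hG2 hH2) fun s hs => ?_
      have hs2 := hC.memLp _ (hC.tW hs)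
      rw [mul_sub, I_sub (mem_mul_22 hs2 hG2) (mem_mul_22 hs2 hH2), sub_eq_zero]
      have h3 := hσL (Finsupp.single ⟨(s, c), hs, hc⟩ 1)
      have h4 : L (Finsupp.single ⟨(s, c), hs, hc⟩ 1) = I (s * C.hess b a c) := by
        change Finsupp.linearCombination ℝ (fun p : P => I (p.1.1 * C.hess b a p.1.2))
          (Finsupp.single _ 1) = _
        rw [Finsupp.linearCombination_single, one_smul]
      have h5 : T (Finsupp.single ⟨(s, c), hs, hc⟩ 1) = v ⟨(s, c), hs, hc⟩ := by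
        change Finsupp.linearCombination ℝ v (Finsupp.single _ 1) = _
        rw [Finsupp.linearCombination_single, one_smul]
      rw [h4, h5, L2.inner_def] at h3
      rw [h3]
      unfold I
      refine integral_congr_ae ?_
      filter_upwards [mul_ae s G, hGx, (hP ⟨(s, c), hs, hc⟩).coeFn_toLp] with x a1 a2 a3
      rw [a1, a2]
      have a4 : (v ⟨(s, c), hs, hc⟩ : Lp E 2 m) x = s x • Gr c x := a3
      rw [a4, real_inner_smul_right]
    rw [sub_eq_zero] at h0
    filter_upwards [hGx, eq_iff_ae.1 h0] with x a1 a2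
    rw [← a1, a2]
  · -- density
    rw [← SetLike.mem_coe, Submodule.topologicalClosure_coe, EMetric.mem_closure_iff] at hσ
    obtain ⟨_, ⟨r, rfl⟩, hr⟩ := hσ ε hε
    refine ⟨r.support.toList.map fun p => (r p • p.1.1, p.1.2), ?_, ?_⟩
    · intro q hq
      rw [List.mem_map] at hq
      obtain ⟨p, -, rfl⟩ := hq
      exact ⟨hC.test_smul hB _ p.2.1, p.2.2⟩
    · rw [Lp.edist_def] at hr
      refine lt_of_eq_of_lt (eLpNorm_congr_ae ?_) hr
      have h2 : ∀ᵐ x ∂m, ∀ p : r.support, (r p • p.1.1.1 : M →ₘ[m] ℝ) x = r p * p.1.1.1 x := by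
        rw [ae_all_iff]; intro p; exact smul_ae _ _
      filter_upwards [hT r, h2] with x a1 a2
      rw [Pi.sub_apply, a1]
      congr 1
      unfold fvec
      rw [List.map_map]
      rw [← Finset.sum_map_toList]
      congr 1
      refine List.map_congr_left fun p hp => ?_
      simp only [Function.comp]
      rw [a2 ⟨p, by simpa using hp⟩]

end IsGamma

end Vale.Agent.P233
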