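import Vale.Agent.P233.MetSlope

/-!
# Hopf-Lax functions for the Lagrangian `α v² + β v⁴`
-/

open MeasureTheory Filter Topology Set

universe u

namespace Vale.Agent.P233.AB

/-- The cost `α d²/r + β d⁴/r³` of a distance `d` in time `r`. -/
noncomputable def cost (α β r d : ℝ) : ℝ := α * d ^ 2 / r + β * d ^ 4 / r ^ 3

theorem cost_nonneg {α β r d : ℝ} (hα : 0 ≤ α) (hβ : 0 ≤ β) (hr : 0 < r) :
    0 ≤ cost α β r d := by
  unfold cost; positivity

theorem cost_mono {α β r a b : ℝ} (hα : 0 ≤ α) (hβ : 0 ≤ β) (hr : 0 < r) (ha : 0 ≤ a)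
    (hab : a ≤ b) : cost α β r a ≤ cost α β r b := by
  unfold cost; gcongr

theorem cost_sub_le {α β r a b : ℝ} (hα : 0 ≤ α) (hβ : 0 ≤ β) (hr : 0 < r) (ha : 0 ≤ a)
    (hb : 0 ≤ b) :
    cost α β r b - cost α β r a ≤ (b - a) * (2 * α * (b / r) + 4 * β * (b / r) ^ 3) := by
  have h1 : b ^ 2 - a ^ 2 ≤ 2 * b * (b - a) := by nlinarith [sq_nonneg (b - a)]
  have h2 : b ^ 4 - a ^ 4 ≤ 4 * b ^ 3 * (b - a) := by
    have : 4 * b ^ 3 * (b - a) - (b ^ 4 - a ^ 4) = (b - a) ^ 2 * (3 * b ^ 2 + 2 * a * b + a ^ 2) := by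
      ring
    nlinarith [mul_nonneg (sq_nonneg (b - a)) (by positivity : 0 ≤ 3 * b ^ 2 + 2 * a * b + a ^ 2)]
  have e : cost α β r b - cost α β r a = α * (b ^ 2 - a ^ 2) / r + β * (b ^ 4 - a ^ 4) / r ^ 3 := by
    unfold cost; ring
  have e2 : (b - a) * (2 * α * (b / r) + 4 * β * (b / r) ^ 3)
      = α * (2 * b * (b - a)) / r + β * (4 * b ^ 3 * (b - a)) / r ^ 3 := by
    field_simp
  rw [e, e2]
  gcongr

/-- convexity in time. -/
theorem cost_time {α β r r' d : ℝ} (hα : 0 ≤ α) (hβ : 0 ≤ β) (hr : 0 < r) (hrr : r ≤ r')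
    (_hd : 0 ≤ d) :
    cost α β r' d - cost α β r d ≤ -((r' - r) * (α * (d / r') ^ 2 + 3 * β * (d / r') ^ 4)) := by
  have hr' : 0 < r' := hr.trans_le hrr
  have h1 : d ^ 2 / r' - d ^ 2 / r ≤ -((r' - r) * (d / r') ^ 2) := by
    have : d ^ 2 / r - d ^ 2 / r' - (r' - r) * (d / r') ^ 2 = d ^ 2 * (r' - r) ^ 2 / (r * r' ^ 2) := by
      field_simp
    have h0 : 0 ≤ d ^ 2 * (r' - r) ^ 2 / (r * r' ^ 2) := by positivity
    linarith
  have h2 : d ^ 4 / r' ^ 3 - d ^ 4 / r ^ 3 ≤ -(3 * (r' - r) * (d / r') ^ 4) := by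
    have : d ^ 4 / r ^ 3 - d ^ 4 / r' ^ 3 - 3 * (r' - r) * (d / r') ^ 4
        = d ^ 4 * ((r' - r) ^ 2 * (r' ^ 2 + 2 * r * r' + 3 * r ^ 2)) / (r ^ 3 * r' ^ 4) := by
      field_simp; ring
    have h0 : 0 ≤ d ^ 4 * ((r' - r) ^ 2 * (r' ^ 2 + 2 * r * r' + 3 * r ^ 2)) / (r ^ 3 * r' ^ 4) := by
      positivity
    linarith
  have e : cost α β r' d - cost α β r d
      = α * (d ^ 2 / r' - d ^ 2 / r) + β * (d ^ 4 / r' ^ 3 - d ^ 4 / r ^ 3) := by
    unfold cost; ring
  rw [e]
  have := mul_le_mul_of_nonneg_left h1 hα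
  have := mul_le_mul_of_nonneg_left h2 hβ
  nlinarith

theorem cost_time' {α β r r' d : ℝ} (hα : 0 ≤ α) (hβ : 0 ≤ β) (hr : 0 < r) (hrr : r ≤ r')
    (_hd : 0 ≤ d) :
    cost α β r d - cost α β r' d ≤ (r' - r) * (α * (d / r) ^ 2 + 3 * β * (d / r) ^ 4) := by
  have hr' : 0 < r' := hr.trans_le hrr
  have h1 : d ^ 2 / r - d ^ 2 / r' ≤ (r' - r) * (d / r) ^ 2 := by
    have : (r' - r) * (d / r) ^ 2 - (d ^ 2 / r - d ^ 2 / r') = d ^ 2 * (r' - r) ^ 2 / (r' * r ^ 2) := by
      field_simp
    have h0 : 0 ≤ d ^ 2 * (r' - r) ^ 2 / (r' * r ^ 2) := by positivity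
    linarith
  have h2 : d ^ 4 / r ^ 3 - d ^ 4 / r' ^ 3 ≤ 3 * (r' - r) * (d / r) ^ 4 := by
    have : 3 * (r' - r) * (d / r) ^ 4 - (d ^ 4 / r ^ 3 - d ^ 4 / r' ^ 3)
        = d ^ 4 * ((r' - r) ^ 2 * (3 * r' ^ 2 + 2 * r * r' + r ^ 2)) / (r' ^ 3 * r ^ 4) := by
      field_simp; ring
    have h0 : 0 ≤ d ^ 4 * ((r' - r) ^ 2 * (3 * r' ^ 2 + 2 * r * r' + r ^ 2)) / (r' ^ 3 * r ^ 4) := by
      positivity
    linarith
  have e : cost α β r d - cost α β r' d
      = α * (d ^ 2 / r - d ^ 2 / r') + β * (d ^ 4 / r ^ 3 - d ^ 4 / r' ^ 3) := by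
    unfold cost; ring
  rw [e]
  have := mul_le_mul_of_nonneg_left h1 hα
  have := mul_le_mul_of_nonneg_left h2 hβ
  nlinarith

section HL

variable {M : Type u} [MetricSpace M] {α β K L : ℝ} {h : M → ℝ}

/-- The Hopf-Lax function. -/
noncomputable def hl (α β : ℝ) (h : M → ℝ) (r : ℝ) (x : M) : ℝ :=
  ⨅ y, (h y + cost α β r (dist x y))

/-- Hypotheses on the data. -/
structure Dat (α β K L : ℝ) (h : M → ℝ) : Prop where
  hα : 0 < α
  hβ : 0 ≤ β
  hK : ∀ x, |h x| ≤ K
  hL : ∀ x y, |h x - h y| ≤ L * dist x y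
  hL0 : 0 ≤ L

namespace Dat

variable (D : Dat α β K L h)
include D

theorem bdd {r : ℝ} (hr : 0 < r) (x : M) :
    BddBelow (range fun y => h y + cost α β r (dist x y)) := by
  refine ⟨-K, ?_⟩
  rintro _ ⟨y, rfl⟩
  have h1 := (abs_le.1 (D.hK y)).1
  have h2 := cost_nonneg (d := dist x y) D.hα.le D.hβ hr
  dsimp only
  linarith

theorem hl_le {r : ℝ} (hr : 0 < r) (x y : M) :
    hl α β h r x ≤ h y + cost α β r (dist x y) := ciInf_le (D.bdd hr x) y

omit D in
theorem le_hl {r c : ℝ} {x : M} (H : ∀ y, c ≤ h y + cost α β r (dist x y)) :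
    c ≤ hl α β h r x := by
  have : Nonempty M := ⟨x⟩
  exact le_ciInf H

omit D in
theorem near {r η : ℝ} (hη : 0 < η) (x : M) :
    ∃ z, h z + cost α β r (dist x z) < hl α β h r x + η := by
  have : Nonempty M := ⟨x⟩
  exact exists_lt_of_ciInf_lt (by unfold hl; linarith)

theorem hl_le_self {r : ℝ} (hr : 0 < r) (x : M) : hl α β h r x ≤ h x := by
  have := D.hl_le hr x x
  simpa [cost] using this

theorem hl_ge_self {r : ℝ} (hr : 0 < r) (x : M) :
    h x - L ^ 2 / (4 * α) * r ≤ hl α β h r x := by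
  refine le_hl fun y => ?_
  have h1 := (abs_le.1 (D.hL x y)).2
  have hα := D.hα
  have h2 : L * dist x y - L ^ 2 / (4 * α) * r ≤ α * dist x y ^ 2 / r := by
    have : α * dist x y ^ 2 / r - (L * dist x y - L ^ 2 / (4 * α) * r)
        = (2 * α * dist x y - L * r) ^ 2 / (4 * α * r) := by
      field_simp; ring
    have h0 : 0 ≤ (2 * α * dist x y - L * r) ^ 2 / (4 * α * r) := by positivity
    linarith
  have h3 : 0 ≤ β * dist x y ^ 4 / r ^ 3 := by have := D.hβ; positivity
  unfold cost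
  linarith

theorem hl_abs {r : ℝ} (hr : 0 < r) (x : M) : |hl α β h r x| ≤ K := by
  rw [abs_le]
  refine ⟨le_hl fun y => ?_, (D.hl_le_self hr x).trans (abs_le.1 (D.hK x)).2⟩
  have h1 := (abs_le.1 (D.hK y)).1
  have h2 := cost_nonneg (d := dist x y) D.hα.le D.hβ hr
  linarith

/-- the speed bound. -/
theorem speed {r η : ℝ} (hr : 0 < r) (hη : η ≤ r) {x z : M}
    (hz : h z + cost α β r (dist x z) ≤ hl α β h r x + η) :
    dist x z / r ≤ (L + 1) / α + 1 := by
  have hα := D.hα
  have hL0 := D.hL0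
  have h1 := D.hl_le_self hr x
  have h2 := (abs_le.1 (D.hL x z)).2
  have h3 : 0 ≤ β * dist x z ^ 4 / r ^ 3 := by have := D.hβ; positivity
  have h4 : α * dist x z ^ 2 / r ≤ L * dist x z + r := by
    unfold cost at hz; linarith
  by_contra hc
  push Not at hc
  set v := dist x z / r with hv
  have hd : dist x z = v * r := by rw [hv]; field_simp
  have hv1 : 1 < v := by
    have : 0 ≤ (L + 1) / α := by positivity
    linarith
  have hv2 : L + 1 < α * v := by
    have : (L + 1) / α < v := by linarith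
    rw [div_lt_iff₀ hα] at this
    linarith
  rw [hd] at h4
  have h5 : α * (v * r) ^ 2 / r = α * v ^ 2 * r := by field_simp
  rw [h5] at h4
  have h6 : α * v ^ 2 ≤ L * v + 1 := by
    have : (α * v ^ 2) * r ≤ (L * v + 1) * r := by nlinarith
    exact le_of_mul_le_mul_right this hr
  nlinarith

/-- Lipschitz constant in space. -/
noncomputable def cx (α β L : ℝ) : ℝ :=
  L + L ^ 2 / (4 * α) + 2 * α * ((L + 1) / α + 2) + 4 * β * ((L + 1) / α + 2) ^ 3

theorem cx_nonneg : 0 ≤ cx α β L := by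
  have hα := D.hα
  have hβ := D.hβ
  have hL0 := D.hL0
  unfold cx; positivity

theorem hl_lip' {r : ℝ} (hr : 0 < r) (x y : M) :
    hl α β h r y ≤ hl α β h r x + cx α β L * dist x y := by
  have hα := D.hα
  have hβ := D.hβ
  have hL0 := D.hL0
  rcases le_total (dist x y) r with hc | hc
  · refine le_of_forall_pos_le_add fun η hη => ?_
    obtain ⟨z, hz⟩ := near (α := α) (β := β) (h := h) (r := r) (lt_min hη hr) x
    have hz' : h z + cost α β r (dist x z) ≤ hl α β h r x + min η r := hz.le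
    have hs := D.speed hr (min_le_right _ _) hz'
    have h1 := D.hl_le hr y z
    have h2 : dist y z ≤ dist x z + dist x y := by
      have := dist_triangle_left y z x
      linarith
    have h3 := cost_mono (r := r) hα.le hβ hr dist_nonneg h2
    have h4 := cost_sub_le (r := r) (a := dist x z) (b := dist x z + dist x y) hα.le hβ hr
      dist_nonneg (by positivity)
    have h5 : (dist x z + dist x y) / r ≤ (L + 1) / α + 2 := by
      rw [add_div]
      have : dist x y / r ≤ 1 := by rw [div_le_one hr]; exact hc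
      linarith
    have h6 : 0 ≤ (dist x z + dist x y) / r := by positivity
    have h7 : 2 * α * ((dist x z + dist x y) / r) + 4 * β * ((dist x z + dist x y) / r) ^ 3
        ≤ 2 * α * ((L + 1) / α + 2) + 4 * β * ((L + 1) / α + 2) ^ 3 := by gcongr
    have h8 : (dist x z + dist x y - dist x z) *
        (2 * α * ((dist x z + dist x y) / r) + 4 * β * ((dist x z + dist x y) / r) ^ 3)
        ≤ dist x y * (2 * α * ((L + 1) / α + 2) + 4 * β * ((L + 1) / α + 2) ^ 3) := by
      have : dist x z + dist x y - dist x z = dist x y := by ring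
      rw [this]
      gcongr
    have h9 : dist x y * (2 * α * ((L + 1) / α + 2) + 4 * β * ((L + 1) / α + 2) ^ 3)
        ≤ cx α β L * dist x y := by
      rw [mul_comm]
      refine mul_le_mul_of_nonneg_right ?_ dist_nonneg
      unfold cx
      have : 0 ≤ L + L ^ 2 / (4 * α) := by positivity
      linarith
    have h10 := min_le_left η r
    linarith
  · have h1 := D.hl_le_self hr y
    have h2 := D.hl_ge_self hr x
    have h3 := (abs_le.1 (D.hL y x)).2
    rw [dist_comm y x] at h3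
    have h4 : L ^ 2 / (4 * α) * r ≤ L ^ 2 / (4 * α) * dist x y := by gcongr
    have h5 : (L + L ^ 2 / (4 * α)) * dist x y ≤ cx α β L * dist x y := by
      refine mul_le_mul_of_nonneg_right ?_ dist_nonneg
      unfold cx
      have : 0 ≤ 2 * α * ((L + 1) / α + 2) + 4 * β * ((L + 1) / α + 2) ^ 3 := by positivity
      linarith
    linarith

theorem hl_lip {r : ℝ} (hr : 0 < r) (x y : M) :
    |hl α β h r x - hl α β h r y| ≤ cx α β L * dist x y := by
  rw [abs_le]
  have h1 := D.hl_lip' hr x y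
  have h2 := D.hl_lip' hr y x
  rw [dist_comm y x] at h2
  constructor <;> linarith

/-- monotonicity in time. -/
theorem hl_anti {r r' : ℝ} (hr : 0 < r) (hrr : r ≤ r') (x : M) :
    hl α β h r' x ≤ hl α β h r x := by
  refine le_hl fun y => ?_
  have h1 := D.hl_le (hr.trans_le hrr) x y
  have h2 := cost_time (d := dist x y) D.hα.le D.hβ hr hrr dist_nonneg
  have h3 : 0 ≤ (r' - r) * (α * (dist x y / r') ^ 2 + 3 * β * (dist x y / r') ^ 4) := by
    have hα := D.hα
    have hβ := D.hβ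
    have : 0 ≤ r' - r := by linarith
    positivity
  linarith

/-- Lipschitz constant in time. -/
noncomputable def ct (α β L : ℝ) : ℝ :=
  L ^ 2 / (2 * α) + α * (2 * ((L + 1) / α + 1)) ^ 2 + 3 * β * (2 * ((L + 1) / α + 1)) ^ 4

theorem ct_nonneg : 0 ≤ ct α β L := by
  have hα := D.hα
  have hβ := D.hβ
  have hL0 := D.hL0
  unfold ct; positivity

theorem hl_time {r r' : ℝ} (hr : 0 < r) (hrr : r ≤ r') (x : M) :
    hl α β h r x - hl α β h r' x ≤ ct α β L * (r' - r) := by
  have hα := D.hα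
  have hβ := D.hβ
  have hL0 := D.hL0
  have hr' : 0 < r' := hr.trans_le hrr
  rcases le_total r' (2 * r) with hc | hc
  · have : hl α β h r x ≤ hl α β h r' x + ct α β L * (r' - r) := by
      refine le_of_forall_pos_le_add fun η hη => ?_
      obtain ⟨z, hz⟩ := near (α := α) (β := β) (h := h) (r := r') (lt_min hη hr') x
      have hs := D.speed hr' (min_le_right _ _) hz.le
      have h1 := D.hl_le hr x z
      have h2 := cost_time' (d := dist x z) hα.le hβ hr hrr dist_nonneg
      have h3 : dist x z / r ≤ 2 * ((L + 1) / α + 1) := by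
        have : dist x z / r ≤ 2 * (dist x z / r') := by
          rw [div_le_iff₀ hr]
          have : 2 * (dist x z / r') * r = dist x z * (2 * r / r') := by field_simp
          rw [this]
          have h1 : 1 ≤ 2 * r / r' := by rw [le_div_iff₀ hr']; linarith
          nlinarith [dist_nonneg (x := x) (y := z)]
        linarith
      have h4 : 0 ≤ dist x z / r := by positivity
      have h5 : α * (dist x z / r) ^ 2 + 3 * β * (dist x z / r) ^ 4 ≤ ct α β L := by
        have : α * (dist x z / r) ^ 2 + 3 * β * (dist x z / r) ^ 4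
            ≤ α * (2 * ((L + 1) / α + 1)) ^ 2 + 3 * β * (2 * ((L + 1) / α + 1)) ^ 4 := by gcongr
        unfold ct
        have : 0 ≤ L ^ 2 / (2 * α) := by positivity
        linarith
      have h6 : (r' - r) * (α * (dist x z / r) ^ 2 + 3 * β * (dist x z / r) ^ 4)
          ≤ ct α β L * (r' - r) := by
        rw [mul_comm]
        exact mul_le_mul_of_nonneg_right h5 (by linarith)
      have := min_le_left η r'
      linarith
    linarith
  · have h1 := D.hl_le_self hr x
    have h2 := D.hl_ge_self hr' x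
    have h3 : L ^ 2 / (4 * α) * r' ≤ L ^ 2 / (2 * α) * (r' - r) := by
      have : L ^ 2 / (2 * α) * (r' - r) = L ^ 2 / (4 * α) * (2 * (r' - r)) := by field_simp; ring
      rw [this]
      gcongr
      linarith
    have h4 : L ^ 2 / (2 * α) * (r' - r) ≤ ct α β L * (r' - r) := by
      refine mul_le_mul_of_nonneg_right ?_ (by linarith)
      unfold ct
      have : 0 ≤ α * (2 * ((L + 1) / α + 1)) ^ 2 + 3 * β * (2 * ((L + 1) / α + 1)) ^ 4 := by
        positivity
      linarith
    linarith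


/-- near-minimisers are close, if the time derivative is small. -/
theorem close {r q v : ℝ} {x : M} (hr : 0 < r) (hv : 0 ≤ v)
    (hd : HasDerivAt (fun s => hl α β h s x) q r) (hq : -q ≤ α * v ^ 2 + 3 * β * v ^ 4)
    {η : ℝ} (hη : 0 < η) :
    ∃ δ > 0, ∀ z, h z + cost α β r (dist x z) ≤ hl α β h r x + δ → dist x z ≤ r * (v + η) := by
  have hα := D.hα
  have hβ := D.hβ
  set e := α * (η / 2) ^ 2 with he
  have he0 : 0 < e := by positivity
  have h1 : ∀ᶠ s in 𝓝[>] (0 : ℝ), hl α β h r x + s * (q - e / 2) ≤ hl α β h (r + s) x := by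
    have h2 := hd.tendsto_slope_zero_right
    have h3 : ∀ᶠ s in 𝓝[>] (0 : ℝ),
        q - e / 2 < s⁻¹ • (hl α β h (r + s) x - hl α β h r x) :=
      h2.eventually (lt_mem_nhds (by linarith))
    filter_upwards [h3, self_mem_nhdsWithin] with s hs hs0
    have hs0' : 0 < s := hs0
    rw [smul_eq_mul, inv_mul_eq_div, lt_div_iff₀ hs0'] at hs
    nlinarith
  have h2 : ∀ᶠ s in 𝓝[>] (0 : ℝ), s * (v + η / 2) ≤ r * (η / 2) := by
    have : Tendsto (fun s : ℝ => s * (v + η / 2)) (𝓝[>] 0) (𝓝 (0 * (v + η / 2))) :=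
      (tendsto_nhdsWithin_of_tendsto_nhds tendsto_id).mul_const _
    rw [zero_mul] at this
    filter_upwards [this.eventually (gt_mem_nhds (show (0 : ℝ) < r * (η / 2) by positivity))] with s hs
    exact hs.le
  obtain ⟨s, hs1, hs2, hs0⟩ := (h1.and (h2.and self_mem_nhdsWithin)).exists
  have hs0' : 0 < s := hs0
  refine ⟨s * (e / 2), by positivity, fun z hz => ?_⟩
  have h3 := D.hl_le (by linarith : 0 < r + s) x z
  have h4 := cost_time (r' := r + s) (d := dist x z) hα.le hβ hr (by linarith) dist_nonneg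
  set w := dist x z / (r + s) with hw
  have hw0 : 0 ≤ w := by rw [hw]; positivity
  have h5 : s * (α * w ^ 2 + 3 * β * w ^ 4) ≤ s * (e / 2 - q + e / 2) := by
    have : r + s - r = s := by ring
    rw [this] at h4
    nlinarith
  have h6 : α * w ^ 2 + 3 * β * w ^ 4 ≤ e / 2 - q + e / 2 := le_of_mul_le_mul_left h5 hs0'
  have h7 : w ≤ v + η / 2 := by
    by_contra hc
    push Not at hc
    have h8 : α * (v + η / 2) ^ 2 < α * w ^ 2 := by gcongr
    have h9 : 3 * β * v ^ 4 ≤ 3 * β * w ^ 4 := by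
      have : v ≤ w := by linarith
      gcongr
    have h10 : α * v ^ 2 + e ≤ α * (v + η / 2) ^ 2 := by
      have : α * (v + η / 2) ^ 2 - (α * v ^ 2 + e) = α * v * η := by rw [he]; ring
      have h0 : 0 ≤ α * v * η := by positivity
      linarith
    linarith
  have h8 : dist x z = w * (r + s) := by rw [hw]; field_simp
  rw [h8]
  calc w * (r + s) ≤ (v + η / 2) * (r + s) := by gcongr
    _ = r * (v + η / 2) + s * (v + η / 2) := by ring
    _ ≤ r * (v + η / 2) + r * (η / 2) := by linarith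
    _ = r * (v + η) := by ring

theorem lip_near {r q v : ℝ} {x : M} (hr : 0 < r) (hv : 0 ≤ v)
    (hd : HasDerivAt (fun s => hl α β h s x) q r) (hq : -q ≤ α * v ^ 2 + 3 * β * v ^ 4)
    {ε : ℝ} (hε : 0 < ε) :
    ∀ᶠ y in 𝓝 x, |hl α β h r y - hl α β h r x|
      ≤ (2 * α * v + 4 * β * v ^ 3 + ε) * dist y x := by
  have hα := D.hα
  have hβ := D.hβ
  have hL0 := D.hL0
  have hcx := D.cx_nonneg
  -- choose η
  have hη : ∀ᶠ η in 𝓝[>] (0 : ℝ), 2 * α * (v + 2 * η) + 4 * β * (v + 2 * η) ^ 3 + η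
      < 2 * α * v + 4 * β * v ^ 3 + ε := by
    have hc : Continuous fun η : ℝ => 2 * α * (v + 2 * η) + 4 * β * (v + 2 * η) ^ 3 + η := by
      fun_prop
    have h1 := (hc.tendsto 0).mono_left (nhdsWithin_le_nhds (s := Ioi (0 : ℝ)))
    refine h1.eventually (gt_mem_nhds ?_)
    simp only [mul_zero, add_zero]
    linarith
  obtain ⟨η, hη1, hη0⟩ := (hη.and self_mem_nhdsWithin).exists
  have hη0' : 0 < η := hη0
  obtain ⟨δ, hδ, hcl⟩ := D.close hr hv hd hq hη0'
  -- choose the radius
  have hρ : ∀ᶠ ρ in 𝓝 (0 : ℝ), ρ < r * η ∧ ρ < η ∧ ρ < r ∧ ρ ^ 2 + 2 * cx α β L * ρ < δ := by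
    refine (gt_mem_nhds (by positivity)).and ((gt_mem_nhds hη0').and ((gt_mem_nhds hr).and ?_))
    have hc : Continuous fun ρ : ℝ => ρ ^ 2 + 2 * cx α β L * ρ := by fun_prop
    refine (hc.tendsto 0).eventually (gt_mem_nhds ?_)
    simpa using hδ
  have hy : Tendsto (fun y => dist y x) (𝓝 x) (𝓝 0) := by
    have : Continuous fun y : M => dist y x := by fun_prop
    simpa using this.tendsto x
  filter_upwards [hy.eventually hρ] with y hy
  obtain ⟨y1, y2, y3, y4⟩ := hy
  rcases eq_or_lt_of_le (dist_nonneg : 0 ≤ dist y x) with h0 | h0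
  · have : y = x := dist_eq_zero.1 h0.symm
    subst this
    simp
  set ρ := dist y x with hρdef
  have hsq : ρ ^ 2 ≤ ρ * η := by nlinarith
  have hsm : ∀ b, 0 ≤ b → b / r ≤ v + 2 * η →
      2 * α * (b / r) + 4 * β * (b / r) ^ 3 + η ≤ 2 * α * v + 4 * β * v ^ 3 + ε := by
    intro b hb hbr
    have : 2 * α * (b / r) + 4 * β * (b / r) ^ 3 ≤ 2 * α * (v + 2 * η) + 4 * β * (v + 2 * η) ^ 3 := by
      have : 0 ≤ b / r := by positivity
      gcongr
    linarith
  have hnn : ∀ b, 0 ≤ b → 0 ≤ 2 * α * (b / r) + 4 * β * (b / r) ^ 3 := by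
    intro b hb; positivity
  rw [abs_le]
  constructor
  · -- hl x - hl y
    obtain ⟨z, hz⟩ := near (α := α) (β := β) (h := h) (r := r)
      (lt_min (lt_min (by positivity : 0 < ρ ^ 2) hr) hδ) y
    have e1 : h z + cost α β r (dist y z) ≤ hl α β h r y + ρ ^ 2 :=
      hz.le.trans (by gcongr; exact (min_le_left _ _).trans (min_le_left _ _))
    have e2 : h z + cost α β r (dist y z) ≤ hl α β h r y + min (min (ρ ^ 2) r) δ := hz.le
    have hs := D.speed hr ((min_le_left _ _).trans (min_le_right _ _)) e2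
    have t1 : dist x z ≤ dist y z + ρ := by
      have := dist_triangle_left x z y
      linarith
    have t2 : dist y z ≤ dist x z + ρ := by
      have := dist_triangle_left y z x
      rw [dist_comm x y] at this
      linarith
    -- z is a near-minimiser for x
    have n1 := cost_mono (r := r) hα.le hβ hr dist_nonneg t1
    have n2 := cost_sub_le (r := r) (a := dist y z) (b := dist y z + ρ) hα.le hβ hr
      dist_nonneg (by positivity)
    have n3 : (dist y z + ρ) / r ≤ (L + 1) / α + 2 := by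
      rw [add_div]
      have : ρ / r ≤ 1 := by rw [div_le_one hr]; exact y3.le
      linarith
    have n4 : 2 * α * ((dist y z + ρ) / r) + 4 * β * ((dist y z + ρ) / r) ^ 3 ≤ cx α β L := by
      have h6 : 0 ≤ (dist y z + ρ) / r := by positivity
      have : 2 * α * ((dist y z + ρ) / r) + 4 * β * ((dist y z + ρ) / r) ^ 3
        ≤ 2 * α * ((L + 1) / α + 2) + 4 * β * ((L + 1) / α + 2) ^ 3 := by gcongr
      unfold cx
      have : 0 ≤ L + L ^ 2 / (4 * α) := by positivity
      linarith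
    have n5 : (dist y z + ρ - dist y z) * (2 * α * ((dist y z + ρ) / r)
        + 4 * β * ((dist y z + ρ) / r) ^ 3) ≤ ρ * cx α β L := by
      have : dist y z + ρ - dist y z = ρ := by ring
      rw [this]
      gcongr
    have n6 := D.hl_lip' hr x y
    rw [dist_comm x y, ← hρdef] at n6
    have n7 : h z + cost α β r (dist x z) ≤ hl α β h r x + δ := by
      have : 2 * cx α β L * ρ = cx α β L * ρ + ρ * cx α β L := by ring
      linarith
    have n8 := hcl z n7
    have n9 := D.hl_le hr x z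
    have n10 := cost_sub_le (r := r) (a := dist y z) (b := dist x z) hα.le hβ hr
      dist_nonneg dist_nonneg
    have n11 : dist x z / r ≤ v + 2 * η := by
      rw [div_le_iff₀ hr]
      have : (v + 2 * η) * r = r * (v + η) + r * η := by ring
      have : 0 < r * η := by positivity
      linarith
    have n12 := mul_le_mul_of_nonneg_left (hsm _ dist_nonneg n11) h0.le
    rw [mul_add] at n12
    have n13 := hnn (dist x z) dist_nonneg
    have n14 : (dist x z - dist y z) * (2 * α * (dist x z / r) + 4 * β * (dist x z / r) ^ 3)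
        ≤ ρ * (2 * α * (dist x z / r) + 4 * β * (dist x z / r) ^ 3) := by
      apply mul_le_mul_of_nonneg_right _ n13
      linarith
    have e4 : (2 * α * v + 4 * β * v ^ 3 + ε) * ρ = ρ * (2 * α * v + 4 * β * v ^ 3 + ε) := by ring
    rw [e4]
    linarith
  · obtain ⟨z, hz⟩ := near (α := α) (β := β) (h := h) (r := r)
      (lt_min (by positivity : 0 < ρ ^ 2) hδ) x
    have e1 : h z + cost α β r (dist x z) ≤ hl α β h r x + ρ ^ 2 :=
      hz.le.trans (by gcongr; exact min_le_left _ _)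
    have e2 : h z + cost α β r (dist x z) ≤ hl α β h r x + δ :=
      hz.le.trans (by gcongr; exact min_le_right _ _)
    have n8 := hcl z e2
    have t2 : dist y z ≤ dist x z + ρ := by
      have := dist_triangle_left y z x
      rw [dist_comm x y] at this
      linarith
    have n1 := cost_mono (r := r) hα.le hβ hr dist_nonneg t2
    have n2 := cost_sub_le (r := r) (a := dist x z) (b := dist x z + ρ) hα.le hβ hr
      dist_nonneg (by positivity)
    have n9 := D.hl_le hr y z
    have n11 : (dist x z + ρ) / r ≤ v + 2 * η := by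
      rw [div_le_iff₀ hr]
      have : (v + 2 * η) * r = r * (v + η) + r * η := by ring
      linarith
    have n12 := mul_le_mul_of_nonneg_left (hsm _ (by positivity) n11) h0.le
    have e3 : dist x z + ρ - dist x z = ρ := by ring
    rw [e3] at n2
    rw [mul_add] at n12
    have e4 : (2 * α * v + 4 * β * v ^ 3 + ε) * ρ = ρ * (2 * α * v + 4 * β * v ^ 3 + ε) := by ring
    rw [e4]
    linarith

theorem lipAt_hl {r q v : ℝ} {x : M} (hr : 0 < r) (hv : 0 ≤ v)
    (hd : HasDerivAt (fun s => hl α β h s x) q r) (hq : -q ≤ α * v ^ 2 + 3 * β * v ^ 4) :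
    lipAt (hl α β h r) x ≤ ENNReal.ofReal (2 * α * v + 4 * β * v ^ 3) := by
  have h1 : ∀ ε : ℝ, 0 < ε → lipAt (hl α β h r) x
      ≤ ENNReal.ofReal (2 * α * v + 4 * β * v ^ 3 + ε) := by
    intro ε hε
    unfold lipAt
    refine limsup_le_of_le (by isBoundedDefault) ?_
    filter_upwards [mem_nhdsWithin_of_mem_nhds (D.lip_near hr hv hd hq hε), self_mem_nhdsWithin]
      with y hy hne
    refine ENNReal.ofReal_le_ofReal ?_
    have : 0 < dist y x := dist_pos.2 hne
    rw [div_le_iff₀ this]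
    exact hy
  have h2 : Tendsto (fun ε : ℝ => ENNReal.ofReal (2 * α * v + 4 * β * v ^ 3 + ε)) (𝓝[>] 0)
      (𝓝 (ENNReal.ofReal (2 * α * v + 4 * β * v ^ 3 + 0))) :=
    ((ENNReal.continuous_ofReal.comp (continuous_const.add continuous_id)).tendsto 0).mono_left
      nhdsWithin_le_nhds
  rw [add_zero] at h2
  exact ge_of_tendsto h2 (by filter_upwards [self_mem_nhdsWithin] with ε hε using h1 ε hε)

end Dat

end HL

end Vale.Agent.P233.AB
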