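import Vale.Agent.P233.AB.PairX3

set_option linter.all false

open MeasureTheory Filter Topology
open scoped ENNReal NNReal

namespace Vale.Agent.P233

variable {M : Type*} [MeasurableSpace M] {m : Measure M} {C : Calc m}

section three

variable (hC : IsGamma C) {K : ℝ} (hB : C.BEi K) {θ : M →ₘ[m] ℝ} {η δ : ℝ} {X : Dat m}
  (hX : X.Ok C θ η δ)

include hC hB hX

/-- `RR` in terms of `xx`, `yy` -/
theorem Dat.RRx (v w : ℝ × ℝ) (g : M →ₘ[m] ℝ) :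
    X.RR C v w g = -(2⁻¹ * (C.xx X.F (X.pt v) (X.pt w) g + C.xx X.F (X.pt w) (X.pt v) g
      + C.yy X.F (C.Γ (X.pt v) (X.pt w)) g)) := by
  unfold Dat.RR Calc.xx Calc.yy
  rw [Dat.D_eq hC hB hX, Dat.D_eq hC hB hX]

theorem Dat.xx_ptl (v w u : ℝ × ℝ) (s : ℝ) {g : M →ₘ[m] ℝ} (hg : g ∈ C.W) :
    C.xx X.F (X.pt (v + s • w)) (X.pt u) g
      = C.xx X.F (X.pt v) (X.pt u) g + s * C.xx X.F (X.pt w) (X.pt u) g := by
  have hF := hC.test_A hX.hF.1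
  unfold Dat.pt
  simp only [hC.xx_lin hB hF hX.ha.1 hX.hb.1 hg]
  simp
  ring

theorem Dat.xx_ptr (v w u : ℝ × ℝ) (s : ℝ) {g : M →ₘ[m] ℝ} (hg : g ∈ C.W) :
    C.xx X.F (X.pt u) (X.pt (v + s • w)) g
      = C.xx X.F (X.pt u) (X.pt v) g + s * C.xx X.F (X.pt u) (X.pt w) g := by
  have hF := hC.test_A hX.hF.1
  unfold Dat.pt
  simp only [hC.xx_lin hB hF hX.ha.1 hX.hb.1 hg]
  simp
  ring

theorem Dat.P3x (v e : ℝ × ℝ) {g : M →ₘ[m] ℝ} (hg : g ∈ C.W) :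
    X.P3 C v e g = C.k3x X.F (X.pt v) (X.pt e) g := by
  have hF := hC.test_A hX.hF.1
  have hv := (Dat.pt_memI hC hB hX v).1
  have he := (Dat.pt_memI hC hB hX e).1
  have hG := hC.G0_mem hB he
  have vW := (hC.test_A hv).1
  have eW := (hC.test_A he).1
  have gvv := (hC.Γ_mem hB hv hv).1
  have gve := (hC.Γ_mem hB hv he).1
  have gev := (hC.Γ_mem hB he hv).1
  have gee := (hC.Γ_mem hB he he).1
  have e1 : ∀ s : ℝ, g - (s / 2) • X.Ge C e = g + (-s) • C.G0 (X.pt e) := by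
    intro s; unfold Dat.Ge Calc.G0; algebra
  have e2 : X.Ge C e = (2 : ℝ) • C.G0 (X.pt e) := by
    unfold Dat.Ge Calc.G0; algebra
  have hxr : ∀ (u w : ℝ × ℝ) (s : ℝ), C.xx X.F (X.pt u) (X.pt w) (g + (-s) • C.G0 (X.pt e))
      = C.xx X.F (X.pt u) (X.pt w) g - s * C.xx X.F (X.pt u) (X.pt w) (C.G0 (X.pt e)) := by
    intro u w s
    rw [hC.xx_add hF (Dat.pt_memI hC hB hX u).1 (Dat.pt_memI hC hB hX w).1 hg
      (hC.smul_mem _ _ hG), hC.xx_smul _ (Dat.pt_memI hC hB hX w).1 hG]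
    ring
  have hyr : ∀ (f : M →ₘ[m] ℝ) (s : ℝ), f ∈ C.W → C.yy X.F f (g + (-s) • C.G0 (X.pt e))
      = C.yy X.F f g - s * C.yy X.F f (C.G0 (X.pt e)) := by
    intro f s hf
    rw [hC.yy_add hF hf hg (hC.smul_mem _ _ hG), hC.yy_smul _ hf hG]
    ring
  have hpt : ∀ s : ℝ, X.pt (v + s • e) = X.pt v + s • X.pt e := by
    intro s
    unfold Dat.pt; simp only [Prod.fst_add, Prod.snd_add, Prod.smul_fst, Prod.smul_snd, smul_eq_mul]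
    algebra
  have hΓ1 : ∀ s : ℝ, C.Γ (X.pt (v + s • e)) (X.pt e)
      = C.Γ (X.pt v) (X.pt e) + (2 * s) • C.G0 (X.pt e) := by
    intro s
    rw [hpt, hC.add_left _ vW _ (hC.smul_mem _ _ eW) _ eW, hC.smul_left _ _ eW _ eW]
    unfold Calc.G0
    algebra
  have hΓ2 : ∀ s : ℝ, C.Γ (X.pt (v + s • e)) (X.pt (v + s • e))
      = C.Γ (X.pt v) (X.pt v) + (2 * s) • C.Γ (X.pt v) (X.pt e) + (2 * s ^ 2) • C.G0 (X.pt e) := by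
    intro s
    have k1 := hC.smul_mem s _ eW
    rw [hpt, hC.add_left _ vW _ k1 _ (hC.add_mem _ vW _ k1),
      hC.toIsDir.Γ_add_right vW vW k1, hC.toIsDir.Γ_add_right k1 vW k1, hC.smul_left _ _ eW _ vW,
      hC.smul_left _ _ eW _ k1, hC.toIsDir.Γ_smul_right _ vW eW, hC.toIsDir.Γ_smul_right _ eW eW,
      hC.symm _ eW _ vW]
    unfold Calc.G0
    algebra
  have hyl : ∀ (f f' h : M →ₘ[m] ℝ) (s : ℝ), f ∈ C.W → f' ∈ C.W → h ∈ C.W →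
      C.yy X.F (f + s • f') h = C.yy X.F f h + s * C.yy X.F f' h := by
    intro f f' h s hf hf' hh
    rw [hC.yy_comm (hC.add_mem _ hf _ (hC.smul_mem _ _ hf')) hh, hC.yy_add hF hh hf
      (hC.smul_mem _ _ hf'), hC.yy_smul _ hh hf', hC.yy_comm hh hf, hC.yy_comm hh hf']
  have hgs : ∀ s : ℝ, g + (-s) • C.G0 (X.pt e) ∈ C.W := fun s =>
    hC.add_mem _ hg _ (hC.smul_mem _ _ hG)
  -- the integrand
  have hO : ∀ s : ℝ, X.O2 C v e g s =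
      (-C.HW (X.pt e) (X.pt v) g X.F - 2⁻¹ * C.yy X.F g g
        + 2⁻¹ * C.xx X.F (X.pt v) (X.pt v) (C.G0 (X.pt e))
        + 4⁻¹ * C.yy X.F (C.Γ (X.pt v) (X.pt v)) (C.G0 (X.pt e)))
      + (C.xx X.F (X.pt e) (X.pt v) (C.G0 (X.pt e))
        + C.yy X.F (C.Γ (X.pt v) (X.pt e)) (C.G0 (X.pt e))) * s
      + (2⁻¹ * C.xx X.F (X.pt e) (X.pt e) (C.G0 (X.pt e))
        + C.yy X.F (C.G0 (X.pt e)) (C.G0 (X.pt e))) * s ^ 2 := by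
    intro s
    have t1 : I (X.D C (v + s • e) * C.Γ (X.pt e) (g + (-s) • C.G0 (X.pt e)))
        = C.xx X.F (X.pt (v + s • e)) (X.pt e) (g + (-s) • C.G0 (X.pt e)) := by
      rw [Dat.D_eq hC hB hX]; rfl
    have t2 : I (X.F * C.Γ (g + (-s) • C.G0 (X.pt e)) (g + (-s) • C.G0 (X.pt e)))
        = C.yy X.F (g + (-s) • C.G0 (X.pt e)) (g + (-s) • C.G0 (X.pt e)) := rfl
    unfold Dat.O2
    rw [e1, e2, t1, t2, Dat.RRx hC hB hX, Dat.RRx hC hB hX, hΓ1, hΓ2,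
      hC.HW_eq hB hv he hg]
    rw [hC.xx_smul _ (Dat.pt_memI hC hB hX _).1 hG, hC.yy_smul _ (hC.add_mem _ (hC.add_mem _ gvv _
      (hC.smul_mem _ _ gve)) _ (hC.smul_mem _ _ hG)) hG]
    rw [hyl _ _ _ _ (hC.add_mem _ gvv _ (hC.smul_mem _ _ gve)) hG hG, hyl _ _ _ _ gvv gve hG,
      hyl _ _ _ _ gve hG (hgs s), hyl _ _ _ _ hg hG (hgs s)]
    simp only [hxr, hyr _ _ gve, hyr _ _ hG, hyr _ _ hg, Dat.xx_ptl hC hB hX _ _ _ _ hg,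
      Dat.xx_ptl hC hB hX _ _ _ _ hG, Dat.xx_ptr hC hB hX _ _ _ _ hg,
      Dat.xx_ptr hC hB hX _ _ _ _ hG]
    rw [hC.yy_comm hG hg, hC.symm _ eW _ vW]
    ring
  have key : X.P3 C v e g =
      (-C.HW (X.pt e) (X.pt v) g X.F - 2⁻¹ * C.yy X.F g g
        + 2⁻¹ * C.xx X.F (X.pt v) (X.pt v) (C.G0 (X.pt e))
        + 4⁻¹ * C.yy X.F (C.Γ (X.pt v) (X.pt v)) (C.G0 (X.pt e)))
      + (C.xx X.F (X.pt e) (X.pt v) (C.G0 (X.pt e))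
        + C.yy X.F (C.Γ (X.pt v) (X.pt e)) (C.G0 (X.pt e))) * 2⁻¹
      + (2⁻¹ * C.xx X.F (X.pt e) (X.pt e) (C.G0 (X.pt e))
        + C.yy X.F (C.G0 (X.pt e)) (C.G0 (X.pt e))) * 3⁻¹ := by
    unfold Dat.P3
    rw [intervalIntegral.integral_congr (g := fun s : ℝ =>
      (-C.HW (X.pt e) (X.pt v) g X.F - 2⁻¹ * C.yy X.F g g
        + 2⁻¹ * C.xx X.F (X.pt v) (X.pt v) (C.G0 (X.pt e))
        + 4⁻¹ * C.yy X.F (C.Γ (X.pt v) (X.pt v)) (C.G0 (X.pt e)))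
      + (C.xx X.F (X.pt e) (X.pt v) (C.G0 (X.pt e))
        + C.yy X.F (C.Γ (X.pt v) (X.pt e)) (C.G0 (X.pt e))) * s
      + (2⁻¹ * C.xx X.F (X.pt e) (X.pt e) (C.G0 (X.pt e))
        + C.yy X.F (C.G0 (X.pt e)) (C.G0 (X.pt e))) * s ^ 2) (fun s _ => hO s)]
    have := poly_int (-C.HW (X.pt e) (X.pt v) g X.F - 2⁻¹ * C.yy X.F g g
        + 2⁻¹ * C.xx X.F (X.pt v) (X.pt v) (C.G0 (X.pt e))
        + 4⁻¹ * C.yy X.F (C.Γ (X.pt v) (X.pt v)) (C.G0 (X.pt e)))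
      (C.xx X.F (X.pt e) (X.pt v) (C.G0 (X.pt e))
        + C.yy X.F (C.Γ (X.pt v) (X.pt e)) (C.G0 (X.pt e)))
      (2⁻¹ * C.xx X.F (X.pt e) (X.pt e) (C.G0 (X.pt e))
        + C.yy X.F (C.G0 (X.pt e)) (C.G0 (X.pt e))) 0 0 1
    simp only [zero_mul, add_zero, one_pow, mul_one, zero_div] at this
    rw [this]
    ring
  rw [key]
  unfold Calc.k3x Calc.xx Calc.yy
  ring

/-- `P3` as the ideal value of `k3` -/
theorem Dat.P3_ideal (v e : ℝ × ℝ) {g : M →ₘ[m] ℝ} (hg : g ∈ C.W) :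
    X.P3 C v e g =
    (X.RR C v e g - 2⁻¹ * I (X.F * C.Γ g g) + I (X.D C v * C.Γ (X.pt e) g)
        - 4⁻¹ * X.RR C v v (X.Ge C e))
    + 2⁻¹ * (X.RR C e e g - X.RR C v e (C.G0 (X.pt e)) + I (X.F * C.Γ g (C.G0 (X.pt e)))
        + I (X.D C e * C.Γ (X.pt e) g) - I (X.D C v * C.Γ (X.pt e) (C.G0 (X.pt e)))
        - 2⁻¹ * X.RR C v e (X.Ge C e))
    + 3⁻¹ * (-X.RR C e e (C.G0 (X.pt e)) - 2⁻¹ * I (X.F * C.Γ (C.G0 (X.pt e)) (C.G0 (X.pt e)))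
        - I (X.D C e * C.Γ (X.pt e) (C.G0 (X.pt e))) - 4⁻¹ * X.RR C e e (X.Ge C e)) := by
  have hF := hC.test_A hX.hF.1
  have hv := (Dat.pt_memI hC hB hX v).1
  have he := (Dat.pt_memI hC hB hX e).1
  have hG := hC.G0_mem hB he
  have vW := (hC.test_A hv).1
  have eW := (hC.test_A he).1
  have gvv := (hC.Γ_mem hB hv hv).1
  have gve := (hC.Γ_mem hB hv he).1
  have e2 : X.Ge C e = (2 : ℝ) • C.G0 (X.pt e) := by
    unfold Dat.Ge Calc.G0; algebra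
  have e3 : C.Γ (X.pt e) (X.pt e) = (2 : ℝ) • C.G0 (X.pt e) := e2
  have t1 : ∀ (x : ℝ × ℝ) (w : M →ₘ[m] ℝ), I (X.D C x * C.Γ (X.pt e) w)
      = C.xx X.F (X.pt x) (X.pt e) w := by
    intro x w
    rw [Dat.D_eq hC hB hX]; rfl
  have t2 : ∀ (u w : M →ₘ[m] ℝ), I (X.F * C.Γ u w) = C.yy X.F u w := fun u w => rfl
  have t3 : ∀ w ∈ C.W, C.yy X.F ((2:ℝ) • C.G0 (X.pt e)) w = 2 * C.yy X.F (C.G0 (X.pt e)) w := by
    intro w hw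
    rw [hC.yy_comm (hC.smul_mem _ _ hG) hw, hC.yy_smul _ hw hG, hC.yy_comm hw hG]
  rw [Dat.P3x hC hB hX v e hg]
  have hk : C.k3x X.F (X.pt v) (X.pt e) g =
      -(2⁻¹ * (-C.xx X.F (X.pt v) (X.pt e) g + C.yy X.F (C.Γ (X.pt v) (X.pt e)) g
        + C.xx X.F (X.pt e) (X.pt v) g))
      - 2⁻¹ * C.yy X.F g g
      + 2⁻¹ * C.xx X.F (X.pt v) (X.pt v) (C.G0 (X.pt e))
      + 4⁻¹ * C.yy X.F (C.Γ (X.pt v) (X.pt v)) (C.G0 (X.pt e))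
      + 2⁻¹ * C.xx X.F (X.pt e) (X.pt v) (C.G0 (X.pt e))
      + 2⁻¹ * C.yy X.F (C.Γ (X.pt v) (X.pt e)) (C.G0 (X.pt e))
      + 6⁻¹ * C.xx X.F (X.pt e) (X.pt e) (C.G0 (X.pt e))
      + 3⁻¹ * C.yy X.F (C.G0 (X.pt e)) (C.G0 (X.pt e)) := by
    have h1 := hC.HW_eq (F := X.F) hB hv he hg
    rw [hC.symm _ eW _ vW] at h1
    rw [← h1]; rfl
  rw [hk]
  simp only [Dat.RRx hC hB hX, t1, t2, e2]
  rw [e3, t3 _ hg, t3 _ hG, t3 _ (hC.smul_mem _ _ hG)]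
  simp only [hC.xx_smul _ hv hG, hC.xx_smul _ he hG, hC.yy_smul _ gvv hG, hC.yy_smul _ gve hG,
    hC.yy_smul _ hG hG]
  rw [hC.yy_comm hG hg]
  ring

end three

theorem N_sub_self (w : M →ₘ[m] ℝ) (hC : IsGamma C) : C.N (w - w) = 0 := by
  have h0 : (0 : M →ₘ[m] ℝ) ∈ C.W := hC.zero_mem
  have := hC.N_smul 0 h0
  rw [sub_self]
  simpa using this

theorem fin_real {A P k K δ ε c4 c5 : ℝ} (hk : |k - P| ≤ K * δ) (hε : 0 < ε) (hε1 : ε ≤ 1) :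
    A + ε ^ 3 * P - K * δ * ε ^ 3 - (|c4| + |c5|) * ε ^ 4 ≤ A + k * ε ^ 3 + c4 * ε ^ 4
      + c5 * ε ^ 5 := by
  have h3 : 0 < ε ^ 3 := by positivity
  have h4 : 0 < ε ^ 4 := by positivity
  have hk' := (abs_le.1 hk).1
  have q1 := mul_le_mul_of_nonneg_right hk' h3.le
  have q2 : -(|c4| * ε ^ 4) ≤ c4 * ε ^ 4 := by
    have := mul_le_mul_of_nonneg_right (neg_abs_le c4) h4.le
    linarith
  have q3 : -(|c5| * ε ^ 4) ≤ c5 * ε ^ 5 := by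
    have h5 : ε ^ 5 = ε ^ 4 * ε := by ring
    have h6 := abs_nonneg c5
    have h7 : |c5| * ε ^ 5 ≤ |c5| * ε ^ 4 := by
      refine mul_le_mul_of_nonneg_left ?_ h6
      rw [h5]; nlinarith
    have h8 := mul_le_mul_of_nonneg_right (neg_abs_le c5) (by positivity : (0:ℝ) ≤ ε ^ 5)
    linarith
  have e1 : (k - P) * ε ^ 3 = k * ε ^ 3 - ε ^ 3 * P := by ring
  have e2 : (-(K * δ)) * ε ^ 3 = -(K * δ * ε ^ 3) := by ring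
  rw [e1, e2] at q1
  linarith

/-- expansion of the action of a pair, with a constant `K₁` that does not depend on `δ` and on the
approximations -/
theorem Dat.pairX [SigmaFinite m] (hC : IsGamma C) {K : ℝ} (hB : C.BEi K)
    (a b F θ g : M →ₘ[m] ℝ) (hg : g ∈ C.A) (η : ℝ) (v e : ℝ × ℝ) :
    ∃ K₁ ≥ 0, ∀ δ, 0 < δ → δ ≤ 1 → ∀ X : Dat m, X.Ok C θ η δ → X.a = a → X.b = b →
      X.F = F → ∀ h ∈ C.TestI, C.nrm2 (h - g) ≤ (2 * δ) ^ 2 →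
      ∃ C₀ ≥ 0, ∀ ε, 0 < ε → ε ≤ 1 →
        ε / 2 * X.E2 C e e + ε ^ 2 / 2 * (X.X3 C e ((2 : ℝ) • v + e) e
          + X.W3 C ((2 : ℝ) • v + e) e e) + ε ^ 3 * X.P3 C v e g - K₁ * δ * ε ^ 3 - C₀ * ε ^ 4
          ≤ X.actP C v e h ε := by
  by_cases hex : a ∈ C.TestI ∧ b ∈ C.TestI ∧ F ∈ C.TestI
  swap
  · refine ⟨0, le_refl _, fun δ _ _ X hX Xa Xb XF => ?_⟩
    exact absurd ⟨Xa ▸ hX.ha, Xb ▸ hX.hb, XF ▸ hX.hF⟩ hex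
  obtain ⟨ha, hb, hF⟩ := hex
  have FA := hC.test_A hF.1
  have pe : e.1 • a + e.2 • b ∈ C.Test := hC.lin_test hB ha.1 hb.1 _ _
  have hG0 := hC.G0_mem hB pe
  have hGe := (hC.Γ_mem hB pe pe).1
  set G0 := C.G0 (e.1 • a + e.2 • b) with hG0d
  set Ge := C.Γ (e.1 • a + e.2 • b) (e.1 • a + e.2 • b) with hGed
  set c : ℝ := 2 + 4 * (|e.1 * e.1| + |e.1 * e.2 + e.2 * e.1| + |e.2 * e.2|) with hcd
  have hc : 0 ≤ c := by rw [hcd]; positivity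
  obtain ⟨R1, zR1, hR1⟩ := TR (θ := θ) (η := η) hC hB ha hb hF v e hg.1 hc
  obtain ⟨R2, zR2, hR2⟩ := TR (θ := θ) (η := η) hC hB ha hb hF v v hGe hc
  obtain ⟨R3, zR3, hR3⟩ := TR (θ := θ) (η := η) hC hB ha hb hF e e hg.1 hc
  obtain ⟨R4, zR4, hR4⟩ := TR (θ := θ) (η := η) hC hB ha hb hF v e hG0 hc
  obtain ⟨R5, zR5, hR5⟩ := TR (θ := θ) (η := η) hC hB ha hb hF v e hGe hc
  obtain ⟨R6, zR6, hR6⟩ := TR (θ := θ) (η := η) hC hB ha hb hF e e hG0 hc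
  obtain ⟨R7, zR7, hR7⟩ := TR (θ := θ) (η := η) hC hB ha hb hF e e hGe hc
  obtain ⟨T1, zT1, hT1⟩ := TD (θ := θ) (η := η) hC hB ha hb hF v e hg.1 hc
  obtain ⟨T2, zT2, hT2⟩ := TD (θ := θ) (η := η) hC hB ha hb hF e e hg.1 hc
  obtain ⟨T3, zT3, hT3⟩ := TD (θ := θ) (η := η) hC hB ha hb hF v e hG0 hc
  obtain ⟨T4, zT4, hT4⟩ := TD (θ := θ) (η := η) hC hB ha hb hF e e hG0 hc
  obtain ⟨F1, zF1, hF1⟩ := hC.pert2 FA.2 hg.1 hg.1 hc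
  obtain ⟨F2, zF2, hF2⟩ := hC.pert2 FA.2 hg.1 hG0 hc
  obtain ⟨F3, zF3, hF3⟩ := hC.pert2 FA.2 hG0 hG0 hc
  refine ⟨R1 + R2 + R3 + R4 + R5 + R6 + R7 + T1 + T2 + T3 + T4 + F1 + F2 + F3, by positivity, ?_⟩
  intro δ hδ hδ1 X hX Xa Xb XF h hh hhg
  obtain ⟨c4, c5, hact⟩ := actP_poly hC hB hX v e hh
  refine ⟨|c4| + |c5|, by positivity, fun ε hε hε1 => ?_⟩
  rw [hact ε]
  have hpe : X.pt e = e.1 • a + e.2 • b := by unfold Dat.pt; rw [Xa, Xb]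
  have hGe' : X.Ge C e = Ge := by unfold Dat.Ge; rw [hpe]
  have hG0' : C.G0 (X.pt e) = G0 := by rw [hpe]
  have hhW := (hC.test_A hh.1).1
  have Gm := (hC.test_A (G'_memI hC hB hX e e).1).1
  have Gm2 := hC.smul_mem (2:ℝ)⁻¹ _ Gm
  have n0 : ∀ w : M →ₘ[m] ℝ, C.N (w - w) ≤ c * δ := fun w => by
    rw [N_sub_self w hC]; positivity
  have nh : C.N (h - g) ≤ c * δ := by
    refine (IsGamma.N_le (by positivity) hhg).trans (mul_le_mul_of_nonneg_right ?_ hδ.le)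
    rw [hcd]
    have : 0 ≤ 4 * (|e.1 * e.1| + |e.1 * e.2 + e.2 * e.1| + |e.2 * e.2|) := by positivity
    linarith
  have nG : C.N ((2:ℝ)⁻¹ • X.G' e e - G0) ≤ c * δ := by
    have e1 : (2:ℝ)⁻¹ • X.G' e e - G0 = (2:ℝ)⁻¹ • (X.G' e e - C.Γ (X.pt e) (X.pt e)) := by
      rw [hG0d, hpe, smul_sub]; rfl
    have e2 := G'_close hC hB hX hδ e e
    rw [e1, hC.N_smul _ (hC.toIsDir.sub_mem Gm (hC.Γ_mem hB (pt_memI hC hB hX e).1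
      (pt_memI hC hB hX e).1).1)]
    rw [abs_of_pos (by norm_num : (0:ℝ) < 2⁻¹)]
    have e3 : 0 ≤ 4 * (|e.1 * e.1| + |e.1 * e.2 + e.2 * e.1| + |e.2 * e.2|) * δ := by positivity
    rw [hcd]
    nlinarith
  have a1 := hR1 δ hδ hδ1 X hX Xa Xb XF h hhW nh
  have a2 := hR2 δ hδ hδ1 X hX Xa Xb XF Ge hGe (n0 _)
  have a3 := hR3 δ hδ hδ1 X hX Xa Xb XF h hhW nh
  have a4 := hR4 δ hδ hδ1 X hX Xa Xb XF _ Gm2 nG
  have a5 := hR5 δ hδ hδ1 X hX Xa Xb XF Ge hGe (n0 _)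
  have a6 := hR6 δ hδ hδ1 X hX Xa Xb XF _ Gm2 nG
  have a7 := hR7 δ hδ hδ1 X hX Xa Xb XF Ge hGe (n0 _)
  have b1 := hT1 δ hδ hδ1 X hX Xa Xb XF h hhW nh
  have b2 := hT2 δ hδ hδ1 X hX Xa Xb XF h hhW nh
  have b3 := hT3 δ hδ hδ1 X hX Xa Xb XF _ Gm2 nG
  have b4 := hT4 δ hδ hδ1 X hX Xa Xb XF _ Gm2 nG
  have f1 := hF1 δ hδ hδ1 h hhW h hhW nh nh
  have f2 := hF2 δ hδ hδ1 h hhW _ Gm2 nh nG
  have f3 := hF3 δ hδ hδ1 _ Gm2 _ Gm2 nG nG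
  rw [← XF] at f1 f2 f3
  have hP := P3_ideal hC hB hX v e hg.1
  rw [hG0', hGe'] at hP
  have hk : |C.k3 X.F (X.pt e) h ((2:ℝ)⁻¹ • X.G' e e) (X.D C v) (X.D C e) (X.r C v v) (X.r C v e)
      (X.r C e e) - X.P3 C v e g|
      ≤ (R1 + R2 + R3 + R4 + R5 + R6 + R7 + T1 + T2 + T3 + T4 + F1 + F2 + F3) * δ := by
    unfold Calc.k3
    have s1 : C.Γ (X.pt e) (X.pt e) = Ge := hGe'
    rw [s1, mul_comm (X.r C v v) Ge, mul_comm (X.r C v e) Ge, mul_comm (X.r C e e) Ge, hP]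
    have := mul_nonneg zR1 hδ.le
    have := mul_nonneg zR2 hδ.le
    have := mul_nonneg zR3 hδ.le
    have := mul_nonneg zR4 hδ.le
    have := mul_nonneg zR5 hδ.le
    have := mul_nonneg zR6 hδ.le
    have := mul_nonneg zR7 hδ.le
    have := mul_nonneg zT1 hδ.le
    have := mul_nonneg zT2 hδ.le
    have := mul_nonneg zT3 hδ.le
    have := mul_nonneg zT4 hδ.le
    have := mul_nonneg zF1 hδ.le
    have := mul_nonneg zF2 hδ.le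
    have := mul_nonneg zF3 hδ.le
    rw [abs_le] at a1 a2 a3 a4 a5 a6 a7 b1 b2 b3 b4 f1 f2 f3 ⊢
    obtain ⟨a1, a1'⟩ := a1
    obtain ⟨a2, a2'⟩ := a2
    obtain ⟨a3, a3'⟩ := a3
    obtain ⟨a4, a4'⟩ := a4
    obtain ⟨a5, a5'⟩ := a5
    obtain ⟨a6, a6'⟩ := a6
    obtain ⟨a7, a7'⟩ := a7
    obtain ⟨b1, b1'⟩ := b1
    obtain ⟨b2, b2'⟩ := b2
    obtain ⟨b3, b3'⟩ := b3
    obtain ⟨b4, b4'⟩ := b4
    obtain ⟨f1, f1'⟩ := f1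
    obtain ⟨f2, f2'⟩ := f2
    obtain ⟨f3, f3'⟩ := f3
    constructor
    · linarith
    · linarith
  exact fin_real hk hε hε1

end Vale.Agent.P233
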