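import Vale.Agent.P233.AB.DatI

open MeasureTheory Filter Topology
open scoped ENNReal NNReal

namespace Vale.Agent.P233

variable {M : Type*} [MeasurableSpace M] {m : Measure M} {C : Calc m}

/-- strong locality: `Γ(a,a) = 0` a.e. on `{a = 0}` -/
theorem IsDir.Γ_zero_ae (hD : IsDir C) {a : M →ₘ[m] ℝ} (ha : a ∈ C.W) :
    ∀ᵐ x ∂m, a x = 0 → C.Γ a a x = 0 := by
  have ha2 := hD.memLp a ha
  have hN : ∀ n : ℕ, (0 : ℝ) < (n : ℝ) + 1 := fun n => by positivity
  set φ : ℕ → ℝ → ℝ := fun n t => t - ((n : ℝ) + 1)⁻¹ * Real.arctan (((n : ℝ) + 1) * t) with hφ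
  set φ' : ℕ → ℝ → ℝ := fun n t => 1 - 1 / (1 + (((n : ℝ) + 1) * t) ^ 2) with hφ'
  have hc : ∀ n, Continuous (φ n) := by
    intro n
    simp only [hφ]
    exact continuous_id.sub (continuous_const.mul
      (Real.continuous_arctan.comp (continuous_const.mul continuous_id)))
  have hc' : ∀ n, Continuous (φ' n) := by
    intro n
    simp only [hφ']
    refine continuous_const.sub (continuous_const.div (by fun_prop) fun t => ?_)
    positivity
  have hd : ∀ n t, HasDerivAt (φ n) (φ' n t) t := by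
    intro n t
    have h1 := ((hasDerivAt_id t).const_mul ((n : ℝ) + 1)).arctan.const_mul ((n : ℝ) + 1)⁻¹
    have h2 := (hasDerivAt_id t).sub h1
    refine h2.congr_deriv ?_
    simp only [hφ', id, mul_one]
    have := (hN n).ne'
    field_simp
  have hb : ∀ n t, 0 ≤ φ' n t ∧ φ' n t ≤ 1 := by
    intro n t
    simp only [hφ']
    constructor
    · rw [sub_nonneg, div_le_one (by positivity)]
      nlinarith [sq_nonneg (((n : ℝ) + 1) * t)]
    · rw [sub_le_self_iff]; positivity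
  have hch := fun n => hD.chain a ha (φ n) (φ' n) (hc n) (hc' n) (hd n) (by simp [hφ])
    ⟨1, fun t => by rw [abs_of_nonneg (hb n t).1]; exact (hb n t).2⟩
  set u : ℕ → M →ₘ[m] ℝ := fun n => AEEqFun.comp (φ n) (hc n) a with hu
  have hΓ : ∀ n, C.Γ (u n) (u n) = AEEqFun.comp (φ' n) (hc' n) a * (AEEqFun.comp (φ' n) (hc' n) a
      * C.Γ a a) := by
    intro n
    have h1 := (hch n).2 _ (hch n).1
    have h2 := (hch n).2 _ ha
    rw [hD.symm _ (hch n).1 _ ha] at h2
    rw [h1, h2]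
  have hΓae : ∀ᵐ x ∂m, ∀ n, C.Γ (u n) (u n) x = φ' n (a x) ^ 2 * C.Γ a a x := by
    rw [ae_all_iff]
    intro n
    rw [hΓ n]
    filter_upwards [mul_ae (AEEqFun.comp (φ' n) (hc' n) a) (AEEqFun.comp (φ' n) (hc' n) a * C.Γ a a),
      mul_ae (AEEqFun.comp (φ' n) (hc' n) a) (C.Γ a a), AEEqFun.coeFn_comp _ (hc' n) a]
      with x b1 b2 b3
    rw [b1, b2, b3, Function.comp_apply]
    ring
  have hΓ0 := hD.Γ_nonneg_ae ha
  have hint := int_of_mem (hD.mem1 a ha)
  -- the limit of the energies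
  have lim1 : Tendsto (fun n => I (C.Γ (u n) (u n))) atTop
      (𝓝 (∫ x, (if a x = 0 then 0 else C.Γ a a x) ∂m)) := by
    unfold I
    refine tendsto_integral_of_dominated_convergence (fun x => C.Γ a a x)
      (fun n => (C.Γ (u n) (u n)).aestronglyMeasurable) hint (fun n => ?_) ?_
    · filter_upwards [hΓae, hΓ0] with x b1 b2
      rw [b1 n, Real.norm_eq_abs, abs_mul, abs_of_nonneg b2, abs_of_nonneg (sq_nonneg _)]
      have h1 : φ' n (a x) ^ 2 ≤ 1 := pow_le_one₀ (hb n _).1 (hb n _).2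
      nlinarith
    · filter_upwards [hΓae] with x b1
      simp only [b1]
      by_cases h0 : a x = 0
      · rw [if_pos h0, h0]
        have : ∀ n, φ' n 0 = 0 := fun n => by simp [hφ']
        simp only [this]
        simp
      · rw [if_neg h0]
        have h1 : Tendsto (fun n : ℕ => φ' n (a x)) atTop (𝓝 1) := by
          have h2 : Tendsto (fun n : ℕ => (1 + (((n : ℝ) + 1) * a x) ^ 2)) atTop atTop := by
            refine tendsto_atTop_add_const_left _ _ ?_
            have h3 : Tendsto (fun n : ℕ => (n : ℝ) + 1) atTop atTop :=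
              tendsto_atTop_add_const_right _ _ tendsto_natCast_atTop_atTop
            have h4 := (tendsto_pow_atTop (two_ne_zero)).comp h3
            have h5 : (fun n : ℕ => (((n : ℝ) + 1) * a x) ^ 2) =
                fun n : ℕ => ((n : ℝ) + 1) ^ 2 * a x ^ 2 := by funext n; ring
            rw [h5]
            exact h4.atTop_mul_const (by positivity)
          have h6 := (tendsto_inv_atTop_zero.comp h2).const_sub 1
          simp only [hφ', one_div]
          simpa [Function.comp_def] using h6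
        simpa using (h1.pow 2).mul_const (C.Γ a a x)
  -- convergence in `L²`
  have lim2 : Tendsto (fun n => I ((u n - a) ^ 2)) atTop (𝓝 0) := by
    have : Tendsto (fun n => I ((u n - a) ^ 2)) atTop (𝓝 (I (0 : M →ₘ[m] ℝ))) := by
      refine I_tendsto_of_dominated (G := fun x => a x ^ 2)
        ((int_of_mem (mem_sq ha2)).congr (sq_ae a)) (fun n => ?_) ?_
      · filter_upwards [sq_ae (u n - a), sub_ae (u n) a, AEEqFun.coeFn_comp _ (hc n) a]
          with x b1 b2 b3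
        rw [b1, b2, hu, b3, Function.comp_apply, abs_of_nonneg (sq_nonneg _)]
        have h1 : φ n (a x) - a x = -(((n : ℝ) + 1)⁻¹ * Real.arctan (((n : ℝ) + 1) * a x)) := by
          simp only [hφ]; ring
        rw [h1, neg_sq]
        have h2 := abs_arctan_le (((n : ℝ) + 1) * a x)
        rw [← sq_abs (((n : ℝ) + 1)⁻¹ * Real.arctan (((n : ℝ) + 1) * a x)), ← sq_abs (a x)]
        refine pow_le_pow_left₀ (abs_nonneg _) ?_ 2
        rw [abs_mul, abs_of_pos (inv_pos.2 (hN n)), inv_mul_le_iff₀ (hN n)]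
        rwa [abs_mul, abs_of_pos (hN n)] at h2
      · have hall : ∀ᵐ x ∂m, ∀ n, ((u n - a) ^ 2 : M →ₘ[m] ℝ) x =
            (((n : ℝ) + 1)⁻¹ * Real.arctan (((n : ℝ) + 1) * a x)) ^ 2 := by
          rw [ae_all_iff]
          intro n
          filter_upwards [sq_ae (u n - a), sub_ae (u n) a, AEEqFun.coeFn_comp _ (hc n) a]
            with x b1 b2 b3
          rw [b1, b2, hu, b3, Function.comp_apply]
          simp only [hφ]; ring
        filter_upwards [hall, zero_ae (M := M) (m := m)] with x b1 b2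
        simp only [b1, b2]
        have h1 : Tendsto (fun n : ℕ => ((n : ℝ) + 1)⁻¹ * Real.arctan (((n : ℝ) + 1) * a x)) atTop
            (𝓝 0) := by
          refine squeeze_zero_norm (a := fun n : ℕ => ((n : ℝ) + 1)⁻¹ * (Real.pi / 2))
            (fun n => ?_) (by simpa using tendsto_inv_succ.mul_const (Real.pi / 2))
          rw [Real.norm_eq_abs, abs_mul, abs_of_pos (inv_pos.2 (hN n))]
          refine mul_le_mul_of_nonneg_left ?_ (inv_pos.2 (hN n)).le
          rw [abs_le]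
          exact ⟨(Real.neg_pi_div_two_lt_arctan _).le, (Real.arctan_lt_pi_div_two _).le⟩
        simpa using h1.pow 2
    rwa [I_zero] at this
  -- lower semicontinuity
  have key : I (C.Γ a a) ≤ ∫ x, (if a x = 0 then 0 else C.Γ a a x) ∂m := by
    refine le_of_forall_pos_le_add fun ε hε => ?_
    obtain ⟨n₀, hn₀⟩ := eventually_atTop.1 (lim1.eventually (gt_mem_nhds
      (show ∫ x, (if a x = 0 then 0 else C.Γ a a x) ∂m <
        ∫ x, (if a x = 0 then 0 else C.Γ a a x) ∂m + ε by linarith)))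
    exact (hD.mem_of_bounded (u := fun n => u (n + n₀)) (fun n => (hch _).1)
      (fun n => (hn₀ (n + n₀) (by omega)).le) ha2 ((tendsto_add_atTop_iff_nat n₀).2 lim2)).2
  have hi1 : Integrable (fun x => if a x = 0 then 0 else C.Γ a a x) m := by
    have hs : MeasurableSet {x | a x = 0} :=
      (AEEqFun.stronglyMeasurable a).measurable (measurableSet_singleton 0)
    have : (fun x => if a x = 0 then 0 else C.Γ a a x) = ({x | a x = 0}ᶜ).indicator (C.Γ a a) := by
      funext x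
      by_cases h : a x = 0
      · rw [if_pos h, Set.indicator_of_notMem (by simpa using h)]
      · rw [if_neg h, Set.indicator_of_mem (by simpa using h)]
    rw [this]
    exact hint.indicator hs.compl
  have h3 : ∫ x, (C.Γ a a x - (if a x = 0 then 0 else C.Γ a a x)) ∂m = 0 := by
    refine le_antisymm ?_ ?_
    · rw [integral_sub hint hi1]
      unfold I at key
      linarith
    · refine integral_nonneg_of_ae ?_
      filter_upwards [hΓ0] with x hx
      show (0 : ℝ) ≤ _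
      split_ifs <;> simp [hx]
  have h4 := (integral_eq_zero_iff_of_nonneg_ae (f := fun x => C.Γ a a x -
    (if a x = 0 then 0 else C.Γ a a x)) (by
    filter_upwards [hΓ0] with x hx
    show (0 : ℝ) ≤ C.Γ a a x - (if a x = 0 then 0 else C.Γ a a x)
    split_ifs <;> simp [hx]) (hint.sub hi1)).1 h3
  filter_upwards [h4] with x hx h0
  have : C.Γ a a x - (if a x = 0 then 0 else C.Γ a a x) = 0 := hx
  rwa [if_pos h0, sub_zero] at this

/-- strong locality -/
theorem IsGamma.Γ_loc (hC : IsGamma C) {a θ : M →ₘ[m] ℝ} (ha : a ∈ C.A) (hθ : θ ∈ C.A)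
    (h : θ * a = a) : C.Γ θ a = 0 ∧ (∀ g ∈ C.W, θ * C.Γ a g = C.Γ a g) ∧
      ∀ d, C.IsLap a d → θ * d = d := by
  have hD := hC.toIsDir
  have e1 : ∀ g ∈ C.W, C.Γ a g = θ * C.Γ a g + a * C.Γ θ g := by
    intro g hg
    have := hD.Γ_mul_left hθ ha hg
    rwa [h] at this
  have e0 : (1 - θ) * a = 0 := by rw [sub_mul, one_mul, h, sub_self]
  have e2 : ∀ g ∈ C.W, (1 - θ) * C.Γ a g = 0 := by
    intro g hg
    have h1 : (1 - θ) * ((1 - θ) * C.Γ a g) = 0 := by
      have : (1 - θ) * C.Γ a g = a * C.Γ θ g := by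
        have := e1 g hg
        linear_combination this
      rw [this, ← mul_assoc, e0, zero_mul]
    rw [eq_iff_ae] at h1 ⊢
    filter_upwards [h1, mul_ae (1 - θ) ((1 - θ) * C.Γ a g), mul_ae (1 - θ) (C.Γ a g),
      zero_ae (M := M) (m := m)] with x b1 b2 b3 b4
    rw [b2, b3, b4] at b1
    rw [b3, b4]
    rcases mul_eq_zero.1 b1 with h2 | h2
    · rw [h2, zero_mul]
    · exact h2
  have c2 : ∀ g ∈ C.W, θ * C.Γ a g = C.Γ a g := by
    intro g hg
    have := e2 g hg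
    rw [sub_mul, one_mul, sub_eq_zero] at this
    exact this.symm
  have c1 : C.Γ θ a = 0 := by
    have h1 : a * C.Γ θ a = 0 := by
      have h3 := e1 a ha.1
      rw [c2 a ha.1] at h3
      exact left_eq_add.1 h3
    rw [eq_iff_ae] at h1 ⊢
    filter_upwards [h1, mul_ae a (C.Γ θ a), zero_ae (M := M) (m := m), hD.Γ_zero_ae ha.1,
      hD.Γ_cs_ae hθ.1 ha.1] with x b1 b2 b3 b4 b5
    rw [b2, b3] at b1
    rw [b3]
    rcases mul_eq_zero.1 b1 with h2 | h2
    · rw [b4 h2, mul_zero] at b5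
      exact pow_eq_zero_iff (two_ne_zero) |>.1 (le_antisymm b5 (sq_nonneg _))
    · exact h2
  refine ⟨c1, c2, fun d hd => ?_⟩
  have hθd : MemLp (d - θ * d : M →ₘ[m] ℝ) 2 m := mem_sub hd.2.1 (mem_mul_top hθ.2 hd.2.1)
  suffices hz : d - θ * d = 0 by rw [sub_eq_zero] at hz; exact hz.symm
  refine hD.eq_zero_of_orth hθd fun g hg => ?_
  have key := hD.ext_A hD.zero_mem hθd (fun ψ hψ => ?_) hg
  · rw [hD.Γ_zero_left hg, I_zero, zero_add] at key
    exact key
  · rw [hD.Γ_zero_left hψ.1, I_zero, zero_add]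
    have h1 : I (C.Γ a ψ) = -I (d * ψ) := hd.2.2 _ hψ.1
    have hθψ := hD.mul_mem_A hθ hψ
    have h2 : I (C.Γ a (θ * ψ)) = -I (d * (θ * ψ)) := hd.2.2 _ hθψ.1
    have h3 : C.Γ a (θ * ψ) = C.Γ a ψ := by
      rw [hD.Γ_mul_right hθ hψ ha.1, hC.symm _ ha.1 _ hθ.1, c1, c2 _ hψ.1, mul_zero, add_zero]
    have hψ2 := hC.memLp _ hψ.1
    have h4 : (d - θ * d) * ψ = d * ψ - d * (θ * ψ) := by ring
    rw [h4, I_sub (mem_mul_22 hd.2.1 hψ2) (mem_mul_22 hd.2.1 (hC.memLp _ hθψ.1))]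
    rw [h3] at h2
    linarith

/-- approximation of functions in `A` supported where `χ = 1` -/
theorem exists_approx [SigmaFinite m] (hC : IsGamma C) {K : ℝ} (hB : C.BEi K)
    {G θ χ : M →ₘ[m] ℝ} (hG : G ∈ C.A) (hχ : χ ∈ C.TestI) (χG : χ * G = G) (θχ : θ * χ = χ)
    {δ : ℝ} (hδ : 0 < δ) :
    ∃ P ∈ C.TestI, θ * P = P ∧ C.nrm2 (P - G) ≤ δ ^ 2 := by
  have hD := hC.toIsDir
  have χA := hC.test_A hχ.1
  obtain ⟨A, hA⟩ := mem_top_iff.1 χA.2
  obtain ⟨L, hL⟩ := mem_top_iff.1 (hC.test_Γ_top hχ.1)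
  set c : ℝ := 2 * A ^ 2 + 2 * |L| + 1 with hc
  have hc0 : 0 < c := by positivity
  obtain ⟨g, hg, hg2⟩ := hC.testI_dense hB hG.1 (show 0 < δ ^ 2 / c by positivity)
  have gA := hC.test_A hg.1
  refine ⟨χ * g, hC.testI_mul hB hχ hg, by rw [← mul_assoc, θχ], ?_⟩
  have e : χ * g - G = χ * (g - G) := by rw [mul_sub, χG]
  rw [e]
  have h1 := hD.nrm2_mul_le χA hA hL (hD.A_sub gA hG)
  have h2 : 0 ≤ C.nrm2 (g - G) := hD.nrm2_nonneg (hD.sub_mem gA.1 hG.1)
  rw [lt_div_iff₀ hc0] at hg2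
  nlinarith

/-- existence of the approximations -/
theorem exists_dat [SigmaFinite m] (hC : IsGamma C) {K : ℝ} (hB : C.BEi K)
    {a b F θ χ : M →ₘ[m] ℝ} (ha : a ∈ C.TestI) (hb : b ∈ C.TestI) (hF : F ∈ C.TestI)
    (hθ : θ ∈ C.TestI) (hχ : χ ∈ C.TestI) (hF1 : MemLp F 1 m) (hθ0 : 0 ≤ θ)
    (χa : χ * a = a) (χb : χ * b = b) (θχ : θ * χ = χ) {η : ℝ} (hη : 0 < η) (Fη : η • θ ≤ F)
    {δ : ℝ} (hδ : 0 < δ) :
    ∃ X : Dat m, X.a = a ∧ X.b = b ∧ X.F = F ∧ X.Ok C θ η δ := by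
  have hD := hC.toIsDir
  have aA := hC.test_A ha.1
  have bA := hC.test_A hb.1
  have FA := hC.test_A hF.1
  have χA := hC.test_A hχ.1
  obtain ⟨-, la, ma⟩ := hC.Γ_loc aA χA χa
  obtain ⟨-, lb, mb⟩ := hC.Γ_loc bA χA χb
  have hDe : ∀ {u : M →ₘ[m] ℝ}, u ∈ C.TestI → χ * u = u → C.De F u ∈ C.A ∧ χ * C.De F u = C.De F u := by
    intro u hu χu
    have uA := hC.test_A hu.1
    obtain ⟨-, l, n⟩ := hC.Γ_loc uA χA χu
    refine ⟨hD.A_add (hC.Γ_mem hB hF.1 hu.1) (hD.mul_mem_A FA (hC.testI_lap_A hB hu)), ?_⟩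
    unfold Calc.De
    have e1 := l F FA.1
    have e2 := n _ (hC.test_isLap hu.1)
    rw [hC.symm _ FA.1 _ uA.1, mul_add, e1]
    congr 1
    calc χ * (F * C.lap u) = F * (χ * C.lap u) := by ring
      _ = _ := by rw [e2]
  obtain ⟨P, hP, θP, nP⟩ := exists_approx hC hB (hC.Γ_mem hB ha.1 ha.1) hχ (la a aA.1) θχ hδ
  obtain ⟨Q, hQ, θQ, nQ⟩ := exists_approx hC hB (hC.Γ_mem hB ha.1 hb.1) hχ (la b bA.1) θχ hδ
  obtain ⟨R, hR, θR, nR⟩ := exists_approx hC hB (hC.Γ_mem hB hb.1 hb.1) hχ (lb b bA.1) θχ hδ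
  obtain ⟨A, hA, θA, nA⟩ := exists_approx hC hB (hDe ha χa).1 hχ (hDe ha χa).2 θχ hδ
  obtain ⟨B, hB', θB, nB⟩ := exists_approx hC hB (hDe hb χb).1 hχ (hDe hb χb).2 θχ hδ
  have θa : θ * a = a := by rw [← χa, ← mul_assoc, θχ]
  have θb : θ * b = b := by rw [← χb, ← mul_assoc, θχ]
  exact ⟨⟨a, b, F, P, Q, R, A, B⟩, rfl, rfl, rfl, ⟨ha, hb, hF, hP, hQ, hR, hA, hB', hθ, hF1, hθ0,
    θa, θb, θP, θQ, θR, θA, θB, hη, Fη, nP, nQ, nR, nA, nB⟩⟩

end Vale.Agent.P233
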