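import Vale.Agent.P233.AB.Eps
import Vale.Agent.P233.AB.PairX
import Vale.Agent.P233.AB.Alg
import Vale.Agent.P233.AB.Seed

open MeasureTheory Filter Topology
open scoped ENNReal NNReal

namespace Vale.Agent.P233

/-- passage to the limit `ε → 0` in an inequality with linear error -/
theorem nonneg_of_eps {x C₀ ε₀ : ℝ} (hC : 0 ≤ C₀) (h0 : 0 < ε₀)
    (h : ∀ ε, 0 < ε → ε ≤ ε₀ → 0 ≤ x + C₀ * ε) : 0 ≤ x := by
  by_contra hx
  push Not at hx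
  have h1 : 0 < min ε₀ (-x / (2 * (C₀ + 1))) := lt_min h0 (by apply div_pos <;> linarith)
  have h2 := h _ h1 (min_le_left _ _)
  have h3 : C₀ * min ε₀ (-x / (2 * (C₀ + 1))) ≤ C₀ * (-x / (2 * (C₀ + 1))) :=
    mul_le_mul_of_nonneg_left (min_le_right _ _) hC
  have h4 : C₀ * (-x / (2 * (C₀ + 1))) ≤ -x / 2 := by
    rw [mul_div_assoc', div_le_div_iff₀ (by linarith) (by norm_num)]
    nlinarith
  linarith

section aux
variable {M : Type*} [MeasurableSpace M] {m : Measure M} {C : Calc m}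

/-- `∫ F (Γ - t)²` -/
theorem I_sq_shift {F G : M →ₘ[m] ℝ} (hF : MemLp F 1 m) (hG : MemLp G ∞ m) (t : ℝ) :
    I (F * (G - t • 1) ^ 2) = I (F * G ^ 2) - 2 * t * I (F * G) + t ^ 2 * I F := by
  have h1 : MemLp (F * G : M →ₘ[m] ℝ) 1 m := mem_top_mul hF hG
  have h2 : MemLp (F * G ^ 2 : M →ₘ[m] ℝ) 1 m := by
    have : F * G ^ 2 = F * G * G := by ring
    rw [this]
    exact mem_top_mul h1 hG
  have e : F * (G - t • 1) ^ 2 = F * G ^ 2 - (2 * t) • (F * G) + (t ^ 2) • F := by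
    rw [Algebra.smul_def, Algebra.smul_def, Algebra.smul_def, map_mul, map_pow]
    simp only [map_ofNat]
    ring
  rw [e, I_add (mem_sub h2 (mem_smul _ h1)) (mem_smul _ hF), I_sub h2 (mem_smul _ h1), I_smul,
    I_smul]

theorem nrm2_smul' (hC : IsDir C) {f : M →ₘ[m] ℝ} (c : ℝ) (hf : f ∈ C.W) :
    C.nrm2 (c • f) = c ^ 2 * C.nrm2 f := by
  unfold Calc.nrm2
  rw [hC.E_smul c hf, smul_pow, I_smul]
  ring

end aux

variable {M : Type*} [MetricSpace M] [SecondCountableTopology M] [MeasurableSpace M]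
  [BorelSpace M] {m : Measure M} [m.IsOpenPosMeasure]

/-- limits `ε → 0` and `δ → 0` -/
theorem lim_eps {κ K N : ℝ} (hM : ABSpace m κ K N) {a b F θ χ k : M →ₘ[m] ℝ}
    (ha : a ∈ (sob m).TestI) (hb : b ∈ (sob m).TestI) (hF : F ∈ (sob m).TestI)
    (hθ : θ ∈ (sob m).TestI) (hχ : χ ∈ (sob m).TestI) (hk : k ∈ (sob m).TestI)
    (hF1 : MemLp F 1 m) (hθ0 : 0 ≤ θ) (χa : χ * a = a) (χb : χ * b = b) (θχ : θ * χ = χ) {η : ℝ}
    (hη : 0 < η) (Fη : η • θ ≤ F)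
    (hsupp : ∃ (x₀ : M) (R : ℝ), ∀ᵐ x ∂m, R < dist x x₀ → F x = 0)
    (t : Fin 3 → ℝ) (ht : ∀ i, 0 ≤ t i) :
    0 ≤ (sob m).S0 a b F + 6 * (sob m).HW b a k F + 3 * I (F * (sob m).Γ k k)
      + 3 / 4 * |κ| * (I (F * ((sob m).Γ a a - t 0 • 1) ^ 2) + I (F * ((sob m).Γ b b - t 1 • 1) ^ 2)
          + I (F * ((sob m).Γ (a + b) (a + b) - t 2 • 1) ^ 2))
      + κ / 4 * (HH t * I F - (dHH t 0 * I (F * (sob m).Γ a a) + dHH t 1 * I (F * (sob m).Γ b b)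
          + dHH t 2 * I (F * (sob m).Γ (a + b) (a + b)))) := by
  have hC := hM.hC
  have hD := hC.toIsDir
  have hB : (sob m).BEi K := hC.bei hM.hN hM.hBN
  have : SigmaFinite m := sigmaFinite_of_ball hM.hfin
  have kA := hC.test_A hk.1
  have aW := (hC.test_A ha.1).1
  have bW := (hC.test_A hb.1).1
  have Gaa : (sob m).Γ a a ∈ (sob m).A := hC.Γ_mem hB ha.1 ha.1
  have Gab : (sob m).Γ a b ∈ (sob m).A := hC.Γ_mem hB ha.1 hb.1
  have Gbb : (sob m).Γ b b ∈ (sob m).A := hC.Γ_mem hB hb.1 hb.1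
  have hab := hC.testI_add hB ha hb
  have Gcc : (sob m).Γ (a + b) (a + b) ∈ (sob m).A := hC.Γ_mem hB hab.1 hab.1
  obtain ⟨K₁, hK₁, H⟩ := eps_main hM a b F θ k hk η hsupp t ht
  obtain ⟨L₁, hL₁, H₁⟩ := Dat.pairX hC hB a b F θ (k + (2 : ℝ)⁻¹ • (sob m).Γ a a)
    (hD.A_add kA (hD.A_smul _ Gaa)) η (dir 0) (dir 1 - dir 0)
  obtain ⟨L₂, hL₂, H₂⟩ := Dat.pairX hC hB a b F θ ((sob m).Γ a a - k)
    (hD.A_sub Gaa kA) η (dir 0) (dir 2 - dir 0)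
  obtain ⟨L₃, hL₃, H₃⟩ := Dat.pairX hC hB a b F θ (k + (sob m).Γ a b + (sob m).Γ b b)
    (hD.A_add (hD.A_add kA Gab) Gbb) η (dir 1) (dir 2 - dir 1)
  refine nonneg_of_eps (C₀ := 6 * K₁ + 2 * (L₁ + L₂ + L₃)) (ε₀ := 1) (by positivity) one_pos ?_
  intro δ hδ hδ1
  obtain ⟨X, Xa, Xb, XF, hX⟩ := exists_dat hC hB ha hb hF hθ hχ hF1 hθ0 χa χb θχ hη Fη hδ
  obtain ⟨C₀, hC₀, ε₀, hε₀, E⟩ := H δ hδ hδ1 X hX Xa Xb XF
  have δ2 : 0 ≤ δ ^ 2 := sq_nonneg δ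
  have PW : X.P - (sob m).Γ a a ∈ (sob m).W := hD.sub_mem (hC.test_A hX.hP.1).1 Gaa.1
  have QW : X.Q - (sob m).Γ a b ∈ (sob m).W := hD.sub_mem (hC.test_A hX.hQ.1).1 Gab.1
  have RW : X.R - (sob m).Γ b b ∈ (sob m).W := hD.sub_mem (hC.test_A hX.hR.1).1 Gbb.1
  have nP := hX.nP
  have nQ := hX.nQ
  have nR := hX.nR
  rw [Xa] at nP
  rw [Xa, Xb] at nQ
  rw [Xb] at nR
  obtain ⟨D₁, hD₁, E₁⟩ := H₁ δ hδ hδ1 X hX Xa Xb XF (k + (2 : ℝ)⁻¹ • X.P)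
    (hC.testI_add hB hk (hC.testI_smul hB _ hX.hP)) (by
      have e : k + (2 : ℝ)⁻¹ • X.P - (k + (2 : ℝ)⁻¹ • (sob m).Γ a a)
          = (2 : ℝ)⁻¹ • (X.P - (sob m).Γ a a) := by rw [smul_sub]; abel
      rw [e, nrm2_smul' hD _ PW]
      nlinarith)
  obtain ⟨D₂, hD₂, E₂⟩ := H₂ δ hδ hδ1 X hX Xa Xb XF (X.P - k)
    (by
      have e : X.P - k = X.P + (-1 : ℝ) • k := by rw [neg_smul, one_smul, sub_eq_add_neg]
      rw [e]
      exact hC.testI_add hB hX.hP (hC.testI_smul hB _ hk)) (by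
      have e : X.P - k - ((sob m).Γ a a - k) = X.P - (sob m).Γ a a := by abel
      rw [e]
      nlinarith)
  obtain ⟨D₃, hD₃, E₃⟩ := H₃ δ hδ hδ1 X hX Xa Xb XF (k + X.Q + X.R)
    (hC.testI_add hB (hC.testI_add hB hk hX.hQ) hX.hR) (by
      have e : k + X.Q + X.R - (k + (sob m).Γ a b + (sob m).Γ b b)
          = (X.Q - (sob m).Γ a b) + (X.R - (sob m).Γ b b) := by abel
      rw [e]
      have := hD.nrm2_add_le QW RW
      nlinarith)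
  have A1 := X.alg1 hC hB hX
  have A2 := X.alg2 hC hB hX
  have A3 := X.alg3 hC hB hX hk.1
  rw [Xa, Xb, XF] at A3
  have g0 : X.Ge (sob m) (dir 0) = (sob m).Γ a a := by
    simp [Dat.Ge, Dat.pt, dir, Xa]
  have g1 : X.Ge (sob m) (dir 1) = (sob m).Γ b b := by
    simp [Dat.Ge, Dat.pt, dir, Xb]
  have g2 : X.Ge (sob m) (dir 2) = (sob m).Γ (a + b) (a + b) := by
    have e : X.pt (dir 2) = -(a + b) := by
      simp [Dat.pt, dir, Xa, Xb]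
      abel
    have cW := hD.add_mem _ aW _ bW
    rw [Dat.Ge, e, hD.Γ_neg_left cW (hD.neg_mem cW), hD.Γ_neg_right cW cW, neg_neg]
  refine nonneg_of_eps (C₀ := 6 * C₀ + 2 * (D₁ + D₂ + D₃)) (ε₀ := min ε₀ 1) (by positivity)
    (lt_min hε₀ one_pos) ?_
  intro ε hε hε1
  have e0 := E ε hε (hε1.trans (min_le_left _ _))
  have e1 := E₁ ε hε (hε1.trans (min_le_right _ _))
  have e2 := E₂ ε hε (hε1.trans (min_le_right _ _))
  have e3 := E₃ ε hε (hε1.trans (min_le_right _ _))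
  simp only [Dat.actS, Dat.cp, g0, g1, g2, XF] at e0
  rw [I_sq_shift hF1 Gaa.2, I_sq_shift hF1 Gbb.2, I_sq_shift hF1 Gcc.2]
  have hbet : ∀ i, bet κ t i = κ / 24 * dHH t i + |κ| / 4 * t i := fun i => rfl
  rw [hbet, hbet, hbet] at e0
  have h3 : 0 < ε ^ 3 := by positivity
  refine nonneg_of_mul_nonneg_right ?_ h3
  have a1 := congrArg (fun z => ε / 2 * z) A1
  have a2 := congrArg (fun z => ε ^ 2 / 2 * z) A2
  have a3 := congrArg (fun z => ε ^ 3 * z) A3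
  linarith

end Vale.Agent.P233
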