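import Vale.Agent.P233.AB.UU3
import Vale.Agent.P233.AB.TI

open MeasureTheory Filter Topology
open scoped ENNReal NNReal InnerProductSpace

namespace Vale.Agent.P233

variable {M : Type*} [MeasurableSpace M] {m : Measure M} {C : Calc m}
variable {E : Type*} [NormedAddCommGroup E] [InnerProductSpace ℝ E] {Gr : (M →ₘ[m] ℝ) → M → E}
variable {U : (M →ₘ[m] ℝ) → (M →ₘ[m] ℝ) → M → E}

/-- `∫ φ |v|²` -/
noncomputable def nE (m : Measure M) (φ : M →ₘ[m] ℝ) (v : M → E) : ℝ := ∫ x, φ x * ‖v x‖ ^ 2 ∂m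

omit [InnerProductSpace ℝ E] in
theorem nE_int {φ : M →ₘ[m] ℝ} (hφ : MemLp φ ∞ m) {v : M → E} (hv : MemLp v 2 m) :
    Integrable (fun x => φ x * ‖v x‖ ^ 2) m := by
  obtain ⟨K, hK⟩ := mem_top_iff.1 hφ
  exact (hv.integrable_norm_pow two_ne_zero).bdd_mul hφ.1 (c := K)
    (by filter_upwards [hK] with x hx; rwa [Real.norm_eq_abs])

theorem ip_int {φ : M →ₘ[m] ℝ} (hφ : MemLp φ ∞ m) {u v : M → E} (hu : MemLp u 2 m)
    (hv : MemLp v 2 m) : Integrable (fun x => φ x * ⟪u x, v x⟫_ℝ) m := by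
  obtain ⟨K, hK⟩ := mem_top_iff.1 hφ
  exact (int_inner_integrable hu hv).bdd_mul hφ.1 (c := K)
    (by filter_upwards [hK] with x hx; rwa [Real.norm_eq_abs])

/-- expansion of `∫ φ |v + ψ w|²` -/
theorem nE_expand {φ ψ : M →ₘ[m] ℝ} (hφ : MemLp φ ∞ m) (hψ : MemLp ψ ∞ m) {v w : M → E}
    (hv : MemLp v 2 m) (hw : MemLp w 2 m) :
    nE m φ (fun x => v x + ψ x • w x) = nE m φ v + 2 * (∫ x, (φ * ψ) x * ⟪v x, w x⟫_ℝ ∂m)
      + nE m (φ * ψ ^ 2) w := by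
  have hφψ : MemLp (φ * ψ : M →ₘ[m] ℝ) ∞ m := mem_mul_top hφ hψ
  have hφψ2 : MemLp (φ * ψ ^ 2 : M →ₘ[m] ℝ) ∞ m :=
    mem_mul_top hφ (by rw [sq]; exact mem_mul_top hψ hψ)
  unfold nE
  rw [← integral_const_mul, ← integral_add (nE_int hφ hv) ((ip_int hφψ hv hw).const_mul 2)]
  have h3 : Integrable (fun x => φ x * ‖v x‖ ^ 2 + 2 * ((φ * ψ) x * ⟪v x, w x⟫_ℝ)) m :=
    (nE_int hφ hv).add ((ip_int hφψ hv hw).const_mul 2)
  rw [← integral_add h3 (nE_int hφψ2 hw)]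
  refine integral_congr_ae ?_
  filter_upwards [mul_ae φ ψ, mul_ae φ (ψ ^ 2), sq_ae ψ] with x a1 a2 a3
  rw [a1, a2, a3, norm_add_sq_real, real_inner_smul_right, norm_smul, Real.norm_eq_abs, mul_pow,
    sq_abs]
  ring

theorem nE_lin {φ φ' : M →ₘ[m] ℝ} (hφ : MemLp φ ∞ m) (hφ' : MemLp φ' ∞ m) (t : ℝ) {v : M → E}
    (hv : MemLp v 2 m) : nE m (φ + t • φ') v = nE m φ v + t * nE m φ' v := by
  unfold nE
  rw [← integral_const_mul, ← integral_add (nE_int hφ hv) ((nE_int hφ' hv).const_mul t)]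
  refine integral_congr_ae ?_
  filter_upwards [add_ae φ (t • φ'), smul_ae φ' t] with x a1 a2
  rw [a1, a2]; ring

theorem ip_lin {φ φ' : M →ₘ[m] ℝ} (hφ : MemLp φ ∞ m) (hφ' : MemLp φ' ∞ m) (t : ℝ) {u v : M → E}
    (hu : MemLp u 2 m) (hv : MemLp v 2 m) :
    ∫ x, (φ + t • φ') x * ⟪u x, v x⟫_ℝ ∂m
      = ∫ x, φ x * ⟪u x, v x⟫_ℝ ∂m + t * ∫ x, φ' x * ⟪u x, v x⟫_ℝ ∂m := by
  rw [← integral_const_mul, ← integral_add (ip_int hφ hu hv) ((ip_int hφ' hu hv).const_mul t)]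
  refine integral_congr_ae ?_
  filter_upwards [add_ae φ (t • φ'), smul_ae φ' t] with x a1 a2
  rw [a1, a2]; ring

theorem nE_le {φ : M →ₘ[m] ℝ} {K : ℝ} (hK : ∀ᵐ x ∂m, |φ x| ≤ K) (hφ : MemLp φ ∞ m) {v : M → E}
    (hv : MemLp v 2 m) : nE m φ v ≤ K * (eLpNorm v 2 m).toReal ^ 2 := by
  rw [eLpNorm_sq_eq hv, ← integral_const_mul]
  refine integral_mono_ae (nE_int hφ hv) ((hv.integrable_norm_pow two_ne_zero).const_mul K) ?_
  filter_upwards [hK] with x hx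
  exact mul_le_mul_of_nonneg_right ((le_abs_self _).trans hx) (sq_nonneg _)

variable (hC : IsGamma C) {κ κ' K : ℝ} (hB : C.BEi κ) (hG : IsGrad C Gr) (hU : IsHU C Gr U)
variable {f g h φ ψ a b c d a' b' k : M →ₘ[m] ℝ}

include hC hB hG hU

/-- the core inequality in terms of `U` -/
theorem core_form [SigmaFinite m] (ha : a ∈ C.Test) (hb : b ∈ C.Test) (hφ : φ ∈ C.A)
    (h : C.CoreAt κ' K a b φ) (hk : k ∈ C.Test) {t₁ t₂ t₃ : ℝ} (h1 : 0 ≤ t₁) (h2 : 0 ≤ t₂)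
    (h3 : 0 ≤ t₃) :
    0 ≤ I (C.rkI (UUof m U) κ' a b b a φ) + 3 * nE m φ (fun x => U b a x + Gr k x)
      + K * (I (φ * (C.Γ a a - t₁ • 1) ^ 2) + I (φ * (C.Γ b b - t₂ • 1) ^ 2)
          + I (φ * (C.Γ (a + b) (a + b) - t₃ • 1) ^ 2)) := by
  have h4 := h k hk t₁ t₂ t₃ h1 h2 h3
  have hUU := hU.isUU hC hB hG
  have hUm := hU.mem b hb a ha
  have hkm := hG.mem k (hC.tW hk)
  rw [S0_eq_rr hC hB hG hU hb ha hφ, HW_eq_ip hC hB hG hU hb ha hφ (hC.tW hk)] at h4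
  have e1 : I (C.rkI (UUof m U) κ' a b b a φ) = I (C.rrI (UUof m U) a b b a φ)
      - κ' * I (φ * (C.Γ a a * C.Γ b b - C.Γ a b ^ 2)) := by
    have hm : MemLp (φ * (C.Γ a a * C.Γ b b - C.Γ a b * C.Γ a b) : M →ₘ[m] ℝ) 1 m := by
      refine mem_mul_top hφ.2 (mem_sub (mem_mul_top (hC.Γ_mem hB ha ha).2
        (hC.Γ_mem1 (hC.tW hb) (hC.tW hb))) (mem_mul_top (hC.Γ_mem hB ha hb).2
        (hC.Γ_mem1 (hC.tW ha) (hC.tW hb))))
    unfold Calc.rkI
    rw [I_sub (hC.rrI_mem hB ha hb hb ha hφ hUU.mem) (mem_smul _ hm), I_smul, sq]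
  have e2 : nE m φ (fun x => U b a x + Gr k x) = I (φ * UUof m U b a b a)
      + 2 * I (φ * ipE m (U b a) (Gr k)) + I (φ * C.Γ k k) := by
    have h1 : (fun x => U b a x + Gr k x) = fun x => U b a x + (Gr k x) := rfl
    have i1 : Integrable (fun x => φ x * ‖U b a x‖ ^ 2) m := nE_int hφ.2 hUm
    have i2 : Integrable (fun x => φ x * ⟪U b a x, Gr k x⟫_ℝ) m := ip_int hφ.2 hUm hkm
    have i3 : Integrable (fun x => φ x * ‖Gr k x‖ ^ 2) m := nE_int hφ.2 hkm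
    have e3 : nE m φ (fun x => U b a x + Gr k x) = ∫ x, φ x * ‖U b a x‖ ^ 2 ∂m
        + 2 * ∫ x, φ x * ⟪U b a x, Gr k x⟫_ℝ ∂m + ∫ x, φ x * ‖Gr k x‖ ^ 2 ∂m := by
      unfold nE
      rw [← integral_const_mul, ← integral_add i1 (i2.const_mul 2)]
      have i4 : Integrable (fun x => φ x * ‖U b a x‖ ^ 2 + 2 * (φ x * ⟪U b a x, Gr k x⟫_ℝ)) m :=
        i1.add (i2.const_mul 2)
      rw [← integral_add i4 i3]
      refine integral_congr_ae ?_
      filter_upwards with x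
      rw [norm_add_sq_real]; ring
    rw [e3]
    congr 1
    · congr 1
      · refine integral_congr_ae ?_
        filter_upwards [mul_ae φ (UUof m U b a b a), ipE_ae hUm.1 hUm.1] with x a1 a2
        rw [a1]
        unfold UUof
        rw [a2, real_inner_self_eq_norm_sq]
      · congr 1
        refine integral_congr_ae ?_
        filter_upwards [mul_ae φ (ipE m (U b a) (Gr k)), ipE_ae hUm.1 hkm.1] with x a1 a2
        rw [a1, a2]
    · refine integral_congr_ae ?_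
      filter_upwards [mul_ae φ (C.Γ k k), hG.norm_sq (hC.tW hk)] with x a1 a2
      rw [a1, a2]
  rw [e1, e2]
  linarith

variable {S T : Set (M →ₘ[m] ℝ)}

/-- localisation in the potential -/
theorem loc_step [SigmaFinite m] (hST : IsMod S T) (hTA : ∀ f ∈ T, f ∈ C.A)
    (ha : a ∈ C.Test) (hb : b ∈ C.Test) {v : M → E} (hv : MemLp v 2 m)
    (H : ∀ k ∈ C.Test, ∀ φ ∈ T, 0 ≤ φ → 0 ≤ I (C.rkI (UUof m U) κ' a b b a φ)
      + 3 * nE m φ (fun x => v x + Gr k x)) {α β : M →ₘ[m] ℝ} (hα : α ∈ S) (hβ : β ∈ C.Test) :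
    ∀ k ∈ C.Test, ∀ φ ∈ T, 0 ≤ φ → 0 ≤ I (C.rkI (UUof m U) κ' a b b a φ)
      + 3 * nE m φ (fun x => (v x + α x • Gr β x) + Gr k x) := by
  intro k hk φ hφ hφ0
  have hUU := hU.isUU hC hB hG
  have hαT := hST.topS α hα
  have hkm := hG.mem k (hC.tW hk)
  have hβm := hG.mem β (hC.tW hβ)
  have hvk : MemLp (fun x => v x + Gr k x) 2 m := hv.add hkm
  have linI : ∀ φ ∈ T, ∀ ψ ∈ T, ∀ t : ℝ, I (C.rkI (UUof m U) κ' a b b a (φ + t • ψ))
      = I (C.rkI (UUof m U) κ' a b b a φ) + t * I (C.rkI (UUof m U) κ' a b b a ψ) := by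
    intro φ hφ ψ hψ t
    rw [hC.rkI_linφ t ha hb (hTA φ hφ).1 (hTA ψ hψ).1,
      I_add (hC.rkI_mem hB hUU ha hb hb ha (hTA φ hφ))
        (mem_smul _ (hC.rkI_mem hB hUU ha hb hb ha (hTA ψ hψ))), I_smul]
  have z0 : I (C.rkI (UUof m U) κ' a b b a 0) = 0 := by
    have := linI 0 hST.zero 0 hST.zero 1
    simpa using this
  have nz : ∀ w : M → E, nE m (0 : M →ₘ[m] ℝ) w = 0 := by
    intro w
    unfold nE
    rw [← integral_zero M ℝ (μ := m)]
    refine integral_congr_ae ?_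
    filter_upwards [zero_ae (M := M) (m := m)] with x hx
    rw [hx, zero_mul]
  have ipz : ∀ u w : M → E, ∫ x, (0 : M →ₘ[m] ℝ) x * ⟪u x, w x⟫_ℝ ∂m = 0 := by
    intro u w
    rw [← integral_zero M ℝ (μ := m)]
    refine integral_congr_ae ?_
    filter_upwards [zero_ae (M := M) (m := m)] with x hx
    rw [hx, zero_mul]
  have key := hST.bernstein
    (P0 := fun φ => I (C.rkI (UUof m U) κ' a b b a φ) + 3 * nE m φ (fun x => v x + Gr k x))
    (P1 := fun φ => 6 * ∫ x, φ x * ⟪v x + Gr k x, Gr β x⟫_ℝ ∂m)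
    (P2 := fun φ => 3 * nE m φ (Gr β)) ?_ ?_ ?_ ?_ ?_ ?_ ?_ (hST.AP_of_A hα) hφ hφ0
  · have e := nE_expand (hTA φ hφ).2 hαT hvk hβm
    have e' : (fun x => (v x + α x • Gr β x) + Gr k x)
        = fun x => (v x + Gr k x) + α x • Gr β x := by
      funext x; abel
    rw [e', e]
    linarith
  · intro φ hφ ψ hψ
    have h1 := linI φ hφ ψ hψ 1
    have h2 := nE_lin (hTA φ hφ).2 (hTA ψ hψ).2 1 hvk
    rw [one_smul, one_mul] at h1 h2
    simp only [h1, h2]; ring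
  · intro φ hφ ψ hψ
    have h2 := ip_lin (hTA φ hφ).2 (hTA ψ hψ).2 1 hvk hβm
    rw [one_smul, one_mul] at h2
    simp only [h2]; ring
  · intro φ hφ ψ hψ
    have h2 := nE_lin (hTA φ hφ).2 (hTA ψ hψ).2 1 hβm
    rw [one_smul, one_mul] at h2
    simp only [h2]; ring
  · intro t φ hφ
    have h1 := linI 0 hST.zero φ hφ t
    have h2 := nE_lin (hTA 0 hST.zero).2 (hTA φ hφ).2 t hvk
    rw [zero_add, z0, zero_add] at h1
    rw [zero_add, nz, zero_add] at h2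
    simp only [h1, h2]; ring
  · intro t φ hφ
    have h2 := ip_lin (hTA 0 hST.zero).2 (hTA φ hφ).2 t hvk hβm
    rw [zero_add, ipz, zero_add] at h2
    simp only [h2]; ring
  · intro t φ hφ
    have h2 := nE_lin (hTA 0 hST.zero).2 (hTA φ hφ).2 t hβm
    rw [zero_add, nz, zero_add] at h2
    simp only [h2]; ring
  · intro c φ hφ hφ0
    have hs := hC.test_add hB hk (hC.test_smul hB c hβ)
    have h1 := H _ hs φ hφ hφ0
    have e : nE m φ (fun x => v x + Gr (k + c • β) x)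
        = nE m φ (fun x => v x + Gr k x) + 2 * (∫ x, φ x * ⟪v x + Gr k x, Gr β x⟫_ℝ ∂m) * c
          + c ^ 2 * nE m φ (Gr β) := by
      have i1 := nE_int (hTA φ hφ).2 hvk
      have i2 := ip_int (hTA φ hφ).2 hvk hβm
      have i3 := nE_int (hTA φ hφ).2 hβm
      have e1 : nE m φ (fun x => v x + Gr (k + c • β) x)
          = ∫ x, (φ x * ‖v x + Gr k x‖ ^ 2 + (2 * c) * (φ x * ⟪v x + Gr k x, Gr β x⟫_ℝ)
            + c ^ 2 * (φ x * ‖Gr β x‖ ^ 2)) ∂m := by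
        refine integral_congr_ae ?_
        filter_upwards [hG.add hC.toIsDir (hC.tW hk) (hC.smul_mem c _ (hC.tW hβ)),
          hG.smul hC.toIsDir c (hC.tW hβ)] with x a1 a2
        have a3 : v x + Gr (k + c • β) x = (v x + Gr k x) + c • Gr β x := by
          rw [a1, a2]; abel
        rw [a3, norm_add_sq_real, real_inner_smul_right, norm_smul, Real.norm_eq_abs, mul_pow,
          sq_abs]
        ring
      have i4 : Integrable (fun x => φ x * ‖v x + Gr k x‖ ^ 2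
          + (2 * c) * (φ x * ⟪v x + Gr k x, Gr β x⟫_ℝ)) m := i1.add (i2.const_mul _)
      rw [e1, integral_add i4 (i3.const_mul _), integral_add i1 (i2.const_mul _),
        integral_const_mul, integral_const_mul]
      unfold nE
      ring
    rw [e] at h1
    linarith

end Vale.Agent.P233
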