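import Vale.Agent.P233.AB.Loc

open MeasureTheory Filter Topology
open scoped ENNReal NNReal InnerProductSpace

namespace Vale.Agent.P233

variable {M : Type*} [MeasurableSpace M] {m : Measure M} {C : Calc m}
variable {E : Type*} [NormedAddCommGroup E] [InnerProductSpace ℝ E] {Gr : (M →ₘ[m] ℝ) → M → E}
variable {U : (M →ₘ[m] ℝ) → (M →ₘ[m] ℝ) → M → E}
variable {S T : Set (M →ₘ[m] ℝ)}

/-- elimination of a constant by localisation -/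
theorem t_elim (hC : IsGamma C) (hST : IsMod S T) (hT1 : ∀ f ∈ T, MemLp f 1 m)
    (hTT : ∀ f ∈ T, MemLp f ∞ m)
    (hSd : ∀ f ∈ C.W, ∀ ε > 0, ∃ g ∈ S, g ∈ C.W ∧ C.nrm2 (g - f) < ε)
    {B : (M →ₘ[m] ℝ) → ℝ} (hBl : ∀ φ ∈ T, ∀ ψ ∈ T, ∀ t : ℝ, B (φ + t • ψ) = B φ + t * B ψ)
    {g : M →ₘ[m] ℝ} (hg : g ∈ C.A) (hg0 : 0 ≤ g) {K : ℝ} (hK : 0 ≤ K)
    (h : ∀ φ ∈ T, 0 ≤ φ → ∀ t : ℝ, 0 ≤ t → 0 ≤ B φ + K * I (φ * (g - t • 1) ^ 2)) :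
    ∀ φ ∈ T, 0 ≤ φ → 0 ≤ B φ := by
  have B0 : B 0 = 0 := by
    have := hBl 0 hST.zero 0 hST.zero 1
    simpa using this
  have Badd : ∀ φ ∈ T, ∀ ψ ∈ T, B (φ + ψ) = B φ + B ψ := by
    intro φ hφ ψ hψ
    have := hBl φ hφ ψ hψ 1
    rwa [one_smul, one_mul] at this
  have Bsm : ∀ (t : ℝ), ∀ φ ∈ T, B (t • φ) = t * B φ := by
    intro t φ hφ
    have := hBl 0 hST.zero φ hφ t
    rwa [zero_add, B0, zero_add] at this
  -- for functions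
  have step : ∀ τ ∈ S, ∀ φ ∈ T, 0 ≤ φ → 0 ≤ B φ + K * I (φ * (g - τ) ^ 2) := by
    intro τ hτ φ hφ hφ0
    have hτT := hST.topS τ hτ
    have m1 : ∀ φ ∈ T, MemLp (φ * g ^ 2 : M →ₘ[m] ℝ) 1 m := fun φ hφ =>
      mem_top_mul (hT1 φ hφ) (by rw [sq]; exact mem_mul_top hg.2 hg.2)
    have m2 : ∀ φ ∈ T, MemLp (φ * g : M →ₘ[m] ℝ) 1 m := fun φ hφ =>
      mem_top_mul (hT1 φ hφ) hg.2
    have key := hST.bernstein
      (P0 := fun φ => B φ + K * I (φ * g ^ 2))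
      (P1 := fun φ => (-2 * K) * I (φ * g))
      (P2 := fun φ => K * I φ) ?_ ?_ ?_ ?_ ?_ ?_ ?_ (hST.AP_of_A hτ) hφ hφ0
    · have e : φ * (g - τ) ^ 2 = φ * g ^ 2 + (-2 : ℝ) • (φ * τ * g) + φ * τ ^ 2 := by algebra
      have n2 : MemLp (φ * τ * g : M →ₘ[m] ℝ) 1 m := mem_top_mul (mem_top_mul (hT1 φ hφ) hτT) hg.2
      have n3 : MemLp (φ * τ ^ 2 : M →ₘ[m] ℝ) 1 m :=
        mem_top_mul (hT1 φ hφ) (by rw [sq]; exact mem_mul_top hτT hτT)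
      rw [e, I_add (mem_add (m1 φ hφ) (mem_smul _ n2)) n3, I_add (m1 φ hφ) (mem_smul _ n2), I_smul]
      linarith
    · intro φ hφ ψ hψ
      rw [Badd φ hφ ψ hψ, add_mul, I_add (m1 φ hφ) (m1 ψ hψ)]; ring
    · intro φ hφ ψ hψ
      rw [add_mul, I_add (m2 φ hφ) (m2 ψ hψ)]; ring
    · intro φ hφ ψ hψ
      rw [I_add (hT1 φ hφ) (hT1 ψ hψ)]; ring
    · intro c φ hφ
      rw [Bsm c φ hφ, smul_mul_assoc, I_smul]; ring
    · intro c φ hφ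
      rw [smul_mul_assoc, I_smul]; ring
    · intro c φ hφ
      rw [I_smul]; ring
    · intro c φ hφ hφ0
      have e : ∀ c : ℝ, I (φ * (g - c • 1) ^ 2) = I (φ * g ^ 2) + (-2 * c) * I (φ * g)
          + c ^ 2 * I φ := by
        intro c
        have e : φ * (g - c • 1) ^ 2 = φ * g ^ 2 + (-2 * c) • (φ * g) + (c ^ 2) • φ := by algebra
        rw [e, I_add (mem_add (m1 φ hφ) (mem_smul _ (m2 φ hφ))) (mem_smul _ (hT1 φ hφ)),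
          I_add (m1 φ hφ) (mem_smul _ (m2 φ hφ)), I_smul, I_smul]
      have p1 : 0 ≤ I (φ * g) := I_nonneg (mul_nonneg hφ0 hg0)
      have p2 : 0 ≤ I φ := I_nonneg hφ0
      rcases le_or_gt 0 c with hc | hc
      · have := h φ hφ hφ0 c hc
        rw [e c] at this
        linarith
      · have := h φ hφ hφ0 0 le_rfl
        rw [e 0] at this
        have q1 : 0 ≤ (-c) * (2 * K * I (φ * g)) :=
          mul_nonneg (by linarith) (by positivity)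
        have q2 : 0 ≤ c ^ 2 * (K * I φ) := by positivity
        nlinarith
  -- choose `τ` close to `g`
  intro φ hφ hφ0
  obtain ⟨L, hL⟩ := mem_top_iff.1 (hTT φ hφ)
  refine le_of_forall_pos_le_add fun ε hε => ?_
  obtain ⟨τ, hτ, hτW, hτε⟩ := hSd g hg.1 (ε / (K * |L| + 1)) (by positivity)
  have h1 := step τ hτ φ hφ hφ0
  have hd2 : MemLp (g - τ : M →ₘ[m] ℝ) 2 m := mem_sub (hC.memLp _ hg.1) (hC.memLp _ hτW)
  have h2 : I (φ * (g - τ) ^ 2) ≤ |L| * I ((g - τ) ^ 2) := by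
    rw [← I_smul]
    refine I_mono (mem_mul_top (hTT φ hφ) (mem_sq hd2)) (mem_smul _ (mem_sq hd2)) ?_
    rw [le_iff_ae]
    filter_upwards [mul_ae φ ((g - τ) ^ 2), smul_ae ((g - τ) ^ 2) |L|, sq_ae (g - τ), hL]
      with x a1 a2 a3 a4
    rw [a1, a2, a3]
    exact mul_le_mul_of_nonneg_right ((le_abs_self _).trans (a4.trans (le_abs_self _)))
      (sq_nonneg _)
  have h3 : I ((g - τ) ^ 2) ≤ ε / (K * |L| + 1) := by
    have e : (g - τ) ^ 2 = (τ - g) ^ 2 := by ring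
    rw [e]
    exact (hC.I_sq_le_nrm2 (hC.sub_mem hτW hg.1)).trans hτε.le
  have h4 : K * I (φ * (g - τ) ^ 2) ≤ ε := by
    calc K * I (φ * (g - τ) ^ 2) ≤ K * (|L| * I ((g - τ) ^ 2)) := by gcongr
      _ ≤ K * (|L| * (ε / (K * |L| + 1))) := by gcongr
      _ = (K * |L|) / (K * |L| + 1) * ε := by ring
      _ ≤ 1 * ε := by
          refine mul_le_mul_of_nonneg_right ?_ hε.le
          rw [div_le_one (by positivity)]; linarith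
      _ = ε := one_mul ε
  linarith

variable (hC : IsGamma C) {κ κ' K : ℝ} (hB : C.BEi κ) (hG : IsGrad C Gr) (hU : IsHU C Gr U)
variable {a b : M →ₘ[m] ℝ}

include hC hB hG hU

theorem rkI_lin' (hTA : ∀ f ∈ T, f ∈ C.A) (ha : a ∈ C.Test) (hb : b ∈ C.Test) :
    ∀ φ ∈ T, ∀ ψ ∈ T, ∀ t : ℝ, I (C.rkI (UUof m U) κ' a b b a (φ + t • ψ))
      = I (C.rkI (UUof m U) κ' a b b a φ) + t * I (C.rkI (UUof m U) κ' a b b a ψ) := by
  have hUU := hU.isUU hC hB hG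
  intro φ hφ ψ hψ t
  rw [hC.rkI_linφ t ha hb (hTA φ hφ).1 (hTA ψ hψ).1,
    I_add (hC.rkI_mem hB hUU ha hb hb ha (hTA φ hφ))
      (mem_smul _ (hC.rkI_mem hB hUU ha hb hb ha (hTA ψ hψ))), I_smul]

/-- the constants `t_i` are eliminated -/
theorem elim_t [SigmaFinite m] (hST : IsMod S T) (hTA : ∀ f ∈ T, f ∈ C.A)
    (hT1 : ∀ f ∈ T, MemLp f 1 m)
    (hSd : ∀ f ∈ C.W, ∀ ε > 0, ∃ g ∈ S, g ∈ C.W ∧ C.nrm2 (g - f) < ε)
    (ha : a ∈ C.Test) (hb : b ∈ C.Test) (hK : 0 ≤ K)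
    (h : ∀ φ ∈ T, 0 ≤ φ → C.CoreAt κ' K a b φ) :
    ∀ k ∈ C.Test, ∀ φ ∈ T, 0 ≤ φ → 0 ≤ I (C.rkI (UUof m U) κ' a b b a φ)
      + 3 * nE m φ (fun x => U b a x + Gr k x) := by
  intro k hk
  have hTT : ∀ f ∈ T, MemLp f ∞ m := fun f hf => (hTA f hf).2
  have hv : MemLp (fun x => U b a x + Gr k x) 2 m := (hU.mem b hb a ha).add (hG.mem k (hC.tW hk))
  have hl := rkI_lin' (κ' := κ') hC hB hG hU hTA ha hb
  have hab := hC.test_add hB ha hb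
  have lin2 : ∀ φ ∈ T, ∀ ψ ∈ T, ∀ t : ℝ, nE m (φ + t • ψ) (fun x => U b a x + Gr k x)
      = nE m φ (fun x => U b a x + Gr k x) + t * nE m ψ (fun x => U b a x + Gr k x) :=
    fun φ hφ ψ hψ t => nE_lin (hTT φ hφ) (hTT ψ hψ) t hv
  have lin3 : ∀ g : M →ₘ[m] ℝ, g ∈ C.A → ∀ s : ℝ, ∀ φ ∈ T, ∀ ψ ∈ T, ∀ t : ℝ,
      I ((φ + t • ψ) * (g - s • 1) ^ 2) = I (φ * (g - s • 1) ^ 2) + t * I (ψ * (g - s • 1) ^ 2) := by
    intro g hg s φ hφ ψ hψ t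
    have hgT : MemLp ((g - s • 1) ^ 2 : M →ₘ[m] ℝ) ∞ m := by
      rw [sq]; exact mem_mul_top (mem_sub hg.2 (mem_smul _ mem_top_one))
        (mem_sub hg.2 (mem_smul _ mem_top_one))
    rw [add_mul, smul_mul_assoc, I_add (mem_top_mul (hT1 φ hφ) hgT)
      (mem_smul _ (mem_top_mul (hT1 ψ hψ) hgT)), I_smul]
  have gaa := hC.Γ_mem hB ha ha
  have gbb := hC.Γ_mem hB hb hb
  have gcc := hC.Γ_mem hB hab hab
  refine t_elim hC hST hT1 hTT hSd (g := C.Γ a a) (K := K) ?_ gaa (hC.nonneg _ (hC.tW ha)) hK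
    fun φ hφ hφ0 t₁ h1 => ?_
  · intro φ hφ ψ hψ t
    rw [hl φ hφ ψ hψ t, lin2 φ hφ ψ hψ t]; ring
  revert φ
  have key2 : ∀ φ ∈ T, 0 ≤ φ → 0 ≤ (I (C.rkI (UUof m U) κ' a b b a φ)
      + 3 * nE m φ (fun x => U b a x + Gr k x)) + K * I (φ * (C.Γ a a - t₁ • 1) ^ 2) := by
    refine t_elim hC hST hT1 hTT hSd (g := C.Γ b b) (K := K) ?_ gbb (hC.nonneg _ (hC.tW hb)) hK
      fun φ hφ hφ0 t₂ h2 => ?_
    · intro φ hφ ψ hψ t
      rw [hl φ hφ ψ hψ t, lin2 φ hφ ψ hψ t, lin3 _ gaa t₁ φ hφ ψ hψ t]; ring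
    revert φ
    refine t_elim hC hST hT1 hTT hSd (g := C.Γ (a + b) (a + b)) (K := K) ?_ gcc
      (hC.nonneg _ (hC.tW hab)) hK fun φ hφ hφ0 t₃ h3 => ?_
    · intro φ hφ ψ hψ t
      rw [hl φ hφ ψ hψ t, lin2 φ hφ ψ hψ t, lin3 _ gaa t₁ φ hφ ψ hψ t,
        lin3 _ gbb t₂ φ hφ ψ hψ t]; ring
    have := core_form hC hB hG hU ha hb (hTA φ hφ) (h φ hφ hφ0) hk h1 h2 h3
    linarith
  exact key2

end Vale.Agent.P233
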