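import Vale.Agent.P233.AB.Sav

open MeasureTheory Filter Topology
open scoped ENNReal NNReal

namespace Vale.Agent.P233

variable {M : Type*} [MeasurableSpace M] {m : Measure M} {C : Calc m}

/-- `N(f,g;φ)`: the weak form of `Γ₂(f,g) - κ Γ(f,g)` tested with `φ` -/
noncomputable def Calc.NN (C : Calc m) (κ : ℝ) (f g φ : M →ₘ[m] ℝ) : ℝ :=
  -((2 : ℝ)⁻¹ * I (C.Γ (C.Γ f g) φ))
    - (2 : ℝ)⁻¹ * I (φ * (C.Γ f (C.lap g) + C.Γ g (C.lap f)))
    - κ * I (φ * C.Γ f g)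

/-- twice the Hessian: `2 Hess h (f,g)` -/
noncomputable def Calc.KK (C : Calc m) (h f g : M →ₘ[m] ℝ) : M →ₘ[m] ℝ :=
  (2 : ℝ) • C.hess h f g

/-- `Γ(h,f)Γ(k,g) + Γ(h,g)Γ(k,f)` -/
noncomputable def Calc.MM (C : Calc m) (f g h k : M →ₘ[m] ℝ) : M →ₘ[m] ℝ :=
  C.Γ h f * C.Γ k g + C.Γ h g * C.Γ k f

namespace IsGamma

variable (hC : IsGamma C) {κ : ℝ} (hB : C.BEi κ)
variable {f g h k φ ψ : M →ₘ[m] ℝ}

include hC hB

/-! ### the algebra of test functions -/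

theorem test_add (hf : f ∈ C.Test) (hg : g ∈ C.Test) : f + g ∈ C.Test := by
  rw [hC.mem_test_iff] at hf hg ⊢
  obtain ⟨f1, f2, f3, f4, f5, f6⟩ := hf
  obtain ⟨g1, g2, g3, g4, g5, g6⟩ := hg
  refine ⟨hC.add_mem _ f1 _ g1, mem_add f2 g2, ?_, f4 + g4, hC.isLap_add f5 g5,
    hC.add_mem _ f6 _ g6⟩
  have : C.Γ (f + g) (f + g) = C.Γ f f + (2 : ℝ) • C.Γ f g + C.Γ g g := by
    rw [hC.add_left _ f1 _ g1 _ (hC.add_mem _ f1 _ g1), hC.Γ_add_right f1 f1 g1,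
      hC.Γ_add_right g1 f1 g1, hC.symm _ g1 _ f1]
    algebra
  rw [this]
  exact mem_add (mem_add f3 (mem_smul _ (hC.Γ_memTop f1 f3 g1 g3))) g3

theorem test_smul (c : ℝ) (hf : f ∈ C.Test) : c • f ∈ C.Test := by
  rw [hC.mem_test_iff] at hf ⊢
  obtain ⟨f1, f2, f3, f4, f5, f6⟩ := hf
  refine ⟨hC.smul_mem _ _ f1, mem_smul _ f2, ?_, c • f4, hC.isLap_smul c f5,
    hC.smul_mem _ _ f6⟩
  rw [hC.smul_left _ _ f1 _ (hC.smul_mem _ _ f1), hC.Γ_smul_right _ f1 f1]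
  exact mem_smul _ (mem_smul _ f3)

theorem test_zero : (0 : M →ₘ[m] ℝ) ∈ C.Test := by
  rw [hC.mem_test_iff]
  refine ⟨hC.zero_mem, mem_zero, by rw [hC.Γ_zero_left hC.zero_mem]; exact mem_zero, 0,
    ⟨hC.zero_mem, mem_zero, fun g hg => ?_⟩, hC.zero_mem⟩
  change I (C.Γ 0 g) = -I (0 * g)
  rw [hC.Γ_zero_left hg, zero_mul, I_zero, neg_zero]

theorem lap_add (hf : f ∈ C.Test) (hg : g ∈ C.Test) : C.lap (f + g) = C.lap f + C.lap g := by
  exact hC.lap_eq (hC.isLap_add (hC.test_isLap hf) (hC.test_isLap hg))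

theorem lap_smul (c : ℝ) (hf : f ∈ C.Test) : C.lap (c • f) = c • C.lap f := by
  exact hC.lap_eq (hC.isLap_smul c (hC.test_isLap hf))

theorem isLap_mul (hf : f ∈ C.Test) (hg : g ∈ C.Test) :
    C.IsLap (f * g) (f * C.lap g + g * C.lap f + (2 : ℝ) • C.Γ f g) := by
  have fA := hC.test_A hf
  have gA := hC.test_A hg
  have lf := hC.test_isLap hf
  have lg := hC.test_isLap hg
  have hfg := hC.Γ_mem hB hf hg
  have hK : MemLp (f * C.lap g + g * C.lap f + (2 : ℝ) • C.Γ f g : M →ₘ[m] ℝ) 2 m :=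
    mem_add (mem_add (mem_mul_top fA.2 lg.2.1) (mem_mul_top gA.2 lf.2.1))
      (mem_smul _ (hC.memLp _ hfg.1))
  have hmem : f * g ∈ C.W := (hC.mul_mem_A fA gA).1
  refine ⟨hmem, hK, fun h hh => ?_⟩
  change I (C.Γ (f * g) h) = -I ((f * C.lap g + g * C.lap f + (2 : ℝ) • C.Γ f g) * h)
  suffices H : I (C.Γ (f * g) h)
      + I ((f * C.lap g + g * C.lap f + (2 : ℝ) • C.Γ f g) * h) = 0 by linarith
  refine hC.ext_A hmem hK (fun h hh => ?_) hh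
  have e1 : I (C.Γ g (f * h)) = -I (C.lap g * (f * h)) := lg.2.2 _ (hC.mul_mem_A fA hh).1
  have e2 : I (C.Γ f (g * h)) = -I (C.lap f * (g * h)) := lf.2.2 _ (hC.mul_mem_A gA hh).1
  rw [hC.Γ_mul_right fA hh gA.1] at e1
  rw [hC.Γ_mul_right gA hh fA.1] at e2
  have n1 := mem_mul_top fA.2 (hC.Γ_mem1 gA.1 hh.1)
  have n2 := mem_mul_top hh.2 (hC.Γ_mem1 gA.1 fA.1)
  have n3 := mem_mul_top gA.2 (hC.Γ_mem1 fA.1 hh.1)
  have n4 := mem_mul_top hh.2 (hC.Γ_mem1 fA.1 gA.1)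
  have n5 := mem_mul_22 lg.2.1 (mem_mul_top fA.2 (hC.memLp _ hh.1))
  have n6 := mem_mul_22 lf.2.1 (mem_mul_top gA.2 (hC.memLp _ hh.1))
  rw [I_add n1 n2] at e1
  rw [I_add n3 n4] at e2
  rw [hC.Γ_mul_left fA gA hh.1, I_add n1 n3]
  have e3 : (f * C.lap g + g * C.lap f + (2 : ℝ) • C.Γ f g) * h
      = C.lap g * (f * h) + C.lap f * (g * h) + (2 : ℝ) • (h * C.Γ f g) := by algebra
  rw [e3, I_add (mem_add n5 n6) (mem_smul _ n4), I_add n5 n6, I_smul]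
  rw [hC.symm _ gA.1 _ fA.1] at e1
  linarith

theorem lap_mul (hf : f ∈ C.Test) (hg : g ∈ C.Test) :
    C.lap (f * g) = f * C.lap g + g * C.lap f + (2 : ℝ) • C.Γ f g :=
  hC.lap_eq (hC.isLap_mul hB hf hg)

theorem test_mul (hf : f ∈ C.Test) (hg : g ∈ C.Test) : f * g ∈ C.Test := by
  have fA := hC.test_A hf
  have gA := hC.test_A hg
  have h1 := hC.test_Γ_top hf
  have h2 := hC.test_Γ_top hg
  have h3 := hC.Γ_memTop fA.1 h1 gA.1 h2
  have hmem : f * g ∈ C.A := hC.mul_mem_A fA gA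
  rw [hC.mem_test_iff]
  refine ⟨hmem.1, hmem.2, ?_, _, hC.isLap_mul hB hf hg, ?_⟩
  · rw [hC.Γ_mul_left fA gA hmem.1, hC.Γ_mul_right fA gA gA.1, hC.Γ_mul_right fA gA fA.1]
    refine mem_add (mem_mul_top fA.2 (mem_add (mem_mul_top fA.2 h2) (mem_mul_top gA.2 ?_)))
      (mem_mul_top gA.2 (mem_add (mem_mul_top fA.2 h3) (mem_mul_top gA.2 h1)))
    rw [hC.symm _ gA.1 _ fA.1]; exact h3
  · exact hC.add_mem _ (hC.add_mem _ (hC.mul_mem_lip fA h1 (hC.test_lap_mem hg)) _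
      (hC.mul_mem_lip gA h2 (hC.test_lap_mem hf))) _ (hC.smul_mem _ _ (hC.Γ_mem hB hf hg).1)

theorem test_sum {ι : Type*} (s : Finset ι) {F : ι → M →ₘ[m] ℝ} (hF : ∀ i, F i ∈ C.Test) :
    ∑ i ∈ s, F i ∈ C.Test := by
  classical
  induction s using Finset.induction_on with
  | empty => simpa using hC.test_zero hB
  | insert i s hi ih => rw [Finset.sum_insert hi]; exact hC.test_add hB (hF i) ih

/-! ### the functional `NN` -/

theorem NN_int1 (hf : f ∈ C.Test) (hg : g ∈ C.Test) (hφ : φ ∈ C.A) :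
    MemLp (C.Γ (C.Γ f g) φ) 1 m ∧ MemLp (φ * (C.Γ f (C.lap g) + C.Γ g (C.lap f))) 1 m ∧
      MemLp (φ * C.Γ f g) 1 m ∧ MemLp (φ * (C.lap f * C.lap g)) 1 m := by
  have fA := hC.test_A hf
  have gA := hC.test_A hg
  refine ⟨hC.Γ_mem1 (hC.Γ_mem hB hf hg).1 hφ.1, mem_mul_top hφ.2 (mem_add ?_ ?_),
    mem_mul_top hφ.2 (hC.Γ_mem1 fA.1 gA.1),
    mem_mul_top hφ.2 (mem_mul_22 (hC.test_isLap hf).2.1 (hC.test_isLap hg).2.1)⟩
  · exact hC.Γ_mem1 fA.1 (hC.test_lap_mem hg)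
  · exact hC.Γ_mem1 gA.1 (hC.test_lap_mem hf)

/-- `NN` as the integral of one function -/
theorem NN_eq (hf : f ∈ C.Test) (hg : g ∈ C.Test) (hφ : φ ∈ C.A) :
    C.NN κ f g φ = I (-((2 : ℝ)⁻¹ • C.Γ (C.Γ f g) φ)
      - (2 : ℝ)⁻¹ • (φ * (C.Γ f (C.lap g) + C.Γ g (C.lap f))) - κ • (φ * C.Γ f g)) := by
  obtain ⟨n1, n2, n3, n4⟩ := hC.NN_int1 hB hf hg hφ
  rw [I_sub (mem_sub (mem_neg (mem_smul _ n1)) (mem_smul _ n2)) (mem_smul _ n3),
    I_sub (mem_neg (mem_smul _ n1)) (mem_smul _ n2), I_neg, I_smul, I_smul, I_smul]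
  rfl

theorem NN_int (hf : f ∈ C.Test) (hg : g ∈ C.Test) (hφ : φ ∈ C.A) :
    MemLp (-((2 : ℝ)⁻¹ • C.Γ (C.Γ f g) φ)
      - (2 : ℝ)⁻¹ • (φ * (C.Γ f (C.lap g) + C.Γ g (C.lap f))) - κ • (φ * C.Γ f g) :
        M →ₘ[m] ℝ) 1 m := by
  obtain ⟨n1, n2, n3, n4⟩ := hC.NN_int1 hB hf hg hφ
  exact mem_sub (mem_sub (mem_neg (mem_smul _ n1)) (mem_smul _ n2)) (mem_smul _ n3)

theorem NN_symm (hf : f ∈ C.Test) (hg : g ∈ C.Test) : C.NN κ f g φ = C.NN κ g f φ := by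
  have fA := hC.test_A hf
  have gA := hC.test_A hg
  unfold Calc.NN
  rw [hC.symm _ gA.1 _ fA.1, add_comm (C.Γ g (C.lap f))]

theorem NN_add_left (hf : f ∈ C.Test) (hg : g ∈ C.Test) (hh : h ∈ C.Test) (hφ : φ ∈ C.A) :
    C.NN κ (f + g) h φ = C.NN κ f h φ + C.NN κ g h φ := by
  have fA := hC.test_A hf
  have gA := hC.test_A hg
  have hA := hC.test_A hh
  have hfg := hC.test_add hB hf hg
  have lf := hC.test_lap_mem hf
  have lg := hC.test_lap_mem hg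
  have lh := hC.test_lap_mem hh
  rw [hC.NN_eq hB hfg hh hφ, hC.NN_eq hB hf hh hφ, hC.NN_eq hB hg hh hφ,
    ← I_add (hC.NN_int hB hf hh hφ) (hC.NN_int hB hg hh hφ), hC.lap_add hB hf hg,
    hC.add_left _ fA.1 _ gA.1 _ hA.1, hC.add_left _ fA.1 _ gA.1 _ lh,
    hC.Γ_add_right hA.1 lf lg,
    hC.add_left _ (hC.Γ_mem hB hf hh).1 _ (hC.Γ_mem hB hg hh).1 _ hφ.1]
  congr 1
  algebra

theorem NN_smul_left (c : ℝ) (hf : f ∈ C.Test) (hh : h ∈ C.Test) (hφ : φ ∈ C.A) :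
    C.NN κ (c • f) h φ = c * C.NN κ f h φ := by
  have fA := hC.test_A hf
  have hA := hC.test_A hh
  have hcf := hC.test_smul hB c hf
  have lf := hC.test_lap_mem hf
  have lh := hC.test_lap_mem hh
  rw [hC.NN_eq hB hcf hh hφ, hC.NN_eq hB hf hh hφ, ← I_smul, hC.lap_smul hB c hf,
    hC.smul_left _ _ fA.1 _ hA.1, hC.smul_left _ _ fA.1 _ lh, hC.Γ_smul_right _ hA.1 lf,
    hC.smul_left _ _ (hC.Γ_mem hB hf hh).1 _ hφ.1]
  congr 1
  algebra

theorem NN_add_φ (hf : f ∈ C.Test) (hg : g ∈ C.Test) (hφ : φ ∈ C.A) (hψ : ψ ∈ C.A) :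
    C.NN κ f g (φ + ψ) = C.NN κ f g φ + C.NN κ f g ψ := by
  have hφψ : φ + ψ ∈ C.A := ⟨hC.add_mem _ hφ.1 _ hψ.1, mem_add hφ.2 hψ.2⟩
  rw [hC.NN_eq hB hf hg hφψ, hC.NN_eq hB hf hg hφ, hC.NN_eq hB hf hg hψ,
    ← I_add (hC.NN_int hB hf hg hφ) (hC.NN_int hB hf hg hψ),
    hC.Γ_add_right (hC.Γ_mem hB hf hg).1 hφ.1 hψ.1]
  congr 1
  algebra

theorem NN_smul_φ (c : ℝ) (hf : f ∈ C.Test) (hg : g ∈ C.Test) (hφ : φ ∈ C.A) :
    C.NN κ f g (c • φ) = c * C.NN κ f g φ := by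
  have hcφ : c • φ ∈ C.A := ⟨hC.smul_mem _ _ hφ.1, mem_smul _ hφ.2⟩
  rw [hC.NN_eq hB hf hg hcφ, hC.NN_eq hB hf hg hφ, ← I_smul,
    hC.Γ_smul_right _ (hC.Γ_mem hB hf hg).1 hφ.1]
  congr 1
  algebra

theorem NN_nonneg (hf : f ∈ C.Test) (hφ : φ ∈ C.A) (h0 : 0 ≤ φ) : 0 ≤ C.NN κ f f φ := by
  have h1 := hC.bochner_weak hB hf hφ h0
  obtain ⟨n1, n2, n3, n4⟩ := hC.NN_int1 hB hf hf hφ
  have e : φ * (C.Γ f (C.lap f) + κ • C.Γ f f)
      = (2 : ℝ)⁻¹ • (φ * (C.Γ f (C.lap f) + C.Γ f (C.lap f))) + κ • (φ * C.Γ f f) := by algebra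
  rw [e, I_add (mem_smul _ n2) (mem_smul _ n3), I_smul, I_smul] at h1
  unfold Calc.NN
  linarith

/-- product rule for `NN` -/
theorem NN_mul (hf : f ∈ C.Test) (hg : g ∈ C.Test) (hh : h ∈ C.Test) (hφ : φ ∈ C.A) :
    C.NN κ (f * g) h φ = C.NN κ g h (f * φ) + C.NN κ f h (g * φ) + I (φ * C.KK h f g) := by
  have fA := hC.test_A hf
  have gA := hC.test_A hg
  have hA := hC.test_A hh
  have fT := hC.test_Γ_top hf
  have gT := hC.test_Γ_top hg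
  have hT := hC.test_Γ_top hh
  have hfg := hC.test_mul hB hf hg
  have lf := hC.test_lap_mem hf
  have lg := hC.test_lap_mem hg
  have lh := hC.test_lap_mem hh
  have fφ : f * φ ∈ C.A := hC.mul_mem_A fA hφ
  have gφ : g * φ ∈ C.A := hC.mul_mem_A gA hφ
  have aA := hC.Γ_mem hB hg hh
  have bA := hC.Γ_mem hB hf hh
  have cA := hC.Γ_mem hB hf hg
  set a := C.Γ g h with ha
  set b := C.Γ f h with hb
  set c := C.Γ f g with hc
  -- the two integration by parts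
  have p1 : I (C.Γ f (a * φ)) + I (C.lap f * (a * φ)) = 0 := by
    have : I (C.Γ f (a * φ)) = -I (C.lap f * (a * φ)) :=
      (hC.test_isLap hf).2.2 _ (hC.mul_mem_A aA hφ).1
    linarith
  have p2 : I (C.Γ g (b * φ)) + I (C.lap g * (b * φ)) = 0 := by
    have : I (C.Γ g (b * φ)) = -I (C.lap g * (b * φ)) :=
      (hC.test_isLap hg).2.2 _ (hC.mul_mem_A bA hφ).1
    linarith
  have k1 := mem_mul_22 (hC.memLp _ lf) (hC.memLp _ (hC.mul_mem_A aA hφ).1)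
  have k2 := mem_mul_22 (hC.memLp _ lg) (hC.memLp _ (hC.mul_mem_A bA hφ).1)
  have k3 := hC.Γ_mem1 fA.1 (hC.mul_mem_A aA hφ).1
  have k4 := hC.Γ_mem1 gA.1 (hC.mul_mem_A bA hφ).1
  rw [← I_add k3 k1] at p1
  rw [← I_add k4 k2] at p2
  have hK : MemLp (φ * C.KK h f g) 1 m := by
    refine mem_mul_top hφ.2 ?_
    unfold Calc.KK Calc.hess
    refine mem_smul _ (mem_smul _ (mem_sub (mem_add ?_ ?_) ?_))
    · exact hC.Γ_mem1 fA.1 (hC.Γ_mem hB hh hg).1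
    · exact hC.Γ_mem1 gA.1 (hC.Γ_mem hB hh hf).1
    · exact hC.Γ_mem1 hA.1 cA.1
  have q1 := hC.NN_int (κ := κ) hB hfg hh hφ
  have q2 := hC.NN_int (κ := κ) hB hg hh fφ
  have q3 := hC.NN_int (κ := κ) hB hf hh gφ
  rw [hC.NN_eq hB hfg hh hφ, hC.NN_eq hB hg hh fφ, hC.NN_eq hB hf hh gφ,
    ← I_add q2 q3, ← I_add (mem_add q2 q3) hK]
  -- the pointwise identity
  have e1 : C.Γ (f * g) h = f * a + g * b := hC.Γ_mul_left fA gA hA.1
  have e2 : C.Γ (f * a + g * b) φ = (f * C.Γ a φ + a * C.Γ f φ) + (g * C.Γ b φ + b * C.Γ g φ) := by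
    rw [hC.add_left _ (hC.mul_mem_A fA aA).1 _ (hC.mul_mem_A gA bA).1 _ hφ.1,
      hC.Γ_mul_left fA aA hφ.1, hC.Γ_mul_left gA bA hφ.1]
  have e3 : C.Γ (f * g) (C.lap h) = f * C.Γ g (C.lap h) + g * C.Γ f (C.lap h) :=
    hC.Γ_mul_left fA gA lh
  have e4 : C.Γ h (C.lap (f * g)) = (f * C.Γ h (C.lap g) + C.lap g * b)
      + (g * C.Γ h (C.lap f) + C.lap f * a) + (2 : ℝ) • C.Γ h c := by
    have m1 := hC.mul_mem_lip fA fT lg
    have m2 := hC.mul_mem_lip gA gT lf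
    rw [hC.lap_mul hB hf hg, hC.Γ_add_right hA.1 (hC.add_mem _ m1 _ m2) (hC.smul_mem _ _ cA.1),
      hC.Γ_add_right hA.1 m1 m2, hC.Γ_smul_right _ hA.1 cA.1, hC.symm _ hA.1 _ m1,
      hC.symm _ hA.1 _ m2, hC.Γ_mul_left_lip fA fT lg hA.1, hC.Γ_mul_left_lip gA gT lf hA.1,
      hC.symm _ hA.1 _ lg, hC.symm _ hA.1 _ lf]
  have e5 : C.Γ a (f * φ) = f * C.Γ a φ + φ * C.Γ f a := by
    rw [hC.Γ_mul_right fA hφ aA.1, hC.symm _ aA.1 _ fA.1]
  have e6 : C.Γ b (g * φ) = g * C.Γ b φ + φ * C.Γ g b := by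
    rw [hC.Γ_mul_right gA hφ bA.1, hC.symm _ bA.1 _ gA.1]
  have e7 : C.Γ f (a * φ) = a * C.Γ f φ + φ * C.Γ f a := hC.Γ_mul_right aA hφ fA.1
  have e8 : C.Γ g (b * φ) = b * C.Γ g φ + φ * C.Γ g b := hC.Γ_mul_right bA hφ gA.1
  have e9 : C.KK h f g = C.Γ f a + C.Γ g b - C.Γ h c := by
    unfold Calc.KK Calc.hess
    rw [hC.symm _ hA.1 _ gA.1, hC.symm _ hA.1 _ fA.1, ← ha, ← hb, ← hc]
    algebra
  have s1 : MemLp (C.Γ f (a * φ) + C.lap f * (a * φ) : M →ₘ[m] ℝ) 1 m := mem_add k3 k1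
  have s2 : MemLp (C.Γ g (b * φ) + C.lap g * (b * φ) : M →ₘ[m] ℝ) 1 m := mem_add k4 k2
  have hD : (-((2 : ℝ)⁻¹ • C.Γ (C.Γ (f * g) h) φ)
      - (2 : ℝ)⁻¹ • (φ * (C.Γ (f * g) (C.lap h) + C.Γ h (C.lap (f * g))))
      - κ • (φ * C.Γ (f * g) h))
      = ((-((2 : ℝ)⁻¹ • C.Γ (C.Γ g h) (f * φ))
      - (2 : ℝ)⁻¹ • (f * φ * (C.Γ g (C.lap h) + C.Γ h (C.lap g)))
      - κ • (f * φ * C.Γ g h))
      + (-((2 : ℝ)⁻¹ • C.Γ (C.Γ f h) (g * φ))
      - (2 : ℝ)⁻¹ • (g * φ * (C.Γ f (C.lap h) + C.Γ h (C.lap f)))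
      - κ • (g * φ * C.Γ f h))
      + φ * C.KK h f g)
      + (-(2 : ℝ)⁻¹) • (C.Γ f (a * φ) + C.lap f * (a * φ)) 
      + (-(2 : ℝ)⁻¹) • (C.Γ g (b * φ) + C.lap g * (b * φ)) := by
    rw [e1, e2, e3, e4, ← ha, ← hb, e5, e6, e7, e8, e9]
    algebra
  rw [hD, I_add (mem_add (mem_add (mem_add q2 q3) hK) (mem_smul _ s1)) (mem_smul _ s2),
    I_add (mem_add (mem_add q2 q3) hK) (mem_smul _ s1), I_smul, I_smul, p1, p2]
  ring

theorem KK_mem2 (hf : f ∈ C.Test) (hg : g ∈ C.Test) (hh : h ∈ C.Test) :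
    MemLp (C.KK h f g) 2 m := by
  have fA := hC.test_A hf
  have gA := hC.test_A hg
  have hA := hC.test_A hh
  have fT := hC.test_Γ_top hf
  have gT := hC.test_Γ_top hg
  have hT := hC.test_Γ_top hh
  unfold Calc.KK Calc.hess
  refine mem_smul _ (mem_smul _ (mem_sub (mem_add ?_ ?_) ?_))
  · exact hC.Γ_mem2 fA.1 fT (hC.Γ_mem hB hh hg).1
  · exact hC.Γ_mem2 gA.1 gT (hC.Γ_mem hB hh hf).1
  · exact hC.Γ_mem2 hA.1 hT (hC.Γ_mem hB hf hg).1

theorem KK_symm (hf : f ∈ C.Test) (hg : g ∈ C.Test) (hh : h ∈ C.Test) :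
    C.KK h f g = C.KK h g f := by
  unfold Calc.KK Calc.hess
  rw [hC.symm _ (hC.test_A hg).1 _ (hC.test_A hf).1]
  algebra

theorem KK_mul (hf : f ∈ C.Test) (hg : g ∈ C.Test) (hh : h ∈ C.Test) (hk : k ∈ C.Test) :
    C.KK (h * k) f g = h * C.KK k f g + k * C.KK h f g + (2 : ℝ) • C.MM f g h k := by
  have fA := hC.test_A hf
  have gA := hC.test_A hg
  have hA := hC.test_A hh
  have kA := hC.test_A hk
  have fg := hC.Γ_mem hB hf hg
  have kg := hC.Γ_mem hB hk hg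
  have hg' := hC.Γ_mem hB hh hg
  have kf := hC.Γ_mem hB hk hf
  have hf' := hC.Γ_mem hB hh hf
  unfold Calc.KK Calc.hess Calc.MM
  rw [hC.Γ_mul_left hA kA gA.1, hC.Γ_mul_left hA kA fA.1, hC.Γ_mul_left hA kA fg.1,
    hC.Γ_add_right fA.1 (hC.mul_mem_A hA kg).1 (hC.mul_mem_A kA hg').1,
    hC.Γ_add_right gA.1 (hC.mul_mem_A hA kf).1 (hC.mul_mem_A kA hf').1,
    hC.Γ_mul_right hA kg fA.1, hC.Γ_mul_right kA hg' fA.1,
    hC.Γ_mul_right hA kf gA.1, hC.Γ_mul_right kA hf' gA.1,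
    hC.symm _ fA.1 _ hA.1, hC.symm _ fA.1 _ kA.1, hC.symm _ gA.1 _ hA.1, hC.symm _ gA.1 _ kA.1]
  algebra

theorem MM_memTop (hf : f ∈ C.Test) (hg : g ∈ C.Test) (hh : h ∈ C.Test) (hk : k ∈ C.Test) :
    MemLp (C.MM f g h k) ∞ m := by
  unfold Calc.MM
  exact mem_add (mem_mul_top (hC.Γ_mem hB hh hf).2 (hC.Γ_mem hB hk hg).2)
    (mem_mul_top (hC.Γ_mem hB hh hg).2 (hC.Γ_mem hB hk hf).2)

theorem MM_mem1 (hf : f ∈ C.Test) (hg : g ∈ C.Test) (hh : h ∈ C.Test) (hk : k ∈ C.Test) :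
    MemLp (C.MM f g h k) 1 m := by
  have fA := hC.test_A hf
  have gA := hC.test_A hg
  have hA := hC.test_A hh
  have kA := hC.test_A hk
  unfold Calc.MM
  exact mem_add (mem_mul_top (hC.Γ_mem hB hh hf).2 (hC.Γ_mem1 kA.1 gA.1))
    (mem_mul_top (hC.Γ_mem hB hh hg).2 (hC.Γ_mem1 kA.1 fA.1))

/-! ### from constant to function coefficients (Bernstein polynomials) -/

/-- A general positivity principle: a symmetric family of linear functionals that is positive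
for constant coefficients is positive for coefficients in `AP`. -/
theorem master_general {n : ℕ} (Q : Fin n → Fin n → (M →ₘ[m] ℝ) → ℝ)
    (hsymm : ∀ i j, ∀ φ ∈ C.A, Q i j φ = Q j i φ)
    (hadd : ∀ i j, ∀ φ ∈ C.A, ∀ ψ ∈ C.A, Q i j (φ + ψ) = Q i j φ + Q i j ψ)
    (hsmul : ∀ i j, ∀ c : ℝ, ∀ φ ∈ C.A, Q i j (c • φ) = c * Q i j φ)
    (hpos : ∀ c : Fin n → ℝ, ∀ φ ∈ C.A, 0 ≤ φ → 0 ≤ ∑ i, ∑ j, c i * c j * Q i j φ)
    {a : Fin n → M →ₘ[m] ℝ} (ha : ∀ i, a i ∈ C.AP) (hφ : φ ∈ C.A) (hφ0 : 0 ≤ φ) :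
    0 ≤ ∑ i, ∑ j, Q i j (φ * (a i * a j)) :=
  hC.master_fintype hadd hsmul hpos ha hφ hφ0

section fintype
variable {ι : Type*}

theorem NN_zero_left (hh : h ∈ C.Test) (hφ : φ ∈ C.A) : C.NN κ 0 h φ = 0 := by
  have := hC.NN_smul_left (κ := κ) hB 0 (hC.test_zero hB) hh hφ
  simpa using this

theorem NN_sum_left (s : Finset ι) {F : ι → M →ₘ[m] ℝ} (hF : ∀ i, F i ∈ C.Test) (c : ι → ℝ)
    (hh : h ∈ C.Test) (hφ : φ ∈ C.A) :
    C.NN κ (∑ i ∈ s, c i • F i) h φ = ∑ i ∈ s, c i * C.NN κ (F i) h φ := by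
  classical
  induction s using Finset.induction_on with
  | empty => simpa using hC.NN_zero_left hB hh hφ
  | insert i s hi ih =>
    rw [Finset.sum_insert hi, Finset.sum_insert hi,
      hC.NN_add_left hB (hC.test_smul hB _ (hF i))
        (hC.test_sum hB s (fun i => hC.test_smul hB _ (hF i))) hh hφ,
      ih, hC.NN_smul_left hB _ (hF i) hh hφ]

theorem NN_master' [Fintype ι] [DecidableEq ι] {F : ι → M →ₘ[m] ℝ} (hF : ∀ i, F i ∈ C.Test)
    {a : ι → M →ₘ[m] ℝ} (ha : ∀ i, a i ∈ C.AP) (hφ : φ ∈ C.A) (hφ0 : 0 ≤ φ) :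
    0 ≤ ∑ i, ∑ j, C.NN κ (F i) (F j) (φ * (a i * a j)) := by
  refine hC.master_fintype (Q := fun i j φ => C.NN κ (F i) (F j) φ) ?_ ?_ ?_ ha hφ hφ0
  · intro i j φ hφ ψ hψ
    exact hC.NN_add_φ hB (hF i) (hF j) hφ hψ
  · intro i j c φ hφ
    exact hC.NN_smul_φ hB c (hF i) (hF j) hφ
  · intro c φ hφ hφ0
    have hS := hC.test_sum hB Finset.univ (fun i => hC.test_smul hB (c i) (hF i))
    have h1 := hC.NN_nonneg hB hS hφ hφ0
    rw [hC.NN_sum_left hB _ hF c hS hφ] at h1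
    have h2 : ∀ i, C.NN κ (F i) (∑ j, c j • F j) φ = ∑ j, c j * C.NN κ (F i) (F j) φ := by
      intro i
      rw [hC.NN_symm hB (hF i) hS, hC.NN_sum_left hB _ hF c (hF i) hφ]
      exact Finset.sum_congr rfl fun j _ => by rw [hC.NN_symm hB (hF j) (hF i)]
    simp only [h2, Finset.mul_sum] at h1
    convert h1 using 1
    refine Finset.sum_congr rfl fun i _ => Finset.sum_congr rfl fun j _ => ?_
    ring

end fintype

theorem NN_master {n : ℕ} {F : Fin n → M →ₘ[m] ℝ} (hF : ∀ i, F i ∈ C.Test)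
    {a : Fin n → M →ₘ[m] ℝ} (ha : ∀ i, a i ∈ C.AP) (hφ : φ ∈ C.A) (hφ0 : 0 ≤ φ) :
    0 ≤ ∑ i, ∑ j, C.NN κ (F i) (F j) (φ * (a i * a j)) :=
  hC.NN_master' hB hF ha hφ hφ0

/-- a block of three terms -/
theorem block (hf : f ∈ C.Test) (hh : h ∈ C.Test) (hg : g ∈ C.Test) {s a : M →ₘ[m] ℝ}
    (hs : s ∈ C.A) (ha : a ∈ C.AP) (hφ : φ ∈ C.A) :
    C.NN κ (f * h) g (φ * (s * a)) + C.NN κ h g (φ * (-(s * f) * a))
      + C.NN κ f g (φ * (-(s * h) * a)) = I (φ * (s * a) * C.KK g f h) := by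
  have hψ : φ * (s * a) ∈ C.A := by
    rw [← mul_assoc]; exact hC.A_mul_AP (hC.mul_mem_A hφ hs) ha
  have h1 := hC.NN_mul (κ := κ) hB hf hh hg hψ
  have e1 : φ * (-(s * f) * a) = (-1 : ℝ) • (f * (φ * (s * a))) := by algebra
  have e2 : φ * (-(s * h) * a) = (-1 : ℝ) • (h * (φ * (s * a))) := by algebra
  rw [e1, e2, hC.NN_smul_φ hB _ hh hg (hC.mul_mem_A (hC.test_A hf) hψ),
    hC.NN_smul_φ hB _ hf hg (hC.mul_mem_A (hC.test_A hh) hψ), h1]
  ring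

/-- the key inequality, for tensors `∑ s_r (∇f_r ⊗ ∇h_r + ∇h_r ⊗ ∇f_r)` -/
theorem tensor_ineq {n : ℕ} {b : M →ₘ[m] ℝ} (hb : b ∈ C.Test) {F H s : Fin n → M →ₘ[m] ℝ}
    (hF : ∀ i, F i ∈ C.Test) (hH : ∀ i, H i ∈ C.Test) (hs : ∀ i, s i ∈ C.A)
    (hφ : φ ∈ C.A) (hφ0 : 0 ≤ φ) :
    0 ≤ C.NN κ b b φ + 2 * ∑ i, I (φ * (s i * C.KK b (F i) (H i)))
      + 2 * ∑ i, ∑ j, I (φ * (s i * s j * C.MM (F i) (H i) (F j) (H j))) := by
  set G : Option (Fin n × Fin 3) → M →ₘ[m] ℝ :=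
    fun o => o.elim b (fun p => (![F p.1 * H p.1, H p.1, F p.1] : Fin 3 → M →ₘ[m] ℝ) p.2) with hG
  set a : Option (Fin n × Fin 3) → M →ₘ[m] ℝ :=
    fun o => o.elim 1 (fun p => (![s p.1, -(s p.1 * F p.1), -(s p.1 * H p.1)] :
      Fin 3 → M →ₘ[m] ℝ) p.2) with ha
  have hGT : ∀ o, G o ∈ C.Test := by
    rintro (_ | ⟨i, t⟩)
    · exact hb
    · fin_cases t
      · exact hC.test_mul hB (hF i) (hH i)
      · exact hH i
      · exact hF i
  have haA : ∀ o, a o ∈ C.AP := by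
    rintro (_ | ⟨i, t⟩)
    · have := hC.AP_const 1
      simpa [ha] using this
    · fin_cases t
      · exact hC.AP_of_A (hs i)
      · have := hC.A_smul (-1) (hC.mul_mem_A (hs i) (hC.test_A (hF i)))
        exact hC.AP_of_A (by simpa [ha] using this)
      · have := hC.A_smul (-1) (hC.mul_mem_A (hs i) (hC.test_A (hH i)))
        exact hC.AP_of_A (by simpa [ha] using this)
  have key := hC.NN_master' (κ := κ) hB hGT haA hφ hφ0
  -- sum over a block against a fixed partner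
  have hblock : ∀ (i : Fin n) (o : Option (Fin n × Fin 3)),
      ∑ t : Fin 3, C.NN κ (G (some (i, t))) (G o) (φ * (a (some (i, t)) * a o))
        = I (φ * (s i * a o) * C.KK (G o) (F i) (H i)) := by
    intro i o
    rw [Fin.sum_univ_three]
    exact hC.block hB (hF i) (hH i) (hGT o) (hs i) (haA o) hφ
  have hsum : ∑ o, ∑ o', C.NN κ (G o) (G o') (φ * (a o * a o'))
      = C.NN κ b b φ + 2 * ∑ i, I (φ * (s i * C.KK b (F i) (H i)))
      + 2 * ∑ i, ∑ j, I (φ * (s i * s j * C.MM (F i) (H i) (F j) (H j))) := by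
    have n0 : C.NN κ (G none) (G none) (φ * (a none * a none)) = C.NN κ b b φ := by
      simp [hG, ha]
    have n1 : ∑ p : Fin n × Fin 3, C.NN κ (G (some p)) (G none) (φ * (a (some p) * a none))
        = ∑ i, I (φ * (s i * C.KK b (F i) (H i))) := by
      rw [Fintype.sum_prod_type]
      refine Finset.sum_congr rfl fun i _ => ?_
      rw [hblock i none]
      congr 1
      simp only [hG, ha, Option.elim_none]
      ring
    have n2 : ∑ p : Fin n × Fin 3, C.NN κ (G none) (G (some p)) (φ * (a none * a (some p)))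
        = ∑ i, I (φ * (s i * C.KK b (F i) (H i))) := by
      rw [← n1]
      refine Finset.sum_congr rfl fun p _ => ?_
      rw [hC.NN_symm hB (hGT _) (hGT _), mul_comm (a none)]
    have n3 : ∑ p : Fin n × Fin 3, ∑ q : Fin n × Fin 3,
        C.NN κ (G (some p)) (G (some q)) (φ * (a (some p) * a (some q)))
        = 2 * ∑ i, ∑ j, I (φ * (s i * s j * C.MM (F i) (H i) (F j) (H j))) := by
      have : ∀ (t : Fin 3) (j : Fin n), ∑ p : Fin n × Fin 3,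
          C.NN κ (G (some p)) (G (some (j, t))) (φ * (a (some p) * a (some (j, t))))
          = ∑ i, I (φ * (s i * a (some (j, t))) * C.KK (G (some (j, t))) (F i) (H i)) := by
        intro t j
        rw [Fintype.sum_prod_type]
        exact Finset.sum_congr rfl fun i _ => hblock i _
      have h2 : ∀ j i : Fin n, ∑ t : Fin 3,
          I (φ * (s i * a (some (j, t))) * C.KK (G (some (j, t))) (F i) (H i))
          = 2 * I (φ * (s i * s j * C.MM (F i) (H i) (F j) (H j))) := by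
        intro j i
        rw [Fin.sum_univ_three]
        have k0 := mem_mul_22 (hC.memLp _ (hC.mul_mem_A hφ (hC.mul_mem_A (hs i) (hs j))).1)
          (hC.KK_mem2 hB (hF i) (hH i) (hC.test_mul hB (hF j) (hH j)))
        have k1 := mem_mul_22 (hC.memLp _ (hC.mul_mem_A hφ (hC.mul_mem_A (hs i)
          (hC.mul_mem_A (hs j) (hC.test_A (hF j))))).1)
          (hC.KK_mem2 hB (hF i) (hH i) (hH j))
        have k2 := mem_mul_22 (hC.memLp _ (hC.mul_mem_A hφ (hC.mul_mem_A (hs i)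
          (hC.mul_mem_A (hs j) (hC.test_A (hH j))))).1)
          (hC.KK_mem2 hB (hF i) (hH i) (hF j))
        have e0 : φ * (s i * a (some (j, 0))) * C.KK (G (some (j, 0))) (F i) (H i)
            = φ * (s i * s j) * C.KK (F j * H j) (F i) (H i) := by
          simp [hG, ha]
        have e1 : φ * (s i * a (some (j, 1))) * C.KK (G (some (j, 1))) (F i) (H i)
            = -(φ * (s i * (s j * F j)) * C.KK (H j) (F i) (H i)) := by
          simp [hG, ha]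
        have e2 : φ * (s i * a (some (j, 2))) * C.KK (G (some (j, 2))) (F i) (H i)
            = -(φ * (s i * (s j * H j)) * C.KK (F j) (F i) (H i)) := by
          simp [hG, ha]
        rw [e0, e1, e2, ← I_add k0 (mem_neg k1), ← I_add (mem_add k0 (mem_neg k1)) (mem_neg k2),
          ← I_smul]
        congr 1
        rw [hC.KK_mul hB (hF i) (hH i) (hF j) (hH j)]
        algebra
      have h3 : ∀ j : Fin n, ∑ t : Fin 3, ∑ i : Fin n,
          I (φ * (s i * a (some (j, t))) * C.KK (G (some (j, t))) (F i) (H i))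
          = ∑ i, 2 * I (φ * (s i * s j * C.MM (F i) (H i) (F j) (H j))) := by
        intro j
        rw [Finset.sum_comm]
        exact Finset.sum_congr rfl fun i _ => h2 j i
      rw [Finset.sum_comm, Fintype.sum_prod_type]
      simp only [this, h3, ← Finset.mul_sum]
      rw [Finset.sum_comm]
    rw [Fintype.sum_option, Fintype.sum_option, n0, n2]
    simp only [Fintype.sum_option, Finset.sum_add_distrib, n1, n3]
    ring
  rw [hsum] at key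
  exact key

/-- the same with bounded measurable coefficients -/
theorem tensor_ineq' [SigmaFinite m] {n : ℕ} {b : M →ₘ[m] ℝ} (hb : b ∈ C.Test)
    {F H s : Fin n → M →ₘ[m] ℝ}
    (hF : ∀ i, F i ∈ C.Test) (hH : ∀ i, H i ∈ C.Test) (hs : ∀ i, MemLp (s i) ∞ m)
    (hs2 : ∀ i, MemLp (s i) 2 m) (hφ : φ ∈ C.A) (hφ0 : 0 ≤ φ) :
    0 ≤ C.NN κ b b φ + 2 * ∑ i, I (φ * (s i * C.KK b (F i) (H i)))
      + 2 * ∑ i, ∑ j, I (φ * (s i * s j * C.MM (F i) (H i) (F j) (H j))) := by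
  choose K hK using fun i => mem_top_iff.1 (hs i)
  choose u hu1 hu2 hu3 _ using fun i => hC.test_dense_bdd hB (hs2 i) (hK i)
  have key : ∀ k : ℕ, 0 ≤ C.NN κ b b φ + 2 * ∑ i, I (u i k * (φ * C.KK b (F i) (H i)))
      + 2 * ∑ i, ∑ j, I (u i k * u j k * (φ * C.MM (F i) (H i) (F j) (H j))) := by
    intro k
    have h1 := hC.tensor_ineq (κ := κ) hB hb hF hH (fun i => hC.test_A (hu1 i k)) hφ hφ0
    have e1 : ∀ i, φ * (u i k * C.KK b (F i) (H i)) = u i k * (φ * C.KK b (F i) (H i)) := by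
      intro i; ring
    have e2 : ∀ i j, φ * (u i k * u j k * C.MM (F i) (H i) (F j) (H j))
        = u i k * u j k * (φ * C.MM (F i) (H i) (F j) (H j)) := by
      intro i j; ring
    simp only [e1, e2] at h1
    exact h1
  have l1 : ∀ i, Tendsto (fun k => I (u i k * (φ * C.KK b (F i) (H i)))) atTop
      (𝓝 (I (s i * (φ * C.KK b (F i) (H i))))) := fun i =>
    I_tendsto_of_bdd (hu2 i) (hu3 i)
      (mem_mul_22 (hC.memLp _ hφ.1) (hC.KK_mem2 hB (hF i) (hH i) hb))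
  have l2 : ∀ i j, Tendsto (fun k => I (u i k * u j k * (φ * C.MM (F i) (H i) (F j) (H j)))) atTop
      (𝓝 (I (s i * s j * (φ * C.MM (F i) (H i) (F j) (H j))))) := by
    intro i j
    refine I_tendsto_of_bdd (K := K i * K j) ?_ ?_
      (mem_mul_top hφ.2 (hC.MM_mem1 hB (hF i) (hH i) (hF j) (hH j)))
    · intro k
      filter_upwards [hu2 i k, hu2 j k, mul_ae (u i k) (u j k)] with x h1 h2 h3
      rw [h3, abs_mul]
      exact mul_le_mul h1 h2 (abs_nonneg _) ((abs_nonneg _).trans h1)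
    · have hm : ∀ᵐ x ∂m, ∀ k, (u i k * u j k) x = u i k x * u j k x := by
        rw [ae_all_iff]; intro k; exact mul_ae _ _
      filter_upwards [hm, mul_ae (s i) (s j), hu3 i, hu3 j] with x h1 h2 h3 h4
      rw [h2]
      simp only [h1]
      exact h3.mul h4
  have hlim := ((tendsto_const_nhds (x := C.NN κ b b φ)).add
    ((tendsto_finset_sum Finset.univ fun i _ => l1 i).const_mul 2)).add
    ((tendsto_finset_sum Finset.univ fun i _ => tendsto_finset_sum Finset.univ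
      fun j _ => l2 i j).const_mul 2)
  have h0 := ge_of_tendsto hlim (Eventually.of_forall key)
  have e1 : ∀ i, φ * (s i * C.KK b (F i) (H i)) = s i * (φ * C.KK b (F i) (H i)) := by
    intro i; ring
  have e2 : ∀ i j, φ * (s i * s j * C.MM (F i) (H i) (F j) (H j))
      = s i * s j * (φ * C.MM (F i) (H i) (F j) (H j)) := by
    intro i j; ring
  simp only [e1, e2]
  exact h0

end IsGamma

end Vale.Agent.P233
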