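import Vale.Agent.P233.AB.PairX3
import Vale.Agent.P233.AB.Eps0

/-! Mismatch between the flux of the curve of densities of a pair and `ρ ∇φ`. -/

open MeasureTheory Filter Topology
open scoped ENNReal NNReal

namespace Vale.Agent.P233

variable {M : Type*} [MeasurableSpace M] {m : Measure M} {C : Calc m}

namespace AB

theorem mono_bd {s r x B : ℝ} (h0 : 0 ≤ s) (h1 : s ≤ r) (hx : |x| ≤ B) : |s * x| ≤ r * B := by
  have hB : 0 ≤ B := (abs_nonneg x).trans hx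
  rw [abs_mul, abs_of_nonneg h0]
  exact mul_le_mul h1 hx (abs_nonneg _) (h0.trans h1)

theorem pairH_r1 {ε t B p q z : ℝ} (ht0 : 0 ≤ t) (ht : t ≤ ε) (hε : ε ≤ 1)
    (hp : |p| ≤ B) (hq : |q| ≤ B) (hz : |z| ≤ B) : |p + ε * q - t / 2 * z| ≤ 3 * B := by
  have hε0 : 0 ≤ ε := ht0.trans ht
  have a1 := abs_le.1 (mono_bd hε0 hε hq)
  have a2 := abs_le.1 (mono_bd (by positivity : 0 ≤ t / 2) (by linarith : t / 2 ≤ 1) hz)
  have a3 := abs_le.1 hp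
  rw [abs_le]
  constructor
  · linarith [a1.1, a1.2, a2.1, a2.2, a3.1]
  · linarith [a1.1, a1.2, a2.1, a2.2, a3.2]

theorem pairH_r2 {ε t B q z : ℝ} (ht0 : 0 ≤ t) (ht : t ≤ ε)
    (hq : |q| ≤ B) (hz : |z| ≤ B) : |ε * q - t / 2 * z| ≤ ε * (2 * B) := by
  have hε0 : 0 ≤ ε := ht0.trans ht
  have a1 := abs_le.1 (mono_bd hε0 le_rfl hq)
  have a2 := abs_le.1 (mono_bd (by positivity : 0 ≤ t / 2) (by linarith : t / 2 ≤ ε) hz)
  rw [abs_le]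
  constructor
  · linarith [a1.1, a1.2, a2.1, a2.2]
  · linarith [a1.1, a1.2, a2.1, a2.2]

theorem pairH_r3 {ε t N c1 c2 c3 c4 c5 c6 y1 y2 f1 f2 d1 d2 : ℝ} (ht0 : 0 ≤ t) (ht : t ≤ ε)
    (hy1 : |y1| ≤ c1 * N) (hy2 : |y2| ≤ c2 * N) (hf1 : |f1| ≤ c3 * N) (hf2 : |f2| ≤ c4 * N)
    (hd1 : |d1| ≤ c5 * N) (hd2 : |d2| ≤ c6 * N) :
    |-ε * y1 - t * y2 - ε * f1 + t / 2 * f2 + ε * d1 + t * d2|
      ≤ (c1 + c2 + c3 + c4 + c5 + c6) * ε * N := by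
  have hε0 : 0 ≤ ε := ht0.trans ht
  have t2 : t / 2 ≤ ε := by linarith
  have a1 := abs_le.1 (mono_bd hε0 le_rfl hy1)
  have a2 := abs_le.1 (mono_bd ht0 ht hy2)
  have a3 := abs_le.1 (mono_bd hε0 le_rfl hf1)
  have a4 := abs_le.1 (mono_bd (by positivity : 0 ≤ t / 2) t2 hf2)
  have a5 := abs_le.1 (mono_bd hε0 le_rfl hd1)
  have a6 := abs_le.1 (mono_bd ht0 ht hd2)
  rw [abs_le]
  constructor
  · linarith [a1.2, a2.2, a3.2, a4.1, a5.1, a6.1]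
  · linarith [a1.1, a2.1, a3.1, a4.2, a5.2, a6.2]

theorem pairH_r4 {ε t B x1 x2 R1 R2 R3 : ℝ} (ht0 : 0 ≤ t) (ht : t ≤ ε)
    (hx1 : |x1| ≤ ε * (2 * B)) (hx2 : |x2| ≤ ε * (2 * B)) (h1 : |R1| ≤ 3 * B)
    (h2 : |R2| ≤ 3 * B) (h3 : |R3| ≤ 3 * B) :
    |ε * x1 + t * x2 - 2⁻¹ * (ε ^ 2 * R1 + 2 * ε * t * R2 + t ^ 2 * R3)| ≤ 10 * ε ^ 2 * B := by
  have hε0 : 0 ≤ ε := ht0.trans ht
  have e2 : ε * t ≤ ε ^ 2 := by nlinarith
  have e3 : t ^ 2 ≤ ε ^ 2 := by nlinarith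
  have a1 := abs_le.1 (mono_bd hε0 le_rfl hx1)
  have a2 := abs_le.1 (mono_bd ht0 ht hx2)
  have b1 := abs_le.1 (mono_bd (by positivity : 0 ≤ ε ^ 2) le_rfl h1)
  have b2 := abs_le.1 (mono_bd (by positivity : 0 ≤ ε * t) e2 h2)
  have b3 := abs_le.1 (mono_bd (by positivity : 0 ≤ t ^ 2) e3 h3)
  rw [abs_le]
  constructor
  · linarith [a1.1, a2.1, b1.2, b2.2, b3.2]
  · linarith [a1.2, a2.2, b1.1, b2.1, b3.1]

theorem pairH_real {ε t N K c1 c2 c3 c4 c5 c6 y1 y2 f1 f2 d1 d2 s1 s2 s3 s4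
    p1 p2 p3 q1 q2 q3 z1 z2 z3 : ℝ} (ht0 : 0 ≤ t) (ht : t ≤ ε) (hε : ε ≤ 1)
    (hK : 10 * K * ε ≤ 1) (hN : 0 ≤ N)
    (hy1 : |y1| ≤ c1 * N) (hy2 : |y2| ≤ c2 * N) (hf1 : |f1| ≤ c3 * N) (hf2 : |f2| ≤ c4 * N)
    (hd1 : |d1| ≤ c5 * N) (hd2 : |d2| ≤ c6 * N)
    (hs1 : |s1| ≤ K * N) (hs2 : |s2| ≤ K * N) (hs3 : |s3| ≤ K * N) (hs4 : |s4| ≤ K * N)
    (hp1 : |p1| ≤ K * N) (hp2 : |p2| ≤ K * N) (hp3 : |p3| ≤ K * N)
    (hq1 : |q1| ≤ K * N) (hq2 : |q2| ≤ K * N) (hq3 : |q3| ≤ K * N)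
    (hz1 : |z1| ≤ K * N) (hz2 : |z2| ≤ K * N) (hz3 : |z3| ≤ K * N) :
    |(-ε * y1 - t * y2 - ε * f1 + t / 2 * f2 + ε * (d1 + (ε * s1 - t / 2 * s3))
      + t * (d2 + (ε * s2 - t / 2 * s4))
      - 2⁻¹ * (ε ^ 2 * (p1 + ε * q1 - t / 2 * z1) + 2 * ε * t * (p2 + ε * q2 - t / 2 * z2)
        + t ^ 2 * (p3 + ε * q3 - t / 2 * z3)))|
      ≤ (c1 + c2 + c3 + c4 + c5 + c6 + 1) * ε * N := by
  have hε0 : 0 ≤ ε := ht0.trans ht
  have r1 := pairH_r3 ht0 ht hy1 hy2 hf1 hf2 hd1 hd2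
  have r2 := pairH_r4 ht0 ht (pairH_r2 ht0 ht hs1 hs3) (pairH_r2 ht0 ht hs2 hs4)
    (pairH_r1 ht0 ht hε hp1 hq1 hz1) (pairH_r1 ht0 ht hε hp2 hq2 hz2)
    (pairH_r1 ht0 ht hε hp3 hq3 hz3)
  have k1 : 10 * ε ^ 2 * (K * N) ≤ ε * N := by
    have : 10 * K * ε * (ε * N) ≤ 1 * (ε * N) :=
      mul_le_mul_of_nonneg_right hK (mul_nonneg hε0 hN)
    nlinarith
  have r3 := abs_add_le (-ε * y1 - t * y2 - ε * f1 + t / 2 * f2 + ε * d1 + t * d2)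
    (ε * (ε * s1 - t / 2 * s3) + t * (ε * s2 - t / 2 * s4)
      - 2⁻¹ * (ε ^ 2 * (p1 + ε * q1 - t / 2 * z1) + 2 * ε * t * (p2 + ε * q2 - t / 2 * z2)
        + t ^ 2 * (p3 + ε * q3 - t / 2 * z3)))
  have e0 : (-ε * y1 - t * y2 - ε * f1 + t / 2 * f2 + ε * (d1 + (ε * s1 - t / 2 * s3))
      + t * (d2 + (ε * s2 - t / 2 * s4))
      - 2⁻¹ * (ε ^ 2 * (p1 + ε * q1 - t / 2 * z1) + 2 * ε * t * (p2 + ε * q2 - t / 2 * z2)
        + t ^ 2 * (p3 + ε * q3 - t / 2 * z3)))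
      = (-ε * y1 - t * y2 - ε * f1 + t / 2 * f2 + ε * d1 + t * d2)
      + (ε * (ε * s1 - t / 2 * s3) + t * (ε * s2 - t / 2 * s4)
      - 2⁻¹ * (ε ^ 2 * (p1 + ε * q1 - t / 2 * z1) + 2 * ε * t * (p2 + ε * q2 - t / 2 * z2)
        + t ^ 2 * (p3 + ε * q3 - t / 2 * z3))) := by ring
  rw [e0]
  refine r3.trans ?_
  linarith

end AB

namespace IsGamma

variable (hC : IsGamma C) {κ : ℝ} (hB : C.BEi κ)
variable {F y : M →ₘ[m] ℝ}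

include hC

/-- `|∫ S Γ(y,w)| ≤ L ‖S‖₂ |∇w|` -/
theorem bdE1 (hy : y ∈ C.Test) : ∃ L : ℝ, 0 ≤ L ∧ ∀ S : M →ₘ[m] ℝ, MemLp S 2 m → ∀ w ∈ C.W,
    |I (S * C.Γ y w)| ≤ L * (Real.sqrt (I (S ^ 2)) * Real.sqrt (I (C.Γ w w))) := by
  obtain ⟨L, hL⟩ := mem_top_iff.1 (hC.test_Γ_top hy)
  have yA := hC.test_A hy
  refine ⟨Real.sqrt |L|, by positivity, fun S hS w hw => ?_⟩
  have h2 := hC.toIsDir.Γ_mem2 yA.1 (hC.test_Γ_top hy) hw
  refine (I_abs_le hS h2).trans ?_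
  have h3 : Real.sqrt (I (C.Γ y w ^ 2)) ≤ Real.sqrt |L| * Real.sqrt (I (C.Γ w w)) := by
    rw [← Real.sqrt_mul (abs_nonneg _)]
    refine Real.sqrt_le_sqrt ?_
    rw [← I_smul]
    refine I_mono (mem_sq h2) (mem_smul _ (hC.mem1 w hw)) ?_
    rw [le_iff_ae]
    filter_upwards [hC.toIsDir.Γ_cs_ae yA.1 hw, hC.toIsDir.Γ_nonneg_ae hw, hL,
      sq_ae (C.Γ y w), smul_ae (C.Γ w w) |L|] with x h1 h3 h4 h5 h6
    rw [h5, h6]
    refine h1.trans (mul_le_mul_of_nonneg_right ?_ h3)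
    exact (le_abs_self _).trans (h4.trans (le_abs_self _))
  calc Real.sqrt (I (S ^ 2)) * Real.sqrt (I (C.Γ y w ^ 2))
      ≤ Real.sqrt (I (S ^ 2)) * (Real.sqrt |L| * Real.sqrt (I (C.Γ w w))) := by
        exact mul_le_mul_of_nonneg_left h3 (Real.sqrt_nonneg _)
    _ = _ := by ring

/-- a bound for one function and one coefficient -/
theorem bdE2 {c u : M →ₘ[m] ℝ} (hc : MemLp c ∞ m) (hu : u ∈ C.W) :
    ∃ K : ℝ, 0 ≤ K ∧ ∀ w ∈ C.W, |I (c * C.Γ u w)| ≤ K * Real.sqrt (I (C.Γ w w)) := by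
  obtain ⟨K, hK0, hK⟩ := hC.exists_bd_FΓ hc
  refine ⟨K * Real.sqrt (I (C.Γ u u)), by positivity, fun w hw => ?_⟩
  have := hK u hu w hw
  rwa [← mul_assoc] at this

end IsGamma

namespace Dat

variable {X : Dat m} {θ : M →ₘ[m] ℝ} {η δ : ℝ}

section Ok

variable (hC : IsGamma C) {κ : ℝ} (hB : C.BEi κ)
include hC hB

theorem G'_unif (a b F θ : M →ₘ[m] ℝ) (η : ℝ) (ha : a ∈ C.TestI) (hb : b ∈ C.TestI)
    (v w' : ℝ × ℝ) :
    ∃ c : ℝ, 0 ≤ c ∧ ∀ δ, 0 < δ → δ ≤ 1 → ∀ X : Dat m, X.Ok C θ η δ → X.a = a → X.b = b →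
      X.F = F → √(I (C.Γ (X.G' v w') (X.G' v w'))) ≤ c := by
  have hv : v.1 • a + v.2 • b ∈ C.TestI :=
    hC.testI_add hB (hC.testI_smul hB _ ha) (hC.testI_smul hB _ hb)
  have hw : w'.1 • a + w'.2 • b ∈ C.TestI :=
    hC.testI_add hB (hC.testI_smul hB _ ha) (hC.testI_smul hB _ hb)
  have hΓ := hC.Γ_mem hB hv.1 hw.1
  have n0 := IsGamma.N_nonneg' (C := C) (C.Γ (v.1 • a + v.2 • b) (w'.1 • a + w'.2 • b))
  refine ⟨2 * (C.N (C.Γ (v.1 • a + v.2 • b) (w'.1 • a + w'.2 • b))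
    + 4 * (|v.1 * w'.1| + |v.1 * w'.2 + v.2 * w'.1| + |v.2 * w'.2|)), by positivity, ?_⟩
  intro δ hδ hδ1 X hX Xa Xb XF
  have h1 := G'_close hC hB hX hδ v w'
  have e1 : X.pt v = v.1 • a + v.2 • b := by unfold pt; rw [Xa, Xb]
  have e2 : X.pt w' = w'.1 • a + w'.2 • b := by unfold pt; rw [Xa, Xb]
  rw [e1, e2] at h1
  have p0 : 0 ≤ 4 * (|v.1 * w'.1| + |v.1 * w'.2 + v.2 * w'.1| + |v.2 * w'.2|) := by positivity
  have h2 : C.N (X.G' v w' - C.Γ (v.1 • a + v.2 • b) (w'.1 • a + w'.2 • b))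
      ≤ 4 * (|v.1 * w'.1| + |v.1 * w'.2 + v.2 * w'.1| + |v.2 * w'.2|) :=
    h1.trans (by nlinarith)
  exact (hC.sqrtE_le_N _).trans
    (hC.N_of_sub (hC.test_A (G'_memI hC hB hX v w').1).1 hΓ.1 h2)

theorem D'_unif (a b F θ : M →ₘ[m] ℝ) (η : ℝ) (ha : a ∈ C.TestI) (hb : b ∈ C.TestI)
    (hF : F ∈ C.TestI) (v : ℝ × ℝ) :
    ∃ c : ℝ, 0 ≤ c ∧ ∀ δ, 0 < δ → δ ≤ 1 → ∀ X : Dat m, X.Ok C θ η δ → X.a = a → X.b = b →
      X.F = F → √(I (X.D' v ^ 2)) ≤ c := by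
  have hv : v.1 • C.De F a + v.2 • C.De F b ∈ C.A :=
    hC.toIsDir.A_add (hC.toIsDir.A_smul _ (De_memA hC hB hF ha))
      (hC.toIsDir.A_smul _ (De_memA hC hB hF hb))
  have n0 := IsGamma.N_nonneg' (C := C) (v.1 • C.De F a + v.2 • C.De F b)
  refine ⟨2 * (C.N (v.1 • C.De F a + v.2 • C.De F b) + 2 * (|v.1| + |v.2|)), by positivity, ?_⟩
  intro δ hδ hδ1 X hX Xa Xb XF
  have h1 := D'_close hC hB hX hδ v
  have e1 : X.D C v = v.1 • C.De F a + v.2 • C.De F b := by unfold D; rw [Xa, Xb, XF]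
  rw [e1] at h1
  have p0 : 0 ≤ 2 * (|v.1| + |v.2|) := by positivity
  have h2 : C.N (X.D' v - (v.1 • C.De F a + v.2 • C.De F b)) ≤ 2 * (|v.1| + |v.2|) :=
    h1.trans (by nlinarith)
  have hD' := (hC.test_A (D'_memI hC hB hX v).1).1
  exact (hC.sqrtI_le_N hD').trans (hC.N_of_sub hD' hv.1 h2)

theorem Y_unif (a b F θ : M →ₘ[m] ℝ) (η : ℝ) (ha : a ∈ C.TestI) (hb : b ∈ C.TestI)
    (hF : F ∈ C.TestI) (v w' : ℝ × ℝ) :
    ∃ c : ℝ, 0 ≤ c ∧ ∀ δ, 0 < δ → δ ≤ 1 → ∀ X : Dat m, X.Ok C θ η δ → X.a = a → X.b = b →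
      X.F = F → ∀ w ∈ C.W, |I (X.Y C v w' w)| ≤ c * √(I (C.Γ w w)) := by
  have hv : v.1 • a + v.2 • b ∈ C.TestI :=
    hC.testI_add hB (hC.testI_smul hB _ ha) (hC.testI_smul hB _ hb)
  have hw' : w'.1 • a + w'.2 • b ∈ C.TestI :=
    hC.testI_add hB (hC.testI_smul hB _ ha) (hC.testI_smul hB _ hb)
  obtain ⟨Lv, hLv0, hLv⟩ := hC.bdE1 hv.1
  obtain ⟨Lw, hLw0, hLw⟩ := hC.bdE1 hw'.1
  obtain ⟨LF, hLF0, hLF⟩ := hC.exists_bd_FΓ (hC.test_A hF.1).2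
  obtain ⟨dv, hdv0, hdv⟩ := D'_unif hC hB a b F θ η ha hb hF v
  obtain ⟨dw, hdw0, hdw⟩ := D'_unif hC hB a b F θ η ha hb hF w'
  obtain ⟨gg, hgg0, hgg⟩ := G'_unif hC hB a b F θ η ha hb v w'
  refine ⟨2⁻¹ * (Lw * dv + Lv * dw + LF * gg), by positivity, ?_⟩
  intro δ hδ hδ1 X hX Xa Xb XF w hw
  have hD := hC.toIsDir
  have e1 : X.pt v = v.1 • a + v.2 • b := by unfold pt; rw [Xa, Xb]
  have e2 : X.pt w' = w'.1 • a + w'.2 • b := by unfold pt; rw [Xa, Xb]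
  have pv := (hC.test_A (pt_memI hC hB hX v).1).1
  have pw := (hC.test_A (pt_memI hC hB hX w').1).1
  have gW := (hC.test_A (G'_memI hC hB hX v w').1).1
  have D1 := hC.test_A (D'_memI hC hB hX v).1
  have D2 := hC.test_A (D'_memI hC hB hX w').1
  have h1 := hLw _ (hC.memLp _ D1.1) w hw
  have h2 := hLv _ (hC.memLp _ D2.1) w hw
  have h3 := hLF _ gW w hw
  have b1 := hdv δ hδ hδ1 X hX Xa Xb XF
  have b2 := hdw δ hδ hδ1 X hX Xa Xb XF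
  have b3 := hgg δ hδ hδ1 X hX Xa Xb XF
  rw [← e2] at h1
  rw [← e1] at h2
  rw [← XF] at h3
  set N := √(I (C.Γ w w)) with hN
  have hN0 : 0 ≤ N := Real.sqrt_nonneg _
  have q1 : MemLp (X.D' v * C.Γ (X.pt w') w : M →ₘ[m] ℝ) 1 m :=
    mem_mul_top D1.2 (hD.Γ_mem1 pw hw)
  have q2 : MemLp (X.D' w' * C.Γ (X.pt v) w : M →ₘ[m] ℝ) 1 m :=
    mem_mul_top D2.2 (hD.Γ_mem1 pv hw)
  have q3 : MemLp (X.F * C.Γ (X.G' v w') w : M →ₘ[m] ℝ) 1 m :=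
    mem_mul_top (hC.test_A hX.hF.1).2 (hD.Γ_mem1 gW hw)
  unfold Y
  rw [I_smul, I_add (mem_add q1 q2) q3, I_add q1 q2]
  have c1 : |I (X.D' v * C.Γ (X.pt w') w)| ≤ Lw * (dv * N) :=
    h1.trans (mul_le_mul_of_nonneg_left (mul_le_mul_of_nonneg_right b1 hN0) hLw0)
  have c2 : |I (X.D' w' * C.Γ (X.pt v) w)| ≤ Lv * (dw * N) :=
    h2.trans (mul_le_mul_of_nonneg_left (mul_le_mul_of_nonneg_right b2 hN0) hLv0)
  have c3 : |I (X.F * C.Γ (X.G' v w') w)| ≤ LF * (gg * N) :=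
    h3.trans (mul_le_mul_of_nonneg_left (mul_le_mul_of_nonneg_right b3 hN0) hLF0)
  rw [abs_mul, abs_of_pos (by norm_num : (0 : ℝ) < 2⁻¹)]
  have c4 := abs_add_three (I (X.D' v * C.Γ (X.pt w') w)) (I (X.D' w' * C.Γ (X.pt v) w))
    (I (X.F * C.Γ (X.G' v w') w))
  nlinarith

end Ok

section Ok2

variable (hC : IsGamma C) {κ : ℝ} (hB : C.BEi κ) (hX : X.Ok C θ η δ)
include hC hB hX

/-- expansion in the potential -/
theorem expU (e : ℝ × ℝ) {h w c : M →ₘ[m] ℝ} (hh : h ∈ C.W) (hw : w ∈ C.W) (hc : MemLp c ∞ m)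
    (ε t : ℝ) : I (c * C.Γ (X.ph e h ε t) w) = I (c * C.Γ (X.pt e) w) + ε * I (c * C.Γ h w)
      - t / 2 * I (c * C.Γ (X.G' e e) w) := by
  have hD := hC.toIsDir
  have pW := (hC.test_A (pt_memI hC hB hX e).1).1
  have gW := (hC.test_A (G'_memI hC hB hX e e).1).1
  have m1 := mem_mul_top hc (hD.Γ_mem1 pW hw)
  have m2 := mem_mul_top hc (hD.Γ_mem1 hh hw)
  have m3 := mem_mul_top hc (hD.Γ_mem1 gW hw)
  have e1 : c * C.Γ (X.ph e h ε t) w = (c * C.Γ (X.pt e) w + ε • (c * C.Γ h w))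
      - (t / 2) • (c * C.Γ (X.G' e e) w) := by
    unfold ph
    rw [hD.Γ_sub_left (hC.add_mem _ pW _ (hC.smul_mem _ _ hh)) (hC.smul_mem _ _ gW) hw,
      hC.add_left _ pW _ (hC.smul_mem _ _ hh) _ hw, hC.smul_left _ _ hh _ hw,
      hC.smul_left _ _ gW _ hw]
    algebra
  rw [e1, I_sub (mem_add m1 (mem_smul _ m2)) (mem_smul _ m3), I_add m1 (mem_smul _ m2), I_smul,
    I_smul]

/-- expansion in the density -/
theorem expR (v e : ℝ × ℝ) {u w : M →ₘ[m] ℝ} (hu : u ∈ C.W) (hw : w ∈ C.W) (ε t : ℝ) :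
    I (X.rho C (ε • v + t • e) * C.Γ u w) = I (X.F * C.Γ u w) - ε * I (X.D C v * C.Γ u w)
      - t * I (X.D C e * C.Γ u w) + 2⁻¹ * (ε ^ 2 * I (X.r C v v * C.Γ u w)
        + 2 * ε * t * I (X.r C v e * C.Γ u w) + t ^ 2 * I (X.r C e e * C.Γ u w)) := by
  have hD := hC.toIsDir
  have hg := hD.Γ_mem1 hu hw
  have m0 := mem_mul_top (hC.test_A hX.hF.1).2 hg
  have m1 := mem_mul_top (D_memA hC hB hX v).2 hg
  have m2 := mem_mul_top (D_memA hC hB hX e).2 hg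
  have m3 := mem_mul_top (r_memA hC hB hX v v).2 hg
  have m4 := mem_mul_top (r_memA hC hB hX v e).2 hg
  have m5 := mem_mul_top (r_memA hC hB hX e e).2 hg
  have e1 : X.rho C (ε • v + t • e) * C.Γ u w = (X.F * C.Γ u w - ε • (X.D C v * C.Γ u w)
      - t • (X.D C e * C.Γ u w)) + (2⁻¹ : ℝ) • (ε ^ 2 • (X.r C v v * C.Γ u w)
        + (2 * ε * t) • (X.r C v e * C.Γ u w) + t ^ 2 • (X.r C e e * C.Γ u w)) := by
    rw [e_rho hC hB hX, e_r_smul_left hC hB hX]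
    unfold rho
    rw [D_smul, r_smul hC hB hX]
    algebra
  rw [e1, I_add (mem_sub (mem_sub m0 (mem_smul _ m1)) (mem_smul _ m2))
      (mem_smul _ (mem_add (mem_add (mem_smul _ m3) (mem_smul _ m4)) (mem_smul _ m5))),
    I_sub (mem_sub m0 (mem_smul _ m1)) (mem_smul _ m2), I_sub m0 (mem_smul _ m1), I_smul, I_smul,
    I_smul, I_add (mem_add (mem_smul _ m3) (mem_smul _ m4)) (mem_smul _ m5),
    I_add (mem_smul _ m3) (mem_smul _ m4), I_smul, I_smul, I_smul]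

/-- expansion of the divergence -/
theorem expL (v e : ℝ × ℝ) {w : M →ₘ[m] ℝ} (hw : w ∈ C.W) (ε t : ℝ) :
    I (w * (X.r C (ε • v + t • e) e - X.D C e))
      = I (X.F * C.Γ (X.pt e) w) - ε * I (X.Y C v e w) - t * I (X.Y C e e w) := by
  have w2 := hC.memLp w hw
  have m1 : MemLp (w * X.r C v e : M →ₘ[m] ℝ) 1 m :=
    mem_mul_22 w2 (hC.memLp _ (r_memA hC hB hX v e).1)
  have m2 : MemLp (w * X.r C e e : M →ₘ[m] ℝ) 1 m :=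
    mem_mul_22 w2 (hC.memLp _ (r_memA hC hB hX e e).1)
  have m3 : MemLp (w * X.D C e : M →ₘ[m] ℝ) 1 m :=
    mem_mul_22 w2 (hC.memLp _ (D_memA hC hB hX e).1)
  have e1 : w * (X.r C (ε • v + t • e) e - X.D C e)
      = (ε • (w * X.r C v e) + t • (w * X.r C e e)) - w * X.D C e := by
    rw [e_r_add_left hC hB hX, e_r_smul_left hC hB hX, e_r_smul_left hC hB hX]
    algebra
  rw [e1, I_sub (mem_add (mem_smul _ m1) (mem_smul _ m2)) m3,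
    I_add (mem_smul _ m1) (mem_smul _ m2), I_smul, I_smul, ibp_r hC hB hX v e hw,
    ibp_r hC hB hX e e hw, ibp_D hC hB hX e hw]
  ring

/-- bounds with constants which depend on everything -/
theorem exists_K2 (v e : ℝ × ℝ) {h : M →ₘ[m] ℝ} (hh : h ∈ C.W) : ∃ K : ℝ, 0 ≤ K ∧ ∀ w ∈ C.W,
    ∀ c ∈ ({X.D C v, X.D C e, X.r C v v, X.r C v e, X.r C e e} : Set (M →ₘ[m] ℝ)),
    ∀ u ∈ ({X.pt e, h, X.G' e e} : Set (M →ₘ[m] ℝ)),
      |I (c * C.Γ u w)| ≤ K * √(I (C.Γ w w)) := by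
  have pW := (hC.test_A (pt_memI hC hB hX e).1).1
  have gW := (hC.test_A (G'_memI hC hB hX e e).1).1
  have key : ∀ c : M →ₘ[m] ℝ, MemLp c ∞ m → ∃ K : ℝ, 0 ≤ K ∧ ∀ w ∈ C.W,
      ∀ u ∈ ({X.pt e, h, X.G' e e} : Set (M →ₘ[m] ℝ)),
        |I (c * C.Γ u w)| ≤ K * √(I (C.Γ w w)) := by
    intro c hc
    obtain ⟨K1, h10, h1⟩ := hC.bdE2 hc pW
    obtain ⟨K2, h20, h2⟩ := hC.bdE2 hc hh
    obtain ⟨K3, h30, h3⟩ := hC.bdE2 hc gW
    refine ⟨K1 + K2 + K3, by positivity, fun w hw u hu => ?_⟩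
    have hN0 : 0 ≤ √(I (C.Γ w w)) := Real.sqrt_nonneg _
    have z1 := mul_nonneg h10 hN0
    have z2 := mul_nonneg h20 hN0
    have z3 := mul_nonneg h30 hN0
    simp only [Set.mem_insert_iff, Set.mem_singleton_iff] at hu
    rcases hu with rfl | rfl | rfl
    · refine (h1 w hw).trans ?_
      linarith
    · refine (h2 w hw).trans ?_
      linarith
    · refine (h3 w hw).trans ?_
      linarith
  obtain ⟨K1, h10, h1⟩ := key _ (D_memA hC hB hX v).2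
  obtain ⟨K2, h20, h2⟩ := key _ (D_memA hC hB hX e).2
  obtain ⟨K3, h30, h3⟩ := key _ (r_memA hC hB hX v v).2
  obtain ⟨K4, h40, h4⟩ := key _ (r_memA hC hB hX v e).2
  obtain ⟨K5, h50, h5⟩ := key _ (r_memA hC hB hX e e).2
  refine ⟨K1 + K2 + K3 + K4 + K5, by positivity, fun w hw c hc u hu => ?_⟩
  have hN0 : 0 ≤ √(I (C.Γ w w)) := Real.sqrt_nonneg _
  have z1 := mul_nonneg h10 hN0
  have z2 := mul_nonneg h20 hN0
  have z3 := mul_nonneg h30 hN0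
  have z4 := mul_nonneg h40 hN0
  have z5 := mul_nonneg h50 hN0
  simp only [Set.mem_insert_iff, Set.mem_singleton_iff] at hc
  rcases hc with rfl | rfl | rfl | rfl | rfl
  · refine (h1 w hw u hu).trans ?_
    linarith
  · refine (h2 w hw u hu).trans ?_
    linarith
  · refine (h3 w hw u hu).trans ?_
    linarith
  · refine (h4 w hw u hu).trans ?_
    linarith
  · refine (h5 w hw u hu).trans ?_
    linarith

end Ok2

/-- the mismatch -/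
theorem pairH_mis (hC : IsGamma C) {K : ℝ} (hB : C.BEi K)
    (a b F θ g : M →ₘ[m] ℝ) (ha : a ∈ C.TestI) (hb : b ∈ C.TestI) (hF : F ∈ C.TestI)
    (hg : g ∈ C.A) (η : ℝ) (v e : ℝ × ℝ) :
    ∃ CH ≥ 0, ∀ δ, 0 < δ → δ ≤ 1 → ∀ X : Dat m, X.Ok C θ η δ → X.a = a → X.b = b →
      X.F = F → ∀ h ∈ C.TestI, C.nrm2 (h - g) ≤ (2 * δ) ^ 2 →
      ∃ ε₀ > 0, ∀ ε, 0 < ε → ε ≤ ε₀ → ∀ t ∈ Set.Icc 0 ε,
        ∀ w ∈ C.A, MemLp (C.Γ w w) ∞ m →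
          |I (w * (X.r C (ε • v + t • e) e - X.D C e))
            - I (X.rho C (ε • v + t • e) * C.Γ (X.ph e h ε t) w)| ≤ CH * ε * √(I (C.Γ w w)) := by
  obtain ⟨c1, hc1, h1⟩ := Y_unif hC hB a b F θ η ha hb hF v e
  obtain ⟨c2, hc2, h2⟩ := Y_unif hC hB a b F θ η ha hb hF e e
  obtain ⟨LF, hLF0, hLF⟩ := hC.exists_bd_FΓ (hC.test_A hF.1).2
  obtain ⟨gg, hgg0, hgg⟩ := G'_unif hC hB a b F θ η ha hb e e
  have he : e.1 • a + e.2 • b ∈ C.TestI :=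
    hC.testI_add hB (hC.testI_smul hB _ ha) (hC.testI_smul hB _ hb)
  have dW : ∀ v : ℝ × ℝ, v.1 • C.De F a + v.2 • C.De F b ∈ C.A := fun v =>
    hC.toIsDir.A_add (hC.toIsDir.A_smul _ (De_memA hC hB hF ha))
      (hC.toIsDir.A_smul _ (De_memA hC hB hF hb))
  obtain ⟨Le, hLe0, hLe⟩ := hC.bdE1 he.1
  set c3 := LF * (2 * (C.N g + 2)) with hc3
  set c4 := LF * gg with hc4
  set c5 := Le * √(I ((v.1 • C.De F a + v.2 • C.De F b) ^ 2)) with hc5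
  set c6 := Le * √(I ((e.1 • C.De F a + e.2 • C.De F b) ^ 2)) with hc6
  have ng := IsGamma.N_nonneg' (C := C) g
  refine ⟨c1 + c2 + c3 + c4 + c5 + c6 + 1, by positivity, ?_⟩
  intro δ hδ hδ1 X hX Xa Xb XF h hh hn
  have hhW := (hC.test_A hh.1).1
  obtain ⟨K2, hK20, hK2⟩ := exists_K2 hC hB hX v e hhW
  refine ⟨min 1 (1 / (10 * K2 + 1)), lt_min one_pos (by positivity), ?_⟩
  intro ε hε hε0 t ht w hwA hwT
  have hw := hwA.1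
  have hε1 : ε ≤ 1 := hε0.trans (min_le_left _ _)
  have hε2 : ε ≤ 1 / (10 * K2 + 1) := hε0.trans (min_le_right _ _)
  have hε3 : 10 * K2 * ε ≤ 1 := by
    have h3 : ε * (10 * K2 + 1) ≤ 1 := (le_div_iff₀ (by positivity)).1 hε2
    nlinarith
  have gW := (hC.test_A (G'_memI hC hB hX e e).1).1
  have pW := (hC.test_A (pt_memI hC hB hX e).1).1
  have e1 : X.pt e = e.1 • a + e.2 • b := by unfold pt; rw [Xa, Xb]
  have e2 : ∀ v : ℝ × ℝ, X.D C v = v.1 • C.De F a + v.2 • C.De F b := fun v => by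
    unfold D; rw [Xa, Xb, XF]
  have f1 := hLF _ hhW w hw
  have f2 := hLF _ gW w hw
  rw [← XF] at f1 f2
  have f3 : √(I (C.Γ h h)) ≤ 2 * (C.N g + 2) := by
    have h3 : C.N (h - g) ≤ 2 := by
      have : C.N (h - g) ≤ 2 * δ := IsGamma.N_le (by positivity) hn
      linarith
    exact (hC.sqrtE_le_N _).trans (hC.N_of_sub hhW hg.1 h3)
  have f4 := hgg δ hδ hδ1 X hX Xa Xb XF
  have d1 := hLe _ (hC.memLp _ (D_memA hC hB hX v).1) w hw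
  have d2 := hLe _ (hC.memLp _ (D_memA hC hB hX e).1) w hw
  rw [← e1, e2 v] at d1
  rw [← e1, e2 e] at d2
  have y1 := h1 δ hδ hδ1 X hX Xa Xb XF w hw
  have y2 := h2 δ hδ hδ1 X hX Xa Xb XF w hw
  set N := √(I (C.Γ w w)) with hN
  have hN0 : 0 ≤ N := Real.sqrt_nonneg _
  have g1 : |I (X.F * C.Γ h w)| ≤ c3 * N := by
    refine f1.trans ?_
    rw [hc3, mul_assoc]
    exact mul_le_mul_of_nonneg_left (mul_le_mul_of_nonneg_right f3 hN0) hLF0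
  have g2 : |I (X.F * C.Γ (X.G' e e) w)| ≤ c4 * N := by
    refine f2.trans ?_
    rw [hc4, mul_assoc]
    exact mul_le_mul_of_nonneg_left (mul_le_mul_of_nonneg_right f4 hN0) hLF0
  have g3 : |I (X.D C v * C.Γ (X.pt e) w)| ≤ c5 * N := by
    rw [e2 v, hc5, mul_assoc]
    exact d1
  have g4 : |I (X.D C e * C.Γ (X.pt e) w)| ≤ c6 * N := by
    rw [e2 e, hc6, mul_assoc]
    exact d2
  have k := hK2 w hw
  have m1 : MemLp (X.rho C (ε • v + t • e)) ∞ m := (e_rho_memA hC hB hX _).2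
  rw [expL hC hB hX v e hw, expU hC hB hX e hhW hw m1, expR hC hB hX v e pW hw,
    expR hC hB hX v e hhW hw, expR hC hB hX v e gW hw]
  have fin := AB.pairH_real (y1 := I (X.Y C v e w)) (y2 := I (X.Y C e e w))
    (f1 := I (X.F * C.Γ h w)) (f2 := I (X.F * C.Γ (X.G' e e) w))
    (d1 := I (X.D C v * C.Γ (X.pt e) w)) (d2 := I (X.D C e * C.Γ (X.pt e) w))
    (s1 := I (X.D C v * C.Γ h w)) (s2 := I (X.D C e * C.Γ h w))
    (s3 := I (X.D C v * C.Γ (X.G' e e) w)) (s4 := I (X.D C e * C.Γ (X.G' e e) w))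
    (p1 := I (X.r C v v * C.Γ (X.pt e) w)) (p2 := I (X.r C v e * C.Γ (X.pt e) w))
    (p3 := I (X.r C e e * C.Γ (X.pt e) w))
    (q1 := I (X.r C v v * C.Γ h w)) (q2 := I (X.r C v e * C.Γ h w))
    (q3 := I (X.r C e e * C.Γ h w))
    (z1 := I (X.r C v v * C.Γ (X.G' e e) w)) (z2 := I (X.r C v e * C.Γ (X.G' e e) w))
    (z3 := I (X.r C e e * C.Γ (X.G' e e) w))
    ht.1 ht.2 hε1 hε3 hN0 y1 y2 g1 g2 g3 g4
    (k _ (by simp) _ (by simp)) (k _ (by simp) _ (by simp)) (k _ (by simp) _ (by simp))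
    (k _ (by simp) _ (by simp)) (k _ (by simp) _ (by simp)) (k _ (by simp) _ (by simp))
    (k _ (by simp) _ (by simp)) (k _ (by simp) _ (by simp)) (k _ (by simp) _ (by simp))
    (k _ (by simp) _ (by simp)) (k _ (by simp) _ (by simp)) (k _ (by simp) _ (by simp))
    (k _ (by simp) _ (by simp))
  refine le_trans (le_of_eq ?_) fin
  congr 1
  ring

end Dat

end Vale.Agent.P233
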