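import Vale.Agent.P233.AB.DatL
import Vale.Agent.P233.AB.AlgP3

set_option linter.all false

open MeasureTheory Filter Topology
open scoped ENNReal NNReal

namespace Vale.Agent.P233

variable {M : Type*} [MeasurableSpace M] {m : Measure M} {C : Calc m}

namespace Dat

variable {X : Dat m} {θ : M →ₘ[m] ℝ} {η δ : ℝ}

section
variable (hC : IsGamma C) {κ : ℝ} (hB : C.BEi κ) (hX : X.Ok C θ η δ)
include hC hB hX

theorem r_bil (ε t : ℝ) (v e w : ℝ × ℝ) :
    X.r C (ε • v + t • e) w = ε • X.r C v w + t • X.r C e w := by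
  have hF := (hC.test_A hX.hF.1).1
  have pv := pt_memI hC hB hX v
  have pe := pt_memI hC hB hX e
  have pw := pt_memI hC hB hX w
  have dv := D'_memI hC hB hX v
  have de := D'_memI hC hB hX e
  have dw := D'_memI hC hB hX w
  have gv := G'_memI hC hB hX v w
  have ge := G'_memI hC hB hX e w
  have pvW := (hC.test_A pv.1).1
  have peW := (hC.test_A pe.1).1
  have pwW := (hC.test_A pw.1).1
  have dvW := (hC.test_A dv.1).1
  have deW := (hC.test_A de.1).1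
  have dwW := (hC.test_A dw.1).1
  have gvW := (hC.test_A gv.1).1
  have geW := (hC.test_A ge.1).1
  have hpt : X.pt (ε • v + t • e) = ε • X.pt v + t • X.pt e := by
    rw [pt_add, pt_smul, pt_smul]
  have hD' : X.D' (ε • v + t • e) = ε • X.D' v + t • X.D' e := by
    rw [D'_add, D'_smul, D'_smul]
  have hG' : X.G' (ε • v + t • e) w = ε • X.G' v w + t • X.G' e w := by
    rw [G'_add]
    simp only [G', Prod.smul_fst, Prod.smul_snd, smul_eq_mul]
    algebra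
  rw [r_eq, r_eq, r_eq, hpt, hD', hG']
  unfold Calc.De
  rw [hC.lap_add hB (hC.test_smul hB _ pv.1) (hC.test_smul hB _ pe.1), hC.lap_smul hB _ pv.1,
    hC.lap_smul hB _ pe.1, hC.lap_add hB (hC.test_smul hB _ gv.1) (hC.test_smul hB _ ge.1),
    hC.lap_smul hB _ gv.1, hC.lap_smul hB _ ge.1,
    hC.add_left _ (hC.smul_mem _ _ dvW) _ (hC.smul_mem _ _ deW) _ pwW,
    hC.smul_left _ _ dvW _ pwW, hC.smul_left _ _ deW _ pwW,
    hC.toIsDir.Γ_add_right dwW (hC.smul_mem _ _ pvW) (hC.smul_mem _ _ peW),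
    hC.toIsDir.Γ_smul_right _ dwW pvW, hC.toIsDir.Γ_smul_right _ dwW peW,
    hC.toIsDir.Γ_add_right hF (hC.smul_mem _ _ gvW) (hC.smul_mem _ _ geW),
    hC.toIsDir.Γ_smul_right _ hF gvW, hC.toIsDir.Γ_smul_right _ hF geW]
  algebra

omit hC hB hX in
theorem r_comm (v w : ℝ × ℝ) : X.r C v w = X.r C w v := by
  rw [r_eq, r_eq, G'_comm X v w, add_comm (C.De (X.D' v) (X.pt w))]

theorem rho_seg (ε t : ℝ) (v e : ℝ × ℝ) :
    X.rho C (ε • v + t • e)
      = segρ X.F (X.D C v) (X.D C e) (X.r C v v) (X.r C v e) (X.r C e e) ε t := by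
  have h1 : X.r C (ε • v + t • e) (ε • v + t • e)
      = ε • (ε • X.r C v v + t • X.r C v e) + t • (ε • X.r C v e + t • X.r C e e) := by
    rw [r_bil hC hB hX ε t v e, r_comm v (ε • v + t • e), r_comm e (ε • v + t • e),
      r_bil hC hB hX ε t v e v, r_bil hC hB hX ε t v e e, r_comm e v]
  unfold rho segρ
  rw [h1, D_add, D_smul, D_smul]
  algebra

/-- the action of a pair is a polynomial in `ε` -/
theorem actP_poly (v e : ℝ × ℝ) {h : M →ₘ[m] ℝ} (hh : h ∈ C.TestI) :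
    ∃ c4 c5 : ℝ, ∀ ε : ℝ, X.actP C v e h ε
      = ε / 2 * X.E2 C e e + ε ^ 2 / 2 * (X.X3 C e ((2 : ℝ) • v + e) e
          + X.W3 C ((2 : ℝ) • v + e) e e)
        + C.k3 X.F (X.pt e) h ((2:ℝ)⁻¹ • X.G' e e) (X.D C v) (X.D C e) (X.r C v v) (X.r C v e)
            (X.r C e e) * ε ^ 3
        + c4 * ε ^ 4 + c5 * ε ^ 5 := by
  have pe := pt_memI hC hB hX e
  have gee := G'_memI hC hB hX e e
  have hG : (2:ℝ)⁻¹ • X.G' e e ∈ C.Test := hC.test_smul hB _ gee.1
  have FA := hC.test_A hX.hF.1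
  have ib : ∀ g ∈ C.W, I (g * X.D C e) = -I (X.F * C.Γ (X.pt e) g) := fun g hg =>
    ibp_D hC hB hX e hg
  have rm : ∀ x y : ℝ × ℝ, MemLp (X.r C x y) 2 m := fun x y =>
    hC.memLp _ (r_memA hC hB hX x y).1
  have Dm : ∀ x : ℝ × ℝ, MemLp (X.D C x) 2 m := fun x => hC.memLp _ (D_memA hC hB hX x).1
  obtain ⟨c4, c5, hc⟩ := hC.seg_int hB (F := X.F) pe.1 hh.1 hG (hC.memLp _ FA.1) (Dm v) (Dm e)
    (rm v v) (rm v e) (rm e e) (ib _ (hC.test_A pe.1).1) (ib _ (hC.test_A hh.1).1)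
    (ib _ (hC.test_A hG).1)
  refine ⟨c4, c5, fun ε => ?_⟩
  have h0 : X.actP C v e h ε = ∫ s in (0:ℝ)..ε, C.act (X.pt e + ε • h - s • ((2:ℝ)⁻¹ • X.G' e e))
      (-X.D C e + ε • X.r C v e + s • X.r C e e)
          (segρ X.F (X.D C v) (X.D C e) (X.r C v v) (X.r C v e) (X.r C e e) ε s) := by
    unfold actP
    congr 1
    funext t
    rw [← rho_seg hC hB hX, r_bil hC hB hX]
    unfold Calc.act ph
    rw [show ε • X.r C v e + t • X.r C e e - X.D C e
      = -X.D C e + ε • X.r C v e + t • X.r C e e by abel]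
    rw [show (t / 2) • X.G' e e = t • ((2:ℝ)⁻¹ • X.G' e e) by rw [smul_smul, div_eq_mul_inv]]
  rw [h0, hc ε]
  have e1 : C.k1 X.F (X.pt e) = 2⁻¹ * X.E2 C e e := rfl
  have hpe := (hC.test_A pe.1).1
  have q1 : I (X.pt e * X.r C v e) = X.X3 C e v e := ibp_r hC hB hX v e hpe
  have q2 : I (X.pt e * X.r C e e) = X.X3 C e e e := ibp_r hC hB hX e e hpe
  have q3 : X.X3 C e ((2 : ℝ) • v + e) e = 2 * X.X3 C e v e + X.X3 C e e e := by
    have t1 : X.X3 C e ((2 : ℝ) • v + e) e = I (X.pt e * X.r C ((2 : ℝ) • v + e) e) :=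
      (ibp_r hC hB hX _ e hpe).symm
    have t2 := r_bil hC hB hX 2 1 v e e
    rw [one_smul, one_smul] at t2
    rw [t1, t2, ← q1, ← q2, mul_add, mul_smul_comm, I_add (mem_smul _ (mem_mul_22
      (hC.memLp _ hpe) (rm v e))) (mem_mul_22 (hC.memLp _ hpe) (rm e e)), I_smul]
  have g22 := hC.test_Γ2 hB pe.1 pe.1
  have q4 : X.W3 C ((2 : ℝ) • v + e) e e = 2 * X.W3 C v e e + X.W3 C e e e := by
    unfold W3
    rw [D_add, D_smul, add_mul, smul_mul_assoc, I_add (mem_smul _ (mem_mul_22 (Dm v) g22))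
      (mem_mul_22 (Dm e) g22), I_smul]
    ring
  have e2 : C.k2 (X.pt e) (X.D C v) (X.D C e) (X.r C v e) (X.r C e e)
      = 2⁻¹ * (X.X3 C e ((2 : ℝ) • v + e) e + X.W3 C ((2 : ℝ) • v + e) e e) := by
    unfold Calc.k2
    rw [q1, q2, q3, q4]
    unfold W3
    ring
  rw [e1, e2]
  ring

end

end Dat

end Vale.Agent.P233
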