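import Vale.Agent.P233.AB.PairX1
import Vale.Agent.P233.AB.AlgP4

set_option linter.all false

open MeasureTheory Filter Topology
open scoped ENNReal NNReal

namespace Vale.Agent.P233

variable {M : Type*} [MeasurableSpace M] {m : Measure M} {C : Calc m}

/-- the norm of `W` -/
noncomputable def Calc.N (C : Calc m) (u : M →ₘ[m] ℝ) : ℝ := Real.sqrt (C.nrm2 u)

namespace IsGamma

variable (hC : IsGamma C) {κ : ℝ} (hB : C.BEi κ)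
variable {F a b e f g h p u v w k G S y z x : M →ₘ[m] ℝ}

include hC

omit hC in
theorem N_nonneg' (u : M →ₘ[m] ℝ) : 0 ≤ C.N u := Real.sqrt_nonneg _

theorem N_add (hf : f ∈ C.W) (hg : g ∈ C.W) : C.N (f + g) ≤ 2 * (C.N f + C.N g) := by
  have h1 := hC.toIsDir.nrm2_nonneg hf
  have h2 := hC.toIsDir.nrm2_nonneg hg
  unfold Calc.N
  refine Real.sqrt_le_iff.2 ⟨by positivity, ?_⟩
  have h3 := hC.toIsDir.nrm2_add_le hf hg
  nlinarith [Real.sq_sqrt h1, Real.sq_sqrt h2, Real.sqrt_nonneg (C.nrm2 f),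
    Real.sqrt_nonneg (C.nrm2 g), mul_nonneg (Real.sqrt_nonneg (C.nrm2 f))
    (Real.sqrt_nonneg (C.nrm2 g))]

theorem N_smul (c : ℝ) (hf : f ∈ C.W) : C.N (c • f) = |c| * C.N f := by
  unfold Calc.N Calc.nrm2
  rw [hC.toIsDir.E_smul c hf]
  have e : (c • f) ^ 2 = (c ^ 2) • f ^ 2 := by algebra
  rw [e, I_smul, ← mul_add, Real.sqrt_mul (sq_nonneg c), Real.sqrt_sq_eq_abs]

omit hC in
theorem N_le {r : ℝ} (hr : 0 ≤ r) (h : C.nrm2 u ≤ r ^ 2) : C.N u ≤ r :=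
  Real.sqrt_le_iff.2 ⟨hr, h⟩

theorem sqrtE_le_N (u : M →ₘ[m] ℝ) : Real.sqrt (I (C.Γ u u)) ≤ C.N u :=
  Real.sqrt_le_sqrt (hC.toIsDir.E_le_nrm2 u)

theorem sqrtI_le_N (hu : u ∈ C.W) : Real.sqrt (I (u ^ 2)) ≤ C.N u :=
  Real.sqrt_le_sqrt (hC.toIsDir.I_sq_le_nrm2 hu)

theorem N_of_sub {c : ℝ} (hu : u ∈ C.W) (hw : w ∈ C.W) (h : C.N (u - w) ≤ c) :
    C.N u ≤ 2 * (C.N w + c) := by
  have h1 := hC.N_add hw (hC.toIsDir.sub_mem hu hw)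
  rw [add_sub_cancel] at h1
  linarith

/-- `|∫ S Γ(y,w)| ≤ L ‖S‖₂ ‖w‖_W` -/
theorem bd1 (hy : y ∈ C.Test) : ∃ L : ℝ, 0 ≤ L ∧ ∀ S : M →ₘ[m] ℝ, MemLp S 2 m → ∀ w ∈ C.W,
    |I (S * C.Γ y w)| ≤ L * (Real.sqrt (I (S ^ 2)) * C.N w) := by
  obtain ⟨L, hL⟩ := mem_top_iff.1 (hC.test_Γ_top hy)
  have yA := hC.test_A hy
  refine ⟨Real.sqrt |L|, by positivity, fun S hS w hw => ?_⟩
  have h2 := hC.toIsDir.Γ_mem2 yA.1 (hC.test_Γ_top hy) hw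
  refine (I_abs_le hS h2).trans ?_
  have h3 : Real.sqrt (I (C.Γ y w ^ 2)) ≤ Real.sqrt |L| * Real.sqrt (I (C.Γ w w)) := by
    rw [← Real.sqrt_mul (abs_nonneg _)]
    refine Real.sqrt_le_sqrt ?_
    rw [← I_smul]
    refine I_mono (mem_sq h2) (mem_smul _ (hC.mem1 w hw)) ?_
    rw [le_iff_ae]
    filter_upwards [hC.toIsDir.Γ_cs_ae yA.1 hw, hC.toIsDir.Γ_nonneg_ae hw, hL,
      sq_ae (C.Γ y w), smul_ae (C.Γ w w) |L|] with x h1 h3 h4 h5 h6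
    rw [h5, h6]
    refine h1.trans (mul_le_mul_of_nonneg_right ?_ h3)
    exact (le_abs_self _).trans (h4.trans (le_abs_self _))
  have h4 := hC.sqrtE_le_N w
  calc Real.sqrt (I (S ^ 2)) * Real.sqrt (I (C.Γ y w ^ 2))
      ≤ Real.sqrt (I (S ^ 2)) * (Real.sqrt |L| * C.N w) := by
        refine mul_le_mul_of_nonneg_left (h3.trans ?_) (Real.sqrt_nonneg _)
        exact mul_le_mul_of_nonneg_left h4 (Real.sqrt_nonneg _)
    _ = _ := by ring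

/-- `|∫ F Γ(v,w)| ≤ L ‖v‖_W ‖w‖_W` -/
theorem bd2 (hF : MemLp F ∞ m) : ∃ L : ℝ, 0 ≤ L ∧ ∀ v ∈ C.W, ∀ w ∈ C.W,
    |I (F * C.Γ v w)| ≤ L * (C.N v * C.N w) := by
  obtain ⟨L, hL0, hL⟩ := hC.exists_bd_FΓ hF
  refine ⟨L, hL0, fun v hv w hw => (hL v hv w hw).trans ?_⟩
  refine mul_le_mul_of_nonneg_left ?_ hL0
  exact mul_le_mul (hC.sqrtE_le_N v) (hC.sqrtE_le_N w) (Real.sqrt_nonneg _) (N_nonneg' v)

/-- perturbation of `∫ S Γ(y,w)` -/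
theorem pert1 (hy : y ∈ C.Test) (hS : MemLp S 2 m) (hw : w ∈ C.W) {c : ℝ} (hc : 0 ≤ c) :
    ∃ K : ℝ, 0 ≤ K ∧ ∀ δ, 0 < δ → δ ≤ 1 → ∀ S' : M →ₘ[m] ℝ, MemLp S' 2 m → ∀ w' ∈ C.W,
      Real.sqrt (I ((S' - S) ^ 2)) ≤ c * δ → C.N (w' - w) ≤ c * δ →
      |I (S' * C.Γ y w') - I (S * C.Γ y w)| ≤ K * δ := by
  obtain ⟨L, hL0, hL⟩ := hC.bd1 hy
  have yA := hC.test_A hy
  refine ⟨L * (c * (2 * (C.N w + c))) + L * (Real.sqrt (I (S ^ 2)) * c), by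
    have := N_nonneg' (C := C) w; positivity, ?_⟩
  intro δ hδ hδ1 S' hS' w' hw' h1 h2
  have hy2 := hC.test_Γ_top hy
  have n1 := mem_mul_22 (mem_sub hS' hS) (hC.toIsDir.Γ_mem2 yA.1 hy2 hw')
  have hww := hC.toIsDir.sub_mem hw' hw
  have n2 := mem_mul_22 hS (hC.toIsDir.Γ_mem2 yA.1 hy2 hww)
  have m1 := mem_mul_22 hS' (hC.toIsDir.Γ_mem2 yA.1 hy2 hw')
  have m2 := mem_mul_22 hS (hC.toIsDir.Γ_mem2 yA.1 hy2 hw)
  have e : I (S' * C.Γ y w') - I (S * C.Γ y w)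
      = I ((S' - S) * C.Γ y w') + I (S * C.Γ y (w' - w)) := by
    rw [← I_sub m1 m2, ← I_add n1 n2, hC.toIsDir.Γ_sub_right yA.1 hw' hw]
    congr 1; ring
  rw [e]
  have hδc : c * δ ≤ c := by nlinarith
  have b1 : C.N w' ≤ 2 * (C.N w + c) := hC.N_of_sub hw' hw (h2.trans hδc)
  have b2 := hL _ (mem_sub hS' hS) w' hw'
  have b3 := hL _ hS _ hww
  refine (abs_add_le _ _).trans ?_
  have b4 : L * (Real.sqrt (I ((S' - S) ^ 2)) * C.N w') ≤ L * ((c * δ) * (2 * (C.N w + c))) := by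
    refine mul_le_mul_of_nonneg_left ?_ hL0
    exact mul_le_mul h1 b1 (N_nonneg' _) (by positivity)
  have b5 : L * (Real.sqrt (I (S ^ 2)) * C.N (w' - w)) ≤ L * (Real.sqrt (I (S ^ 2)) * (c * δ)) :=
    mul_le_mul_of_nonneg_left (mul_le_mul_of_nonneg_left h2 (Real.sqrt_nonneg _)) hL0
  nlinarith

/-- perturbation of `∫ F Γ(v,w)` -/
theorem pert2 (hF : MemLp F ∞ m) (hv : v ∈ C.W) (hw : w ∈ C.W) {c : ℝ} (hc : 0 ≤ c) :
    ∃ K : ℝ, 0 ≤ K ∧ ∀ δ, 0 < δ → δ ≤ 1 → ∀ v' ∈ C.W, ∀ w' ∈ C.W,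
      C.N (v' - v) ≤ c * δ → C.N (w' - w) ≤ c * δ →
      |I (F * C.Γ v' w') - I (F * C.Γ v w)| ≤ K * δ := by
  obtain ⟨L, hL0, hL⟩ := hC.bd2 hF
  have Nv := N_nonneg' (C := C) v
  have Nw := N_nonneg' (C := C) w
  refine ⟨L * (c * (2 * (C.N w + c))) + L * (C.N v * c), by positivity, ?_⟩
  intro δ hδ hδ1 v' hv' w' hw' h1 h2
  have hvv := hC.toIsDir.sub_mem hv' hv
  have hww := hC.toIsDir.sub_mem hw' hw
  have n1 := mem_mul_top hF (hC.toIsDir.Γ_mem1 hvv hw')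
  have n2 := mem_mul_top hF (hC.toIsDir.Γ_mem1 hv hww)
  have m1 := mem_mul_top hF (hC.toIsDir.Γ_mem1 hv' hw')
  have m2 := mem_mul_top hF (hC.toIsDir.Γ_mem1 hv hw)
  have e : I (F * C.Γ v' w') - I (F * C.Γ v w)
      = I (F * C.Γ (v' - v) w') + I (F * C.Γ v (w' - w)) := by
    rw [← I_sub m1 m2, ← I_add n1 n2, hC.toIsDir.Γ_sub_right hv hw' hw,
      hC.toIsDir.Γ_sub_left hv' hv hw']
    congr 1; ring
  rw [e]
  have hδc : c * δ ≤ c := by nlinarith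
  have b1 : C.N w' ≤ 2 * (C.N w + c) := hC.N_of_sub hw' hw (h2.trans hδc)
  have b2 := hL _ hvv w' hw'
  have b3 := hL _ hv _ hww
  refine (abs_add_le _ _).trans ?_
  have b4 : L * (C.N (v' - v) * C.N w') ≤ L * ((c * δ) * (2 * (C.N w + c))) := by
    refine mul_le_mul_of_nonneg_left ?_ hL0
    exact mul_le_mul h1 b1 (N_nonneg' _) (by positivity)
  have b5 : L * (C.N v * C.N (w' - w)) ≤ L * (C.N v * (c * δ)) :=
    mul_le_mul_of_nonneg_left (mul_le_mul_of_nonneg_left h2 Nv) hL0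
  nlinarith

end IsGamma

end Vale.Agent.P233
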