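import Vale.Agent.P233.AB.PairX2

set_option linter.all false

open MeasureTheory Filter Topology
open scoped ENNReal NNReal

namespace Vale.Agent.P233

variable {M : Type*} [MeasurableSpace M] {m : Measure M} {C : Calc m}

namespace Dat

section close

variable {X : Dat m} {θ : M →ₘ[m] ℝ} {η δ : ℝ}
variable (hC : IsGamma C) {κ : ℝ} (hB : C.BEi κ) (hX : X.Ok C θ η δ)

include hC hB hX

theorem D'_close (hδ : 0 < δ) (v : ℝ × ℝ) :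
    C.N (X.D' v - X.D C v) ≤ 2 * (|v.1| + |v.2|) * δ := by
  have hA := (hC.test_A hX.hA.1).1
  have hBB := (hC.test_A hX.hB.1).1
  have hDa := (De_memA hC hB hX.hF hX.ha).1
  have hDb := (De_memA hC hB hX.hF hX.hb).1
  have sA := hC.toIsDir.sub_mem hA hDa
  have sB := hC.toIsDir.sub_mem hBB hDb
  have e : X.D' v - X.D C v = v.1 • (X.A - C.De X.F X.a) + v.2 • (X.B - C.De X.F X.b) := by
    unfold D' D; algebra
  rw [e]
  refine (hC.N_add (hC.smul_mem _ _ sA) (hC.smul_mem _ _ sB)).trans ?_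
  rw [hC.N_smul _ sA, hC.N_smul _ sB]
  have h1 := IsGamma.N_le hδ.le hX.nA
  have h2 := IsGamma.N_le hδ.le hX.nB
  nlinarith [mul_le_mul_of_nonneg_left h1 (abs_nonneg v.1),
    mul_le_mul_of_nonneg_left h2 (abs_nonneg v.2)]

theorem G'_close (hδ : 0 < δ) (v w : ℝ × ℝ) :
    C.N (X.G' v w - C.Γ (X.pt v) (X.pt w)) ≤
      4 * (|v.1 * w.1| + |v.1 * w.2 + v.2 * w.1| + |v.2 * w.2|) * δ := by
  have hP := (hC.test_A hX.hP.1).1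
  have hQ := (hC.test_A hX.hQ.1).1
  have hR := (hC.test_A hX.hR.1).1
  have s1 := hC.toIsDir.sub_mem hP (hC.Γ_mem hB hX.ha.1 hX.ha.1).1
  have s2 := hC.toIsDir.sub_mem hQ (hC.Γ_mem hB hX.ha.1 hX.hb.1).1
  have s3 := hC.toIsDir.sub_mem hR (hC.Γ_mem hB hX.hb.1 hX.hb.1).1
  have e : X.G' v w - C.Γ (X.pt v) (X.pt w) = ((v.1 * w.1) • (X.P - C.Γ X.a X.a)
      + (v.1 * w.2 + v.2 * w.1) • (X.Q - C.Γ X.a X.b)) + (v.2 * w.2) • (X.R - C.Γ X.b X.b) := by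
    unfold G' pt
    rw [hC.Γ_lin hB hX.ha.1 hX.hb.1]
    algebra
  rw [e]
  have t1 := hC.smul_mem (v.1 * w.1) _ s1
  have t2 := hC.smul_mem (v.1 * w.2 + v.2 * w.1) _ s2
  have t3 := hC.smul_mem (v.2 * w.2) _ s3
  have q1 := hC.N_add (hC.add_mem _ t1 _ t2) t3
  have q2 := hC.N_add t1 t2
  rw [hC.N_smul _ s1, hC.N_smul _ s2] at q2
  rw [hC.N_smul _ s3] at q1
  have h1 := mul_le_mul_of_nonneg_left (IsGamma.N_le hδ.le hX.nP) (abs_nonneg (v.1 * w.1))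
  have h2 := mul_le_mul_of_nonneg_left (IsGamma.N_le hδ.le hX.nQ)
    (abs_nonneg (v.1 * w.2 + v.2 * w.1))
  have h3 := mul_le_mul_of_nonneg_left (IsGamma.N_le hδ.le hX.nR) (abs_nonneg (v.2 * w.2))
  nlinarith [mul_nonneg (abs_nonneg (v.2 * w.2)) hδ.le]

theorem I_Yx (x y : ℝ × ℝ) {g : M →ₘ[m] ℝ} (hg : g ∈ C.W) :
    I (X.Y C x y g) = 2⁻¹ * (I (X.D' x * C.Γ (X.pt y) g) + I (X.D' y * C.Γ (X.pt x) g)
      + I (X.F * C.Γ (X.G' x y) g)) := by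
  have hD := hC.toIsDir
  have Pv := pt_memI hC hB hX x
  have Pw := pt_memI hC hB hX y
  have Dv := D'_memI hC hB hX x
  have Dw := D'_memI hC hB hX y
  have Gg := G'_memI hC hB hX x y
  have q1 : MemLp (X.D' x * C.Γ (X.pt y) g : M →ₘ[m] ℝ) 1 m :=
    mem_mul_top (hC.test_A Dv.1).2 (hD.Γ_mem1 (hC.test_A Pw.1).1 hg)
  have q2 : MemLp (X.D' y * C.Γ (X.pt x) g : M →ₘ[m] ℝ) 1 m :=
    mem_mul_top (hC.test_A Dw.1).2 (hD.Γ_mem1 (hC.test_A Pv.1).1 hg)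
  have q3 : MemLp (X.F * C.Γ (X.G' x y) g : M →ₘ[m] ℝ) 1 m :=
    mem_mul_top (hC.test_A hX.hF.1).2 (hD.Γ_mem1 (hC.test_A Gg.1).1 hg)
  unfold Y
  rw [I_smul, I_add (mem_add q1 q2) q3, I_add q1 q2]

end close

section bounds

variable {θ : M →ₘ[m] ℝ} {η : ℝ}
variable (hC : IsGamma C) {κ : ℝ} (hB : C.BEi κ)
variable {a b F w w₁ w₂ : M →ₘ[m] ℝ} (ha : a ∈ C.TestI) (hb : b ∈ C.TestI) (hF : F ∈ C.TestI)

include hC hB ha hb hF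

theorem TR (x y : ℝ × ℝ) (hw : w ∈ C.W) {c : ℝ} (hc : 0 ≤ c) :
    ∃ K : ℝ, 0 ≤ K ∧ ∀ δ, 0 < δ → δ ≤ 1 → ∀ X : Dat m, X.Ok C θ η δ → X.a = a → X.b = b →
      X.F = F → ∀ w' ∈ C.W, C.N (w' - w) ≤ c * δ →
      |I (w' * X.r C x y) - X.RR C x y w| ≤ K * δ := by
  have FA := hC.test_A hF.1
  have lt : ∀ v : ℝ × ℝ, v.1 • a + v.2 • b ∈ C.Test := fun v =>
    hC.lin_test hB ha.1 hb.1 v.1 v.2
  have D2 : ∀ v : ℝ × ℝ, MemLp (v.1 • C.De F a + v.2 • C.De F b : M →ₘ[m] ℝ) 2 m := fun v =>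
    mem_add (mem_smul _ (hC.De_mem2 FA ha.1)) (mem_smul _ (hC.De_mem2 FA hb.1))
  set c' : ℝ := c + 2 * (|x.1| + |x.2|) + 2 * (|y.1| + |y.2|)
    + 4 * (|x.1 * y.1| + |x.1 * y.2 + x.2 * y.1| + |x.2 * y.2|) with hc'
  have hc0 : 0 ≤ c' := by rw [hc']; positivity
  obtain ⟨K1, hK1, h1⟩ := hC.pert1 (lt y) (D2 x) hw hc0
  obtain ⟨K2, hK2, h2⟩ := hC.pert1 (lt x) (D2 y) hw hc0
  obtain ⟨K3, hK3, h3⟩ := hC.pert2 FA.2 (hC.Γ_mem hB (lt x) (lt y)).1 hw hc0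
  refine ⟨2⁻¹ * (K1 + K2 + K3), by positivity, ?_⟩
  intro δ hδ hδ1 X hX Xa Xb XF w' hw' hN
  have ex := D'_close hC hB hX hδ x
  have ey := D'_close hC hB hX hδ y
  have eg := G'_close hC hB hX hδ x y
  have Dxm := (D_memA hC hB hX x).1
  have Dym := (D_memA hC hB hX y).1
  have D'xm := (hC.test_A (D'_memI hC hB hX x).1).1
  have D'ym := (hC.test_A (D'_memI hC hB hX y).1).1
  have Gm := (hC.test_A (G'_memI hC hB hX x y).1).1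
  have p1 : X.pt x = x.1 • a + x.2 • b := by unfold pt; rw [Xa, Xb]
  have p2 : X.pt y = y.1 • a + y.2 • b := by unfold pt; rw [Xa, Xb]
  have p3 : X.D C x = x.1 • C.De F a + x.2 • C.De F b := by unfold D; rw [Xa, Xb, XF]
  have p4 : X.D C y = y.1 • C.De F a + y.2 • C.De F b := by unfold D; rw [Xa, Xb, XF]
  have hN' : C.N (w' - w) ≤ c' * δ := by
    refine hN.trans (mul_le_mul_of_nonneg_right ?_ hδ.le)
    rw [hc']
    have : 0 ≤ 2 * (|x.1| + |x.2|) + 2 * (|y.1| + |y.2|)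
      + 4 * (|x.1 * y.1| + |x.1 * y.2 + x.2 * y.1| + |x.2 * y.2|) := by positivity
    linarith
  have q1 := h1 δ hδ hδ1 (X.D' x) (hC.memLp _ D'xm) w' hw' (by
    rw [← p3]
    refine (hC.sqrtI_le_N (hC.toIsDir.sub_mem D'xm Dxm)).trans (ex.trans
      (mul_le_mul_of_nonneg_right ?_ hδ.le))
    rw [hc']
    have : 0 ≤ 2 * (|y.1| + |y.2|)
      + 4 * (|x.1 * y.1| + |x.1 * y.2 + x.2 * y.1| + |x.2 * y.2|) := by positivity
    linarith) hN'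
  have q2 := h2 δ hδ hδ1 (X.D' y) (hC.memLp _ D'ym) w' hw' (by
    rw [← p4]
    refine (hC.sqrtI_le_N (hC.toIsDir.sub_mem D'ym Dym)).trans (ey.trans
      (mul_le_mul_of_nonneg_right ?_ hδ.le))
    rw [hc']
    have : 0 ≤ 2 * (|x.1| + |x.2|)
      + 4 * (|x.1 * y.1| + |x.1 * y.2 + x.2 * y.1| + |x.2 * y.2|) := by positivity
    linarith) hN'
  have q3 := h3 δ hδ hδ1 (X.G' x y) Gm w' hw' (by
    rw [← p1, ← p2]
    refine eg.trans (mul_le_mul_of_nonneg_right ?_ hδ.le)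
    rw [hc']
    have : 0 ≤ 2 * (|x.1| + |x.2|) + 2 * (|y.1| + |y.2|) := by positivity
    linarith) hN'
  rw [← p2, ← p3] at q1
  rw [← p1, ← p4] at q2
  rw [← p1, ← p2, ← XF] at q3
  rw [ibp_r hC hB hX x y hw', I_Yx hC hB hX x y hw']
  unfold RR
  have e : -(2⁻¹ * (I (X.D' x * C.Γ (X.pt y) w') + I (X.D' y * C.Γ (X.pt x) w')
      + I (X.F * C.Γ (X.G' x y) w'))) - -(2⁻¹ * (I (X.D C x * C.Γ (X.pt y) w)
        + I (X.D C y * C.Γ (X.pt x) w) + I (X.F * C.Γ (C.Γ (X.pt x) (X.pt y)) w)))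
      = -(2⁻¹ * ((I (X.D' x * C.Γ (X.pt y) w') - I (X.D C x * C.Γ (X.pt y) w))
        + (I (X.D' y * C.Γ (X.pt x) w') - I (X.D C y * C.Γ (X.pt x) w))
        + (I (X.F * C.Γ (X.G' x y) w') - I (X.F * C.Γ (C.Γ (X.pt x) (X.pt y)) w)))) := by ring
  rw [e, abs_le]
  rw [abs_le] at q1 q2 q3
  constructor <;> nlinarith [q1.1, q1.2, q2.1, q2.2, q3.1, q3.2]

omit hF in
theorem TD (hF : F ∈ C.TestI) (x y : ℝ × ℝ) (hw : w ∈ C.W) {c : ℝ} (hc : 0 ≤ c) :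
    ∃ K : ℝ, 0 ≤ K ∧ ∀ δ, 0 < δ → δ ≤ 1 → ∀ X : Dat m, X.Ok C θ η δ → X.a = a → X.b = b →
      X.F = F → ∀ w' ∈ C.W, C.N (w' - w) ≤ c * δ →
      |I (X.D C x * C.Γ (X.pt y) w') - I (X.D C x * C.Γ (X.pt y) w)| ≤ K * δ := by
  have FA := hC.test_A hF.1
  have lt : ∀ v : ℝ × ℝ, v.1 • a + v.2 • b ∈ C.Test := fun v =>
    hC.lin_test hB ha.1 hb.1 v.1 v.2
  have D2 : ∀ v : ℝ × ℝ, MemLp (v.1 • C.De F a + v.2 • C.De F b : M →ₘ[m] ℝ) 2 m := fun v =>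
    mem_add (mem_smul _ (hC.De_mem2 FA ha.1)) (mem_smul _ (hC.De_mem2 FA hb.1))
  obtain ⟨K1, hK1, h1⟩ := hC.pert1 (lt y) (D2 x) hw hc
  refine ⟨K1, hK1, ?_⟩
  intro δ hδ hδ1 X hX Xa Xb XF w' hw' hN
  have p2 : X.pt y = y.1 • a + y.2 • b := by unfold pt; rw [Xa, Xb]
  have p3 : X.D C x = x.1 • C.De F a + x.2 • C.De F b := by unfold D; rw [Xa, Xb, XF]
  rw [p2, p3]
  refine h1 δ hδ hδ1 _ (D2 x) w' hw' ?_ hN
  rw [sub_self]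
  have : I ((0 : M →ₘ[m] ℝ) ^ 2) = 0 := by
    rw [show (0 : M →ₘ[m] ℝ) ^ 2 = (0:ℝ) • (0 : M →ₘ[m] ℝ) by simp, I_smul, zero_mul]
  rw [this, Real.sqrt_zero]
  positivity

end bounds

end Dat

end Vale.Agent.P233
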