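import Vale.Agent.P233.AB.Mas

/-! Estimates for the resolvent and its square: gradient bounds used in the pointwise duality. -/

open MeasureTheory Filter Topology
open scoped ENNReal NNReal

namespace Vale.Agent.P233

variable {M : Type*} [MeasurableSpace M] {m : Measure M} {C : Calc m}

namespace IsDir

variable (hC : IsDir C)
include hC
variable {lam r μ : ℝ} {f g h ψ : M →ₘ[m] ℝ}

/-- monotonicity up to a constant -/
theorem J_le_add (hl : 0 < lam) (hf : MemLp f 2 m) (hg : MemLp g 2 m) {c : ℝ} (hc : 0 ≤ c)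
    (h : ∀ᵐ x ∂m, f x ≤ g x + c) : ∀ᵐ x ∂m, C.J lam f x ≤ C.J lam g x + c := by
  have h1 := hC.J_le hl (mem_sub hf hg) hc (by
    rw [le_iff_ae]
    filter_upwards [h, sub_ae f g, smul_ae (1 : M →ₘ[m] ℝ) c, one_ae (M := M) (m := m)]
      with x a1 a2 a3 a4
    rw [a2, a3, a4, mul_one]; linarith)
  rw [hC.J_sub hl hf hg, le_iff_ae] at h1
  filter_upwards [h1, sub_ae (C.J lam f) (C.J lam g), smul_ae (1 : M →ₘ[m] ℝ) c,
    one_ae (M := M) (m := m)] with x a1 a2 a3 a4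
  rw [a2, a3, a4, mul_one] at a1
  linarith

/-- `J f - f = lam J (Δ f)` -/
theorem J_sub_self (hl : 0 < lam) (hfh : C.IsLap f h) :
    C.J lam f - f = lam • C.J lam h := by
  have hf2 := hC.memLp f hfh.1
  have h1 : C.IsRes lam (f - lam • h) f := by
    refine ⟨hfh.1, fun g hg => ?_⟩
    have hg2 := hC.memLp g hg
    have e1 : I (C.Γ f g) = - I (h * g) := hfh.2.2 g hg
    rw [sub_mul, I_sub (mem_mul_22 hf2 hg2) (mem_mul_22 (mem_smul _ hfh.2.1) hg2),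
      smul_mul_assoc, I_smul, e1]
    ring
  have h2 := hC.J_eq hl h1
  rw [hC.J_sub hl hf2 (mem_smul _ hfh.2.1), hC.J_smul hl _ hfh.2.1] at h2
  rw [eq_comm, ← sub_eq_zero] at h2 ⊢
  have e : C.J lam f - f - lam • C.J lam h = -(f - (C.J lam f - lam • C.J lam h)) := by abel
  rw [← neg_sub, e, h2]
  simp

theorem J_sub_self_bdd (hl : 0 < lam) (hfh : C.IsLap f h) {R : ℝ}
    (hR : ∀ᵐ x ∂m, |h x| ≤ R) : ∀ᵐ x ∂m, |C.J lam f x - f x| ≤ lam * R := by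
  have h1 := hC.J_sub_self hl hfh
  filter_upwards [hC.J_bdd hl hfh.2.1 hR, eq_iff_ae.1 h1, sub_ae (C.J lam f) f,
    smul_ae (C.J lam h) lam] with x a1 a2 a3 a4
  rw [a3, a4] at a2
  rw [a2, abs_mul, abs_of_pos hl]
  exact mul_le_mul_of_nonneg_left a1 hl.le

theorem J2_sub_self_bdd (hl : 0 < lam) (hfh : C.IsLap f h) {R : ℝ}
    (hR : ∀ᵐ x ∂m, |h x| ≤ R) :
    ∀ᵐ x ∂m, |C.J lam (C.J lam f) x - f x| ≤ 2 * lam * R := by
  have h1 := hC.J_sub_self_bdd hl hfh hR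
  have hf2 := hC.memLp f hfh.1
  have hJ2 := hC.J_mem2 hl hf2
  have h2 : ∀ᵐ x ∂m, |(C.J lam f - f : M →ₘ[m] ℝ) x| ≤ lam * R := by
    filter_upwards [h1, sub_ae (C.J lam f) f] with x a1 a2
    rwa [a2]
  have h3 := hC.J_bdd hl (mem_sub hJ2 hf2) h2
  rw [hC.J_sub hl hJ2 hf2] at h3
  filter_upwards [h1, h3, sub_ae (C.J lam (C.J lam f)) (C.J lam f)] with x a1 a2 a3
  rw [a3] at a2
  have e : C.J lam (C.J lam f) x - f x =
      (C.J lam (C.J lam f) x - C.J lam f x) + (C.J lam f x - f x) := by ring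
  rw [e]
  refine (abs_add_le _ _).trans ?_
  linarith

/-- the step inequality is preserved by the resolvent -/
theorem J_step (hl : 0 < lam) (hf : MemLp f 2 m) (hg : MemLp g 2 m) (hh : MemLp h 2 m) {t c : ℝ}
    (hc : 0 ≤ c) (hs : ∀ᵐ x ∂m, f x - g x + t * h x ≤ c) :
    ∀ᵐ x ∂m, C.J lam f x - C.J lam g x + t * C.J lam h x ≤ c := by
  have h1 := hC.J_le_add hl (f := f + t • h) (g := g) (mem_add hf (mem_smul _ hh)) hg hc (by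
    filter_upwards [hs, add_ae f (t • h), smul_ae h t] with x a1 a2 a3
    rw [a2, a3]; linarith)
  rw [hC.J_add hl hf (mem_smul _ hh), hC.J_smul hl t hh] at h1
  filter_upwards [h1, add_ae (C.J lam f) (t • C.J lam h), smul_ae (C.J lam h) t] with x a1 a2 a3
  rw [a2, a3] at a1
  linarith

theorem J2_step (hl : 0 < lam) (hf : MemLp f 2 m) (hg : MemLp g 2 m) (hh : MemLp h 2 m) {t c : ℝ}
    (hc : 0 ≤ c) (hs : ∀ᵐ x ∂m, f x - g x + t * h x ≤ c) :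
    ∀ᵐ x ∂m, C.J lam (C.J lam f) x - C.J lam (C.J lam g) x + t * C.J lam (C.J lam h) x ≤ c :=
  hC.J_step hl (hC.J_mem2 hl hf) (hC.J_mem2 hl hg) (hC.J_mem2 hl hh) hc
    (hC.J_step hl hf hg hh hc hs)

/-- Caccioppoli type inequality for `w = J f`, with `φ = J_{1/μ} ψ` -/
theorem key1 (hr : 0 < r) (hμ : 0 < μ) (hμr : μ ≤ 3 / 2 * r⁻¹) (hf : MemLp f 2 m) {B : ℝ}
    (hB : ∀ᵐ x ∂m, |f x| ≤ B) (h0 : 0 ≤ ψ) (h1 : MemLp ψ 1 m) (h2 : MemLp ψ 2 m)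
    (ht : MemLp ψ ∞ m) :
    I (C.J μ⁻¹ ψ * C.Γ (C.J r f) (C.J r f)) ≤ r⁻¹ * B ^ 2 * I ψ := by
  have hμi : 0 < μ⁻¹ := inv_pos.2 hμ
  have hri : 0 < r⁻¹ := inv_pos.2 hr
  have hwL := hC.J_isLap hr hf
  have hφL := hC.J_isLap hμi h2
  have hφ0 := hC.J_nonneg hμi h2 h0
  have hφ1 := hC.J_L1 hμi h2 h1 h0
  obtain ⟨K, hK⟩ := mem_top_iff.1 ht
  have hφt : MemLp (C.J μ⁻¹ ψ) ∞ m := mem_top_iff.2 ⟨K, hC.J_bdd hμi h2 hK⟩
  have hwb := hC.J_bdd hr hf hB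
  have hwt : MemLp (C.J r f) ∞ m := mem_top_iff.2 ⟨B, hwb⟩
  rw [inv_inv] at hφL
  set w := C.J r f with hw
  set φ := C.J μ⁻¹ ψ with hφ
  have hwA : w ∈ C.A := ⟨hwL.1, hwt⟩
  have hφA : φ ∈ C.A := ⟨hφL.1, hφt⟩
  have hw2 := hC.memLp w hwL.1
  have hφ2 := hC.memLp φ hφL.1
  have hft : MemLp f ∞ m := mem_top_iff.2 ⟨B, hB⟩
  have e1 : I (C.Γ w (w * φ)) = - I (r⁻¹ • (w - f) * (w * φ)) :=
    hwL.2.2 _ (hC.mul_mem_A hwA hφA).1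
  have e2 : I (C.Γ φ (w * w)) = - I (μ • (φ - ψ) * (w * w)) :=
    hφL.2.2 _ (hC.mul_mem_A hwA hwA).1
  rw [hC.Γ_mul_right hwA hφA hwL.1] at e1
  rw [hC.Γ_mul_right hwA hwA hφL.1, hC.symm φ hφL.1 w hwL.1] at e2
  have m1 : MemLp (w * C.Γ w φ : M →ₘ[m] ℝ) 1 m := mem_mul_top hwt (hC.Γ_mem1 hwL.1 hφL.1)
  have m2 : MemLp (φ * C.Γ w w : M →ₘ[m] ℝ) 1 m := mem_mul_top hφt (hC.Γ_mem1 hwL.1 hwL.1)
  rw [I_add m1 m2] at e1
  rw [I_add m1 m1] at e2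
  have m3 : MemLp (r⁻¹ • (w - f) * (w * φ) : M →ₘ[m] ℝ) 1 m := by
    refine mem_mul_top (mem_smul _ (mem_sub hwt hft)) (mem_mul_22 hw2 hφ2)
  have m4 : MemLp (μ • (φ - ψ) * (w * w) : M →ₘ[m] ℝ) 1 m :=
    mem_mul_top (mem_smul _ (mem_sub hφt ht)) (mem_mul_22 hw2 hw2)
  have e3 : I (φ * C.Γ w w) = I (-(r⁻¹ • (w - f) * (w * φ)) +
      (2 : ℝ)⁻¹ • (μ • (φ - ψ) * (w * w))) := by
    rw [I_add (mem_neg m3) (mem_smul _ m4), I_neg, I_smul]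
    linarith
  rw [e3]
  calc I (-(r⁻¹ • (w - f) * (w * φ)) + (2 : ℝ)⁻¹ • (μ • (φ - ψ) * (w * w)))
      ≤ I ((r⁻¹ * B ^ 2) • φ) := by
        refine I_mono (mem_add (mem_neg m3) (mem_smul _ m4)) (mem_smul _ hφ1.1) ?_
        rw [le_iff_ae]
        filter_upwards [add_ae (-(r⁻¹ • (w - f) * (w * φ))) ((2 : ℝ)⁻¹ • (μ • (φ - ψ) * (w * w))),
          neg_ae (r⁻¹ • (w - f) * (w * φ)), mul_ae (r⁻¹ • (w - f)) (w * φ),
          smul_ae (w - f) r⁻¹, sub_ae w f, mul_ae w φ,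
          smul_ae (μ • (φ - ψ) * (w * w)) (2 : ℝ)⁻¹, mul_ae (μ • (φ - ψ)) (w * w),
          smul_ae (φ - ψ) μ, sub_ae φ ψ, mul_ae w w, smul_ae φ (r⁻¹ * B ^ 2), hB,
          nonneg_iff_ae.1 h0, nonneg_iff_ae.1 hφ0]
          with x a1 a2 a3 a4 a5 a6 a7 a8 a9 a10 a11 a12 a13 a14 a15
        rw [a1, a2, a3, a4, a5, a6, a7, a8, a9, a10, a11, a12]
        have b1 : f x ^ 2 ≤ B ^ 2 := sq_le_sq' (by linarith [neg_abs_le (f x)])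
          ((le_abs_self _).trans a13)
        have b2 : 0 ≤ μ * ψ x * (w x * w x) :=
          mul_nonneg (mul_nonneg hμ.le a14) (mul_self_nonneg _)
        have b3 : 0 ≤ φ x * (r⁻¹ * (f x - w x / 2) ^ 2) :=
          mul_nonneg a15 (mul_nonneg hri.le (sq_nonneg _))
        have b4 : 0 ≤ φ x * ((3 / 2 * r⁻¹ - μ) * (w x * w x)) :=
          mul_nonneg a15 (mul_nonneg (by linarith) (mul_self_nonneg _))
        have b5 : 0 ≤ φ x * (r⁻¹ * (B ^ 2 - f x ^ 2)) :=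
          mul_nonneg a15 (mul_nonneg hri.le (by linarith))
        nlinarith
    _ = r⁻¹ * B ^ 2 * I φ := I_smul _
    _ ≤ r⁻¹ * B ^ 2 * I ψ := mul_le_mul_of_nonneg_left hφ1.2 (by positivity)

end IsDir

namespace IsGamma

variable {κ r μ : ℝ} (hC : IsGamma C) (hB : C.BEi κ) {f ψ : M →ₘ[m] ℝ}
include hC hB

/-- the basic inequality -/
theorem key0 (hr : 0 < r) (hμ : 0 < μ) (hf : f ∈ C.W) (h0 : 0 ≤ ψ) (h2 : MemLp ψ 2 m)
    (ht : MemLp ψ ∞ m) :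
    μ * I (C.Γ (C.J r f) (C.J r f) * ψ) ≤ r⁻¹ * I (C.J μ⁻¹ ψ * C.Γ f f) +
      (μ - r⁻¹ - 2 * κ) * I (C.J μ⁻¹ ψ * C.Γ (C.J r f) (C.J r f)) := by
  have hD := hC.toIsDir
  have hf2 := hC.memLp f hf
  have hLap := hD.J_isLap hr hf2
  have hμi : 0 < μ⁻¹ := inv_pos.2 hμ
  have hri : 0 < r⁻¹ := inv_pos.2 hr
  have hwLap := hD.J_isLap hμi h2
  have hw0 := hD.J_nonneg hμi h2 h0
  obtain ⟨B, hB0⟩ := mem_top_iff.1 ht
  have hwb := hD.J_bdd hμi h2 hB0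
  rw [inv_inv] at hwLap
  set u := C.J r f with hu
  set h := r⁻¹ • (u - f) with hh
  have huW : u ∈ C.W := hLap.1
  have hhW : h ∈ C.W := hD.smul_mem _ _ (hD.sub_mem huW hf)
  set w := C.J μ⁻¹ ψ with hw
  have hwt : MemLp w ∞ m := mem_top_iff.2 ⟨B, hwb⟩
  have hbe := be hB hLap hhW hwLap hw0 hwt (mem_smul _ (mem_sub hwt ht))
  have hΓuu := hC.mem1 u huW
  have hΓff := hC.mem1 f hf
  have hlow : I (w * ((r⁻¹ / 2 + κ) • C.Γ u u - (r⁻¹ / 2) • C.Γ f f)) ≤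
      I (w * (C.Γ u h + κ • C.Γ u u)) := by
    refine I_mono (mem_mul_top hwt (mem_sub (mem_smul _ hΓuu) (mem_smul _ hΓff)))
      (mem_mul_top hwt (hC.bracket_mem κ huW hhW)) ?_
    refine mul_le_mul_of_nonneg_left ?_ hw0
    have e2 : C.Γ u h = r⁻¹ • (C.Γ u u - C.Γ u f) := by
      rw [hh, hD.Γ_smul_right _ huW (hD.sub_mem huW hf), hD.Γ_sub_right huW huW hf]
    rw [le_iff_ae, e2]
    have hnn := hC.nonneg _ (hD.sub_mem huW hf)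
    rw [hD.Γ_sub_left huW hf (hD.sub_mem huW hf), hD.Γ_sub_right huW huW hf,
      hD.Γ_sub_right hf huW hf, hD.symm f hf u huW, nonneg_iff_ae] at hnn
    filter_upwards [hnn, sub_ae (C.Γ u u - C.Γ u f) (C.Γ u f - C.Γ f f),
      sub_ae (C.Γ u u) (C.Γ u f), sub_ae (C.Γ u f) (C.Γ f f),
      sub_ae ((r⁻¹ / 2 + κ) • C.Γ u u) ((r⁻¹ / 2) • C.Γ f f), smul_ae (C.Γ u u) (r⁻¹ / 2 + κ),
      smul_ae (C.Γ f f) (r⁻¹ / 2),
      add_ae (r⁻¹ • (C.Γ u u - C.Γ u f)) (κ • C.Γ u u),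
      smul_ae (C.Γ u u - C.Γ u f) r⁻¹, smul_ae (C.Γ u u) κ]
        with x a1 a2 a3 a4 a5 a6 a7 a9 a10 a11
    rw [a2, a3, a4] at a1
    rw [a5, a6, a7, a9, a10, a11, a3]
    nlinarith [mul_nonneg hri.le a1]
  have hlow2 : I (w * ((r⁻¹ / 2 + κ) • C.Γ u u - (r⁻¹ / 2) • C.Γ f f)) =
      (r⁻¹ / 2 + κ) * I (w * C.Γ u u) - (r⁻¹ / 2) * I (w * C.Γ f f) := by
    rw [mul_sub, mul_smul_comm, mul_smul_comm,
      I_sub (mem_smul _ (mem_mul_top hwt hΓuu)) (mem_smul _ (mem_mul_top hwt hΓff)),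
      I_smul, I_smul]
  have hR : I (C.Γ u u * (μ • (w - ψ))) = μ * (I (w * C.Γ u u) - I (C.Γ u u * ψ)) := by
    rw [mul_smul_comm, I_smul, mul_sub, mul_comm (C.Γ u u) w,
      I_sub (mem_mul_top hwt hΓuu) (mem_top_mul hΓuu ht)]
  rw [hlow2] at hlow
  rw [hR] at hbe
  linarith

/-- `Γ(J f) ≤ 2 L` if `Γ f ≤ L` -/
theorem J_Γ_bdd (hr : 0 < r) (hr4 : 4 * |κ| * r ≤ 1) (hf : f ∈ C.W) {L : ℝ} (hL0 : 0 ≤ L)
    (hL : ∀ᵐ x ∂m, C.Γ f f x ≤ L) : ∀ᵐ x ∂m, C.Γ (C.J r f) (C.J r f) x ≤ 2 * L := by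
  have hD := hC.toIsDir
  have hf2 := hC.memLp f hf
  have huW := hD.J_mem hr hf2
  have hri : 0 < r⁻¹ := inv_pos.2 hr
  have hκ1 : -(4 * |κ| * r) ≤ 4 * κ * r := by nlinarith [neg_abs_le κ]
  set μ : ℝ := r⁻¹ + 2 * κ with hμd
  have hμr : r * μ = 1 + 2 * r * κ := by rw [hμd]; field_simp
  have hμ2 : 1 / 2 ≤ r * μ := by rw [hμr]; linarith
  have hμ : 0 < μ := by
    by_contra hcon
    push Not at hcon
    nlinarith
  refine le_const_of_forall (hC.mem1 _ huW) (by positivity) fun ψ h0 h2 h1 ht => ?_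
  have hμi : 0 < μ⁻¹ := inv_pos.2 hμ
  have k0 := hC.key0 hB hr hμ hf h0 h2 ht
  have e0 : μ - r⁻¹ - 2 * κ = 0 := by rw [hμd]; ring
  rw [e0, zero_mul, add_zero] at k0
  obtain ⟨B, hB0⟩ := mem_top_iff.1 ht
  have hwb := hD.J_bdd hμi h2 hB0
  have hw1 := hD.J_L1 hμi h2 h1 h0
  have hw0 := hD.J_nonneg hμi h2 h0
  have hwt : MemLp (C.J μ⁻¹ ψ) ∞ m := mem_top_iff.2 ⟨B, hwb⟩
  have h3 : I (C.J μ⁻¹ ψ * C.Γ f f) ≤ L * I ψ := by
    calc I (C.J μ⁻¹ ψ * C.Γ f f) ≤ I (L • C.J μ⁻¹ ψ) := by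
          refine I_mono (mem_mul_top hwt (hC.mem1 f hf)) (mem_smul _ hw1.1) ?_
          rw [le_iff_ae]
          filter_upwards [mul_ae (C.J μ⁻¹ ψ) (C.Γ f f), smul_ae (C.J μ⁻¹ ψ) L,
            nonneg_iff_ae.1 hw0, hL] with x a1 a2 a3 a4
          rw [a1, a2, mul_comm L]
          exact mul_le_mul_of_nonneg_left a4 a3
      _ = L * I (C.J μ⁻¹ ψ) := I_smul _
      _ ≤ L * I ψ := mul_le_mul_of_nonneg_left hw1.2 hL0
  have hψ0 : 0 ≤ I ψ := I_nonneg h0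
  have h4 : r * μ * I (C.Γ (C.J r f) (C.J r f) * ψ) ≤ L * I ψ := by
    calc r * μ * I (C.Γ (C.J r f) (C.J r f) * ψ) = r * (μ * I (C.Γ (C.J r f) (C.J r f) * ψ)) := by
          ring
      _ ≤ r * (r⁻¹ * I (C.J μ⁻¹ ψ * C.Γ f f)) := mul_le_mul_of_nonneg_left k0 hr.le
      _ = I (C.J μ⁻¹ ψ * C.Γ f f) := by field_simp
      _ ≤ L * I ψ := h3
  have h5 : 0 ≤ I (C.Γ (C.J r f) (C.J r f) * ψ) := I_nonneg (mul_nonneg (hC.nonneg _ huW) h0)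
  nlinarith

/-- `Γ(J f) ≤ J(Γ f) + 4 r |κ| L` if `Γ f ≤ L` -/
theorem J_Γ_le (hr : 0 < r) (hr4 : 4 * |κ| * r ≤ 1) (hf : f ∈ C.W) {L : ℝ} (hL0 : 0 ≤ L)
    (hL : ∀ᵐ x ∂m, C.Γ f f x ≤ L) :
    ∀ᵐ x ∂m, C.Γ (C.J r f) (C.J r f) x ≤ C.J r (C.Γ f f) x + 4 * r * |κ| * L := by
  have hD := hC.toIsDir
  have hf2 := hC.memLp f hf
  have huW := hD.J_mem hr hf2
  have hri : 0 < r⁻¹ := inv_pos.2 hr
  have hΓt : MemLp (C.Γ f f) ∞ m := mem_top_iff.2 ⟨L, by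
    filter_upwards [hL, hD.Γ_nonneg_ae hf] with x a1 a2
    rwa [abs_of_nonneg a2]⟩
  have hΓ2 : MemLp (C.Γ f f) 2 m := hD.Γ_mem2 hf hΓt hf
  have hΓ0 : 0 ≤ C.Γ f f := hC.nonneg f hf
  have hJ1 := hD.J_L1 hr hΓ2 (hC.mem1 f hf) hΓ0
  have hbd := hC.J_Γ_bdd hB hr hr4 hf hL0 hL
  have key := le_const_of_forall (F := C.Γ (C.J r f) (C.J r f) - C.J r (C.Γ f f))
    (K := 4 * r * |κ| * L) (mem_sub (hC.mem1 _ huW) hJ1.1) (by positivity)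
    fun ψ h0 h2 h1 ht => by
      have k0 := hC.key0 hB hr hri hf h0 h2 ht
      rw [inv_inv] at k0
      obtain ⟨B, hB0⟩ := mem_top_iff.1 ht
      have hwb := hD.J_bdd hr h2 hB0
      have hw1 := hD.J_L1 hr h2 h1 h0
      have hw0 := hD.J_nonneg hr h2 h0
      have hwt : MemLp (C.J r ψ) ∞ m := mem_top_iff.2 ⟨B, hwb⟩
      have hs := hD.J_symm hr hΓ2 h2
      have h3 : I (C.J r ψ * C.Γ (C.J r f) (C.J r f)) ≤ 2 * L * I ψ := by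
        calc I (C.J r ψ * C.Γ (C.J r f) (C.J r f)) ≤ I ((2 * L) • C.J r ψ) := by
              refine I_mono (mem_mul_top hwt (hC.mem1 _ huW)) (mem_smul _ hw1.1) ?_
              rw [le_iff_ae]
              filter_upwards [mul_ae (C.J r ψ) (C.Γ (C.J r f) (C.J r f)),
                smul_ae (C.J r ψ) (2 * L), nonneg_iff_ae.1 hw0, hbd] with x a1 a2 a3 a4
              rw [a1, a2, mul_comm (2 * L)]
              exact mul_le_mul_of_nonneg_left a4 a3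
          _ = 2 * L * I (C.J r ψ) := I_smul _
          _ ≤ 2 * L * I ψ := mul_le_mul_of_nonneg_left hw1.2 (by positivity)
      have h4 : 0 ≤ I (C.J r ψ * C.Γ (C.J r f) (C.J r f)) :=
        I_nonneg (mul_nonneg hw0 (hC.nonneg _ huW))
      rw [sub_mul, I_sub (mem_top_mul (hC.mem1 _ huW) ht) (mem_top_mul hJ1.1 ht), hs,
        mul_comm (C.Γ f f) (C.J r ψ)]
      set a := I (C.Γ (C.J r f) (C.J r f) * ψ)
      set b := I (C.J r ψ * C.Γ f f)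
      set d := I (C.J r ψ * C.Γ (C.J r f) (C.J r f))
      have k1 : a ≤ b + (-2 * κ * r) * d := by
        have := mul_le_mul_of_nonneg_left k0 hr.le
        have e1 : r * (r⁻¹ * a) = a := by field_simp
        have e2 : r * (r⁻¹ * b + (r⁻¹ - r⁻¹ - 2 * κ) * d) = b + (-2 * κ * r) * d := by
          field_simp
          ring
        rwa [e1, e2] at this
      have k2 : (-2 * κ * r) * d ≤ (2 * |κ| * r) * d := by
        refine mul_le_mul_of_nonneg_right ?_ h4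
        nlinarith [neg_abs_le κ]
      have k3 : (2 * |κ| * r) * d ≤ (2 * |κ| * r) * (2 * L * I ψ) :=
        mul_le_mul_of_nonneg_left h3 (by positivity)
      nlinarith
  filter_upwards [key, sub_ae (C.Γ (C.J r f) (C.J r f)) (C.J r (C.Γ f f))] with x a1 a2
  rw [a2] at a1
  linarith

/-- `Γ(J J f) ≤ J J (Γ f) + 12 r |κ| L` if `Γ f ≤ L` -/
theorem J2_Γ_le (hr : 0 < r) (hr4 : 4 * |κ| * r ≤ 1) (hf : f ∈ C.W) {L : ℝ} (hL0 : 0 ≤ L)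
    (hL : ∀ᵐ x ∂m, C.Γ f f x ≤ L) :
    ∀ᵐ x ∂m, C.Γ (C.J r (C.J r f)) (C.J r (C.J r f)) x ≤
      C.J r (C.J r (C.Γ f f)) x + 12 * r * |κ| * L := by
  have hD := hC.toIsDir
  have hf2 := hC.memLp f hf
  have huW := hD.J_mem hr hf2
  have h1 := hC.J_Γ_bdd hB hr hr4 hf hL0 hL
  have h2 := hC.J_Γ_le hB hr hr4 hf hL0 hL
  have h3 := hC.J_Γ_le hB hr hr4 huW (by positivity) h1
  have ht : ∀ {g : M →ₘ[m] ℝ} {K : ℝ}, g ∈ C.W → (∀ᵐ x ∂m, C.Γ g g x ≤ K) →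
      MemLp (C.Γ g g) 2 m := by
    intro g K hg hK
    refine hD.Γ_mem2 hg (mem_top_iff.2 ⟨K, ?_⟩) hg
    filter_upwards [hK, hD.Γ_nonneg_ae hg] with x a1 a2
    rwa [abs_of_nonneg a2]
  have h4 := hD.J_le_add hr (ht huW h1) (hD.J_mem2 hr (ht hf hL)) (c := 4 * r * |κ| * L)
    (by positivity) h2
  filter_upwards [h3, h4] with x a1 a2
  nlinarith

/-- `J J` maps bounded functions to Lipschitz functions -/
theorem J2_Γ_bdd (hr : 0 < r) (hr4 : 4 * |κ| * r ≤ 1) (hf : MemLp f 2 m) {B : ℝ}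
    (hfB : ∀ᵐ x ∂m, |f x| ≤ B) :
    ∀ᵐ x ∂m, C.Γ (C.J r (C.J r f)) (C.J r (C.J r f)) x ≤ 2 * r⁻¹ * B ^ 2 := by
  have hD := hC.toIsDir
  have hwW := hD.J_mem hr hf
  have hw2 := hC.memLp _ hwW
  have huW := hD.J_mem hr hw2
  have hri : 0 < r⁻¹ := inv_pos.2 hr
  have hκ1 : -(4 * |κ| * r) ≤ 4 * κ * r := by nlinarith [neg_abs_le κ]
  have hκ2 : 4 * κ * r ≤ 4 * |κ| * r := by nlinarith [le_abs_self κ]
  set μ : ℝ := r⁻¹ + 2 * κ with hμd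
  have hμr : r * μ = 1 + 2 * r * κ := by rw [hμd]; field_simp
  have hμ2 : 1 / 2 ≤ r * μ := by rw [hμr]; linarith
  have hμ3 : r * μ ≤ 3 / 2 := by rw [hμr]; linarith
  have hμ : 0 < μ := by
    by_contra hcon
    push Not at hcon
    nlinarith
  have hμ4 : μ ≤ 3 / 2 * r⁻¹ := by
    have : μ = (r * μ) * r⁻¹ := by field_simp
    rw [this]
    exact mul_le_mul_of_nonneg_right hμ3 hri.le
  refine le_const_of_forall (hC.mem1 _ huW) (by positivity) fun ψ h0 h2 h1 ht => ?_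
  have k0 := hC.key0 hB hr hμ hwW h0 h2 ht
  have e0 : μ - r⁻¹ - 2 * κ = 0 := by rw [hμd]; ring
  rw [e0, zero_mul, add_zero] at k0
  have k1 := hD.key1 hr hμ hμ4 hf hfB h0 h1 h2 ht
  have hψ0 : 0 ≤ I ψ := I_nonneg h0
  have h5 : 0 ≤ I (C.Γ (C.J r (C.J r f)) (C.J r (C.J r f)) * ψ) :=
    I_nonneg (mul_nonneg (hC.nonneg _ huW) h0)
  set a := I (C.Γ (C.J r (C.J r f)) (C.J r (C.J r f)) * ψ)
  have h4 : r * μ * a ≤ r⁻¹ * B ^ 2 * I ψ := by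
    calc r * μ * a = r * (μ * a) := by ring
      _ ≤ r * (r⁻¹ * I (C.J μ⁻¹ ψ * C.Γ (C.J r f) (C.J r f))) := mul_le_mul_of_nonneg_left k0 hr.le
      _ = I (C.J μ⁻¹ ψ * C.Γ (C.J r f) (C.J r f)) := by field_simp
      _ ≤ r⁻¹ * B ^ 2 * I ψ := k1
  nlinarith

end IsGamma

end Vale.Agent.P233
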