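import Vale.Agent.P233.AB.PtJ
import Vale.Agent.P233.Metric2

/-! Local Sobolev-to-Lipschitz property and chains of points. -/

open MeasureTheory Filter Topology
open scoped ENNReal NNReal

namespace Vale.Agent.P233

variable {M : Type*} [MetricSpace M] [MeasurableSpace M] [BorelSpace M] {m : Measure M}

omit [MeasurableSpace M] [BorelSpace M] in
theorem lipschitz_of_abs_sub_le {u : M → ℝ} {G : ℝ} (hG : 0 ≤ G)
    (h : ∀ x y, |u x - u y| ≤ G * dist x y) : LipschitzWith (Real.toNNReal G) u := by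
  refine LipschitzWith.of_dist_le_mul fun x y => ?_
  rw [Real.dist_eq, Real.coe_toNNReal _ hG]
  exact h x y

omit [BorelSpace M] in
theorem le_of_ae_cont [m.IsOpenPosMeasure] {u v : M → ℝ} (hu : Continuous u) (hv : Continuous v)
    (h : ∀ᵐ x ∂m, u x ≤ v x) (x : M) : u x ≤ v x := by
  have h1 : Dense {x | u x ≤ v x} := Measure.dense_of_ae h
  have h2 : IsClosed {x | u x ≤ v x} := isClosed_le hu hv
  have h3 : x ∈ closure {x | u x ≤ v x} := h1 x
  rwa [h2.closure_eq] at h3

/-- the global Sobolev-to-Lipschitz property, scaled -/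
theorem exists_lip_rep
    (hs : ∀ f ∈ (sob m).W, slope f ≤ 1 → ∃ u : M → ℝ, LipschitzWith 1 u ∧ f =ᵐ[m] u)
    {f : M →ₘ[m] ℝ} (hf : f ∈ (sob m).W) {G : ℝ} (hG : 0 < G)
    (h : ∀ᵐ x ∂m, (sob m).Γ f f x ≤ G ^ 2) :
    ∃ u : M → ℝ, (∀ x y, |u x - u y| ≤ G * dist x y) ∧ f =ᵐ[m] u := by
  have hcf : G⁻¹ • f ∈ (sob m).W := sob_smul_mem _ hf
  have hsl : slope (G⁻¹ • f) ≤ 1 := by
    rw [le_iff_ae]
    filter_upwards [slope_ae hcf, one_ae (M := M) (m := m), h, sob_Γ_self_ae hf,
      Met.mslope_const_mul G⁻¹ (mem_sob_iff.1 hf),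
      Met.mslope_congr (AEEqFun.coeFn_smul G⁻¹ f) (mem_sob_iff.1 hcf),
      (mem_sob_iff.1 hf).mslope_nonneg] with x a1 a2 a3 a4 a5 a6 a7
    rw [a1, a2, a6]
    have a5' : Met.mslope m (G⁻¹ • ⇑f) x = |G⁻¹| * Met.mslope m f x := a5
    rw [a5', abs_of_pos (inv_pos.2 hG)]
    rw [a4] at a3
    rw [inv_mul_le_iff₀ hG, mul_one]
    exact (sq_le_sq₀ a7 hG.le).1 a3
  obtain ⟨u, hu1, hu2⟩ := hs _ hcf hsl
  refine ⟨fun x => G * u x, fun x y => ?_, ?_⟩
  · have h1 := hu1.dist_le_mul x y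
    rw [Real.dist_eq, NNReal.coe_one, one_mul] at h1
    have e : G * u x - G * u y = G * (u x - u y) := by ring
    rw [e, abs_mul, abs_of_pos hG]
    exact mul_le_mul_of_nonneg_left h1 hG.le
  · filter_upwards [hu2, smul_ae f G⁻¹] with x a1 a2
    rw [← a1, a2, mul_inv_cancel_left₀ hG.ne']

/-- local Sobolev-to-Lipschitz property -/
theorem local_stl_pos [m.IsOpenPosMeasure] (hfin : ∀ (x : M) (r : ℝ), m (Metric.ball x r) < ∞)
    (hs : ∀ f ∈ (sob m).W, slope f ≤ 1 → ∃ u : M → ℝ, LipschitzWith 1 u ∧ f =ᵐ[m] u)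
    {f : M →ₘ[m] ℝ} (hf : f ∈ (sob m).W) {v : M → ℝ} (hv : Met.IsLip v) (hfv : f =ᵐ[m] v)
    {G R : ℝ} (hG : 0 < G) {x y : M} (hR : 2 * dist x y < R)
    (h : ∀ᵐ z ∂m, dist z x < R → (sob m).Γ f f z ≤ G ^ 2) :
    v y - v x ≤ G * dist x y := by
  have hR0 : 0 < R := lt_of_le_of_lt (by positivity) hR
  set b : M → ℝ := fun z => G * max (R - dist z x) 0 with hb
  set F : M → ℝ := fun z => min (max (v z - v x) 0) (b z) with hF
  have hb0 : ∀ z, 0 ≤ b z := fun z => mul_nonneg hG.le (le_max_right _ _)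
  have hbl : LipschitzWith (Real.toNNReal G) b := by
    refine lipschitz_of_abs_sub_le hG.le fun z w => ?_
    have e : b z - b w = G * (max (R - dist z x) 0 - max (R - dist w x) 0) := by
      simp only [hb]; ring
    rw [e, abs_mul, abs_of_pos hG]
    refine mul_le_mul_of_nonneg_left ?_ hG.le
    refine (abs_max_sub_max_le_abs _ _ _).trans ?_
    have e2 : R - dist z x - (R - dist w x) = dist w x - dist z x := by ring
    rw [e2, dist_comm z w]
    exact abs_dist_sub_le w z x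
  obtain ⟨K, hK⟩ := hv
  have hvl : LipschitzWith K (fun z => v z - v x) := by
    refine LipschitzWith.of_dist_le_mul fun z w => ?_
    rw [Real.dist_eq]
    have e : v z - v x - (v w - v x) = v z - v w := by ring
    rw [e, ← Real.dist_eq]
    exact hK.dist_le_mul z w
  have hFl : LipschitzWith (max K (Real.toNNReal G)) F := by
    have h1 : LipschitzWith K (fun z => max (v z - v x) 0) := by
      have := hvl.max_const 0
      exact this
    exact h1.min hbl
  have hsuppb : ∀ z, z ∉ Metric.ball x R → b z = 0 := by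
    intro z hz
    rw [Metric.mem_ball, not_lt] at hz
    simp only [hb]
    rw [max_eq_right (by linarith), mul_zero]
  have hsuppF : ∀ z, z ∉ Metric.ball x R → F z = 0 := by
    intro z hz
    simp only [hF]
    rw [hsuppb z hz]
    exact min_eq_right (le_max_right _ _)
  have hgF := Met.good_of_bounded_support hfin hFl hsuppF
  have hgb := Met.good_of_bounded_support hfin hbl hsuppb
  have hFW : Met.W12 m F := ⟨_, hgF.rSlope⟩
  have hbW : Met.W12 m b := ⟨_, hgb.rSlope⟩
  have hbs : ∀ᵐ z ∂m, Met.mslope m b z ≤ G := by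
    filter_upwards [hgb.rSlope.mslope_le] with z hz
    refine hz.trans ?_
    rw [Real.coe_toNNReal _ hG.le]
    exact Set.indicator_apply_le' (fun _ => le_rfl) (fun _ => hG.le)
  have hfW := mem_sob_iff.1 hf
  have hFs : ∀ᵐ z ∂m, Met.mslope m F z ≤ G := by
    filter_upwards [Met.mslope_eq_zero_of_eq_const hFW 0,
      Met.mslope_eq_of_sub_eq_const hFW hbW 0, Met.mslope_eq_of_sub_eq_const hFW hfW (-v x),
      hbs, hfv, h, sob_Γ_self_ae hf, hfW.mslope_nonneg] with z a1 a2 a3 a4 a5 a6 a7 a8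
    by_cases h0 : F z = 0
    · rw [a1 h0]; exact hG.le
    by_cases h1 : F z = b z
    · rw [a2 (by rw [h1, sub_self])]; exact a4
    have h2 : F z = max (v z - v x) 0 := by
      rcases min_choice (max (v z - v x) 0) (b z) with h3 | h3
      · exact h3
      · exact absurd h3 h1
    have h3 : F z = v z - v x := by
      rcases max_choice (v z - v x) 0 with h4 | h4
      · rw [h2, h4]
      · exact absurd (h2.trans h4) h0
    have h5 : dist z x < R := by
      by_contra hcon
      exact h0 (hsuppF z (by rwa [Metric.mem_ball]))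
    rw [a3 (by rw [h3, a5]; ring)]
    have h6 := a6 h5
    rw [a7] at h6
    exact (sq_le_sq₀ a8 hG.le).1 h6
  obtain ⟨Fc, hFc, hFcF⟩ := exists_class hFW
  obtain ⟨u, hu1, hu2⟩ := exists_lip_rep hs hFc hG (by
    filter_upwards [sob_Γ_self_ae hFc, Met.mslope_congr hFcF (mem_sob_iff.1 hFc), hFs,
      hFW.mslope_nonneg] with z a1 a2 a3 a4
    rw [a1, a2]
    gcongr)
  have huF : u = F := by
    refine (Continuous.ae_eq_iff_eq m (lipschitz_of_abs_sub_le hG.le hu1).continuous
      hFl.continuous).1 ?_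
    exact hu2.symm.trans hFcF
  have h7 := hu1 y x
  rw [huF] at h7
  have h8 : F x = 0 := by
    simp only [hF]
    rw [sub_self, max_self, min_eq_left (hb0 x)]
  rw [h8, sub_zero, dist_comm y x] at h7
  by_contra hcon
  push Not at hcon
  have hd : 0 ≤ dist x y := dist_nonneg
  have h9 : G * dist x y < F y := by
    simp only [hF, hb]
    refine lt_min (lt_of_lt_of_le hcon (le_max_left _ _)) ?_
    refine mul_lt_mul_of_pos_left ?_ hG
    refine lt_of_lt_of_le ?_ (le_max_left _ _)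
    rw [dist_comm y x]
    linarith
  linarith [le_abs_self (F y)]

theorem local_stl [m.IsOpenPosMeasure] (hfin : ∀ (x : M) (r : ℝ), m (Metric.ball x r) < ∞)
    (hs : ∀ f ∈ (sob m).W, slope f ≤ 1 → ∃ u : M → ℝ, LipschitzWith 1 u ∧ f =ᵐ[m] u)
    {f : M →ₘ[m] ℝ} (hf : f ∈ (sob m).W) {v : M → ℝ} (hv : Met.IsLip v) (hfv : f =ᵐ[m] v)
    {G R : ℝ} (hG : 0 ≤ G) {x y : M} (hR : 2 * dist x y < R)
    (h : ∀ᵐ z ∂m, dist z x < R → (sob m).Γ f f z ≤ G ^ 2) :
    v y - v x ≤ G * dist x y := by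
  have h1 : ∀ δ : ℝ, 0 < δ → v y - v x ≤ (G + δ) * dist x y := by
    intro δ hδ
    refine local_stl_pos hfin hs hf hv hfv (by linarith) hR ?_
    filter_upwards [h] with z hz hzR
    refine (hz hzR).trans ?_
    gcongr
    linarith
  have h2 : Tendsto (fun δ : ℝ => (G + δ) * dist x y) (𝓝[>] 0) (𝓝 (G * dist x y)) := by
    have : Continuous fun δ : ℝ => (G + δ) * dist x y := by fun_prop
    have h3 := this.tendsto 0
    simp only [add_zero] at h3
    exact h3.mono_left nhdsWithin_le_nhds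
  refine ge_of_tendsto h2 ?_
  filter_upwards [self_mem_nhdsWithin] with δ hδ
  exact h1 δ hδ

/-- the bound of an increment by a Lipschitz bound of the squared gradient -/
theorem increment_le [m.IsOpenPosMeasure] (hfin : ∀ (x : M) (r : ℝ), m (Metric.ball x r) < ∞)
    (hs : ∀ f ∈ (sob m).W, slope f ≤ 1 → ∃ u : M → ℝ, LipschitzWith 1 u ∧ f =ᵐ[m] u)
    {f : M →ₘ[m] ℝ} (hf : f ∈ (sob m).W) {v : M → ℝ} (hv : Met.IsLip v) (hfv : f =ᵐ[m] v)
    {g : M → ℝ} {l c : ℝ} (hl : 0 ≤ l) (hgl : ∀ x y, |g x - g y| ≤ l * dist x y)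
    (hg0 : ∀ x, 0 ≤ g x + c) (h : ∀ᵐ z ∂m, (sob m).Γ f f z ≤ g z + c) {τ : ℝ} (hτ : 0 < τ)
    (x y : M) :
    v y - v x ≤ dist x y ^ 2 / (2 * τ) + τ / 2 * (g x + 3 * dist x y * l + c) := by
  have hd : 0 ≤ dist x y := dist_nonneg
  set A : ℝ := g x + 3 * dist x y * l + c with hA
  have hA0 : 0 ≤ A := by
    have := hg0 x
    have h2 : 0 ≤ 3 * dist x y * l := by positivity
    rw [hA]; linarith
  rcases hd.eq_or_lt with h0 | h0
  · have hxy : x = y := dist_eq_zero.1 h0.symm
    rw [← hxy, sub_self, dist_self]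
    have : 0 ≤ τ / 2 * A := by positivity
    simpa using this
  have h1 : v y - v x ≤ Real.sqrt A * dist x y := by
    refine local_stl hfin hs hf hv hfv (Real.sqrt_nonneg A) (R := 3 * dist x y) (by linarith) ?_
    filter_upwards [h] with z hz hzR
    rw [Real.sq_sqrt hA0]
    refine hz.trans ?_
    have h2 := (le_abs_self _).trans (hgl z x)
    have h3 : l * dist z x ≤ l * (3 * dist x y) := mul_le_mul_of_nonneg_left hzR.le hl
    rw [hA]
    nlinarith
  refine h1.trans ?_
  have h4 := Real.sq_sqrt hA0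
  have h5 : dist x y ^ 2 / (2 * τ) + τ / 2 * A - Real.sqrt A * dist x y =
      (dist x y - τ * Real.sqrt A) ^ 2 / (2 * τ) := by
    generalize Real.sqrt A = q at h4 ⊢
    rw [← h4]
    field_simp
    ring
  have h6 : 0 ≤ (dist x y - τ * Real.sqrt A) ^ 2 / (2 * τ) := by positivity
  linarith

/-- chains of points -/
theorem chain_bound
    {X : Type*} [MetricSpace X]
    (hgeo : ∀ x y : X, ∀ s t : ℝ, 0 ≤ s → 0 ≤ t → s + t = dist x y →
      ∃ w, dist x w = s ∧ dist w y = t)
    {n : ℕ} (hn : 0 < n) {V : ℕ → X → ℝ} {E : ℝ} (x y : X)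
    (hstep : ∀ k < n, ∀ z w, dist z w = dist x y / n → V (k + 1) w - V k z ≤ E) :
    V n y - V 0 x ≤ n * E := by
  have hn' : (0 : ℝ) < n := by exact_mod_cast hn
  have key : ∀ k ≤ n, ∃ z, dist z y = ((n : ℝ) - k) * (dist x y / n) ∧
      V k z - V 0 x ≤ k * E := by
    intro k
    induction k with
    | zero =>
      intro _
      refine ⟨x, ?_, by simp⟩
      rw [Nat.cast_zero, sub_zero]
      field_simp
    | succ k ih =>
      intro hk
      obtain ⟨z, h1, h2⟩ := ih (by omega)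
      have hk' : ((k : ℝ) + 1) ≤ n := by exact_mod_cast hk
      have hs : 0 ≤ dist x y / n := by positivity
      obtain ⟨w, h3, h4⟩ := hgeo z y (dist x y / n) (((n : ℝ) - (k + 1)) * (dist x y / n)) hs
        (mul_nonneg (by linarith) hs) (by rw [h1]; ring)
      refine ⟨w, by rw [h4]; push_cast; ring, ?_⟩
      have h5 := hstep k (by omega) z w h3
      push_cast
      linarith
  obtain ⟨z, h1, h2⟩ := key n le_rfl
  rw [sub_self, zero_mul] at h1
  rw [dist_eq_zero.1 h1] at h2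
  exact h2

end Vale.Agent.P233
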