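import Vale.Agent.P233.AB.Base

open MeasureTheory Filter Topology
open scoped ENNReal NNReal

namespace Vale.Agent.P233

variable {M : Type*} [MeasurableSpace M] {m : Measure M} {C : Calc m}

/-- a pointwise bound from integrated bounds -/
theorem le_const_of_forall {F : M →ₘ[m] ℝ} (hF : MemLp F 1 m) {K : ℝ} (hK : 0 ≤ K)
    (h : ∀ ψ : M →ₘ[m] ℝ, 0 ≤ ψ → MemLp ψ 2 m → MemLp ψ 1 m → MemLp ψ ∞ m →
      I (F * ψ) ≤ K * I ψ) : ∀ᵐ x ∂m, F x ≤ K := by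
  have hFint := int_of_mem hF
  have hFm : StronglyMeasurable (F : M → ℝ) := AEEqFun.stronglyMeasurable F
  have key : ∀ n : ℕ, m {x | K + ((n : ℝ) + 1)⁻¹ < F x} = 0 := by
    intro n
    set ε : ℝ := ((n : ℝ) + 1)⁻¹ with hε
    have hε0 : 0 < ε := by positivity
    set S : Set M := {x | K + ε < F x} with hS
    have hSm : MeasurableSet S := measurableSet_lt measurable_const hFm.measurable
    have hSfin : m S < ∞ := by
      have h1 : S ⊆ {x | ε ≤ ‖F x‖} := by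
        intro x hx
        have hx' : K + ε < F x := hx
        show ε ≤ ‖F x‖
        rw [Real.norm_eq_abs]
        exact le_trans (by linarith) (le_abs_self _)
      exact (measure_mono h1).trans_lt (hFint.measure_norm_ge_lt_top hε0)
    have hind : ∀ p : ℝ≥0∞, MemLp (S.indicator (fun _ => (1 : ℝ))) p m := fun p =>
      memLp_indicator_const p hSm 1 (Or.inr hSfin.ne)
    set χ : M →ₘ[m] ℝ := AEEqFun.mk _ (hind 2).1 with hχ
    have hχae := AEEqFun.coeFn_mk _ (hind 2).1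
    have hχp : ∀ p : ℝ≥0∞, MemLp χ p m := fun p => (memLp_congr_ae hχae).2 (hind p)
    have h1 := h χ (by
      rw [nonneg_iff_ae]
      filter_upwards [hχae] with x hx
      rw [hχ, hx]
      exact Set.indicator_nonneg (fun _ _ => zero_le_one) x) (hχp 2) (hχp 1) (hχp ∞)
    have h5 : I (F * χ) = ∫ x in S, F x ∂m := by
      rw [← integral_indicator hSm]
      unfold I
      refine integral_congr_ae ?_
      filter_upwards [mul_ae F χ, hχae] with x a1 a2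
      rw [a1, hχ, a2]
      by_cases hx : x ∈ S
      · rw [Set.indicator_of_mem hx, Set.indicator_of_mem hx, mul_one]
      · rw [Set.indicator_of_notMem hx, Set.indicator_of_notMem hx, mul_zero]
    have h6 : I χ = m.real S := by
      unfold I
      rw [integral_congr_ae hχae, integral_indicator hSm, setIntegral_const, smul_eq_mul, mul_one]
    have h7 : ∫ x in S, (K + ε) ∂m ≤ ∫ x in S, F x ∂m := by
      refine setIntegral_mono_on ?_ hFint.integrableOn hSm fun x hx => le_of_lt hx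
      exact integrableOn_const (hs := hSfin.ne)
    rw [setIntegral_const, smul_eq_mul] at h7
    rw [h5, h6] at h1
    have h8 : m.real S ≤ 0 := by
      have h9 : 0 ≤ m.real S := measureReal_nonneg
      by_contra hcon
      push Not at hcon
      nlinarith
    exact (measureReal_eq_zero_iff hSfin.ne).1 (le_antisymm h8 measureReal_nonneg)
  have h9 : ∀ᵐ x ∂m, ∀ n : ℕ, ¬ (K + ((n : ℝ) + 1)⁻¹ < F x) := by
    rw [ae_all_iff]
    intro n
    exact measure_eq_zero_iff_ae_notMem.1 (key n)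
  filter_upwards [h9] with x hx
  by_contra hcon
  push Not at hcon
  obtain ⟨n, hn⟩ := exists_nat_one_div_lt (show (0 : ℝ) < F x - K by linarith)
  rw [one_div] at hn
  exact hx n (by linarith)

/-- positivity in `L²` -/
theorem nonneg_of_forall_L2 {F : M →ₘ[m] ℝ} (hF : MemLp F 2 m)
    (h : ∀ ψ : M →ₘ[m] ℝ, 0 ≤ ψ → MemLp ψ 2 m → MemLp ψ ∞ m → 0 ≤ I (F * ψ)) : 0 ≤ F := by
  set θ : ℝ → ℝ := fun t => min (max (-t) 0) 1 with hθ
  have hθc : Continuous θ := by fun_prop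
  have hθ0 : ∀ t, 0 ≤ θ t := fun t => le_min (le_max_right _ _) zero_le_one
  have hθ1 : ∀ t, θ t ≤ 1 := fun t => min_le_right _ _
  have hθle : ∀ t, |θ t| ≤ |t| := by
    intro t
    rw [abs_of_nonneg (hθ0 t)]
    exact (min_le_left _ _).trans (max_le (neg_le_abs t) (abs_nonneg t))
  set ψ := AEEqFun.comp θ hθc F with hψ
  have hψae := AEEqFun.coeFn_comp θ hθc F
  have hψ0 : 0 ≤ ψ := by
    rw [nonneg_iff_ae]
    filter_upwards [hψae] with x hx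
    rw [hx]; exact hθ0 _
  have hψ2 : MemLp ψ 2 m := mem_of_le hF (by
    filter_upwards [hψae] with x hx
    rw [hx]; exact hθle _)
  have hψt : MemLp ψ ∞ m := mem_top_iff.2 ⟨1, by
    filter_upwards [hψae] with x hx
    rw [hx, Function.comp_apply, abs_of_nonneg (hθ0 _)]; exact hθ1 _⟩
  have h1 := h ψ hψ0 hψ2 hψt
  have hprod : ∀ t : ℝ, 0 ≤ -(t * θ t) := by
    intro t
    rcases le_total 0 t with ht | ht
    · have : θ t = 0 := by
        simp only [hθ]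
        rw [max_eq_right (by linarith)]
        norm_num
      rw [this]; simp
    · nlinarith [hθ0 t]
  have h2 : 0 ≤ -(F * ψ) := by
    rw [nonneg_iff_ae]
    filter_upwards [neg_ae (F * ψ), mul_ae F ψ, hψae] with x a1 a2 a3
    rw [a1, a2, a3]
    exact hprod _
  have h3 : -(F * ψ) = 0 := I_eq_zero_of_nonneg (mem_neg (mem_mul_22 hF hψ2)) h2 (by
    refine le_antisymm ?_ (I_nonneg h2)
    rw [I_neg]; linarith)
  rw [nonneg_iff_ae]
  filter_upwards [eq_iff_ae.1 h3, neg_ae (F * ψ), mul_ae F ψ, hψae, zero_ae (M := M) (m := m)]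
    with x a0 a1 a2 a3 a4
  by_contra hcon
  push Not at hcon
  rw [a1, a2, a3, a4] at a0
  have h4 : 0 < θ (F x) := by
    simp only [hθ]
    exact lt_min (lt_max_of_lt_left (by linarith)) one_pos
  have h5 : 0 < -(F x * θ (F x)) := by nlinarith
  simp only [Function.comp_apply] at a0
  linarith

namespace IsGamma

variable (hC : IsGamma C) {κ : ℝ} (hB : C.BEi κ)
variable {f g h φ ψ : M →ₘ[m] ℝ}

section basic
include hC

theorem mem_test_iff : f ∈ C.Test ↔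
    f ∈ C.W ∧ MemLp f ∞ m ∧ MemLp (C.Γ f f) ∞ m ∧ ∃ h, C.IsLap f h ∧ h ∈ C.W := by
  constructor
  · rintro ⟨h1, h, h2, h3⟩
    have h4 := (hC.lip_iff f h2.1).1 h1
    exact ⟨h2.1, h4.1, h4.2, h, h2, h3⟩
  · rintro ⟨h1, h2, h3, h4⟩
    exact ⟨(hC.lip_iff f h1).2 ⟨h2, h3⟩, h4⟩

theorem test_A (hf : f ∈ C.Test) : f ∈ C.A := by
  have h := hC.mem_test_iff.1 hf
  exact ⟨h.1, h.2.1⟩

theorem test_Γ_top (hf : f ∈ C.Test) : MemLp (C.Γ f f) ∞ m :=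
  (hC.mem_test_iff.1 hf).2.2.1

theorem test_isLap (hf : f ∈ C.Test) : C.IsLap f (C.lap f) := by
  obtain ⟨h, h1, h2⟩ := (hC.mem_test_iff.1 hf).2.2.2
  rw [hC.toIsDir.lap_eq h1]
  exact h1

theorem test_lap_mem (hf : f ∈ C.Test) : C.lap f ∈ C.W := by
  obtain ⟨h, h1, h2⟩ := (hC.mem_test_iff.1 hf).2.2.2
  rw [hC.toIsDir.lap_eq h1]
  exact h2

theorem test_add' (hf : f ∈ C.Test) (hg : g ∈ C.Test) : f + g ∈ C.Test := by
  rw [hC.mem_test_iff]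
  have hD := hC.toIsDir
  obtain ⟨f1, f2, f3, hf', f4, f5⟩ := hC.mem_test_iff.1 hf
  obtain ⟨g1, g2, g3, hg', g4, g5⟩ := hC.mem_test_iff.1 hg
  refine ⟨hD.add_mem f f1 g g1, mem_add f2 g2, ?_, hf' + hg', hD.isLap_add f4 g4,
    hD.add_mem _ f5 _ g5⟩
  have h1 := hD.Γ_expand 1 f1 g1
  rw [one_smul, mul_one, one_pow, one_smul] at h1
  rw [h1]
  exact mem_add (mem_add f3 (mem_smul _ (hD.Γ_memTop f1 f3 g1 g3))) g3

theorem test_smul' (c : ℝ) (hf : f ∈ C.Test) : c • f ∈ C.Test := by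
  rw [hC.mem_test_iff]
  have hD := hC.toIsDir
  obtain ⟨f1, f2, f3, hf', f4, f5⟩ := hC.mem_test_iff.1 hf
  refine ⟨hD.smul_mem c f f1, mem_smul c f2, ?_, c • hf', hD.isLap_smul c f4,
    hD.smul_mem c _ f5⟩
  rw [hD.smul_left c f f1 _ (hD.smul_mem c f f1), hD.Γ_smul_right c f1 f1]
  exact mem_smul _ (mem_smul _ f3)

theorem test_zero' : (0 : M →ₘ[m] ℝ) ∈ C.Test := by
  rw [hC.mem_test_iff]
  have hD := hC.toIsDir
  refine ⟨hD.zero_mem, mem_zero, ?_, 0, ⟨hD.zero_mem, mem_zero, fun g hg => ?_⟩, hD.zero_mem⟩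
  · rw [hD.Γ_zero_left hD.zero_mem]; exact mem_zero
  · show I (C.Γ 0 g) = -I (0 * g)
    rw [hD.Γ_zero_left hg, zero_mul, I_zero, neg_zero]

end basic

/-- the bracket in the Bochner inequality is integrable -/
theorem bracket_mem (hC : IsGamma C) (κ : ℝ) (hf : f ∈ C.W) (hh : h ∈ C.W) :
    MemLp (C.Γ f h + κ • C.Γ f f : M →ₘ[m] ℝ) 1 m :=
  mem_add (hC.toIsDir.Γ_mem1 hf hh) (mem_smul _ (hC.mem1 f hf))

include hB in
theorem be (hfh : C.IsLap f h) (hh : h ∈ C.W) (hφψ : C.IsLap φ ψ) (h0 : 0 ≤ φ)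
    (hφ : MemLp φ ∞ m) (hψ : MemLp ψ ∞ m) :
    I (φ * (C.Γ f h + κ • C.Γ f f)) ≤ (2 : ℝ)⁻¹ * I (C.Γ f f * ψ) := by
  rw [← I_smul]
  exact hB f h φ ψ hfh hh hφψ h0 hφ hψ

include hC hB

/-- the resolvent maps bounded Lipschitz functions to test functions, for small `lam` -/
theorem J_test [SigmaFinite m] {lam : ℝ} (hl : 0 < lam) (hl2 : 0 < 1 + 2 * lam * κ)
    (hf : f ∈ C.A) (hf' : MemLp (C.Γ f f) ∞ m) : C.J lam f ∈ C.Test := by
  have hD := hC.toIsDir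
  have hf2 := hC.memLp f hf.1
  obtain ⟨K, hK⟩ := mem_top_iff.1 hf.2
  obtain ⟨L, hL⟩ := mem_top_iff.1 hf'
  have hLap := hD.J_isLap hl hf2
  set u := C.J lam f with hu
  set h := lam⁻¹ • (u - f) with hh
  have huW : u ∈ C.W := hLap.1
  have hhW : h ∈ C.W := hD.smul_mem _ _ (hD.sub_mem huW hf.1)
  rw [hC.mem_test_iff]
  refine ⟨huW, mem_top_iff.2 ⟨K, hD.J_bdd hl hf2 hK⟩, ?_, h, hLap, hhW⟩
  -- the gradient bound
  set μ : ℝ := lam⁻¹ + 2 * κ with hμ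
  have hμ0 : 0 < μ := by
    have : μ = (1 + 2 * lam * κ) / lam := by rw [hμ]; field_simp
    rw [this]; positivity
  have hμl : 0 < lam * μ := mul_pos hl hμ0
  have key : ∀ᵐ x ∂m, C.Γ u u x ≤ |L| / (lam * μ) := by
    refine le_const_of_forall (hC.mem1 u huW) (by positivity) fun ψ₀ h0 h2 h1 ht => ?_
    -- the test function
    have hμi : 0 < μ⁻¹ := inv_pos.2 hμ0
    have hwLap := hD.J_isLap hμi h2
    have hw0 := hD.J_nonneg hμi h2 h0
    obtain ⟨B, hB0⟩ := mem_top_iff.1 ht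
    have hwb := hD.J_bdd hμi h2 hB0
    have hw1 := hD.J_L1 hμi h2 h1 h0
    set w := C.J μ⁻¹ ψ₀ with hw
    rw [inv_inv] at hwLap
    have hwt : MemLp w ∞ m := mem_top_iff.2 ⟨B, hwb⟩
    have hφLap := hD.isLap_smul μ⁻¹ hwLap
    have e1 : μ⁻¹ • μ • (w - ψ₀) = w - ψ₀ := by
      rw [smul_smul, inv_mul_cancel₀ hμ0.ne', one_smul]
    rw [e1] at hφLap
    have hbe := be hB hLap hhW hφLap (smul_nonneg' hμi.le hw0) (mem_smul _ hwt) (mem_sub hwt ht)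
    -- lower bound of the left hand side
    have hΓuu := hC.mem1 u huW
    have hΓff := hC.mem1 f hf.1
    have hlow : I (μ⁻¹ • w * ((μ / 2) • C.Γ u u - (lam⁻¹ / 2) • C.Γ f f)) ≤
        I (μ⁻¹ • w * (C.Γ u h + κ • C.Γ u u)) := by
      refine I_mono (mem_mul_top (mem_smul _ hwt) (mem_sub (mem_smul _ hΓuu) (mem_smul _ hΓff)))
        (mem_mul_top (mem_smul _ hwt) (hC.bracket_mem κ huW hhW)) ?_
      refine mul_le_mul_of_nonneg_left ?_ (smul_nonneg' hμi.le hw0)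
      have e2 : C.Γ u h = lam⁻¹ • (C.Γ u u - C.Γ u f) := by
        rw [hh, hD.Γ_smul_right _ huW (hD.sub_mem huW hf.1), hD.Γ_sub_right huW huW hf.1]
      rw [le_iff_ae, e2]
      have hnn := hC.nonneg _ (hD.sub_mem huW hf.1)
      rw [hD.Γ_sub_left huW hf.1 (hD.sub_mem huW hf.1), hD.Γ_sub_right huW huW hf.1,
        hD.Γ_sub_right hf.1 huW hf.1, hD.symm f hf.1 u huW, nonneg_iff_ae] at hnn
      filter_upwards [hnn, sub_ae (C.Γ u u - C.Γ u f) (C.Γ u f - C.Γ f f),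
        sub_ae (C.Γ u u) (C.Γ u f), sub_ae (C.Γ u f) (C.Γ f f),
        sub_ae ((μ / 2) • C.Γ u u) ((lam⁻¹ / 2) • C.Γ f f), smul_ae (C.Γ u u) (μ / 2),
        smul_ae (C.Γ f f) (lam⁻¹ / 2),
        add_ae (lam⁻¹ • (C.Γ u u - C.Γ u f)) (κ • C.Γ u u),
        smul_ae (C.Γ u u - C.Γ u f) lam⁻¹, smul_ae (C.Γ u u) κ]
          with x a1 a2 a3 a4 a5 a6 a7 a9 a10 a11
      rw [a2, a3, a4] at a1
      rw [a5, a6, a7, a9, a10, a11, a3]
      have hli : 0 < lam⁻¹ := inv_pos.2 hl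
      rw [hμ]
      nlinarith [mul_nonneg hli.le a1]
    have hlow2 : I (μ⁻¹ • w * ((μ / 2) • C.Γ u u - (lam⁻¹ / 2) • C.Γ f f)) =
        (2 : ℝ)⁻¹ * I (w * C.Γ u u) - (μ⁻¹ * (lam⁻¹ / 2)) * I (w * C.Γ f f) := by
      have e3 : μ⁻¹ • w * ((μ / 2) • C.Γ u u - (lam⁻¹ / 2) • C.Γ f f) =
          (2 : ℝ)⁻¹ • (w * C.Γ u u) - (μ⁻¹ * (lam⁻¹ / 2)) • (w * C.Γ f f) := by
        rw [mul_sub, smul_mul_smul_comm, smul_mul_smul_comm]
        congr 2
        field_simp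
      rw [e3, I_sub (mem_smul _ (mem_mul_top hwt hΓuu)) (mem_smul _ (mem_mul_top hwt hΓff)),
        I_smul, I_smul]
    have hR : I (C.Γ u u * (w - ψ₀)) = I (w * C.Γ u u) - I (C.Γ u u * ψ₀) := by
      rw [mul_sub, mul_comm (C.Γ u u) w, I_sub (mem_mul_top hwt hΓuu) (mem_top_mul hΓuu ht)]
    have h3 : I (w * C.Γ f f) ≤ |L| * I ψ₀ := by
      calc I (w * C.Γ f f) ≤ I (|L| • w) := by
            refine I_mono (mem_mul_top hwt hΓff) (mem_smul _ hw1.1) ?_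
            rw [le_iff_ae]
            filter_upwards [mul_ae w (C.Γ f f), smul_ae w |L|, nonneg_iff_ae.1 hw0, hL]
              with x a1 a2 a3 a4
            rw [a1, a2, mul_comm (|L|)]
            exact mul_le_mul_of_nonneg_left (((le_abs_self _).trans a4).trans (le_abs_self L)) a3
        _ = |L| * I w := I_smul _
        _ ≤ |L| * I ψ₀ := mul_le_mul_of_nonneg_left hw1.2 (abs_nonneg L)
    have h4 : (2 : ℝ)⁻¹ * I (C.Γ u u * ψ₀) ≤ (μ⁻¹ * (lam⁻¹ / 2)) * I (w * C.Γ f f) := by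
      rw [hlow2] at hlow
      rw [hR] at hbe
      linarith
    have h5 : (μ⁻¹ * (lam⁻¹ / 2)) * I (w * C.Γ f f) ≤ (μ⁻¹ * (lam⁻¹ / 2)) * (|L| * I ψ₀) :=
      mul_le_mul_of_nonneg_left h3 (by positivity)
    have h6 : |L| / (lam * μ) * I ψ₀ = 2 * ((μ⁻¹ * (lam⁻¹ / 2)) * (|L| * I ψ₀)) := by
      field_simp
    rw [h6]
    linarith
  rw [mem_top_iff]
  refine ⟨|L| / (lam * μ), ?_⟩
  filter_upwards [key, hD.Γ_nonneg_ae huW] with x h1 h2
  rwa [abs_of_nonneg h2]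

omit hC hB in
/-- `1 + 2 lam κ > 0` for small `lam` -/
theorem exists_small (κ : ℝ) : ∃ N : ℕ, ∀ n ≥ N, 0 < 1 + 2 * ((n : ℝ) + 1)⁻¹ * κ := by
  obtain ⟨N, hN⟩ := exists_nat_ge (2 * |κ|)
  refine ⟨N, fun n hn => ?_⟩
  have h1 : (N : ℝ) ≤ n := by exact_mod_cast hn
  have h2 : (0 : ℝ) < (n : ℝ) + 1 := by positivity
  have h3 : 0 < ((n : ℝ) + 1 + 2 * κ) / ((n : ℝ) + 1) := by
    apply div_pos _ h2
    linarith [neg_abs_le κ]
  have h4 : 1 + 2 * ((n : ℝ) + 1)⁻¹ * κ = ((n : ℝ) + 1 + 2 * κ) / ((n : ℝ) + 1) := by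
    field_simp
  rw [h4]; exact h3

theorem test_dense [SigmaFinite m] (hf : f ∈ C.W) {ε : ℝ} (hε : 0 < ε) :
    ∃ g ∈ C.Test, C.nrm2 (g - f) < ε := by
  have hD := hC.toIsDir
  obtain ⟨g, hg1, hg2, hg3, hg4⟩ := hC.dense_lip f hf (ε / 4) (by positivity)
  obtain ⟨N, hN⟩ := exists_small κ
  have h1 := hD.J_tendsto_W hg1
  obtain ⟨n, hn1, hn2⟩ := ((h1.eventually (gt_mem_nhds (show (0 : ℝ) < ε / 4 by positivity))).and
    (eventually_ge_atTop N)).exists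
  have hl : (0 : ℝ) < ((n : ℝ) + 1)⁻¹ := by positivity
  have hJ := hC.J_test hB hl (hN n hn2) ⟨hg1, hg2⟩ hg3
  refine ⟨_, hJ, ?_⟩
  have hJW := (hC.test_A hJ).1
  have h2 := hD.nrm2_add_le (hD.sub_mem hJW hg1) (hD.sub_mem hg1 hf)
  have e : C.J ((n : ℝ) + 1)⁻¹ g - g + (g - f) = C.J ((n : ℝ) + 1)⁻¹ g - f := by abel
  rw [e, hD.nrm2_sub_comm hg1 hf] at h2
  linarith

/-- bounded `L²` functions are limits of uniformly bounded test functions -/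
theorem test_dense_bdd [SigmaFinite m] (hf : MemLp f 2 m) {K : ℝ} (hK : ∀ᵐ x ∂m, |f x| ≤ K) :
    ∃ u : ℕ → M →ₘ[m] ℝ, (∀ n, u n ∈ C.Test) ∧ (∀ n, ∀ᵐ x ∂m, |u n x| ≤ K) ∧
      (∀ᵐ x ∂m, Tendsto (fun n => u n x) atTop (𝓝 (f x))) ∧
      Tendsto (fun n => I ((u n - f) ^ 2)) atTop (𝓝 0) := by
  have hD := hC.toIsDir
  rcases le_or_gt K 0 with hK0 | hK0
  · -- trivial case
    have hf0 : f = 0 := by
      rw [eq_iff_ae]
      filter_upwards [hK, zero_ae (M := M) (m := m)] with x a1 a2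
      rw [a2]
      exact abs_eq_zero.1 (le_antisymm (a1.trans hK0) (abs_nonneg _))
    refine ⟨fun _ => 0, fun _ => hC.test_zero', fun _ => ?_, ?_, ?_⟩
    · filter_upwards [hK, zero_ae (M := M) (m := m)] with x a1 a2
      rw [a2, abs_zero]
      exact (abs_nonneg _).trans a1
    · rw [hf0]; filter_upwards with x; exact tendsto_const_nhds
    · rw [hf0]
      have e : ((0 : M →ₘ[m] ℝ) - 0) ^ 2 = 0 := by ring
      simp only [e, I_zero]
      exact tendsto_const_nhds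
  -- Lipschitz approximations
  have hex : ∀ k : ℕ, ∃ g ∈ C.W, MemLp g ∞ m ∧ MemLp (C.Γ g g) ∞ m ∧
      I ((g - f) ^ 2) < ((k : ℝ) + 1)⁻¹ := by
    intro k
    have hk : (0 : ℝ) < ((k : ℝ) + 1)⁻¹ := by positivity
    obtain ⟨g1, h1, h2⟩ := hC.dense_L2 f hf (((k : ℝ) + 1)⁻¹ / 4) (by positivity)
    obtain ⟨g2, h3, h4, h5, h6⟩ := hC.dense_lip g1 h1 (((k : ℝ) + 1)⁻¹ / 4) (by positivity)
    refine ⟨g2, h3, h4, h5, ?_⟩
    have h7 := I_sq_add_le (mem_sub (hC.memLp g1 h1) (hC.memLp g2 h3))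
      (mem_sub hf (hC.memLp g1 h1))
    have e1 : (g1 - g2 + (f - g1)) ^ 2 = (g2 - f) ^ 2 := by ring
    rw [e1] at h7
    have h8 := hD.I_sq_le_nrm2 (hD.sub_mem h1 h3)
    linarith
  choose g hg1 hg2 hg3 hg4 using hex
  choose φ φ' hφc hφ'c hφd hφ0 hφ'b hφb hφl hφi using fun k : ℕ => exists_clamp hK0 k
  have hch := fun k => hC.chain (g k) (hg1 k) (φ k) (φ' k) (hφc k) (hφ'c k) (hφd k) (hφ0 k)
    ⟨1, fun t => by rw [abs_of_nonneg (hφ'b k t).1]; exact (hφ'b k t).2⟩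
  set v : ℕ → M →ₘ[m] ℝ := fun k => AEEqFun.comp (φ k) (hφc k) (g k) with hv
  have hvae : ∀ k, ⇑(v k) =ᵐ[m] fun x => φ k (g k x) := fun k =>
    AEEqFun.coeFn_comp (φ k) (hφc k) (g k)
  have hvW : ∀ k, v k ∈ C.W := fun k => (hch k).1
  have hvK : ∀ k, ∀ᵐ x ∂m, |v k x| ≤ K := by
    intro k
    filter_upwards [hvae k] with x hx
    rw [hx]; exact hφb k _
  have hvA : ∀ k, v k ∈ C.A := fun k => ⟨hvW k, mem_top_iff.2 ⟨K, hvK k⟩⟩
  have hv2 : ∀ k, MemLp (v k) 2 m := fun k => hC.memLp _ (hvW k)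
  have hvΓ : ∀ k, MemLp (C.Γ (v k) (v k)) ∞ m := by
    intro k
    have e1 : C.Γ (v k) (v k) = AEEqFun.comp (φ' k) (hφ'c k) (g k) *
        (AEEqFun.comp (φ' k) (hφ'c k) (g k) * C.Γ (g k) (g k)) := by
      rw [(hch k).2 (v k) (hvW k), hD.symm (g k) (hg1 k) (v k) (hvW k),
        (hch k).2 (g k) (hg1 k)]
    have h1 : MemLp (AEEqFun.comp (φ' k) (hφ'c k) (g k)) ∞ m := by
      rw [mem_top_iff]
      refine ⟨1, ?_⟩
      filter_upwards [AEEqFun.coeFn_comp (φ' k) (hφ'c k) (g k)] with x hx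
      rw [hx, Function.comp_apply, abs_of_nonneg (hφ'b k _).1]
      exact (hφ'b k _).2
    rw [e1]
    exact mem_mul_top h1 (mem_mul_top h1 (hg3 k))
  -- `v k → f` in `L²`
  have hinv : Tendsto (fun k : ℕ => ((k : ℝ) + 1)⁻¹) atTop (𝓝 0) := tendsto_inv_succ
  have hvf : Tendsto (fun k => I ((v k - f) ^ 2)) atTop (𝓝 0) := by
    -- intermediate functions
    set w : ℕ → M →ₘ[m] ℝ := fun k => AEEqFun.comp (φ k) (hφc k) f with hw
    have hwae : ∀ k, ⇑(w k) =ᵐ[m] fun x => φ k (f x) := fun k =>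
      AEEqFun.coeFn_comp (φ k) (hφc k) f
    have hwle : ∀ k, ∀ᵐ x ∂m, |w k x| ≤ |f x| := by
      intro k
      filter_upwards [hwae k] with x hx
      rw [hx]
      have := hφl k (f x) 0
      rwa [hφ0, sub_zero, sub_zero] at this
    have hw2 : ∀ k, MemLp (w k) 2 m := fun k => mem_of_le hf (hwle k)
    have l1 : Tendsto (fun k => I ((w k - f) ^ 2)) atTop (𝓝 (I (0 : M →ₘ[m] ℝ))) := by
      refine I_tendsto_of_dominated (G := fun x => 4 * f x ^ 2)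
        ((int_of_mem (mem_sq hf)).congr (sq_ae f) |>.const_mul 4) (fun n => ?_) ?_
      · filter_upwards [sq_ae (w n - f), sub_ae (w n) f, hwle n] with x h1 h2 h3
        rw [h1, h2, abs_of_nonneg (sq_nonneg _)]
        have h4 : |w n x - f x| ≤ 2 * |f x| := by
          calc |w n x - f x| ≤ |w n x| + |f x| := abs_sub _ _
            _ ≤ 2 * |f x| := by linarith
        calc (w n x - f x) ^ 2 = |w n x - f x| ^ 2 := (sq_abs _).symm
          _ ≤ (2 * |f x|) ^ 2 := by gcongr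
          _ = 4 * f x ^ 2 := by rw [mul_pow, sq_abs]; ring
      · filter_upwards [ae_all_iff.2 fun n => sq_ae (w n - f), ae_all_iff.2 fun n => sub_ae (w n) f,
          ae_all_iff.2 hwae, hK, zero_ae (M := M) (m := m)] with x h1 h2 h3 h4 h5
        simp_rw [h1, h2, h3, h5]
        have h6 : Tendsto (fun k : ℕ => |φ k (f x) - f x|) atTop (𝓝 0) := by
          refine squeeze_zero (fun k => abs_nonneg _) (fun k => hφi k (f x) h4) ?_
          exact tendsto_div_succ K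
        have h7 := h6.pow 2
        simpa [sq_abs] using h7
    rw [I_zero] at l1
    have l2 : Tendsto (fun k : ℕ => 2 * ((k : ℝ) + 1)⁻¹ + 2 * I ((w k - f) ^ 2)) atTop (𝓝 0) := by
      simpa using (hinv.const_mul 2).add (l1.const_mul 2)
    refine squeeze_zero (fun k => I_sq_nonneg _) (fun k => ?_) l2
    have h1 := I_sq_add_le (mem_sub (hv2 k) (hw2 k)) (mem_sub (hw2 k) hf)
    have e1 : v k - w k + (w k - f) = v k - f := by abel
    rw [e1] at h1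
    have h2 : I ((v k - w k) ^ 2) ≤ I ((g k - f) ^ 2) := by
      refine I_mono (mem_sq (mem_sub (hv2 k) (hw2 k)))
        (mem_sq (mem_sub (hC.memLp _ (hg1 k)) hf)) ?_
      rw [le_iff_ae]
      filter_upwards [sq_ae (v k - w k), sub_ae (v k) (w k), hvae k, hwae k, sq_ae (g k - f),
        sub_ae (g k) f] with x a1 a2 a3 a4 a5 a6
      rw [a1, a2, a3, a4, a5, a6]
      exact sq_le_sq.2 (hφl k _ _)
    linarith [(hg4 k).le]
  -- apply the resolvent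
  obtain ⟨N, hN⟩ := exists_small κ
  have hl : ∀ n : ℕ, (0 : ℝ) < ((n : ℝ) + 1)⁻¹ := fun n => by positivity
  set u : ℕ → M →ₘ[m] ℝ := fun k => C.J (((k + N : ℕ) : ℝ) + 1)⁻¹ (v k) with hu
  have huT : ∀ k, u k ∈ C.Test := fun k =>
    hC.J_test hB (hl (k + N)) (hN (k + N) (Nat.le_add_left _ _)) (hvA k) (hvΓ k)
  have huK : ∀ k, ∀ᵐ x ∂m, |u k x| ≤ K := fun k => hD.J_bdd (hl (k + N)) (hv2 k) (hvK k)
  have hu2 : ∀ k, MemLp (u k) 2 m := fun k => hC.memLp _ (hC.test_A (huT k)).1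
  have huf : Tendsto (fun k => I ((u k - f) ^ 2)) atTop (𝓝 0) := by
    have l1 : Tendsto (fun k : ℕ => I ((C.J (((k + N : ℕ) : ℝ) + 1)⁻¹ f - f) ^ 2)) atTop (𝓝 0) :=
      (hD.J_tendsto_L2 hf).comp (tendsto_add_atTop_nat N)
    have l2 : Tendsto (fun k : ℕ => 2 * I ((v k - f) ^ 2) +
        2 * I ((C.J (((k + N : ℕ) : ℝ) + 1)⁻¹ f - f) ^ 2)) atTop (𝓝 0) := by
      simpa using (hvf.const_mul 2).add (l1.const_mul 2)
    refine squeeze_zero (fun k => I_sq_nonneg _) (fun k => ?_) l2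
    have h1 := hD.J_sq_le (hl (k + N)) (mem_sub (hv2 k) hf)
    rw [hD.J_sub (hl (k + N)) (hv2 k) hf] at h1
    have hJf : MemLp (C.J (((k + N : ℕ) : ℝ) + 1)⁻¹ f) 2 m := hD.J_mem2 (hl (k + N)) hf
    have h2 := I_sq_add_le (mem_sub (hu2 k) hJf) (mem_sub hJf hf)
    have e1 : u k - C.J (((k + N : ℕ) : ℝ) + 1)⁻¹ f + (C.J (((k + N : ℕ) : ℝ) + 1)⁻¹ f - f) =
        u k - f := by abel
    rw [e1] at h2
    have h3 : I ((u k - C.J (((k + N : ℕ) : ℝ) + 1)⁻¹ f) ^ 2) ≤ I ((v k - f) ^ 2) := h1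
    linarith
  obtain ⟨ns, hns, hae⟩ := exists_subseq_of_I_sq hu2 hf huf
  exact ⟨fun k => u (ns k), fun k => huT _, fun k => huK _, hae, huf.comp hns.tendsto_atTop⟩

/-- fundamental lemma with test functions -/
theorem eq_zero_of_forall_test [SigmaFinite m] {F : M →ₘ[m] ℝ} (hF : MemLp F 1 m)
    (h : ∀ s ∈ C.Test, I (s * F) = 0) : F = 0 := by
  have hD := hC.toIsDir
  refine hD.eq_zero_of_forall hF fun s hs => ?_
  obtain ⟨K, hK⟩ := mem_top_iff.1 hs.2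
  obtain ⟨u, h1, h2, h3, h4⟩ := hC.test_dense_bdd hB (hC.memLp s hs.1) hK
  have hlim : Tendsto (fun n => I (u n * F)) atTop (𝓝 (I (s * F))) := by
    refine I_tendsto_of_dominated (G := fun x => K * |F x|) ((int_of_mem hF).abs.const_mul K)
      (fun n => ?_) ?_
    · filter_upwards [mul_ae (u n) F, h2 n] with x a1 a2
      rw [a1, abs_mul]
      exact mul_le_mul_of_nonneg_right a2 (abs_nonneg _)
    · filter_upwards [ae_all_iff.2 fun n => mul_ae (u n) F, mul_ae s F, h3] with x a1 a2 a3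
      simp_rw [a1, a2]
      exact a3.mul_const _
  simp_rw [fun n => h (u n) (h1 n)] at hlim
  exact tendsto_nhds_unique hlim tendsto_const_nhds

/-- Savare's regularity -/
theorem Γ_self_mem (hf : f ∈ C.Test) : C.Γ f f ∈ C.W := by
  have hD := hC.toIsDir
  have hfA := hC.test_A hf
  have hfΓ := hC.test_Γ_top hf
  have hfL := hC.test_isLap hf
  have hfLW := hC.test_lap_mem hf
  set v := C.Γ f f with hv
  have hv0 : 0 ≤ v := hC.nonneg f hfA.1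
  have hv2 : MemLp v 2 m := hD.Γ_mem2 hfA.1 hfΓ hfA.1
  set g0 : M →ₘ[m] ℝ := (2 : ℝ) • (C.Γ f (C.lap f) + κ • v) with hg0
  have hg02 : MemLp g0 2 m := mem_smul _ (mem_add (hD.Γ_mem2 hfA.1 hfΓ hfLW) (mem_smul _ hv2))
  -- the basic inequality
  have hstar : ∀ φ ψ : M →ₘ[m] ℝ, C.IsLap φ ψ → 0 ≤ φ → MemLp φ ∞ m → MemLp ψ ∞ m →
      I (φ * g0) ≤ I (v * ψ) := by
    intro φ ψ h1 h2 h3 h4
    have h5 := be hB hfL hfLW h1 h2 h3 h4
    have hφ2 := hC.memLp φ h1.1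
    have h6 : (2 : ℝ)⁻¹ * I (φ * g0) ≤
        I (φ * (C.Γ f (C.lap f) + κ • v)) := by
      rw [← I_smul]
      refine I_mono (mem_smul _ (mem_mul_22 hφ2 hg02))
        (mem_mul_top h3 (hC.bracket_mem κ hfA.1 hfLW)) ?_
      have e1 : (2 : ℝ)⁻¹ • (φ * g0) = φ * (C.Γ f (C.lap f) + κ • v) := by
        rw [hg0, mul_smul_comm, smul_smul]
        norm_num
      rw [e1]
    linarith
  obtain ⟨B, hBv⟩ := mem_top_iff.1 hfΓ
  have hl : ∀ n : ℕ, (0 : ℝ) < ((n : ℝ) + 1)⁻¹ := fun n => by positivity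
  -- the Laplacian of the regularizations
  have hlow : ∀ n : ℕ, C.J ((n : ℝ) + 1)⁻¹ g0 ≤
      (((n : ℝ) + 1)⁻¹)⁻¹ • (C.J ((n : ℝ) + 1)⁻¹ v - v) := by
    intro n
    rw [← sub_nonneg]
    have hJv2 := hD.J_mem2 (hl n) hv2
    have hJg2 := hD.J_mem2 (hl n) hg02
    have hm : MemLp ((((n : ℝ) + 1)⁻¹)⁻¹ • (C.J ((n : ℝ) + 1)⁻¹ v - v) : M →ₘ[m] ℝ) 2 m :=
      mem_smul _ (mem_sub hJv2 hv2)
    refine nonneg_of_forall_L2 (mem_sub hm hJg2) fun ψ h0 h2 ht => ?_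
    have hJψ2 := hD.J_mem2 (hl n) h2
    have hJψ0 := hD.J_nonneg (hl n) h2 h0
    obtain ⟨D, hDψ⟩ := mem_top_iff.1 ht
    have hJψt : MemLp (C.J ((n : ℝ) + 1)⁻¹ ψ) ∞ m := mem_top_iff.2 ⟨D, hD.J_bdd (hl n) h2 hDψ⟩
    have h3 := hstar _ _ (hD.J_isLap (hl n) h2) hJψ0 hJψt (mem_smul _ (mem_sub hJψt ht))
    rw [sub_mul, I_sub (mem_mul_22 hm h2) (mem_mul_22 hJg2 h2), smul_mul_assoc, I_smul, sub_mul,
      I_sub (mem_mul_22 hJv2 h2) (mem_mul_22 hv2 h2), hD.J_symm (hl n) hv2 h2,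
      hD.J_symm (hl n) hg02 h2]
    have e2 : v * ((((n : ℝ) + 1)⁻¹)⁻¹ • (C.J ((n : ℝ) + 1)⁻¹ ψ - ψ)) =
        (((n : ℝ) + 1)⁻¹)⁻¹ • (v * C.J ((n : ℝ) + 1)⁻¹ ψ - v * ψ) := by
      rw [mul_smul_comm, mul_sub]
    rw [e2, I_smul, I_sub (mem_mul_22 hv2 hJψ2) (mem_mul_22 hv2 h2),
      mul_comm (C.J ((n : ℝ) + 1)⁻¹ ψ) g0] at h3
    linarith
  have hbound : ∀ n : ℕ, I (C.Γ (C.J ((n : ℝ) + 1)⁻¹ v) (C.J ((n : ℝ) + 1)⁻¹ v)) ≤
      Real.sqrt (I (v ^ 2)) * Real.sqrt (I (g0 ^ 2)) := by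
    intro n
    have hJv2 := hD.J_mem2 (hl n) hv2
    have hJg2 := hD.J_mem2 (hl n) hg02
    have hJvW := hD.J_mem (hl n) hv2
    have hJv0 := hD.J_nonneg (hl n) hv2 hv0
    have hLap := hD.J_isLap (hl n) hv2
    have h1 : I (C.Γ (C.J ((n : ℝ) + 1)⁻¹ v) (C.J ((n : ℝ) + 1)⁻¹ v)) =
        -I ((((n : ℝ) + 1)⁻¹)⁻¹ • (C.J ((n : ℝ) + 1)⁻¹ v - v) * C.J ((n : ℝ) + 1)⁻¹ v) :=
      hLap.2.2 _ hJvW
    have h2 : I (C.J ((n : ℝ) + 1)⁻¹ g0 * C.J ((n : ℝ) + 1)⁻¹ v) ≤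
        I ((((n : ℝ) + 1)⁻¹)⁻¹ • (C.J ((n : ℝ) + 1)⁻¹ v - v) * C.J ((n : ℝ) + 1)⁻¹ v) :=
      I_mono (mem_mul_22 hJg2 hJv2) (mem_mul_22 hLap.2.1 hJv2)
        (mul_le_mul_of_nonneg_right (hlow n) hJv0)
    have h3 := I_abs_le hJg2 hJv2
    have h4 := Real.sqrt_le_sqrt (hD.J_sq_le (hl n) hv2)
    have h5 := Real.sqrt_le_sqrt (hD.J_sq_le (hl n) hg02)
    have h6 := neg_abs_le (I (C.J ((n : ℝ) + 1)⁻¹ g0 * C.J ((n : ℝ) + 1)⁻¹ v))
    have h7 : Real.sqrt (I (C.J ((n : ℝ) + 1)⁻¹ g0 ^ 2)) * Real.sqrt (I (C.J ((n : ℝ) + 1)⁻¹ v ^ 2))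
        ≤ Real.sqrt (I (g0 ^ 2)) * Real.sqrt (I (v ^ 2)) :=
      mul_le_mul h5 h4 (Real.sqrt_nonneg _) (Real.sqrt_nonneg _)
    rw [mul_comm (Real.sqrt (I (v ^ 2)))]
    linarith
  exact (hD.mem_of_bounded (fun n => hD.J_mem (hl n) hv2) hbound hv2 (hD.J_tendsto_L2 hv2)).1

theorem Γ_mem (hf : f ∈ C.Test) (hg : g ∈ C.Test) : C.Γ f g ∈ C.A := by
  have hD := hC.toIsDir
  have hfA := hC.test_A hf
  have hgA := hC.test_A hg
  refine ⟨?_, hD.Γ_memTop hfA.1 (hC.test_Γ_top hf) hgA.1 (hC.test_Γ_top hg)⟩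
  have h1 := hC.Γ_self_mem hB (hC.test_add' hf hg)
  have h2 := hC.Γ_self_mem hB hf
  have h3 := hC.Γ_self_mem hB hg
  have h4 := hD.Γ_expand 1 hfA.1 hgA.1
  rw [one_smul, mul_one, one_pow, one_smul] at h4
  have h5 : C.Γ f g = (2 : ℝ)⁻¹ • (C.Γ (f + g) (f + g) - C.Γ f f - C.Γ g g) := by
    rw [h4]
    module
  rw [h5]
  exact hD.smul_mem _ _ (hD.sub_mem (hD.sub_mem h1 h2) h3)

theorem bochner_weak (hf : f ∈ C.Test) (hφ : φ ∈ C.A) (h0 : 0 ≤ φ) :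
    I (φ * (C.Γ f (C.lap f) + κ • C.Γ f f))
      ≤ -((2 : ℝ)⁻¹ * I (C.Γ (C.Γ f f) φ)) := by
  have hD := hC.toIsDir
  have hfA := hC.test_A hf
  have hfL := hC.test_isLap hf
  have hfLW := hC.test_lap_mem hf
  have hv := (hC.Γ_mem hB hf hf).1
  have hφ2 := hC.memLp φ hφ.1
  obtain ⟨K, hK⟩ := mem_top_iff.1 hφ.2
  have hl : ∀ n : ℕ, (0 : ℝ) < ((n : ℝ) + 1)⁻¹ := fun n => by positivity
  set G := C.Γ f (C.lap f) + κ • C.Γ f f with hG
  have hG1 : MemLp G 1 m := hC.bracket_mem κ hfA.1 hfLW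
  set u : ℕ → M →ₘ[m] ℝ := fun n => C.J ((n : ℝ) + 1)⁻¹ φ with hu
  have huW : ∀ n, u n ∈ C.W := fun n => hD.J_mem (hl n) hφ2
  have huK : ∀ n, ∀ᵐ x ∂m, |u n x| ≤ K := fun n => hD.J_bdd (hl n) hφ2 hK
  have hut : ∀ n, MemLp (u n) ∞ m := fun n => mem_top_iff.2 ⟨K, huK n⟩
  have hlimW : Tendsto (fun n => C.nrm2 (u n - φ)) atTop (𝓝 0) := hD.J_tendsto_W hφ.1
  have key : ∀ n, I (u n * G) ≤ -((2 : ℝ)⁻¹ * I (C.Γ (C.Γ f f) (u n))) := by
    intro n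
    have hL := hD.J_isLap (hl n) hφ2
    have h1 := be hB hfL hfLW hL (hD.J_nonneg (hl n) hφ2 h0) (hut n)
      (mem_smul _ (mem_sub (hut n) hφ.2))
    have h2 : I (C.Γ (u n) (C.Γ f f)) =
        -I ((((n : ℝ) + 1)⁻¹)⁻¹ • (u n - φ) * C.Γ f f) := hL.2.2 _ hv
    rw [hD.symm _ (huW n) _ hv, mul_comm _ (C.Γ f f)] at h2
    rw [h2]
    have h3 : I (u n * G) ≤ (2 : ℝ)⁻¹ * I (C.Γ f f * ((((n : ℝ) + 1)⁻¹)⁻¹ • (u n - φ))) := h1
    linarith
  obtain ⟨ns, hns, hae⟩ := exists_subseq_of_I_sq (fun n => hC.memLp _ (huW n)) hφ2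
    (hD.tendsto_I_sq_of_nrm2 huW hφ.1 hlimW)
  have l1 : Tendsto (fun n => I (u (ns n) * G)) atTop (𝓝 (I (φ * G))) := by
    refine I_tendsto_of_dominated (G := fun x => K * |G x|) ((int_of_mem hG1).abs.const_mul K)
      (fun n => ?_) ?_
    · filter_upwards [mul_ae (u (ns n)) G, huK (ns n)] with x a1 a2
      rw [a1, abs_mul]
      exact mul_le_mul_of_nonneg_right a2 (abs_nonneg _)
    · filter_upwards [ae_all_iff.2 fun n => mul_ae (u (ns n)) G, mul_ae φ G, hae] with x a1 a2 a3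
      simp_rw [a1, a2]
      exact a3.mul_const _
  have l2 : Tendsto (fun n => I (C.Γ (C.Γ f f) (u n))) atTop (𝓝 (I (C.Γ (C.Γ f f) φ))) := by
    rw [tendsto_iff_dist_tendsto_zero]
    have h1 := hD.tendsto_E_of_nrm2 huW hφ.1 hlimW
    have h2 : Tendsto (fun n => Real.sqrt (I (C.Γ (C.Γ f f) (C.Γ f f))) *
        Real.sqrt (I (C.Γ (u n - φ) (u n - φ)))) atTop (𝓝 0) := by
      have := ((Real.continuous_sqrt.tendsto 0).comp h1).const_mul
        (Real.sqrt (I (C.Γ (C.Γ f f) (C.Γ f f))))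
      simpa [Function.comp_def] using this
    refine squeeze_zero (fun n => dist_nonneg) (fun n => ?_) h2
    rw [Real.dist_eq, ← I_sub (hD.Γ_mem1 hv (huW n)) (hD.Γ_mem1 hv hφ.1),
      ← hD.Γ_sub_right hv (huW n) hφ.1]
    exact hD.E_abs_le hv (hD.sub_mem (huW n) hφ.1)
  have l3 : Tendsto (fun n => -((2 : ℝ)⁻¹ * I (C.Γ (C.Γ f f) (u (ns n))))) atTop
      (𝓝 (-((2 : ℝ)⁻¹ * I (C.Γ (C.Γ f f) φ)))) :=
    ((l2.comp hns.tendsto_atTop).const_mul _).neg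
  exact le_of_tendsto_of_tendsto' l1 l3 fun n => key (ns n)

end IsGamma

end Vale.Agent.P233
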