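import Vale.Agent.P233.AB.BernT

open MeasureTheory Filter Topology
open scoped ENNReal NNReal

namespace Vale.Agent.P233

variable {M : Type*} [MeasurableSpace M] {m : Measure M} {C : Calc m}

/-- a placeholder type for the functions `UU b a b' a' = ⟨∇_{∇a} ∇b, ∇_{∇a'} ∇b'⟩` -/
abbrev UUT (m : Measure M) : Type _ :=
  (M →ₘ[m] ℝ) → (M →ₘ[m] ℝ) → (M →ₘ[m] ℝ) → (M →ₘ[m] ℝ) → (M →ₘ[m] ℝ)

/-- the integrand of `R(∇d,∇e,∇e',∇d')(φ)` -/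
noncomputable def Calc.rrI (C : Calc m) (UU : UUT m) (d e e' d' φ : M →ₘ[m] ℝ) : M →ₘ[m] ℝ :=
  -(C.De φ d * C.hess e' e d') + C.De φ e * C.hess e' d d'
    + φ * (-UU d' d e' e + UU d' e e' d - UU e d e' d' + UU d e e' d')

/-- the integrand of `⟨∇_p q, ∇_r s⟩` -/
noncomputable def Calc.ccI (C : Calc m) (UU : UUT m) (p q r s : (M →ₘ[m] ℝ) × (M →ₘ[m] ℝ)) :
    M →ₘ[m] ℝ :=
  p.1 * r.1 * (C.Γ p.2 q.1 * C.Γ r.2 s.1 * C.Γ q.2 s.2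
    + C.Γ p.2 q.1 * s.1 * C.hess s.2 r.2 q.2
    + q.1 * C.Γ r.2 s.1 * C.hess q.2 p.2 s.2
    + q.1 * s.1 * UU q.2 p.2 s.2 r.2)

/-- the integrand of `⟨∇_p q, (∇ r)ᵀ s⟩` -/
noncomputable def Calc.ctI (C : Calc m) (UU : UUT m) (p q r s : (M →ₘ[m] ℝ) × (M →ₘ[m] ℝ)) :
    M →ₘ[m] ℝ :=
  p.1 * s.1 * (C.Γ p.2 q.1 * (C.Γ r.2 s.2 * C.Γ q.2 r.1 + r.1 * C.hess r.2 s.2 q.2)
    + q.1 * (C.Γ r.2 s.2 * C.hess q.2 p.2 r.1 + r.1 * UU q.2 p.2 r.2 s.2))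

/-- `⟨∇_p q, r⟩` -/
noncomputable def Calc.nabI (C : Calc m) (p q r : (M →ₘ[m] ℝ) × (M →ₘ[m] ℝ)) : M →ₘ[m] ℝ :=
  p.1 * r.1 * (C.Γ p.2 q.1 * C.Γ q.2 r.2 + q.1 * C.hess q.2 p.2 r.2)

/-- `div p` -/
noncomputable def Calc.dvI (C : Calc m) (p : (M →ₘ[m] ℝ) × (M →ₘ[m] ℝ)) : M →ₘ[m] ℝ :=
  C.Γ p.1 p.2 + p.1 * C.lap p.2

/-- the integrand of `R(p,q,r,s)(f)` -/
noncomputable def Calc.omI (C : Calc m) (UU : UUT m) (f : M →ₘ[m] ℝ)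
    (p q r s : (M →ₘ[m] ℝ) × (M →ₘ[m] ℝ)) : M →ₘ[m] ℝ :=
  -C.ccI UU p (f * s.1, s.2) q r - f * C.nabI q r s * C.dvI p
    + C.ccI UU q (f * s.1, s.2) p r + f * C.nabI p r s * C.dvI q
    - (C.ctI UU p q r (f * s.1, s.2) - C.ctI UU q p r (f * s.1, s.2))

namespace IsGamma

variable (hC : IsGamma C) {κ : ℝ} (hB : C.BEi κ)
variable {f g h φ ψ b k x y z w d e e' d' : M →ₘ[m] ℝ}

include hC

theorem tW (hb : b ∈ C.Test) : b ∈ C.W := (hC.test_A hb).1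

theorem lap2 (hb : b ∈ C.Test) : MemLp (C.lap b) 2 m := hC.memLp _ (hC.test_lap_mem hb)

theorem ibp (hb : b ∈ C.Test) (hk : k ∈ C.W) : I (C.Γ b k) = - I (C.lap b * k) :=
  (hC.test_isLap hb).2.2 k hk

theorem ibp_mem (hb : b ∈ C.Test) (hψ : ψ ∈ C.A) (hk : k ∈ C.A) :
    MemLp (ψ * C.Γ b k + k * C.Γ b ψ + ψ * k * C.lap b : M →ₘ[m] ℝ) 1 m :=
  mem_add (mem_add (mem_mul_top hψ.2 (hC.Γ_mem1 (hC.tW hb) hk.1))
      (mem_mul_top hk.2 (hC.Γ_mem1 (hC.tW hb) hψ.1)))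
    (mem_mul_22 (mem_mul_top hψ.2 (hC.memLp _ hk.1)) (hC.lap2 hb))

theorem ibp' (hb : b ∈ C.Test) (hψ : ψ ∈ C.A) (hk : k ∈ C.A) :
    I (ψ * C.Γ b k + k * C.Γ b ψ + ψ * k * C.lap b) = 0 := by
  have h1 := hC.ibp hb (hC.mul_mem_A hψ hk).1
  rw [hC.Γ_mul_right hψ hk (hC.tW hb)] at h1
  have m1 : MemLp (ψ * C.Γ b k + k * C.Γ b ψ : M →ₘ[m] ℝ) 1 m :=
    mem_add (mem_mul_top hψ.2 (hC.Γ_mem1 (hC.tW hb) hk.1))
      (mem_mul_top hk.2 (hC.Γ_mem1 (hC.tW hb) hψ.1))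
  have m2 : MemLp (ψ * k * C.lap b : M →ₘ[m] ℝ) 1 m :=
    mem_mul_22 (mem_mul_top hψ.2 (hC.memLp _ hk.1)) (hC.lap2 hb)
  rw [I_add m1 m2, h1]
  have : C.lap b * (ψ * k) = ψ * k * C.lap b := by ring
  rw [this]; ring

include hB

theorem omI_single_eq (UU : UUT m) (hf : f ∈ C.Test) (hx : x ∈ C.Test) (hy : y ∈ C.Test)
    (hz : z ∈ C.Test) (hw : w ∈ C.Test) (hd : d ∈ C.Test) (he : e ∈ C.Test) (he' : e' ∈ C.Test)
    (hd' : d' ∈ C.Test) :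
    C.omI UU f (x, d) (y, e) (z, e') (w, d')
      = C.rrI UU d e e' d' (f * w * x * y * z)
      - ((x * y * (f * w) * C.Γ d' e') * C.Γ d (C.Γ e z)
          + C.Γ e z * C.Γ d (x * y * (f * w) * C.Γ d' e')
          + (x * y * (f * w) * C.Γ d' e') * C.Γ e z * C.lap d)
      + ((x * y * (f * w) * C.Γ d' e') * C.Γ e (C.Γ d z)
          + C.Γ d z * C.Γ e (x * y * (f * w) * C.Γ d' e')
          + (x * y * (f * w) * C.Γ d' e') * C.Γ d z * C.lap e) := by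
  have fA := hC.test_A hf
  have xA := hC.test_A hx
  have yA := hC.test_A hy
  have zA := hC.test_A hz
  have wA := hC.test_A hw
  have dA := hC.test_A hd
  have eA := hC.test_A he
  have e'A := hC.test_A he'
  have d'A := hC.test_A hd'
  have gA := hC.Γ_mem hB hd' he'
  have FA := hC.mul_mem_A fA wA
  have xyA := hC.mul_mem_A xA yA
  have xyFA := hC.mul_mem_A xyA FA
  have FxA := hC.mul_mem_A FA xA
  have FxyA := hC.mul_mem_A FxA yA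
  have hzd := (hC.Γ_mem hB hz hd).1
  have hed := (hC.Γ_mem hB he hd).1
  unfold Calc.omI Calc.rrI Calc.ccI Calc.ctI Calc.nabI Calc.dvI Calc.De Calc.hess
  simp only
  rw [hC.Γ_mul_right xyFA gA dA.1, hC.Γ_mul_right xyFA gA eA.1, hC.Γ_mul_right xyA FA dA.1,
    hC.Γ_mul_right xyA FA eA.1, hC.Γ_mul_right xA yA dA.1, hC.Γ_mul_right xA yA eA.1,
    hC.Γ_mul_left FxyA zA dA.1, hC.Γ_mul_left FxyA zA eA.1, hC.Γ_mul_left FxA yA dA.1,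
    hC.Γ_mul_left FxA yA eA.1, hC.Γ_mul_left FA xA dA.1, hC.Γ_mul_left FA xA eA.1,
    hC.symm _ dA.1 _ FA.1, hC.symm _ eA.1 _ FA.1,
    hC.symm _ dA.1 _ xA.1, hC.symm _ eA.1 _ xA.1, hC.symm _ dA.1 _ yA.1, hC.symm _ eA.1 _ yA.1,
    hC.symm _ dA.1 _ zA.1, hC.symm _ eA.1 _ zA.1,
    hC.symm _ dA.1 _ eA.1, hC.symm _ dA.1 _ e'A.1, hC.symm _ dA.1 _ d'A.1,
    hC.symm _ eA.1 _ e'A.1, hC.symm _ eA.1 _ d'A.1, hC.symm _ e'A.1 _ d'A.1]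
  algebra

omit hB in
theorem mem_De (hφ : φ ∈ C.A) (hd : d ∈ C.Test) : MemLp (C.De φ d) 2 m := by
  unfold Calc.De
  rw [hC.symm _ hφ.1 _ (hC.tW hd)]
  exact mem_add (hC.Γ_mem2 (hC.tW hd) (hC.test_Γ_top hd) hφ.1) (mem_mul_top hφ.2 (hC.lap2 hd))

theorem hess_mem2 (hb : b ∈ C.Test) (hg : g ∈ C.Test) (hh : h ∈ C.Test) :
    MemLp (C.hess b g h) 2 m := by
  have h1 := hC.KK_mem2 hB hg hh hb
  have h2 : C.hess b g h = (2 : ℝ)⁻¹ • C.KK b g h := by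
    unfold Calc.KK; rw [smul_smul]; norm_num
  rw [h2]
  exact mem_smul _ h1

theorem rrI_mem {UU : UUT m} (hd : d ∈ C.Test) (he : e ∈ C.Test) (he' : e' ∈ C.Test)
    (hd' : d' ∈ C.Test) (hφ : φ ∈ C.A)
    (hUU : ∀ a ∈ C.Test, ∀ b ∈ C.Test, ∀ c ∈ C.Test, ∀ d ∈ C.Test, MemLp (UU a b c d) 1 m) :
    MemLp (C.rrI UU d e e' d' φ) 1 m := by
  unfold Calc.rrI
  refine mem_add (mem_add (mem_neg (mem_mul_22 (hC.mem_De hφ hd) (hC.hess_mem2 hB he' he hd')))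
    (mem_mul_22 (hC.mem_De hφ he) (hC.hess_mem2 hB he' hd hd'))) (mem_mul_top hφ.2 ?_)
  exact mem_add (mem_sub (mem_add (mem_neg (hUU _ hd' _ hd _ he' _ he)) (hUU _ hd' _ he _ he' _ hd))
    (hUU _ he _ hd _ he' _ hd')) (hUU _ hd _ he _ he' _ hd')

/-- the tensoriality of the curvature functional -/
theorem I_omI {UU : UUT m} (hf : f ∈ C.Test) (hx : x ∈ C.Test) (hy : y ∈ C.Test)
    (hz : z ∈ C.Test) (hw : w ∈ C.Test) (hd : d ∈ C.Test) (he : e ∈ C.Test) (he' : e' ∈ C.Test)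
    (hd' : d' ∈ C.Test)
    (hUU : ∀ a ∈ C.Test, ∀ b ∈ C.Test, ∀ c ∈ C.Test, ∀ d ∈ C.Test, MemLp (UU a b c d) 1 m) :
    MemLp (C.omI UU f (x, d) (y, e) (z, e') (w, d')) 1 m ∧
    I (C.omI UU f (x, d) (y, e) (z, e') (w, d')) = I (C.rrI UU d e e' d' (f * w * x * y * z)) := by
  have fA := hC.test_A hf
  have xA := hC.test_A hx
  have yA := hC.test_A hy
  have zA := hC.test_A hz
  have wA := hC.test_A hw
  have oA := hC.mul_mem_A (hC.mul_mem_A (hC.mul_mem_A xA yA) (hC.mul_mem_A fA wA))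
    (hC.Γ_mem hB hd' he')
  have φA := hC.mul_mem_A (hC.mul_mem_A (hC.mul_mem_A (hC.mul_mem_A fA wA) xA) yA) zA
  have m0 := hC.rrI_mem hB hd he he' hd' φA hUU
  have m1 := hC.ibp_mem hd oA (hC.Γ_mem hB he hz)
  have m2 := hC.ibp_mem he oA (hC.Γ_mem hB hd hz)
  rw [hC.omI_single_eq hB UU hf hx hy hz hw hd he he' hd']
  refine ⟨mem_add (mem_sub m0 m1) m2, ?_⟩
  rw [I_add (mem_sub m0 m1) m2, I_sub m0 m1, hC.ibp' hd oA (hC.Γ_mem hB he hz),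
    hC.ibp' he oA (hC.Γ_mem hB hd hz)]
  ring

end IsGamma

end Vale.Agent.P233
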