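import Vale.Agent.P233.AB.Tens1

open MeasureTheory Filter Topology
open scoped ENNReal NNReal

namespace Vale.Agent.P233

variable {M : Type*} [MeasurableSpace M] {m : Measure M} {C : Calc m}

/-- the functions `⟨∇_{∇a} ∇b, ∇_{∇a'} ∇b'⟩` are integrable and depend linearly on `a,b,a',b'` -/
structure Calc.IsUU (C : Calc m) (UU : UUT m) : Prop where
  mem : ∀ a ∈ C.Test, ∀ b ∈ C.Test, ∀ c ∈ C.Test, ∀ d ∈ C.Test, MemLp (UU a b c d) 1 m
  lin1 : ∀ a ∈ C.Test, ∀ a' ∈ C.Test, ∀ b ∈ C.Test, ∀ c ∈ C.Test, ∀ d ∈ C.Test, ∀ t : ℝ,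
    UU (a + t • a') b c d = UU a b c d + t • UU a' b c d
  lin2 : ∀ a ∈ C.Test, ∀ a' ∈ C.Test, ∀ b ∈ C.Test, ∀ c ∈ C.Test, ∀ d ∈ C.Test, ∀ t : ℝ,
    UU b (a + t • a') c d = UU b a c d + t • UU b a' c d
  lin3 : ∀ a ∈ C.Test, ∀ a' ∈ C.Test, ∀ b ∈ C.Test, ∀ c ∈ C.Test, ∀ d ∈ C.Test, ∀ t : ℝ,
    UU b c (a + t • a') d = UU b c a d + t • UU b c a' d
  lin4 : ∀ a ∈ C.Test, ∀ a' ∈ C.Test, ∀ b ∈ C.Test, ∀ c ∈ C.Test, ∀ d ∈ C.Test, ∀ t : ℝ,
    UU b c d (a + t • a') = UU b c d a + t • UU b c d a'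

section biquad

variable {S B : Set (M →ₘ[m] ℝ)}

/-- a linear space of functions -/
structure IsLin (S : Set (M →ₘ[m] ℝ)) : Prop where
  zero : 0 ∈ S
  add : ∀ f ∈ S, ∀ g ∈ S, f + g ∈ S
  smul : ∀ (c : ℝ), ∀ f ∈ S, c • f ∈ S

theorem IsLin.sum (hS : IsLin S) {ι : Type*} (s : Finset ι) {d : ι → M →ₘ[m] ℝ}
    (hd : ∀ i, d i ∈ S) (c : ι → ℝ) : (∑ i ∈ s, c i • d i) ∈ S := by
  classical
  induction s using Finset.induction_on with
  | empty => simpa using hS.zero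
  | insert i s hi ih =>
    rw [Finset.sum_insert hi]; exact hS.add _ (hS.smul _ _ (hd i)) _ ih

/-- a linear function commutes with finite sums -/
theorem IsLin.map_sum (hS : IsLin S) {V : Type*} [AddCommGroup V] [Module ℝ V]
    {P : (M →ₘ[m] ℝ) → V}
    (hP : ∀ a ∈ S, ∀ a' ∈ S, ∀ t : ℝ, P (a + t • a') = P a + t • P a') {ι : Type*}
    (s : Finset ι) {d : ι → M →ₘ[m] ℝ} (hd : ∀ i, d i ∈ S) (c : ι → ℝ) :
    P (∑ i ∈ s, c i • d i) = ∑ i ∈ s, c i • P (d i) := by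
  classical
  have h0 : P 0 = 0 := by
    have := hP 0 hS.zero 0 hS.zero 1
    simpa using this
  induction s using Finset.induction_on with
  | empty => simpa using h0
  | insert i s hi ih =>
    rw [Finset.sum_insert hi, Finset.sum_insert hi, add_comm (c i • d i),
      hP _ (hS.sum s hd c) _ (hd i), ih, add_comm]

/-- Positivity of a 5-linear functional on the diagonal for constants implies positivity for
function coefficients. -/
theorem biquad {T : Set (M →ₘ[m] ℝ)} (hT : IsMod B T) (hS : IsLin S)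
    (F : (M →ₘ[m] ℝ) → (M →ₘ[m] ℝ) → (M →ₘ[m] ℝ) → (M →ₘ[m] ℝ) → (M →ₘ[m] ℝ) → ℝ)
    (l1 : ∀ a ∈ S, ∀ a' ∈ S, ∀ b ∈ S, ∀ c ∈ S, ∀ d ∈ S, ∀ φ ∈ T, ∀ t : ℝ,
      F (a + t • a') b c d φ = F a b c d φ + t * F a' b c d φ)
    (l2 : ∀ a ∈ S, ∀ a' ∈ S, ∀ b ∈ S, ∀ c ∈ S, ∀ d ∈ S, ∀ φ ∈ T, ∀ t : ℝ,
      F b (a + t • a') c d φ = F b a c d φ + t * F b a' c d φ)
    (l3 : ∀ a ∈ S, ∀ a' ∈ S, ∀ b ∈ S, ∀ c ∈ S, ∀ d ∈ S, ∀ φ ∈ T, ∀ t : ℝ,
      F b c (a + t • a') d φ = F b c a d φ + t * F b c a' d φ)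
    (l4 : ∀ a ∈ S, ∀ a' ∈ S, ∀ b ∈ S, ∀ c ∈ S, ∀ d ∈ S, ∀ φ ∈ T, ∀ t : ℝ,
      F b c d (a + t • a') φ = F b c d a φ + t * F b c d a' φ)
    (l5 : ∀ φ ∈ T, ∀ φ' ∈ T, ∀ a ∈ S, ∀ b ∈ S, ∀ c ∈ S, ∀ d ∈ S, ∀ t : ℝ,
      F a b c d (φ + t • φ') = F a b c d φ + t * F a b c d φ')
    (hpos : ∀ a ∈ S, ∀ b ∈ S, ∀ φ ∈ T, 0 ≤ φ → 0 ≤ F a b b a φ)
    {ι ι' : Type*} [Fintype ι] [Fintype ι'] {d x : ι → M →ₘ[m] ℝ} {e y : ι' → M →ₘ[m] ℝ}
    (hd : ∀ i, d i ∈ S) (he : ∀ i, e i ∈ S) (hx : ∀ i, x i ∈ APT B) (hy : ∀ i, y i ∈ APT B)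
    {φ : M →ₘ[m] ℝ} (hφ : φ ∈ T) (hφ0 : 0 ≤ φ) :
    0 ≤ ∑ j, ∑ l, ∑ i, ∑ k, F (d i) (e j) (e l) (d k) (φ * (y j * y l) * (x i * x k)) := by
  classical
  -- linearity in `φ`
  have ladd : ∀ a ∈ S, ∀ b ∈ S, ∀ c ∈ S, ∀ d ∈ S, ∀ φ ∈ T, ∀ ψ ∈ T,
      F a b c d (φ + ψ) = F a b c d φ + F a b c d ψ := by
    intro a ha b hb c hc d hd φ hφ ψ hψ
    have := l5 φ hφ ψ hψ a ha b hb c hc d hd 1
    simpa using this
  have l0 : ∀ a ∈ S, ∀ b ∈ S, ∀ c ∈ S, ∀ d ∈ S, F a b c d 0 = 0 := by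
    intro a ha b hb c hc d hd
    have := ladd a ha b hb c hc d hd 0 hT.zero 0 hT.zero
    simpa using this
  have lsm : ∀ a ∈ S, ∀ b ∈ S, ∀ c ∈ S, ∀ d ∈ S, ∀ t : ℝ, ∀ φ ∈ T,
      F a b c d (t • φ) = t * F a b c d φ := by
    intro a ha b hb c hc d hd t φ hφ
    have := l5 0 hT.zero φ hφ a ha b hb c hc d hd t
    rw [l0 a ha b hb c hc d hd] at this
    simpa using this
  -- step A
  have stepA : ∀ b ∈ S, ∀ φ ∈ T, 0 ≤ φ → 0 ≤ ∑ i, ∑ k, F (d i) b b (d k) (φ * (x i * x k)) := by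
    intro b hb φ hφ hφ0
    refine hT.master_fintype (Q := fun i k φ => F (d i) b b (d k) φ) ?_ ?_ ?_ hx hφ hφ0
    · intro i k φ hφ ψ hψ
      exact ladd _ (hd i) _ hb _ hb _ (hd k) _ hφ _ hψ
    · intro i k c φ hφ
      exact lsm _ (hd i) _ hb _ hb _ (hd k) c _ hφ
    · intro c φ hφ hφ0
      have hs := hS.sum Finset.univ hd c
      have h1 := hpos _ hs b hb φ hφ hφ0
      have e1 := hS.map_sum (P := fun a => F a b b (∑ i, c i • d i) φ)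
        (fun a ha a' ha' t => l1 a ha a' ha' b hb b hb _ hs φ hφ t) Finset.univ hd c
      have e2 : ∀ i, F (d i) b b (∑ i, c i • d i) φ = ∑ k, c k • F (d i) b b (d k) φ := fun i =>
        hS.map_sum (P := fun a => F (d i) b b a φ)
          (fun a ha a' ha' t => l4 a ha a' ha' _ (hd i) b hb b hb φ hφ t) Finset.univ hd c
      rw [e1] at h1
      simp only [e2, smul_eq_mul, Finset.mul_sum] at h1
      convert h1 using 1
      refine Finset.sum_congr rfl fun i _ => Finset.sum_congr rfl fun k _ => ?_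
      ring
  have hm : ∀ φ ∈ T, ∀ i k, φ * (x i * x k) ∈ T := by
    intro φ hφ i k
    rw [← mul_assoc]
    exact hT.A_mul_AP (hT.A_mul_AP hφ (hx i)) (hx k)
  -- step B
  refine hT.master_fintype (Q := fun j l φ => ∑ i, ∑ k, F (d i) (e j) (e l) (d k)
    (φ * (x i * x k))) ?_ ?_ ?_ hy hφ hφ0
  · intro j l φ hφ ψ hψ
    simp only [← Finset.sum_add_distrib]
    refine Finset.sum_congr rfl fun i _ => Finset.sum_congr rfl fun k _ => ?_
    rw [add_mul]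
    exact ladd _ (hd i) _ (he j) _ (he l) _ (hd k) _ (hm _ hφ i k) _ (hm _ hψ i k)
  · intro j l c φ hφ
    simp only [Finset.mul_sum]
    refine Finset.sum_congr rfl fun i _ => Finset.sum_congr rfl fun k _ => ?_
    rw [smul_mul_assoc]
    exact lsm _ (hd i) _ (he j) _ (he l) _ (hd k) c _ (hm _ hφ i k)
  · intro c φ hφ hφ0
    have hs := hS.sum Finset.univ he c
    have h1 := stepA _ hs φ hφ hφ0
    have e1 : ∀ i k, F (d i) (∑ j, c j • e j) (∑ j, c j • e j) (d k) (φ * (x i * x k))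
        = ∑ j, ∑ l, c j * c l * F (d i) (e j) (e l) (d k) (φ * (x i * x k)) := by
      intro i k
      have a1 := hS.map_sum (P := fun a => F (d i) a (∑ j, c j • e j) (d k) (φ * (x i * x k)))
        (fun a ha a' ha' t => l2 a ha a' ha' _ (hd i) _ hs _ (hd k) _ (hm _ hφ i k) t)
        Finset.univ he c
      have a2 : ∀ j, F (d i) (e j) (∑ j, c j • e j) (d k) (φ * (x i * x k))
          = ∑ l, c l • F (d i) (e j) (e l) (d k) (φ * (x i * x k)) := fun j =>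
        hS.map_sum (P := fun a => F (d i) (e j) a (d k) (φ * (x i * x k)))
          (fun a ha a' ha' t => l3 a ha a' ha' _ (hd i) _ (he j) _ (hd k) _ (hm _ hφ i k) t)
          Finset.univ he c
      rw [a1]
      refine Finset.sum_congr rfl fun j _ => ?_
      rw [a2, smul_eq_mul, Finset.mul_sum]
      refine Finset.sum_congr rfl fun l _ => ?_
      rw [smul_eq_mul]; ring
    simp only [e1] at h1
    refine h1.trans_eq ?_
    calc ∑ i, ∑ k, ∑ j, ∑ l, c j * c l * F (d i) (e j) (e l) (d k) (φ * (x i * x k))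
        = ∑ i, ∑ j, ∑ k, ∑ l, c j * c l * F (d i) (e j) (e l) (d k) (φ * (x i * x k)) :=
          Finset.sum_congr rfl fun i _ => Finset.sum_comm
      _ = ∑ j, ∑ i, ∑ k, ∑ l, c j * c l * F (d i) (e j) (e l) (d k) (φ * (x i * x k)) :=
          Finset.sum_comm
      _ = ∑ j, ∑ i, ∑ l, ∑ k, c j * c l * F (d i) (e j) (e l) (d k) (φ * (x i * x k)) :=
          Finset.sum_congr rfl fun j _ => Finset.sum_congr rfl fun i _ => Finset.sum_comm
      _ = ∑ j, ∑ l, ∑ i, ∑ k, c j * c l * F (d i) (e j) (e l) (d k) (φ * (x i * x k)) :=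
          Finset.sum_congr rfl fun j _ => Finset.sum_comm
      _ = _ := by
          refine Finset.sum_congr rfl fun j _ => Finset.sum_congr rfl fun l _ => ?_
          simp only [Finset.mul_sum]

end biquad

end Vale.Agent.P233
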