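import Vale.Agent.P233.AB.HU

open MeasureTheory Filter Topology
open scoped ENNReal NNReal InnerProductSpace

namespace Vale.Agent.P233

variable {M : Type*} [MeasurableSpace M] {m : Measure M} {C : Calc m}
variable {E : Type*} [NormedAddCommGroup E] [InnerProductSpace ℝ E] {Gr : (M →ₘ[m] ℝ) → M → E}

/-- `w` is in the closure of the test vector fields -/
def InClo (C : Calc m) (Gr : (M →ₘ[m] ℝ) → M → E) (w : M → E) : Prop :=
  MemLp w 2 m ∧ ∀ ε > 0, ∃ Z, C.IsTestV Z ∧ eLpNorm (fun x => w x - fvec Gr Z x) 2 m < ε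

theorem abs_int_inner_le {u v : M → E} (hu : MemLp u 2 m) (hv : MemLp v 2 m) :
    |∫ x, ⟪u x, v x⟫_ℝ ∂m| ≤ (eLpNorm u 2 m).toReal * (eLpNorm v 2 m).toReal := by
  have h1 : ∫ x, ⟪u x, v x⟫_ℝ ∂m = ⟪hu.toLp, hv.toLp⟫_ℝ := by
    rw [L2.inner_def]
    refine integral_congr_ae ?_
    filter_upwards [hu.coeFn_toLp, hv.coeFn_toLp] with x a1 a2
    rw [a1, a2]
  rw [h1]
  refine (abs_real_inner_le_norm _ _).trans ?_
  rw [Lp.norm_toLp, Lp.norm_toLp]

theorem int_inner_integrable {u v : M → E} (hu : MemLp u 2 m) (hv : MemLp v 2 m) :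
    Integrable (fun x => ⟪u x, v x⟫_ℝ) m := by
  refine (L2.integrable_inner (𝕜 := ℝ) hu.toLp hv.toLp).congr ?_
  filter_upwards [hu.coeFn_toLp, hv.coeFn_toLp] with x a1 a2
  rw [a1, a2]

theorem eLpNorm_sq_eq {u : M → E} (hu : MemLp u 2 m) :
    (eLpNorm u 2 m).toReal ^ 2 = ∫ x, ‖u x‖ ^ 2 ∂m := by
  rw [← Lp.norm_toLp u hu, ← real_inner_self_eq_norm_sq, L2.inner_def]
  refine integral_congr_ae ?_
  filter_upwards [hu.coeFn_toLp] with x a1
  rw [a1, real_inner_self_eq_norm_sq]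

namespace IsGrad

variable (hG : IsGrad C Gr) (hC : IsGamma C)
include hG hC

theorem bdd {b : M →ₘ[m] ℝ} (hb : b ∈ C.Test) : MemLp (Gr b) ∞ m := by
  obtain ⟨K, hK⟩ := mem_top_iff.1 (hC.test_Γ_top hb)
  refine memLp_top_of_bound (hG.mem b (hC.tW hb)).1 (Real.sqrt |K|) ?_
  filter_upwards [hG.inner b (hC.tW hb) b (hC.tW hb), hK] with x a2 a3
  rw [← Real.sqrt_sq (norm_nonneg (Gr b x)), ← real_inner_self_eq_norm_sq, a2]
  exact Real.sqrt_le_sqrt ((le_abs_self _).trans (a3.trans (le_abs_self _)))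

theorem fvec_mem {Z : List ((M →ₘ[m] ℝ) × (M →ₘ[m] ℝ))} (hZ : C.IsTestV Z) :
    MemLp (fvec Gr Z) 2 m := by
  induction Z with
  | nil => rw [fvec_nil]; exact MemLp.zero
  | cons p Z ih =>
    have h1 := hG.smul_mem2 (hC.test_A (hZ p (by simp)).1).2 (hC.tW (hZ p (by simp)).2)
    have h2 := ih fun q hq => hZ q (by simp [hq])
    refine (h1.add h2).ae_eq ?_
    filter_upwards with x
    rw [fvec_cons]; rfl

omit hG in
theorem fvec_smul {κ : ℝ} (hB : C.BEi κ) (t : ℝ) {Z : List ((M →ₘ[m] ℝ) × (M →ₘ[m] ℝ))}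
    (hZ : C.IsTestV Z) :
    ∃ Z', C.IsTestV Z' ∧ ∀ᵐ x ∂m, fvec Gr Z' x = t • fvec Gr Z x := by
  refine ⟨Z.map fun p => (t • p.1, p.2), ?_, ?_⟩
  · intro q hq
    rw [List.mem_map] at hq
    obtain ⟨p, hp, rfl⟩ := hq
    exact ⟨hC.test_smul hB _ (hZ p hp).1, (hZ p hp).2⟩
  · have h : ∀ᵐ x ∂m, ∀ p ∈ Z, (t • p.1 : M →ₘ[m] ℝ) x = t * p.1 x := by
      induction Z with
      | nil => simp
      | cons p Z ih =>
        filter_upwards [ih (fun q hq => hZ q (by simp [hq])), smul_ae p.1 t] with x a1 a2 q hq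
        rcases List.mem_cons.1 hq with h | h
        · rw [h, a2]
        · exact a1 q h
    filter_upwards [h] with x hx
    unfold fvec
    rw [List.map_map, List.smul_sum, List.map_map]
    congr 1
    refine List.map_congr_left fun p hp => ?_
    simp only [Function.comp]
    rw [hx p hp, smul_smul]

end IsGrad

namespace InClo

variable {u v w : M → E}

theorem add (hG : IsGrad C Gr) (hC : IsGamma C) (hu : InClo C Gr u) (hv : InClo C Gr v) :
    InClo C Gr (fun x => u x + v x) := by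
  refine ⟨hu.1.add hv.1, fun ε hε => ?_⟩
  have hε2 : ε / 2 ≠ 0 := by
    intro h; rw [ENNReal.div_eq_zero_iff] at h; rcases h with h | h
    · exact hε.ne' h
    · exact absurd h (by simp)
  obtain ⟨Z1, h1, h2⟩ := hu.2 (ε / 2) (pos_iff_ne_zero.2 hε2)
  obtain ⟨Z2, h3, h4⟩ := hv.2 (ε / 2) (pos_iff_ne_zero.2 hε2)
  refine ⟨Z1 ++ Z2, fun p hp => ?_, ?_⟩
  · rcases List.mem_append.1 hp with h | h
    · exact h1 p h
    · exact h3 p h
  · have e : (fun x => u x + v x - fvec Gr (Z1 ++ Z2) x)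
        = (fun x => u x - fvec Gr Z1 x) + fun x => v x - fvec Gr Z2 x := by
      funext x
      simp only [Pi.add_apply]
      rw [IsGrad.fvec_append]
      abel
    rw [e]
    refine lt_of_le_of_lt (eLpNorm_add_le ((hu.1.sub (hG.fvec_mem hC h1)).1)
      ((hv.1.sub (hG.fvec_mem hC h3)).1) (by norm_num)) ?_
    calc _ < ε / 2 + ε / 2 := ENNReal.add_lt_add h2 h4
      _ = ε := ENNReal.add_halves ε

theorem congr (hu : InClo C Gr u) (h : ∀ᵐ x ∂m, u x = v x) : InClo C Gr v := by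
  refine ⟨hu.1.ae_eq h, fun ε hε => ?_⟩
  obtain ⟨Z1, h1, h2⟩ := hu.2 ε hε
  refine ⟨Z1, h1, lt_of_eq_of_lt (eLpNorm_congr_ae ?_) h2⟩
  filter_upwards [h] with x hx
  rw [hx]

theorem smul {κ : ℝ} (hB : C.BEi κ) (hG : IsGrad C Gr) (hC : IsGamma C) (t : ℝ)
    (hu : InClo C Gr u) : InClo C Gr (fun x => t • u x) := by
  refine ⟨hu.1.const_smul t, fun ε hε => ?_⟩
  have hc : (ENNReal.ofReal (|t| + 1)) ≠ 0 := by
    simp only [ne_eq, ENNReal.ofReal_eq_zero, not_le]; positivity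
  have hε2 : ε / ENNReal.ofReal (|t| + 1) ≠ 0 := by
    intro h; rw [ENNReal.div_eq_zero_iff] at h; rcases h with h | h
    · exact hε.ne' h
    · exact ENNReal.ofReal_ne_top h
  obtain ⟨Z1, h1, h2⟩ := hu.2 _ (pos_iff_ne_zero.2 hε2)
  obtain ⟨Z', h3, h4⟩ := IsGrad.fvec_smul (Gr := Gr) hC hB t h1
  refine ⟨Z', h3, ?_⟩
  have e : eLpNorm (fun x => t • u x - fvec Gr Z' x) 2 m
      = eLpNorm (t • fun x => u x - fvec Gr Z1 x) 2 m := by
    refine eLpNorm_congr_ae ?_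
    filter_upwards [h4] with x hx
    rw [hx, Pi.smul_apply, smul_sub]
  rw [e, eLpNorm_const_smul]
  have h5 : ‖t‖ₑ ≤ ENNReal.ofReal (|t| + 1) := by
    rw [← ofReal_norm]
    exact ENNReal.ofReal_le_ofReal (by rw [Real.norm_eq_abs]; linarith)
  calc ‖t‖ₑ * eLpNorm (fun x => u x - fvec Gr Z1 x) 2 m
      ≤ ENNReal.ofReal (|t| + 1) * eLpNorm (fun x => u x - fvec Gr Z1 x) 2 m := by gcongr
    _ < ENNReal.ofReal (|t| + 1) * (ε / ENNReal.ofReal (|t| + 1)) :=
        ENNReal.mul_lt_mul_right hc ENNReal.ofReal_ne_top h2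
    _ = ε := ENNReal.mul_div_cancel hc ENNReal.ofReal_ne_top

/-- an element of the closure that is orthogonal to all gradients vanishes -/
theorem eq_zero (hG : IsGrad C Gr) (hC : IsGamma C) (hw : InClo C Gr w)
    (h : ∀ c ∈ C.Test, ∀ᵐ x ∂m, ⟪w x, Gr c x⟫_ℝ = 0) : ∀ᵐ x ∂m, w x = 0 := by
  have hf : ∀ Z, C.IsTestV Z → ∀ᵐ x ∂m, ⟪w x, fvec Gr Z x⟫_ℝ = 0 := by
    intro Z hZ
    induction Z with
    | nil =>
      filter_upwards with x
      rw [IsGrad.fvec_nil]; simp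
    | cons p Z ih =>
      filter_upwards [ih fun q hq => hZ q (by simp [hq]), h p.2 (hZ p (by simp)).2] with x a1 a2
      rw [IsGrad.fvec_cons, inner_add_right, a1, real_inner_smul_right, a2]; simp
  have h0 : ∫ x, ‖w x‖ ^ 2 ∂m = 0 := by
    have key : ∀ ε : ℝ, 0 < ε → |∫ x, ‖w x‖ ^ 2 ∂m| ≤ (eLpNorm w 2 m).toReal * ε := by
      intro ε hε
      obtain ⟨Z, hZ, hZε⟩ := hw.2 (ENNReal.ofReal ε) (by simpa using hε)
      have hd : MemLp (fun x => w x - fvec Gr Z x) 2 m := hw.1.sub (hG.fvec_mem hC hZ)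
      have e1 : ∫ x, ‖w x‖ ^ 2 ∂m = ∫ x, ⟪w x, w x - fvec Gr Z x⟫_ℝ ∂m := by
        refine integral_congr_ae ?_
        filter_upwards [hf Z hZ] with x hx
        rw [inner_sub_right, hx, real_inner_self_eq_norm_sq, sub_zero]
      rw [e1]
      refine (abs_int_inner_le hw.1 hd).trans ?_
      refine mul_le_mul_of_nonneg_left ?_ ENNReal.toReal_nonneg
      exact (ENNReal.toReal_le_of_le_ofReal hε.le hZε.le)
    have h1 : |∫ x, ‖w x‖ ^ 2 ∂m| ≤ 0 := by
      refine le_of_forall_pos_le_add fun ε hε => ?_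
      refine (key (ε / ((eLpNorm w 2 m).toReal + 1)) (by positivity)).trans ?_
      rw [zero_add, mul_div_assoc', div_le_iff₀ (by positivity)]
      nlinarith [ENNReal.toReal_nonneg (a := eLpNorm w 2 m)]
    exact abs_eq_zero.1 (le_antisymm h1 (abs_nonneg _))
  have h2 := (integral_eq_zero_iff_of_nonneg (fun x => sq_nonneg ‖w x‖)
    (hw.1.integrable_norm_pow two_ne_zero)).1 h0
  filter_upwards [h2] with x hx
  simpa using hx

end InClo

end Vale.Agent.P233
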