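import Vale.Agent.P233.AB.UU2

open MeasureTheory Filter Topology
open scoped ENNReal NNReal InnerProductSpace

namespace Vale.Agent.P233

variable {M : Type*} [MeasurableSpace M] {m : Measure M} {C : Calc m}
variable {E : Type*} [NormedAddCommGroup E] [InnerProductSpace ℝ E] {Gr : (M →ₘ[m] ℝ) → M → E}
variable {U : (M →ₘ[m] ℝ) → (M →ₘ[m] ℝ) → M → E}
variable (hC : IsGamma C) {κ : ℝ} (hB : C.BEi κ) (hG : IsGrad C Gr) (hU : IsHU C Gr U)
variable {f g h φ ψ a b c d a' b' : M →ₘ[m] ℝ}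

theorem smul_memE {s : M →ₘ[m] ℝ} (hs : MemLp s ∞ m) {u : M → E} (hu : MemLp u 2 m) :
    MemLp (fun x => s x • u x) 2 m := by
  have := hu.smul (p := ∞) (r := 2) hs
  exact this

theorem smul_memE' {s : M →ₘ[m] ℝ} (hs : MemLp s 2 m) {u : M → E} (hu : MemLp u ∞ m) :
    MemLp (fun x => s x • u x) 2 m := by
  have := hu.smul (p := 2) (r := 2) hs
  exact this

include hC hB hG in
/-- a continuous functional on gradients that vanishes on test functions vanishes -/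
theorem dens_grad [SigmaFinite m] {w : M → E} (hw : MemLp w 2 m)
    (h0 : ∀ g ∈ C.Test, ∫ x, ⟪w x, Gr g x⟫_ℝ ∂m = 0) (hh : h ∈ C.W) :
    ∫ x, ⟪w x, Gr h x⟫_ℝ ∂m = 0 := by
  have key : ∀ ε : ℝ, 0 < ε → |∫ x, ⟪w x, Gr h x⟫_ℝ ∂m| ≤ (eLpNorm w 2 m).toReal * ε := by
    intro ε hε
    obtain ⟨g, hg, hgh⟩ := hC.test_dense hB hh (ε := ε ^ 2) (by positivity)
    have gW := hC.tW hg
    have hd := hG.mem _ (hC.sub_mem gW hh)
    have e1 : ∫ x, ⟪w x, Gr h x⟫_ℝ ∂m = -∫ x, ⟪w x, Gr (g - h) x⟫_ℝ ∂m := by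
      have e2 : ∫ x, ⟪w x, Gr (g - h) x⟫_ℝ ∂m
          = ∫ x, (⟪w x, Gr g x⟫_ℝ - ⟪w x, Gr h x⟫_ℝ) ∂m := by
        refine integral_congr_ae ?_
        filter_upwards [hG.sub hC.toIsDir gW hh] with x hx
        rw [hx, inner_sub_right]
      rw [e2, integral_sub (int_inner_integrable hw (hG.mem g gW))
        (int_inner_integrable hw (hG.mem h hh)), h0 g hg]
      ring
    rw [e1, abs_neg]
    refine (abs_int_inner_le hw hd).trans ?_
    refine mul_le_mul_of_nonneg_left ?_ ENNReal.toReal_nonneg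
    have h3 : (eLpNorm (Gr (g - h)) 2 m).toReal ^ 2 ≤ ε ^ 2 := by
      rw [eLpNorm_sq_eq hd, hG.int_norm_sq (hC.sub_mem gW hh)]
      exact ((hC.E_le_nrm2 (g - h)).trans hgh.le)
    exact le_of_sq_le_sq h3 hε.le
  have h1 : |∫ x, ⟪w x, Gr h x⟫_ℝ ∂m| ≤ 0 := by
    refine le_of_forall_pos_le_add fun ε hε => ?_
    refine (key (ε / ((eLpNorm w 2 m).toReal + 1)) (by positivity)).trans ?_
    rw [zero_add, mul_div_assoc', div_le_iff₀ (by positivity)]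
    nlinarith [ENNReal.toReal_nonneg (a := eLpNorm w 2 m)]
  exact abs_eq_zero.1 (le_antisymm h1 (abs_nonneg _))

include hU hC hB hG in
/-- the functional `HW` is `∫ φ ⟨∇_a b, ∇h⟩` -/
theorem HW_eq_ip [SigmaFinite m] (hb : b ∈ C.Test) (ha : a ∈ C.Test) (hφ : φ ∈ C.A)
    (hh : h ∈ C.W) : C.HW b a h φ = I (φ * ipE m (U b a) (Gr h)) := by
  have bW := hC.tW hb
  have aW := hC.tW ha
  have hba := (hC.Γ_mem hB hb ha).1
  have hDa := hC.mem_De hφ ha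
  have hDb := hC.mem_De hφ hb
  -- the field
  set w : M → E := fun x => (2 : ℝ)⁻¹ • (-(C.De φ a x • Gr b x) + φ x • Gr (C.Γ b a) x
    + C.De φ b x • Gr a x) - φ x • U b a x with hw
  have w1 : MemLp (fun x => C.De φ a x • Gr b x) 2 m := smul_memE' hDa (hG.bdd hC hb)
  have w2 : MemLp (fun x => φ x • Gr (C.Γ b a) x) 2 m := smul_memE hφ.2 (hG.mem _ hba)
  have w3 : MemLp (fun x => C.De φ b x • Gr a x) 2 m := smul_memE' hDb (hG.bdd hC ha)
  have w4 : MemLp (fun x => φ x • U b a x) 2 m := smul_memE hφ.2 (hU.mem b hb a ha)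
  have hwm : MemLp w 2 m := (((w1.neg.add w2).add w3).const_smul (2 : ℝ)⁻¹).sub w4
  have key : ∀ g ∈ C.W, ∫ x, ⟪w x, Gr g x⟫_ℝ ∂m = C.HW b a g φ - I (φ * ipE m (U b a) (Gr g)) := by
    intro g hg
    have i1 := int_inner_integrable w1 (hG.mem g hg)
    have i2 := int_inner_integrable w2 (hG.mem g hg)
    have i3 := int_inner_integrable w3 (hG.mem g hg)
    have i4 := int_inner_integrable w4 (hG.mem g hg)
    have e : ∀ x, ⟪w x, Gr g x⟫_ℝ = (2 : ℝ)⁻¹ * (-⟪C.De φ a x • Gr b x, Gr g x⟫_ℝ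
        + ⟪φ x • Gr (C.Γ b a) x, Gr g x⟫_ℝ + ⟪C.De φ b x • Gr a x, Gr g x⟫_ℝ)
        - ⟪φ x • U b a x, Gr g x⟫_ℝ := by
      intro x
      rw [hw]
      simp only [inner_sub_left, real_inner_smul_left, inner_add_left, inner_neg_left]
    have k1 : Integrable (fun x => -⟪C.De φ a x • Gr b x, Gr g x⟫_ℝ) m := i1.neg
    have k12 : Integrable (fun x => -⟪C.De φ a x • Gr b x, Gr g x⟫_ℝ
        + ⟪φ x • Gr (C.Γ b a) x, Gr g x⟫_ℝ) m := k1.add i2
    have k123 : Integrable (fun x => -⟪C.De φ a x • Gr b x, Gr g x⟫_ℝ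
        + ⟪φ x • Gr (C.Γ b a) x, Gr g x⟫_ℝ + ⟪C.De φ b x • Gr a x, Gr g x⟫_ℝ) m := k12.add i3
    have k5 := k123.const_mul (2 : ℝ)⁻¹
    simp only [e]
    rw [integral_sub k5 i4, integral_const_mul, integral_add k12 i3, integral_add k1 i2,
      integral_neg]
    have j1 : ∫ x, ⟪C.De φ a x • Gr b x, Gr g x⟫_ℝ ∂m = I (C.Γ b g * C.De φ a) := by
      refine integral_congr_ae ?_
      filter_upwards [hG.inner b bW g hg, mul_ae (C.Γ b g) (C.De φ a)] with x a1 a2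
      rw [real_inner_smul_left, a1, a2, mul_comm]
    have j2 : ∫ x, ⟪φ x • Gr (C.Γ b a) x, Gr g x⟫_ℝ ∂m = I (φ * C.Γ g (C.Γ b a)) := by
      refine integral_congr_ae ?_
      filter_upwards [hG.inner _ hba g hg, mul_ae φ (C.Γ g (C.Γ b a)),
        eq_iff_ae.1 (hC.symm _ hg _ hba)] with x a1 a2 a3
      rw [real_inner_smul_left, a1, a2, a3]
    have j3 : ∫ x, ⟪C.De φ b x • Gr a x, Gr g x⟫_ℝ ∂m = I (C.Γ a g * C.De φ b) := by
      refine integral_congr_ae ?_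
      filter_upwards [hG.inner a aW g hg, mul_ae (C.Γ a g) (C.De φ b)] with x a1 a2
      rw [real_inner_smul_left, a1, a2, mul_comm]
    have j4 : ∫ x, ⟪φ x • U b a x, Gr g x⟫_ℝ ∂m = I (φ * ipE m (U b a) (Gr g)) := by
      refine integral_congr_ae ?_
      filter_upwards [ipE_ae (hU.mem b hb a ha).1 (hG.mem g hg).1,
        mul_ae φ (ipE m (U b a) (Gr g))] with x a1 a2
      rw [real_inner_smul_left, a2, a1]
    rw [j1, j2, j3, j4]
    unfold Calc.HW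
    ring
  have h0 : ∀ g ∈ C.Test, ∫ x, ⟪w x, Gr g x⟫_ℝ ∂m = 0 := by
    intro g hg
    rw [key g (hC.tW hg)]
    have gA := hC.test_A hg
    have e1 : I (φ * ipE m (U b a) (Gr g)) = I (φ * C.hess b a g) := by
      congr 2
      rw [eq_iff_ae]
      filter_upwards [ipE_ae (hU.mem b hb a ha).1 (hG.mem g gA.1).1, hU.inner b hb a ha g hg]
        with x a1 a2
      rw [a1, a2]
    have hbg := hC.Γ_mem hB hb hg
    have hag := hC.Γ_mem hB ha hg
    have s1 := hC.ibp' ha hφ hbg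
    have s2 := hC.ibp' hb hφ hag
    have m1 := hC.ibp_mem ha hφ hbg
    have m2 := hC.ibp_mem hb hφ hag
    have m3 : MemLp (φ * C.hess b a g : M →ₘ[m] ℝ) 1 m :=
      mem_mul_22 (hC.memLp _ hφ.1) (hC.hess_mem2 hB hb ha hg)
    have n1 : MemLp (C.Γ b g * C.De φ a : M →ₘ[m] ℝ) 1 m := mem_mul_22 (hC.memLp _ hbg.1) hDa
    have n2 : MemLp (φ * C.Γ g (C.Γ b a) : M →ₘ[m] ℝ) 1 m :=
      mem_mul_22 (hC.memLp _ hφ.1) (hC.Γ_mem2 gA.1 (hC.test_Γ_top hg) hba)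
    have n3 : MemLp (C.Γ a g * C.De φ b : M →ₘ[m] ℝ) 1 m := mem_mul_22 (hC.memLp _ hag.1) hDb
    have e2 : (2 : ℝ) • (φ * C.hess b a g) = (φ * C.Γ g (C.Γ b a)) - C.Γ b g * C.De φ a
        + C.Γ a g * C.De φ b + (φ * C.Γ a (C.Γ b g) + C.Γ b g * C.Γ a φ
          + φ * C.Γ b g * C.lap a) - (φ * C.Γ b (C.Γ a g) + C.Γ a g * C.Γ b φ
          + φ * C.Γ a g * C.lap b) := by
      unfold Calc.hess Calc.De
      rw [hC.symm _ aW _ hφ.1, hC.symm _ bW _ hφ.1]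
      algebra
    have e3 := congrArg I e2
    rw [I_smul, I_sub (mem_add (mem_add (mem_sub n2 n1) n3) m1) m2,
      I_add (mem_add (mem_sub n2 n1) n3) m1, I_add (mem_sub n2 n1) n3, I_sub n2 n1, s1, s2] at e3
    rw [e1]
    unfold Calc.HW
    linarith
  have h1 := dens_grad hC hB hG hwm h0 hh
  rw [key h hh] at h1
  linarith

include hU hC hB hG in
/-- `R(∇a,∇b,∇b,∇a)(φ) + 3 ∫ φ |∇_a b|² = S0 a b φ` -/
theorem S0_eq_rr [SigmaFinite m] (hb : b ∈ C.Test) (ha : a ∈ C.Test) (hφ : φ ∈ C.A) :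
    C.S0 a b φ = I (C.rrI (UUof m U) a b b a φ) + 3 * I (φ * UUof m U b a b a) := by
  have hab := (hC.Γ_mem hB ha hb).1
  have hUU := hU.isUU hC hB hG
  have hm : ∀ {b a : M →ₘ[m] ℝ}, b ∈ C.Test → a ∈ C.Test → AEStronglyMeasurable (U b a) m :=
    fun hb ha => (hU.mem _ hb _ ha).1
  unfold Calc.S0
  rw [HW_eq_ip hC hB hG hU hb ha hφ hab]
  have e1 : φ * C.Γ (C.Γ a a) (C.Γ b b) = (4 : ℝ) • (φ * UUof m U a a b b) := by
    rw [eq_iff_ae]
    have haa := (hC.Γ_mem hB ha ha).1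
    have hbb := (hC.Γ_mem hB hb hb).1
    filter_upwards [mul_ae φ (C.Γ (C.Γ a a) (C.Γ b b)), hG.inner _ haa _ hbb,
      hU.sym hC hB hG ha ha, hU.sym hC hB hG hb hb, smul_ae (φ * UUof m U a a b b) (4 : ℝ),
      mul_ae φ (UUof m U a a b b), ipE_ae (hm ha ha) (hm hb hb)] with x a1 a2 a3 a4 a5 a6 a7
    rw [a1, ← a2, ← a3, ← a4, a5, a6]
    unfold UUof
    rw [a7, ← two_smul ℝ (U a a x), ← two_smul ℝ (U b b x), real_inner_smul_left,
      real_inner_smul_right]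
    ring
  have e2 : φ * ipE m (U b a) (Gr (C.Γ a b)) = φ * (UUof m U a b b a + UUof m U b a b a) := by
    rw [eq_iff_ae]
    filter_upwards [mul_ae φ (ipE m (U b a) (Gr (C.Γ a b))),
      ipE_ae (hm hb ha) (hG.mem _ hab).1, hU.sym hC hB hG ha hb,
      mul_ae φ (UUof m U a b b a + UUof m U b a b a), add_ae (UUof m U a b b a) (UUof m U b a b a),
      ipE_ae (hm ha hb) (hm hb ha), ipE_ae (hm hb ha) (hm hb ha)] with x a1 a2 a3 a4 a5 a6 a7
    rw [a1, a2, ← a3, a4, a5]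
    unfold UUof
    rw [a6, a7, inner_add_right, real_inner_comm (U a b x) (U b a x)]
  have mm : ∀ {p q r s : M →ₘ[m] ℝ}, p ∈ C.Test → q ∈ C.Test → r ∈ C.Test → s ∈ C.Test →
      MemLp (φ * UUof m U p q r s : M →ₘ[m] ℝ) 1 m := fun hp hq hr hs =>
    mem_mul_top hφ.2 (hUU.mem _ hp _ hq _ hr _ hs)
  have e3 : C.rrI (UUof m U) a b b a φ = -(C.De φ a * C.hess b b a) + C.De φ b * C.hess b a a
      + (-(φ * UUof m U a a b b) + (2 : ℝ) • (φ * UUof m U a b b a)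
        - φ * UUof m U b a b a) := by
    unfold Calc.rrI
    algebra
  have n1 : MemLp (C.De φ a * C.hess b b a : M →ₘ[m] ℝ) 1 m :=
    mem_mul_22 (hC.mem_De hφ ha) (hC.hess_mem2 hB hb hb ha)
  have n2 : MemLp (C.De φ b * C.hess b a a : M →ₘ[m] ℝ) 1 m :=
    mem_mul_22 (hC.mem_De hφ hb) (hC.hess_mem2 hB hb ha ha)
  have k1 := mm ha ha hb hb
  have k2 := mm ha hb hb ha
  have k3 := mm hb ha hb ha
  rw [e3, e1, e2, I_smul, mul_add, I_add k2 k3, I_add (mem_add (mem_neg n1) n2)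
    (mem_sub (mem_add (mem_neg k1) (mem_smul _ k2)) k3), I_add (mem_neg n1) n2,
    I_sub (mem_add (mem_neg k1) (mem_smul _ k2)) k3, I_add (mem_neg k1) (mem_smul _ k2),
    I_neg, I_neg, I_smul, hC.hess_symm hB hb hb ha]
  ring

end Vale.Agent.P233
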